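import Crest.Agent.R97.Bas_A
import Crest.Agent.R97.Bas_G
import Crest.Agent.R97.Bas_I
import Crest.Agent.R97.Bas_L
import Crest.Agent.R97.Bas_S

/-! Bas: calculus of Lipschitz functions, invariances of `Mn` (split into `Bas_A,G,I,L,S`). -/
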