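import Crest.Agent.R97.BzWW1D

set_option autoImplicit false
set_option maxRecDepth 100000
set_option Elab.async false
set_option linter.all false

namespace Crest.Agent.R97.BzWW1

open Crest.Agent.Bern

theorem c0 : Good 64 44 [8, 3, 3, 6, 2] 4 (sub 64 [8, 3, 3, 6, 2] 4 R []) :=
  good_of_go (wb := 17) (by decide) (by decide) (by decide) 26 _
    0x140000000ff00000006c004800fff100000000000000001f000000000001e000ef000000000001c000ff000000000001e000ef3400000000000000001f00000000000000001f000000000001e0009f00000000000000001f000000000001e0007f3400000000000000001f000000000001e000af000000000001e000af4341000000000000a000ff2000000000000c000ff23400000000000000001f00000000000006000ff200000000000000001f23000000000000a000ff000000000001e000cf000000000001c000ff00000000000020000f3000000000001e000ef10000000000012000ff00000000000000001f1000000000001e000cf000000000001e000cf1000000000001e000cf13000000000001c000ff240000000000014000ff2400000000000000001f000000000001e000af000000000001e000bf100000000000000001f000000000001e000af300000000000000001f000000000001e000af000000000001e000af131400000000000000001f000000000001e0008f300000000000000001f400000000000000001f2000500000001a000ff000000000000000001f000000000000000001f000000000001e0008f000000000001e0009f1000000000001e0009f000000000001e0009f143000000000001e0008f4000000000001c000ff2000000000001c000ff2000000000000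00001f21400000000000000001f000000000000000001f0000000000000e000ff200000000000020000f00000000000020000f000000000001e0004f000000000001e0005f00000000000020000f34000000000001e0004f000000000001e0004f1000000000001e0006f00000000000020000f3000000000001e0005f100000000000020000f341443000000000001e000bf00000000000020000f30000000000018000ff00000000000020000f000000000001e0005f434100000000000000001f000000000001e0007f000000000001e0006f3000000000001e0008f400000000000000001f0000000000001e000ff2000000000001e000ff2000000000001e0007f000000000001e0003f000000000001e0004f43000000000001e0008f000000000001e0008f14000000000001c000ff2100000000000000001f000000000000020000f000000000001e0004f00000000000020000f0000000001ffe0246f4143000000000001e000bf2300000000000000001f00000000000000001f000000000001e0006f000000000001e0005f3000000000001e0007f4000000000001e0005f000000000001e0005f1000000000001e0001f3000000000001e0007f4100000000000000001f03000000000001e000bf230000000000014000ff2400000000000000001f000000000000000001f000000000001e0008f000000000001e0008f400000000000020000f000000000001e0004f43300000000000000001f00000000000000001f000000000001e0007f000000000001e0008f43340000000000014000ff210000000000018000ff24000000000000c000ff23000000000000c000ff240000000000008000ff2300000000000000001f000000000000a000ff000000000000a000ff000000000000a000ff222000000000000a000ff0000000000004000ff4000000000000a000ff000000000000c000ff223100000000000000001f013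 (by decide +kernel)

end Crest.Agent.R97.BzWW1
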