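import Crest.Agent.R97.PB
import Crest.Agent.R97.SideW1
import Crest.Agent.R97.CertP7

/-! PBH (helper96): the statement `PB.Q` on the box gives the matrix condition for `W1`. -/

set_option autoImplicit false
set_option linter.unusedSimpArgs false
set_option linter.unusedVariables false
set_option maxRecDepth 100000

namespace Crest.Agent.R97.PB
variable (s t q u th : ℝ)

theorem h_F : f_F s t q u th = 78125 / 131072 * W1.tab.F.h s (f_z s t q u th) (f_p s t q u th) (f_tht s t q u th) := by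
  simp only [f_F, f_TF_000, f_r, f_s2, f_XF_310, f_TF_310, f_s3, IT.tab, Tab.pm1, Tab.pm2, Tab.pm3, Tab.pc1, Tab.pc2, Tab.pc0, Tab.pg1, Tab.pg2, Tab.pg3, Tab.G0, Tb.v, Tb.vo, Tb.vt, Tb.vz, Tb.vp, Tb.h, Tb.hz, Tb.hp, Tb.g, Tb.go, Tb.gr, Tb.gz, Tb.gp, Tb.gt, Tb.gh, Tb.ghz, Tb.ghp, pe_app, pr_app, pz_app, pp_app, pt_app, pe_mon, pr_mon, pz_mon, pp_mon, pt_mon, pe, pr, pz, pp, pt]
  generalize f_z s t q u th = z
  generalize f_p s t q u th = p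
  generalize f_tht s t q u th = θ
  simp only [W1, pv, dR, dZ, dP]
  push_cast
  ring

theorem h_K : f_K s t q u th = 78125 / 131072 * W1.tab.K.v s (f_z s t q u th) (f_p s t q u th) (f_tht s t q u th) := by
  simp only [f_K, f_TK_000, f_r, f_s2, f_XK_310, f_TK_310, f_s3, IT.tab, Tab.pm1, Tab.pm2, Tab.pm3, Tab.pc1, Tab.pc2, Tab.pc0, Tab.pg1, Tab.pg2, Tab.pg3, Tab.G0, Tb.v, Tb.vo, Tb.vt, Tb.vz, Tb.vp, Tb.h, Tb.hz, Tb.hp, Tb.g, Tb.go, Tb.gr, Tb.gz, Tb.gp, Tb.gt, Tb.gh, Tb.ghz, Tb.ghp, pe_app, pr_app, pz_app, pp_app, pt_app, pe_mon, pr_mon, pz_mon, pp_mon, pt_mon, pe, pr, pz, pp, pt]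
  generalize f_z s t q u th = z
  generalize f_p s t q u th = p
  generalize f_tht s t q u th = θ
  simp only [W1, pv, dR, dZ, dP]
  push_cast
  ring

theorem h_D : f_D s t q u th = 78125 / 131072 * (s * W1.tab.D.v s (f_z s t q u th) (f_p s t q u th) (f_tht s t q u th)) := by
  simp only [f_D, f_XD_000, f_TD_000, f_r, f_s2, f_XD_310, f_TD_310, f_s4, IT.tab, Tab.pm1, Tab.pm2, Tab.pm3, Tab.pc1, Tab.pc2, Tab.pc0, Tab.pg1, Tab.pg2, Tab.pg3, Tab.G0, Tb.v, Tb.vo, Tb.vt, Tb.vz, Tb.vp, Tb.h, Tb.hz, Tb.hp, Tb.g, Tb.go, Tb.gr, Tb.gz, Tb.gp, Tb.gt, Tb.gh, Tb.ghz, Tb.ghp, pe_app, pr_app, pz_app, pp_app, pt_app, pe_mon, pr_mon, pz_mon, pp_mon, pt_mon, pe, pr, pz, pp, pt]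
  generalize f_z s t q u th = z
  generalize f_p s t q u th = p
  generalize f_tht s t q u th = θ
  simp only [W1, pv, dR, dZ, dP]
  push_cast
  ring

theorem h_g1 : f_g1 s t q u th = 78125 / 131072 * W1.tab.pg1 s (f_z s t q u th) (f_p s t q u th) (f_tht s t q u th) := by
  simp only [f_g1, f_Tg1_000, f_r, f_s2, f_Xg1_310, f_Tg1_310, f_s3, IT.tab, Tab.pm1, Tab.pm2, Tab.pm3, Tab.pc1, Tab.pc2, Tab.pc0, Tab.pg1, Tab.pg2, Tab.pg3, Tab.G0, Tb.v, Tb.vo, Tb.vt, Tb.vz, Tb.vp, Tb.h, Tb.hz, Tb.hp, Tb.g, Tb.go, Tb.gr, Tb.gz, Tb.gp, Tb.gt, Tb.gh, Tb.ghz, Tb.ghp, pe_app, pr_app, pz_app, pp_app, pt_app, pe_mon, pr_mon, pz_mon, pp_mon, pt_mon, pe, pr, pz, pp, pt]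
  generalize f_z s t q u th = z
  generalize f_p s t q u th = p
  generalize f_tht s t q u th = θ
  simp only [W1, pv, dR, dZ, dP]
  push_cast
  ring

theorem h_g2 : f_g2 s t q u th = 78125 / 131072 * W1.tab.pg2 s (f_z s t q u th) (f_p s t q u th) (f_tht s t q u th) := by
  simp only [f_g2, f_Xg2_100, f_Tg2_100, f_r, f_s2, IT.tab, Tab.pm1, Tab.pm2, Tab.pm3, Tab.pc1, Tab.pc2, Tab.pc0, Tab.pg1, Tab.pg2, Tab.pg3, Tab.G0, Tb.v, Tb.vo, Tb.vt, Tb.vz, Tb.vp, Tb.h, Tb.hz, Tb.hp, Tb.g, Tb.go, Tb.gr, Tb.gz, Tb.gp, Tb.gt, Tb.gh, Tb.ghz, Tb.ghp, pe_app, pr_app, pz_app, pp_app, pt_app, pe_mon, pr_mon, pz_mon, pp_mon, pt_mon, pe, pr, pz, pp, pt]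
  generalize f_z s t q u th = z
  generalize f_p s t q u th = p
  generalize f_tht s t q u th = θ
  simp only [W1, pv, dR, dZ, dP]
  push_cast
  ring

theorem h_m1 : f_m1 s t q u th = 78125 / 131072 * W1.tab.pm1 s (f_z s t q u th) (f_p s t q u th) (f_tht s t q u th) := by
  simp only [f_m1, f_Xm1_200, f_Tm1_200, f_r, f_s2, f_Xm1_510, f_Tm1_510, f_s5, f_s3, IT.tab, Tab.pm1, Tab.pm2, Tab.pm3, Tab.pc1, Tab.pc2, Tab.pc0, Tab.pg1, Tab.pg2, Tab.pg3, Tab.G0, Tb.v, Tb.vo, Tb.vt, Tb.vz, Tb.vp, Tb.h, Tb.hz, Tb.hp, Tb.g, Tb.go, Tb.gr, Tb.gz, Tb.gp, Tb.gt, Tb.gh, Tb.ghz, Tb.ghp, pe_app, pr_app, pz_app, pp_app, pt_app, pe_mon, pr_mon, pz_mon, pp_mon, pt_mon, pe, pr, pz, pp, pt]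
  generalize f_z s t q u th = z
  generalize f_p s t q u th = p
  generalize f_tht s t q u th = θ
  simp only [W1, pv, dR, dZ, dP]
  push_cast
  ring

theorem h_m2 : f_m2 s t q u th = 78125 / 131072 * W1.tab.pm2 s (f_z s t q u th) (f_p s t q u th) (f_tht s t q u th) := by
  simp only [f_m2, f_Xm2_300, f_Tm2_300, f_r, f_s2, f_s3, f_Xm2_610, f_Tm2_610, f_s6, IT.tab, Tab.pm1, Tab.pm2, Tab.pm3, Tab.pc1, Tab.pc2, Tab.pc0, Tab.pg1, Tab.pg2, Tab.pg3, Tab.G0, Tb.v, Tb.vo, Tb.vt, Tb.vz, Tb.vp, Tb.h, Tb.hz, Tb.hp, Tb.g, Tb.go, Tb.gr, Tb.gz, Tb.gp, Tb.gt, Tb.gh, Tb.ghz, Tb.ghp, pe_app, pr_app, pz_app, pp_app, pt_app, pe_mon, pr_mon, pz_mon, pp_mon, pt_mon, pe, pr, pz, pp, pt]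
  generalize f_z s t q u th = z
  generalize f_p s t q u th = p
  generalize f_tht s t q u th = θ
  simp only [W1, pv, dR, dZ, dP]
  push_cast
  ring

theorem h_m3 : f_m3 s t q u th = 78125 / 131072 * W1.tab.pm3 s (f_z s t q u th) (f_p s t q u th) (f_tht s t q u th) := by
  simp only [f_m3, f_Xm3_400, f_Tm3_400, f_r, f_s2, f_s4, IT.tab, Tab.pm1, Tab.pm2, Tab.pm3, Tab.pc1, Tab.pc2, Tab.pc0, Tab.pg1, Tab.pg2, Tab.pg3, Tab.G0, Tb.v, Tb.vo, Tb.vt, Tb.vz, Tb.vp, Tb.h, Tb.hz, Tb.hp, Tb.g, Tb.go, Tb.gr, Tb.gz, Tb.gp, Tb.gt, Tb.gh, Tb.ghz, Tb.ghp, pe_app, pr_app, pz_app, pp_app, pt_app, pe_mon, pr_mon, pz_mon, pp_mon, pt_mon, pe, pr, pz, pp, pt]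
  generalize f_z s t q u th = z
  generalize f_p s t q u th = p
  generalize f_tht s t q u th = θ
  simp only [W1, pv, dR, dZ, dP]
  push_cast
  ring

theorem h_c1 : f_c1 s t q u th = 78125 / 131072 * (f_P s t q u th * W1.tab.pc1 s (f_z s t q u th) (f_p s t q u th) (f_tht s t q u th) (f_l s t q u th)) := by
  simp only [f_c1, f_Xc1_000, f_Tc1_000, f_r, f_s2, f_Xc1_101, f_Tc1_101, f_Ps1, f_Xc1_202, f_Tc1_202, f_Ps2, f_l2, f_Xc1_310, f_Tc1_310, f_Ps3, f_s3, f_Xc1_411, f_Tc1_411, f_Ps4, f_s4, f_tl, f_Xc1_512, f_Tc1_512, f_Ps5, f_s5, f_tl2, IT.tab, Tab.pm1, Tab.pm2, Tab.pm3, Tab.pc1, Tab.pc2, Tab.pc0, Tab.pg1, Tab.pg2, Tab.pg3, Tab.G0, Tb.v, Tb.vo, Tb.vt, Tb.vz, Tb.vp, Tb.h, Tb.hz, Tb.hp, Tb.g, Tb.go, Tb.gr, Tb.gz, Tb.gp, Tb.gt, Tb.gh, Tb.ghz, Tb.ghp, pe_app, pr_app, pz_app, pp_app, pt_app, pe_mon, pr_mon, pz_mon, pp_mon, pt_mon,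 pe, pr, pz, pp, pt]
  generalize f_z s t q u th = z
  generalize f_p s t q u th = p
  generalize f_tht s t q u th = θ
  simp only [W1, pv, dR, dZ, dP]
  push_cast
  ring

theorem h_c2 : f_c2 s t q u th = 78125 / 131072 * (f_P s t q u th * W1.tab.pc2 s (f_z s t q u th) (f_p s t q u th) (f_tht s t q u th) (f_l s t q u th)) := by
  simp only [f_c2, f_Xc2_100, f_Tc2_100, f_r, f_s2, f_Ps1, f_Xc2_201, f_Tc2_201, f_Ps2, f_Xc2_302, f_Tc2_302, f_Ps3, f_s3, f_l2, f_Xc2_410, f_Tc2_410, f_Ps4, f_s4, f_Xc2_511, f_Tc2_511, f_Ps5, f_s5, f_tl, IT.tab, Tab.pm1, Tab.pm2, Tab.pm3, Tab.pc1, Tab.pc2, Tab.pc0, Tab.pg1, Tab.pg2, Tab.pg3, Tab.G0, Tb.v, Tb.vo, Tb.vt, Tb.vz, Tb.vp, Tb.h, Tb.hz, Tb.hp, Tb.g, Tb.go, Tb.gr, Tb.gz, Tb.gp, Tb.gt, Tb.gh, Tb.ghz, Tb.ghp, pe_app, pr_app, pz_app, pp_app, pt_app, pe_mon, pr_mon, pz_mon, pp_mon, pt_mon, pe, pr,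 pz, pp, pt]
  generalize f_z s t q u th = z
  generalize f_p s t q u th = p
  generalize f_tht s t q u th = θ
  simp only [W1, pv, dR, dZ, dP]
  push_cast
  ring

theorem h_E51 : f_E51 s t q u th = 78125 / 131072 * (f_P s t q u th * W1.tab.pg3 s (f_z s t q u th) (f_p s t q u th) (f_tht s t q u th) (f_l s t q u th)) := by
  simp only [f_E51, f_Xg3_000, f_Tg3_000, f_r, f_s2, f_Xg3_101, f_Tg3_101, f_Ps1, f_Xg3_310, f_Tg3_310, f_Ps3, f_s3, f_Xg3_411, f_Tg3_411, f_Ps4, f_s4, f_tl, IT.tab, Tab.pm1, Tab.pm2, Tab.pm3, Tab.pc1, Tab.pc2, Tab.pc0, Tab.pg1, Tab.pg2, Tab.pg3, Tab.G0, Tb.v, Tb.vo, Tb.vt, Tb.vz, Tb.vp, Tb.h, Tb.hz, Tb.hp, Tb.g, Tb.go, Tb.gr, Tb.gz, Tb.gp, Tb.gt, Tb.gh, Tb.ghz, Tb.ghp, pe_app, pr_app, pz_app, pp_app, pt_app, pe_mon, pr_mon, pz_mon, pp_mon, pt_mon, pe, pr, pz, pp, pt]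
  generalize f_z s t q u th = z
  generalize f_p s t q u th = p
  generalize f_tht s t q u th = θ
  simp only [W1, pv, dR, dZ, dP]
  push_cast
  ring

theorem h_E55 : f_E55 s t q u th = 78125 / 131072 * (W1.tab.G0 s (f_z s t q u th) (f_p s t q u th) (f_tht s t q u th) 5 + f_P s t q u th ^ 2 * W1.tab.pc0 s (f_z s t q u th) (f_p s t q u th) (f_tht s t q u th) (f_l s t q u th)) := by
  simp only [f_E55, f_TG_000, f_r, f_s2, f_Xc0_000, f_Tc0_000, f_PP, f_Z10, f_XG_110, f_TG_110, f_XG_310, f_TG_310, f_s3, f_Xc0_110, f_Tc0_110, f_PPs1, f_XG_420, f_TG_420, f_s4, f_th2, f_Xc0_002, f_Tc0_002, f_l2, f_Xc0_101, f_Tc0_101, f_Xc0_103, f_Tc0_103, f_l3, f_Xc0_211, f_Tc0_211, f_PPs2, f_tl, f_Xc0_312, f_Tc0_312, f_PPs3, f_tl2, f_Xc0_413, f_Tc0_413, f_PPs4, f_tl3, IT.tab, Tab.pm1, Tab.pm2, Tab.pm3, Tab.pc1, Tab.pc2, Tab.pc0, Tab.pg1, Tab.pg2,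 Tab.pg3, Tab.G0, Tb.v, Tb.vo, Tb.vt, Tb.vz, Tb.vp, Tb.h, Tb.hz, Tb.hp, Tb.g, Tb.go, Tb.gr, Tb.gz, Tb.gp, Tb.gt, Tb.gh, Tb.ghz, Tb.ghp, pe_app, pr_app, pz_app, pp_app, pt_app, pe_mon, pr_mon, pz_mon, pp_mon, pt_mon, pe, pr, pz, pp, pt]
  generalize f_z s t q u th = z
  generalize f_p s t q u th = p
  generalize f_tht s t q u th = θ
  simp only [W1, pv, dR, dZ, dP]
  push_cast
  ring

theorem matB (h : ∀ s t q u th : ℝ, 0 ≤ s → s ≤ 1 → 0 ≤ t → t ≤ 1 → 0 ≤ q → q ≤ 1 → -9 / 20 ≤ u → u ≤ 9 / 20 →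
    -29 / 50 ≤ th → th ≤ 29 / 50 → Q s t q u th) : W1.tab.MatB 1 := by
  intro s y q u th z p l n θ d hθ
  obtain ⟨t, t0, t1, hy, hw⟩ := exists_tau d.y0 d.y1
  have k := h s t q u th d.s0 d.s1 t0 t1 d.q0 d.q1 (by linarith [d.u0]) d.u1 (by linarith [d.th0]) d.th1
  have p1 : 0 < 1 + t ^ 2 := by positivity
  have p2 : 0 < 1 + 5 * u ^ 2 := by positivity
  have ez : f_z s t q u th = z := by rw [d.hz, hy, f_z, f_iy]; field_simp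
  have eP : f_P s t q u th ^ 2 = q ^ 2 * (1 - y ^ 2) := by rw [hw, f_P, f_w, f_iy]; field_simp; ring
  have ep : f_p s t q u th = p := by rw [f_p, f_PP, eP, ez, f_r, f_s2, d.hp, d.hz]; ring
  have el : f_l s t q u th = l := by rw [d.hl, f_l, f_idn]; field_simp
  have en : f_n s t q u th = n := by rw [d.hn, f_n, f_idn]; field_simp; ring
  have eθ : f_tht s t q u th = θ := by
    simp only [f_tht, f_l2, f_tt, f_R2, f_nd, f_d2, el, en, hθ, sTh, sD]; ring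
  refine ⟨f_P s t q u th, 2 / 78125, eP.ge, by norm_num, fun x0 x1 x2 x3 x4 => ?_⟩
  have k1 := k x4 x1 x2 x3 x0
  simp only [Crest.Agent.PSD.q5, f_E11, f_E21, f_a1, f_tt, f_b1, f_l2, f_E22, f_aa11, f_ab11, f_bb11, f_w11, f_E31, f_a2, f_b2, f_tp, f_R2, f_nd, f_d2, f_E32, f_aa21, f_ab21, f_bb21, f_E33, f_aa22, f_ab22, f_bb22, f_w22, f_E41, f_a3, f_b3, f_E42, f_aa31, f_ab31, f_bb31, f_E43, f_aa32, f_ab32, f_bb32, f_E44, f_aa33, f_ab33, f_bb33, f_w33, f_E52, f_E53, f_E54, h_F, h_K, h_D, h_g1, h_g2, h_m1, h_m2, h_m3, h_c1, h_c2, h_E51, h_E55, ez, ep, el, en, eθ, eP] at k1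
  simp only [mat5, quad5, sM, sA1, sA2, sA3, sB1, sB2, sB3, sD]
  linarith

theorem cert_of_Q (h : ∀ s t q u th : ℝ, 0 ≤ s → s ≤ 1 → 0 ≤ t → t ≤ 1 → 0 ≤ q → q ≤ 1 → -9 / 20 ≤ u → u ≤ 9 / 20 →
    -29 / 50 ≤ th → th ≤ 29 / 50 → Q s t q u th) {d : ℕ} (hd : 2 ≤ d) (hd6 : d ≤ 6) {v : E d → ℝ} (hu : Mn 1 v)
    (hh : Hom v) (hj : JetsNear v) : ∀ x, 0 < v x → ∀ a b, pd a (pd b v) x = 0 :=
  cert_of_Mat1 (Tab.mat_of_B one_pos (by rw [W1_c1]; norm_num) (by norm_num) (matB h)) hd hd6 hu hh hj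

end Crest.Agent.R97.PB
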