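import Crest.Agent.R97.PBC0
import Crest.Agent.R97.PBC1
import Crest.Agent.R97.PBC2
import Crest.Agent.R97.PBC3
import Crest.Agent.R97.PBC4
import Crest.Agent.R97.PBC5
import Crest.Agent.R97.PBC6
import Crest.Agent.R97.PBC7
import Crest.Agent.R97.PBC8
import Crest.Agent.R97.PBC9
import Crest.Agent.R97.PBC10
import Crest.Agent.R97.PBC11
import Crest.Agent.R97.PBC12
import Crest.Agent.R97.PBC13
import Crest.Agent.R97.PBC14
import Crest.Agent.R97.PBC15
import Crest.Agent.R97.PBC16
import Crest.Agent.R97.PBC17
import Crest.Agent.R97.PBC18
import Crest.Agent.R97.PBC19
import Crest.Agent.R97.PBC20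
import Crest.Agent.R97.PBC21
import Crest.Agent.R97.PBC22
import Crest.Agent.R97.PBC23
import Crest.Agent.R97.PBC24
import Crest.Agent.R97.PBC25
import Crest.Agent.R97.PBC26
import Crest.Agent.R97.PBC27
import Crest.Agent.R97.PBC28
import Crest.Agent.R97.PBC29
import Crest.Agent.R97.PBC30
import Crest.Agent.R97.PBC31
import Crest.Agent.R97.PBC32
import Crest.Agent.R97.PBC33
import Crest.Agent.R97.PBC34
import Crest.Agent.R97.PBC35
import Crest.Agent.R97.PBC36
import Crest.Agent.R97.PBC37
import Crest.Agent.R97.PBC38
import Crest.Agent.R97.PBC39
import Crest.Agent.R97.PBC40
import Crest.Agent.R97.PBC41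
import Crest.Agent.R97.PBC42
import Crest.Agent.R97.PBC43
import Crest.Agent.R97.PBC44
import Crest.Agent.R97.PBC45
import Crest.Agent.R97.PBC46
import Crest.Agent.R97.PBC47
import Crest.Agent.R97.PBC48
import Crest.Agent.R97.PBC49
import Crest.Agent.R97.PBC50
import Crest.Agent.R97.PBC51
import Crest.Agent.R97.PBC52
import Crest.Agent.R97.PBC53
import Crest.Agent.R97.PBC54
import Crest.Agent.R97.PBC55
import Crest.Agent.R97.PBC56
import Crest.Agent.R97.PBC57
import Crest.Agent.R97.PBC58
import Crest.Agent.R97.PBC59
import Crest.Agent.R97.PBC60
import Crest.Agent.R97.PBC61
import Crest.Agent.R97.PBC62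
import Crest.Agent.R97.PBC63
import Crest.Agent.R97.PBC64
import Crest.Agent.R97.PBC65
import Crest.Agent.R97.PBC66
import Crest.Agent.R97.PBC67
import Crest.Agent.R97.PBC68
import Crest.Agent.R97.PBC69
import Crest.Agent.R97.PBC70
import Crest.Agent.R97.PBC71
import Crest.Agent.R97.PBC72
import Crest.Agent.R97.PBC73
import Crest.Agent.R97.PBC74
import Crest.Agent.R97.PBC75
import Crest.Agent.R97.PBC76
import Crest.Agent.R97.PBC77
import Crest.Agent.R97.PBC78
import Crest.Agent.R97.PBC79
import Crest.Agent.R97.PBC80
import Crest.Agent.R97.PBC81
import Crest.Agent.R97.PBC82
import Crest.Agent.R97.PBC83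
import Crest.Agent.R97.PBC84
import Crest.Agent.R97.PBC85
import Crest.Agent.R97.PBC86
import Crest.Agent.R97.PBC87
import Crest.Agent.R97.PBC88
import Crest.Agent.R97.PBC89
import Crest.Agent.R97.PBC90
import Crest.Agent.R97.PBC91
import Crest.Agent.R97.PBC92
import Crest.Agent.R97.PBC93
import Crest.Agent.R97.PBC94
import Crest.Agent.R97.PBC95
import Crest.Agent.R97.PBC96
import Crest.Agent.R97.PBC97
import Crest.Agent.R97.PBC98
import Crest.Agent.R97.PBC99
import Crest.Agent.R97.PBC100
import Crest.Agent.R97.PBC101
import Crest.Agent.R97.PBC102
import Crest.Agent.R97.PBC103
import Crest.Agent.R97.PBC104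
import Crest.Agent.R97.PBC105
import Crest.Agent.R97.PBC106
import Crest.Agent.R97.PBC107
import Crest.Agent.R97.PBC108
import Crest.Agent.R97.PBC109
import Crest.Agent.R97.PBC110
import Crest.Agent.R97.PBC111
import Crest.Agent.R97.PBC112
import Crest.Agent.R97.PBC113
import Crest.Agent.R97.PBC114
import Crest.Agent.R97.PBC115
import Crest.Agent.R97.PBC116
import Crest.Agent.R97.PBC117
import Crest.Agent.R97.PBC118
import Crest.Agent.R97.PBC119
import Crest.Agent.R97.PBC120
import Crest.Agent.R97.PBC121
import Crest.Agent.R97.PBC122
import Crest.Agent.R97.PBC123
import Crest.Agent.R97.PBC124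
import Crest.Agent.R97.PBC125
import Crest.Agent.R97.PBC126
import Crest.Agent.R97.PBC127
import Crest.Agent.R97.PBC128
import Crest.Agent.R97.PBC129
import Crest.Agent.R97.PBC130
import Crest.Agent.R97.PBC131
import Crest.Agent.R97.PBC132
import Crest.Agent.R97.PBC133
import Crest.Agent.R97.PBC134
import Crest.Agent.R97.PBC135
import Crest.Agent.R97.PBC136
import Crest.Agent.R97.PBC137
import Crest.Agent.R97.PBC138
import Crest.Agent.R97.PBC139
import Crest.Agent.R97.PBC140
import Crest.Agent.R97.PBC141
import Crest.Agent.R97.PBC142
import Crest.Agent.R97.PBC143
import Crest.Agent.R97.PBC144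
import Crest.Agent.R97.PBC145
import Crest.Agent.R97.PBC146
import Crest.Agent.R97.PBC147
import Crest.Agent.R97.PBC148
import Crest.Agent.R97.PBC149
import Crest.Agent.R97.PBC150
import Crest.Agent.R97.PBC151
import Crest.Agent.R97.PBC152
import Crest.Agent.R97.PBC153
import Crest.Agent.R97.PBC154
import Crest.Agent.R97.PBC155
import Crest.Agent.R97.PBC156
import Crest.Agent.R97.PBC157
import Crest.Agent.R97.PBC158
import Crest.Agent.R97.PBC159
import Crest.Agent.R97.PBC160
import Crest.Agent.R97.PBC161
import Crest.Agent.R97.PBC162
import Crest.Agent.R97.PBC163
import Crest.Agent.R97.PBC164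
import Crest.Agent.R97.PBC165
import Crest.Agent.R97.PBC166
import Crest.Agent.R97.PBC167
import Crest.Agent.R97.PBC168
import Crest.Agent.R97.PBC169
import Crest.Agent.R97.PBC170
import Crest.Agent.R97.PBC171
import Crest.Agent.R97.PBC172
import Crest.Agent.R97.PBC173
import Crest.Agent.R97.PBC174
import Crest.Agent.R97.PBC175
import Crest.Agent.R97.PBC176
import Crest.Agent.R97.PBC177
import Crest.Agent.R97.PBC178
import Crest.Agent.R97.PBC179
import Crest.Agent.R97.PBC180
import Crest.Agent.R97.PBC181
import Crest.Agent.R97.PBC182
import Crest.Agent.R97.PBC183
import Crest.Agent.R97.PBC184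
import Crest.Agent.R97.PBC185
import Crest.Agent.R97.PBC186
import Crest.Agent.R97.PBC187
import Crest.Agent.R97.PBC188
import Crest.Agent.R97.PBC189
import Crest.Agent.R97.PBC190
import Crest.Agent.R97.PBC191
import Crest.Agent.R97.PBC192
import Crest.Agent.R97.PBC193
import Crest.Agent.R97.PBC194
import Crest.Agent.R97.PBC195
import Crest.Agent.R97.PBC196
import Crest.Agent.R97.PBC197
import Crest.Agent.R97.PBC198
import Crest.Agent.R97.PBC199
import Crest.Agent.R97.PBC200
import Crest.Agent.R97.PBC201
import Crest.Agent.R97.PBC202
import Crest.Agent.R97.PBC203
import Crest.Agent.R97.PBC204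
import Crest.Agent.R97.PBC205
import Crest.Agent.R97.PBC206
import Crest.Agent.R97.PBC207
import Crest.Agent.R97.PBC208
import Crest.Agent.R97.PBC209
import Crest.Agent.R97.PBC210
import Crest.Agent.R97.PBC211
import Crest.Agent.R97.PBC212
import Crest.Agent.R97.PBC213
import Crest.Agent.R97.PBC214
import Crest.Agent.R97.PBC215
import Crest.Agent.R97.PBC216
import Crest.Agent.R97.PBC217
import Crest.Agent.R97.PBC218
import Crest.Agent.R97.PBC219
import Crest.Agent.R97.PBC220
import Crest.Agent.R97.PBC221
import Crest.Agent.R97.PBC222
import Crest.Agent.R97.PBC223
import Crest.Agent.R97.PBC224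
import Crest.Agent.R97.PBC225
import Crest.Agent.R97.PBC226
import Crest.Agent.R97.PBC227
import Crest.Agent.R97.PBC228
import Crest.Agent.R97.PBC229
import Crest.Agent.R97.PBC230
import Crest.Agent.R97.PBC231
import Crest.Agent.R97.PBC232
import Crest.Agent.R97.PBC233
import Crest.Agent.R97.PBC234
import Crest.Agent.R97.PBC235
import Crest.Agent.R97.PBC236
import Crest.Agent.R97.PBC237
import Crest.Agent.R97.PBC238
import Crest.Agent.R97.PBC239
import Crest.Agent.R97.PBC240
import Crest.Agent.R97.PBC241
import Crest.Agent.R97.PBC242
import Crest.Agent.R97.PBC243
import Crest.Agent.R97.PBC244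
import Crest.Agent.R97.PBC245
import Crest.Agent.R97.PBC246
import Crest.Agent.R97.PBC247
import Crest.Agent.R97.PBC248
import Crest.Agent.R97.PBC249
import Crest.Agent.R97.PBC250
import Crest.Agent.R97.PBC251
import Crest.Agent.R97.PBC252
import Crest.Agent.R97.PBC253
import Crest.Agent.R97.PBC254
import Crest.Agent.R97.PBC255
import Crest.Agent.R97.PBC256
import Crest.Agent.R97.PBC257
import Crest.Agent.R97.PBC258
import Crest.Agent.R97.PBC259
import Crest.Agent.R97.PBC260
import Crest.Agent.R97.PBC261
import Crest.Agent.R97.PBC262
import Crest.Agent.R97.PBC263
import Crest.Agent.R97.PBC264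
import Crest.Agent.R97.PBC265
import Crest.Agent.R97.PBC266
import Crest.Agent.R97.PBC267
import Crest.Agent.R97.PBC268
import Crest.Agent.R97.PBC269
import Crest.Agent.R97.PBC270
import Crest.Agent.R97.PBC271
import Crest.Agent.R97.PBC272
import Crest.Agent.R97.PBC273
import Crest.Agent.R97.PBC274
import Crest.Agent.R97.PBC275
import Crest.Agent.R97.PBC276
import Crest.Agent.R97.PBC277
import Crest.Agent.R97.PBC278
import Crest.Agent.R97.PBC279
import Crest.Agent.R97.PBC280
import Crest.Agent.R97.PBC281
import Crest.Agent.R97.PBC282
import Crest.Agent.R97.PBC283
import Crest.Agent.R97.PBC284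
import Crest.Agent.R97.PBC285
import Crest.Agent.R97.PBC286
import Crest.Agent.R97.PBC287
import Crest.Agent.R97.PBC288
import Crest.Agent.R97.PBC289
import Crest.Agent.R97.PBC290
import Crest.Agent.R97.PBC291
import Crest.Agent.R97.PBC292
import Crest.Agent.R97.PBC293
import Crest.Agent.R97.PBC294
import Crest.Agent.R97.PBC295
import Crest.Agent.R97.PBC296
import Crest.Agent.R97.PBC297
import Crest.Agent.R97.PBC298
import Crest.Agent.R97.PBC299
import Crest.Agent.R97.PBC300
import Crest.Agent.R97.PBC301
import Crest.Agent.R97.PBC302
import Crest.Agent.R97.PBC303
import Crest.Agent.R97.PBC304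
import Crest.Agent.R97.PBC305
import Crest.Agent.R97.PBC306
import Crest.Agent.R97.PBC307
import Crest.Agent.R97.PBC308
import Crest.Agent.R97.PBC309
import Crest.Agent.R97.PBC310
import Crest.Agent.R97.PBC311
import Crest.Agent.R97.PBC312
import Crest.Agent.R97.PBC313
import Crest.Agent.R97.PBC314
import Crest.Agent.R97.PBC315
import Crest.Agent.R97.PBC316
import Crest.Agent.R97.PBC317
import Crest.Agent.R97.PBC318
import Crest.Agent.R97.PBC319
import Crest.Agent.R97.PBC320
import Crest.Agent.R97.PBC321
import Crest.Agent.R97.PBC322
import Crest.Agent.R97.PBC323
import Crest.Agent.R97.PBC324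
import Crest.Agent.R97.PBC325
import Crest.Agent.R97.PBC326
import Crest.Agent.R97.PBC327
import Crest.Agent.R97.PBC328
import Crest.Agent.R97.PBC329
import Crest.Agent.R97.PBC330
import Crest.Agent.R97.PBC331
import Crest.Agent.R97.PBC332
import Crest.Agent.R97.PBC333
import Crest.Agent.R97.PBC334
import Crest.Agent.R97.PBC335
import Crest.Agent.R97.PBC336
import Crest.Agent.R97.PBC337
import Crest.Agent.R97.PBC338
import Crest.Agent.R97.PBC339
import Crest.Agent.R97.PBC340
import Crest.Agent.R97.PBC341
import Crest.Agent.R97.PBC342
import Crest.Agent.R97.PBC343
import Crest.Agent.R97.PBC344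
import Crest.Agent.R97.PBC345
import Crest.Agent.R97.PBC346
import Crest.Agent.R97.PBC347
import Crest.Agent.R97.PBC348
import Crest.Agent.R97.PBC349
import Crest.Agent.R97.PBC350
import Crest.Agent.R97.PBC351
import Crest.Agent.R97.PBC352
import Crest.Agent.R97.PBC353
import Crest.Agent.R97.PBC354
import Crest.Agent.R97.PBC355
import Crest.Agent.R97.PBC356
import Crest.Agent.R97.PBC357
import Crest.Agent.R97.PBC358
import Crest.Agent.R97.PBC359
import Crest.Agent.R97.PBC360
import Crest.Agent.R97.PBC361
import Crest.Agent.R97.PBC362
import Crest.Agent.R97.PBC363
import Crest.Agent.R97.PBC364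
import Crest.Agent.R97.PBC365
import Crest.Agent.R97.PBC366
import Crest.Agent.R97.PBC367
import Crest.Agent.R97.PBC368
import Crest.Agent.R97.PBC369
import Crest.Agent.R97.PBC370
import Crest.Agent.R97.PBC371
import Crest.Agent.R97.PBC372
import Crest.Agent.R97.PBC373
import Crest.Agent.R97.PBC374
import Crest.Agent.R97.PBC375
import Crest.Agent.R97.PBC376
import Crest.Agent.R97.PBC377
import Crest.Agent.R97.PBC378
import Crest.Agent.R97.PBC379
import Crest.Agent.R97.PBC380
import Crest.Agent.R97.PBC381
import Crest.Agent.R97.PBC382
import Crest.Agent.R97.PBC383
import Crest.Agent.R97.PBC384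
import Crest.Agent.R97.PBC385
import Crest.Agent.R97.PBC386
set_option autoImplicit false
set_option maxRecDepth 100000
set_option Elab.async false
namespace Crest.Agent.R97.PB
open Crest.Agent.R307 Crest.Agent.R307.IA Crest.Agent.TM.T53
open Crest.Agent.R307.IA5 (Ev Snd Cov cov_of join1 join2 join3 join4 join5)

theorem cov : Cov Q 1152921504606846976 1152922604118474752 1152921504606846976 1152922604118474752 1152921504606846976 1152922604118474752 1152921009826614476 1152921999387079476 1152920866890102865 1152922142323591087 :=
  (join4 1152921504606847057 (join1 1152922054362661017 (join2 1152922054362661017 (join3 1152922054362661017 (join4 1152921257216733270 (join1 1152921779484754113 f1 (join5 1152921504606847057 f2 f3)) (join1 1152921779484754113 (join5 1152921504606847057 f4 (join2 1152921779484754113 f5 f6)) (join5 1152921504606847057 (join2 1152921779484754113 f7 (join3 1152921779484754113 f8 (join4 1152921380911793502 f9 (join1 1152921916923707700 f10 f11)))) (join2 1152921779484754113 f12 (join3 1152921779484754113 f13 (join4 1152921380911793502 f14 f15)))))) (join4 1152921257216733270 (join1 1152921779484754113 (join5 1152921504606847057 (join2 1152921779484754113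 (join3 1152922329240568073 f16 f17) f18) (join2 1152921779484754113 (join3 1152922329240568073 f19 f20) f21)) (join5 1152921504606847057 (join2 1152921779484754113 (join3 1152922329240568073 (join4 1152921133521675542 (join1 1152921916923707700 f22 f23) f24) f25) f26) (join2 1152921779484754113 (join3 1152922329240568073 (join4 1152921133521675542 (join1 1152921916923707700 f27 f28) f29) f30) f31))) (join1 1152921779484754113 (join5 1152921504606847057 (join2 1152921779484754113 f32 f33) (join2 1152921779484754113 f34 (join3 1152922329240568073 f35 f36))) (join5 1152921504606847057 (join2 1152921779484754113 (join3 1152922329240568073 f37 (join4 1152921380911793502 f38 (join1 1152921916923707700 f39 (join5 1152921185748477619 f40 f41)))) (join3 1152922329240568073 (join4 1152921380911793502 f42 (join1 1152921916923707700 f43 (join5 1152921185748477619 f44 f45))) (join4 1152921380911793502 f46 (join1 1152921916923707700 f47 f48)))) (join2 1152921779484754113 (join3 1152922329240568073 f49 f50) (join3 1152922329240568073 (join4 1152921380911793502 f51 (join1 1152921916923707700 (join5 1152921823465220668 f52 f53) (join5 1152921823465220668 f54 f55))) (join4 1152921380911793502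 f56 (join1 1152921916923707700 (join5 1152921823465220668 f57 f58) (join5 1152921823465220668 f59 f60))))))))) (join3 1152922054362661017 (join4 1152921257216733270 f61 f62) f63)) (join2 1152922054362661017 (join3 1152922054362661017 (join4 1152921257216733270 (join1 1152922329240568073 (join5 1152921504606847057 (join2 1152921779484754113 (join3 1152921779484754113 f64 (join4 1152921133521675542 f65 f66)) f67) (join2 1152921779484754113 (join3 1152921779484754113 f68 (join4 1152921133521675542 f69 f70)) f71)) (join5 1152921504606847057 (join2 1152921779484754113 (join3 1152921779484754113 (join4 1152921133521675542 f72 f73) (join4 1152921133521675542 (join1 1152922466679521619 (join5 1152921185748477619 f74 f75) (join5 1152921185748477619 f76 f77)) (join1 1152922466679521619 f78 f79))) f80) (join2 1152921779484754113 (join3 1152921779484754113 f81 (join4 1152921133521675542 (join1 1152922466679521619 (join5 1152921823465220668 f82 f83) (join5 1152921823465220668 f84 f85)) (join1 1152922466679521619 (join5 1152921823465220668 f86 f87) f88))) f89))) (join1 1152922329240568073 (join5 1152921504606847057 (join2 1152921779484754113 (join3 1152921779484754113 f90 (join4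 1152921380911793502 f91 f92)) (join3 1152921779484754113 (join4 1152921380911793502 f93 f94) (join4 1152921380911793502 (join1 1152922191801614716 f95 f96) (join1 1152922191801614716 (join5 1152921185748477619 f97 f98) (join5 1152921185748477619 (join2 1152921916923707700 (join3 1152921916923707700 f99 f100) f101) f102))))) (join2 1152921779484754113 (join3 1152921779484754113 f103 (join4 1152921380911793502 f104 f105)) (join3 1152921779484754113 f106 (join4 1152921380911793502 f107 (join1 1152922191801614716 f108 f109))))) (join5 1152921504606847057 (join2 1152921779484754113 (join3 1152921779484754113 f110 (join4 1152921380911793502 (join1 1152922466679521619 f111 f112) f113)) (join3 1152921779484754113 (join4 1152921380911793502 f114 (join1 1152922466679521619 f115 f116)) (join4 1152921380911793502 f117 (join1 1152922466679521619 (join2 1152921916923707700 (join5 1152921185748477619 f118 f119) f120) f121)))) (join2 1152921779484754113 (join3 1152921779484754113 f122 (join4 1152921380911793502 (join1 1152922466679521619 f123 f124) f125)) (join3 1152921779484754113 f126 f127))))) (join4 1152921257216733270 (join1 1152922329240568073 (join5 1152921504606847057 (join2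 1152921779484754113 (join3 1152922329240568073 (join4 1152921133521675542 f128 f129) f130) f131) (join2 1152921779484754113 (join3 1152922329240568073 (join4 1152921133521675542 f132 f133) f134) f135)) (join5 1152921504606847057 (join2 1152921779484754113 (join3 1152922329240568073 (join4 1152921133521675542 (join1 1152922466679521619 f136 (join5 1152921185748477619 (join2 1152921642045800643 f137 (join3 1152922191801614716 f138 f139)) (join2 1152921642045800643 f140 (join3 1152922191801614716 f141 f142)))) (join1 1152922466679521619 (join5 1152921185748477619 f143 f144) (join5 1152921185748477619 (join2 1152921642045800643 f145 (join3 1152922191801614716 f146 f147)) (join2 1152921642045800643 f148 f149)))) (join4 1152921133521675542 (join1 1152922466679521619 (join5 1152921185748477619 f150 f151) (join5 1152921185748477619 (join2 1152921642045800643 (join3 1152922466679521619 (join4 1152921071674146261 f152 f153) (join4 1152921071674146261 f154 f155)) f156) (join2 1152921642045800643 (join3 1152922466679521619 f157 (join4 1152921071674146261 f158 f159)) f160))) (join1 1152922466679521619 (join5 1152921185748477619 f161 f162) (join5 1152921185748477619 (join2 1152921642045800643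 (join3 1152922466679521619 (join4 1152921195369206493 f163 (join2 1152921573326323899 f164 f165)) (join4 1152921195369206493 f166 (join1 1152922535398998401 f167 f168))) f169) (join2 1152921642045800643 (join3 1152922466679521619 (join4 1152921195369206493 f170 f171) (join4 1152921195369206493 f172 f173)) f174))))) f175) (join2 1152921779484754113 (join3 1152922329240568073 (join4 1152921133521675542 (join1 1152922466679521619 f176 (join5 1152921823465220668 (join2 1152921642045800643 f177 f178) (join2 1152921642045800643 f179 f180))) (join1 1152922466679521619 (join5 1152921823465220668 f181 f182) (join5 1152921823465220668 (join2 1152921642045800643 f183 f184) (join2 1152921642045800643 f185 f186)))) (join4 1152921133521675542 (join1 1152922466679521619 (join5 1152921823465220668 f187 f188) (join5 1152921823465220668 (join2 1152921642045800643 (join3 1152922466679521619 f189 (join4 1152921071674146261 f190 f191)) f192) (join2 1152921642045800643 (join3 1152922466679521619 f193 (join4 1152921071674146261 f194 f195)) f196))) (join1 1152922466679521619 f197 (join5 1152921823465220668 (join2 1152921642045800643 (join3 1152922466679521619 f198 f199) f200) (join2 1152921642045800643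 f201 f202))))) f203))) (join1 1152922329240568073 (join5 1152921504606847057 (join2 1152921779484754113 (join3 1152922329240568073 (join4 1152921380911793502 (join1 1152922191801614716 f204 (join5 1152921185748477619 (join2 1152921642045800643 f205 (join3 1152922191801614716 f206 f207)) (join2 1152921642045800643 f208 (join3 1152922191801614716 f209 f210)))) (join1 1152922191801614716 f211 (join2 1152921642045800643 f212 (join4 1152921442759324036 (join5 1152921185748477619 f213 (join2 1152921710765277486 f214 f215)) f216)))) (join4 1152921380911793502 (join1 1152922191801614716 f217 (join5 1152921185748477619 (join2 1152921642045800643 f218 f219) f220)) (join1 1152922191801614716 (join5 1152921185748477619 (join2 1152921642045800643 f221 (join3 1152922466679521619 (join4 1152921442759324036 f222 f223) (join4 1152921442759324036 f224 f225))) (join2 1152921642045800643 f226 f227)) (join5 1152921185748477619 (join2 1152921642045800643 f228 (join3 1152922466679521619 (join4 1152921442759324036 (join1 1152922260521091574 f229 f230) f231) (join4 1152921442759324036 (join2 1152921710765277486 f232 f233) f234))) (join2 1152921642045800643 f235 (join3 1152922466679521619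 (join4 1152921442759324036 (join1 1152922260521091574 f236 f237) f238) f239)))))) (join3 1152922329240568073 (join4 1152921380911793502 (join2 1152921916923707700 (join1 1152922191801614716 f240 f241) f242) (join1 1152922191801614716 (join5 1152921185748477619 (join3 1152922191801614716 f243 (join2 1152921916923707700 f244 f245)) (join3 1152922191801614716 f246 f247)) (join2 1152921916923707700 (join5 1152921185748477619 (join3 1152922191801614716 f248 f249) (join4 1152921442759324036 f250 f251)) f252))) (join4 1152921380911793502 f253 (join1 1152922191801614716 (join2 1152921916923707700 (join4 1152921442759324036 f254 f255) f256) f257)))) (join2 1152921779484754113 (join3 1152922329240568073 (join4 1152921380911793502 (join1 1152922191801614716 f258 (join5 1152921823465220668 (join2 1152921642045800643 f259 (join4 1152921319064266308 f260 f261)) (join2 1152921642045800643 f262 f263))) (join1 1152922191801614716 f264 (join2 1152921642045800643 f265 (join4 1152921442759324036 (join5 1152921823465220668 f266 f267) f268)))) (join4 1152921380911793502 (join1 1152922191801614716 f269 f270) (join1 1152922191801614716 f271 (join5 1152921823465220668 f272 f273)))) (join3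 1152922329240568073 (join4 1152921380911793502 (join2 1152921916923707700 (join1 1152922191801614716 f274 f275) f276) (join1 1152922191801614716 (join5 1152921823465220668 f277 f278) (join2 1152921916923707700 (join4 1152921442759324036 f279 f280) f281))) (join4 1152921380911793502 f282 (join1 1152922191801614716 f283 f284))))) (join5 1152921504606847057 (join2 1152921779484754113 (join3 1152922329240568073 (join4 1152921380911793502 (join1 1152922466679521619 (join5 1152921185748477619 (join2 1152921642045800643 f285 (join3 1152922191801614716 f286 (join4 1152921319064266308 f287 (join1 1152922397960045044 f288 f289)))) (join2 1152921642045800643 f290 (join3 1152922191801614716 f291 (join4 1152921319064266308 f292 f293)))) (join5 1152921185748477619 (join2 1152921642045800643 f294 (join3 1152922191801614716 f295 (join4 1152921319064266308 f296 f297))) (join2 1152921642045800643 f298 (join3 1152922191801614716 f299 f300)))) (join1 1152922466679521619 (join2 1152921642045800643 f301 (join4 1152921442759324036 (join5 1152921185748477619 (join2 1152921710765277486 f302 f303) f304) f305)) (join5 1152921185748477619 (join2 1152921642045800643 f306 (join4 1152921442759324036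 (join2 1152921710765277486 f307 f308) f309)) f310))) (join4 1152921380911793502 (join1 1152922466679521619 (join5 1152921185748477619 (join2 1152921642045800643 (join3 1152922466679521619 f311 (join4 1152921319064266308 f312 f313)) (join4 1152921319064266308 f314 (join3 1152922466679521619 (join2 1152921710765277486 f315 f316) f317))) (join2 1152921642045800643 (join3 1152922466679521619 f318 f319) (join4 1152921319064266308 f320 (join3 1152922466679521619 f321 f322)))) (join5 1152921185748477619 (join2 1152921642045800643 (join3 1152922466679521619 (join4 1152921319064266308 (join2 1152921573326323899 f323 f324) f325) (join4 1152921319064266308 (join1 1152922535398998401 f326 (join2 1152921573326323899 f327 f328)) (join1 1152922535398998401 f329 (join5 1152921026319294189 f330 f331)))) (join4 1152921319064266308 f332 (join3 1152922466679521619 (join2 1152921710765277486 (join1 1152922535398998401 f333 f334) f335) f336))) (join2 1152921642045800643 (join3 1152922466679521619 (join4 1152921319064266308 f337 f338) (join4 1152921319064266308 (join1 1152922535398998401 f339 f340) (join1 1152922535398998401 f341 (join5 1152921345177663708 f342 f343)))) (join4 1152921319064266308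 f344 (join3 1152922466679521619 f345 f346))))) (join1 1152922466679521619 (join5 1152921185748477619 (join2 1152921642045800643 f347 (join3 1152922466679521619 (join4 1152921442759324036 (join1 1152922397960045044 f348 f349) f350) f351)) (join2 1152921642045800643 f352 (join3 1152922466679521619 (join4 1152921442759324036 f353 f354) f355))) (join5 1152921185748477619 (join2 1152921642045800643 (join4 1152921442759324036 (join3 1152922466679521619 f356 (join2 1152921573326323899 f357 f358)) f359) (join3 1152922466679521619 (join4 1152921442759324036 f360 f361) f362)) (join2 1152921642045800643 f363 f364))))) (join3 1152922329240568073 (join4 1152921380911793502 f365 (join1 1152922466679521619 (join2 1152921916923707700 (join4 1152921442759324036 f366 f367) f368) f369)) f370)) (join2 1152921779484754113 (join3 1152922329240568073 (join4 1152921380911793502 (join1 1152922466679521619 (join5 1152921823465220668 (join2 1152921642045800643 f371 (join3 1152922191801614716 f372 (join4 1152921319064266308 f373 f374))) (join2 1152921642045800643 f375 (join3 1152922191801614716 f376 f377))) (join5 1152921823465220668 f378 f379)) (join1 1152922466679521619 (join5 1152921823465220668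 f380 f381) f382)) (join4 1152921380911793502 (join1 1152922466679521619 (join5 1152921823465220668 (join2 1152921642045800643 f383 f384) (join2 1152921642045800643 f385 f386)) (join5 1152921823465220668 (join2 1152921642045800643 (join3 1152922466679521619 f387 (join4 1152921319064266308 f388 (join1 1152922535398998401 f389 f390))) (join4 1152921319064266308 f391 f392)) (join2 1152921642045800643 (join3 1152922466679521619 f393 (join4 1152921319064266308 f394 (join1 1152922535398998401 f395 (join5 1152921982894406184 f396 f397)))) (join4 1152921319064266308 f398 f399)))) (join1 1152922466679521619 (join5 1152921823465220668 (join2 1152921642045800643 f400 f401) f402) (join5 1152921823465220668 (join2 1152921642045800643 f403 f404) f405)))) (join3 1152922329240568073 (join4 1152921380911793502 f406 f407) f408)))))) (join3 1152922054362661017 f409 f410))) (join1 1152922054362661017 (join2 1152922054362661017 (join3 1152922054362661017 (join4 1152921751996965016 (join1 1152921779484754113 (join5 1152921504606847057 f411 (join2 1152921779484754113 f412 (join3 1152921779484754113 f413 f414))) (join5 1152921504606847057 (join2 1152921779484754113 f415 (join3 1152921779484754113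 f416 f417)) (join2 1152921779484754113 f418 (join3 1152921779484754113 f419 f420)))) (join1 1152921779484754113 f421 (join5 1152921504606847057 (join2 1152921779484754113 f422 f423) (join2 1152921779484754113 f424 f425)))) (join4 1152921751996965016 (join1 1152921779484754113 (join5 1152921504606847057 f426 (join2 1152921779484754113 f427 f428)) (join5 1152921504606847057 (join2 1152921779484754113 f429 f430) (join2 1152921779484754113 f431 (join3 1152922329240568073 f432 f433)))) (join1 1152921779484754113 (join5 1152921504606847057 f434 f435) (join5 1152921504606847057 (join2 1152921779484754113 (join3 1152922329240568073 f436 (join4 1152921875692024831 f437 f438)) (join3 1152922329240568073 f439 (join4 1152921875692024831 f440 f441))) (join2 1152921779484754113 (join3 1152922329240568073 f442 (join4 1152921875692024831 f443 f444)) (join3 1152922329240568073 (join4 1152921875692024831 f445 f446) (join4 1152921875692024831 f447 f448))))))) (join3 1152922054362661017 (join4 1152921751996965016 f449 f450) (join4 1152921751996965016 f451 f452))) (join2 1152922054362661017 (join3 1152922054362661017 (join4 1152921751996965016 (join1 1152922329240568073 (join5 1152921504606847057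 (join2 1152921779484754113 f453 (join3 1152921779484754113 f454 f455)) (join2 1152921779484754113 (join3 1152921779484754113 f456 f457) (join3 1152921779484754113 f458 f459))) (join5 1152921504606847057 (join2 1152921779484754113 f460 f461) (join2 1152921779484754113 (join3 1152921779484754113 f462 f463) f464))) (join1 1152922329240568073 (join5 1152921504606847057 (join2 1152921779484754113 f465 (join3 1152921779484754113 f466 (join4 1152921875692024831 f467 f468))) (join2 1152921779484754113 f469 (join3 1152921779484754113 f470 (join4 1152921875692024831 f471 f472)))) (join5 1152921504606847057 (join2 1152921779484754113 f473 (join3 1152921779484754113 f474 (join4 1152921875692024831 f475 (join1 1152922466679521619 f476 f477)))) (join2 1152921779484754113 f478 (join3 1152921779484754113 f479 (join4 1152921875692024831 f480 (join1 1152922466679521619 f481 f482))))))) (join4 1152921751996965016 (join1 1152922329240568073 (join5 1152921504606847057 (join2 1152921779484754113 f483 (join3 1152922329240568073 f484 f485)) (join2 1152921779484754113 f486 f487)) (join5 1152921504606847057 (join2 1152921779484754113 (join3 1152922329240568073 f488 (join4 1152921628301906952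 f489 f490)) (join3 1152922329240568073 f491 f492)) (join2 1152921779484754113 (join3 1152922329240568073 f493 (join4 1152921628301906952 f494 (join1 1152922466679521619 f495 (join5 1152921823465220668 f496 f497)))) (join3 1152922329240568073 f498 f499)))) (join1 1152922329240568073 (join5 1152921504606847057 (join2 1152921779484754113 (join3 1152922329240568073 (join4 1152921875692024831 f500 f501) (join4 1152921875692024831 f502 (join1 1152922191801614716 (join5 1152921185748477619 f503 f504) (join5 1152921185748477619 f505 f506)))) (join3 1152922329240568073 (join4 1152921875692024831 f507 (join1 1152922191801614716 f508 f509)) (join4 1152921875692024831 f510 (join1 1152922191801614716 (join5 1152921185748477619 f511 f512) f513)))) (join2 1152921779484754113 (join3 1152922329240568073 (join4 1152921875692024831 f514 f515) (join4 1152921875692024831 f516 (join1 1152922191801614716 (join5 1152921823465220668 f517 f518) (join5 1152921823465220668 f519 f520)))) (join3 1152922329240568073 (join4 1152921875692024831 (join1 1152922191801614716 f521 f522) (join1 1152922191801614716 f523 f524)) (join4 1152921875692024831 f525 (join1 1152922191801614716 (join5 1152921823465220668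 f526 f527) f528))))) (join5 1152921504606847057 (join2 1152921779484754113 (join3 1152922329240568073 (join4 1152921875692024831 (join1 1152922466679521619 f529 f530) (join1 1152922466679521619 (join5 1152921185748477619 f531 f532) (join5 1152921185748477619 f533 f534))) (join4 1152921875692024831 (join1 1152922466679521619 (join5 1152921185748477619 f535 f536) (join5 1152921185748477619 (join2 1152921642045800643 f537 f538) (join2 1152921642045800643 f539 (join3 1152922466679521619 f540 f541)))) (join1 1152922466679521619 (join5 1152921185748477619 (join2 1152921642045800643 f542 f543) (join2 1152921642045800643 f544 f545)) (join5 1152921185748477619 (join2 1152921642045800643 (join3 1152922466679521619 f546 f547) (join3 1152922466679521619 (join4 1152921937539555156 f548 f549) f550)) (join2 1152921642045800643 (join3 1152922466679521619 f551 f552) (join3 1152922466679521619 (join4 1152921937539555156 f553 f554) f555)))))) (join3 1152922329240568073 (join4 1152921875692024831 (join1 1152922466679521619 f556 f557) (join1 1152922466679521619 (join5 1152921185748477619 f558 f559) (join5 1152921185748477619 f560 f561))) (join4 1152921875692024831 (join1 1152922466679521619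 f562 f563) (join1 1152922466679521619 f564 (join5 1152921185748477619 f565 f566))))) (join2 1152921779484754113 (join3 1152922329240568073 (join4 1152921875692024831 (join1 1152922466679521619 (join5 1152921823465220668 f567 f568) (join5 1152921823465220668 f569 f570)) (join1 1152922466679521619 (join5 1152921823465220668 (join2 1152921642045800643 f571 f572) (join2 1152921642045800643 f573 (join3 1152922191801614716 f574 f575))) (join5 1152921823465220668 f576 (join2 1152921642045800643 f577 f578)))) (join4 1152921875692024831 (join1 1152922466679521619 (join5 1152921823465220668 (join2 1152921642045800643 f579 f580) (join2 1152921642045800643 f581 (join3 1152922466679521619 (join4 1152921813844497091 f582 f583) f584))) (join5 1152921823465220668 (join2 1152921642045800643 f585 (join3 1152922466679521619 (join4 1152921813844497091 f586 f587) (join4 1152921813844497091 f588 (join1 1152922535398998401 f589 f590)))) (join2 1152921642045800643 (join3 1152922466679521619 f591 (join4 1152921813844497091 f592 f593)) (join3 1152922466679521619 (join4 1152921813844497091 f594 (join1 1152922535398998401 (join5 1152921982894406184 f595 f596) f597)) (join4 1152921813844497091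 (join1 1152922535398998401 f598 f599) (join1 1152922535398998401 f600 (join5 1152921982894406184 f601 f602))))))) (join1 1152922466679521619 (join5 1152921823465220668 (join2 1152921642045800643 f603 f604) (join2 1152921642045800643 f605 (join3 1152922466679521619 f606 f607))) (join5 1152921823465220668 (join2 1152921642045800643 (join3 1152922466679521619 f608 f609) (join3 1152922466679521619 (join4 1152921937539555156 f610 f611) (join4 1152921937539555156 f612 f613))) (join2 1152921642045800643 (join3 1152922466679521619 f614 f615) (join3 1152922466679521619 (join4 1152921937539555156 (join1 1152922535398998401 f616 f617) f618) (join4 1152921937539555156 (join1 1152922535398998401 f619 f620) f621))))))) (join3 1152922329240568073 (join4 1152921875692024831 (join1 1152922466679521619 (join5 1152921823465220668 f622 f623) (join5 1152921823465220668 f624 f625)) (join1 1152922466679521619 (join5 1152921823465220668 f626 f627) (join5 1152921823465220668 f628 f629))) (join4 1152921875692024831 (join1 1152922466679521619 f630 (join5 1152921823465220668 f631 (join2 1152921916923707700 (join3 1152922466679521619 f632 f633) f634))) (join1 1152922466679521619 f635 (join5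 1152921823465220668 f636 f637))))))))) (join3 1152922054362661017 f638 (join4 1152921751996965016 f639 f640)))))

theorem main (s t q u th : ℝ) (l0 : (0:ℝ) ≤ s) (u0 : s ≤ (1:ℝ)) (l1 : (0:ℝ) ≤ t) (u1 : t ≤ (1:ℝ)) (l2 : (0:ℝ) ≤ q) (u2 : q ≤ (1:ℝ)) (l3 : (-9/20:ℝ) ≤ u) (u3 : u ≤ (9/20:ℝ)) (l4 : (-29/50:ℝ) ≤ th) (u4 : th ≤ (29/50:ℝ)) : Q s t q u th :=
  cov s t q u th (le_trans (by norm_num [IA.val, SS, BB]) l0) (le_trans u0 (by norm_num [IA.val, SS, BB])) (le_trans (by norm_num [IA.val, SS, BB]) l1) (le_trans u1 (by norm_num [IA.val, SS, BB])) (le_trans (by norm_num [IA.val, SS, BB]) l2) (le_trans u2 (by norm_num [IA.val, SS, BB])) (le_trans (by norm_num [IA.val, SS, BB]) l3) (le_trans u3 (by norm_num [IA.val, SS, BB])) (le_trans (by norm_num [IA.val, SS, BB]) l4) (le_trans u4 (by norm_num [IA.val, SS, BB]))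

end Crest.Agent.R97.PB
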