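import Crest.Agent.R97.Gr
import Crest.Agent.R97.Stab
import Crest.Agent.R97.PBM
import Crest.Agent.R97.PBH

set_option autoImplicit false
open MeasureTheory Metric Set Filter Topology
open scoped RealInnerProductSpace NNReal

namespace Crest.Agent.R97

variable {d : ℕ}

/-! Cert: the certificate. -/

theorem cert (hd : 2 ≤ d) (hd6 : d ≤ 6) {u : E d → ℝ} (hu : Mn 1 u) (hh : Hom u) (hj : JetsNear u) :
    ∀ x, 0 < u x → ∀ a b, pd a (pd b u) x = 0 :=
  PB.cert_of_Q PB.main hd hd6 hu hh hj

end Crest.Agent.R97
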