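import Crest.Agent.R97.CertB7

/-! CertB9a (helper87): the chain `NW → ScW → DirC → IntJC` again, with the form condition only for `P² ≤ S - u²`. -/

set_option autoImplicit false
open Finset

namespace Crest.Agent.R97

/-- `DirC` for `P² ≤ S - u²` only -/
def Ans.DirP (s : Ans) (n : ℕ) (R : (Fin 6 → ℝ) → Prop) : Prop :=
  ∀ (lam : Fin (n + 1) → ℝ) (y : Fin 6 → ℝ), lam 0 = 0 → ∑ i, lam i = 0 → y 0 = pw lam 2 → y 4 = pw lam 3 →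
    0 < y 1 → y 1 ^ 2 ≤ y 2 → y 2 ≤ 1 → y 0 * y 1 ^ 2 ≤ (n + 1) * (1 - y 2) → 0 ≤ y 5 → R y →
    (∀ i, 0 ≤ y 1 * lam i + (1 - y 2) / 2) →
    0 ≤ s.Φ y ∧
    (∀ i j l : Fin (n + 1), i ≠ 0 → j ≠ 0 → l ≠ 0 → i ≠ j → i ≠ l → j ≠ l →
      0 ≤ s.c 0 y + 2 / 3 * s.c 7 y * (lam i + lam j + lam l)) ∧
    ∀ k : Fin (n + 1), k ≠ 0 → ∃ m : ℝ, 0 ≤ s.G0 n y (pw lam 4) + (y 2 - y 1 ^ 2) * m ∧
      ∀ (P : ℝ) (x : Fin (n + 1) → ℝ) (v w : ℝ), P ^ 2 ≤ y 2 - y 1 ^ 2 → x 0 = 0 → ∑ j, x j = 0 → v = ∑ j, x j * lam j →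
        w = ∑ j, x j * lam j ^ 2 →
        0 ≤ Wk (s.c 0 y) (s.c 7 y) lam k x + s.Gk y (lam k) P v w - P ^ 2 * m ∧
        s.Φ.gk y (lam k) P v w ^ 2 ≤
          4 * s.Φ y * (Wk (s.c 0 y) (s.c 7 y) lam k x + s.Gk y (lam k) P v w - P ^ 2 * m)

theorem Ans.intJC_of_dirP {s : Ans} {n : ℕ} {R : (Fin 6 → ℝ) → Prop} (hn : 1 ≤ n) (hs : s.Diag) (h : s.DirP n R) :
    s.IntJC (n + 1) R := by
  intro x p a T hj hC hR
  obtain ⟨U, lam, hU, h0, hx, ha⟩ := exists_eig hj.x1 hj.as hj.ax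
  have h1 := hU.IJ hj
  have e1 := hU.G x p a T s
  have e2 := hU.gr x p a T s.Φ
  have e3 := hU.sv x p a
  have hlo : ∀ i, 0 ≤ sv x p a 1 * lam i + (1 - sv x p a 2) / 2 := fun i => by
    have h2 := hC (U i)
    rwa [(eig_val hU ha i).1, (eig_val hU ha i).2, mul_one] at h2
  rw [hx, ha] at h1 e1 e2 e3
  rw [← e3] at hR hlo
  rw [← e1, ← e3, ← hU.dp, ← e2]
  generalize mv U p = p at h1 hR hlo ⊢
  generalize rt U T = T at h1 ⊢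
  have y1 : sv e0 p (dg lam) 1 = p 0 := dp_e0 p
  have y2 : sv e0 p (dg lam) 2 = p 0 ^ 2 + ∑ k : Fin n, p k.succ ^ 2 := by
    change dp p p = _
    simp only [dp, Fin.sum_univ_succ, sq]
  have hσ : 0 ≤ ∑ k : Fin n, p k.succ ^ 2 := sum_nonneg fun _ _ => sq_nonneg _
  obtain ⟨hΦ, hoff, hdir⟩ := h lam (sv e0 p (dg lam)) h0 (by simpa only [dg_self] using h1.atr) (fr_dg2 lam)
    (fr_dg3 lam) h1.pos (by rw [y1, y2]; linarith) h1.le1 (by exact_mod_cast h1.hb) (dp_self_nonneg _) hR hlo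
  have hG := b3_G hs h1.toHJ h0 hoff
  choose m hm hk using fun k : Fin n => hdir k.succ (Fin.succ_ne_zero k)
  have hk' := fun k : Fin n => hk k (p k.succ) (fun j => T k.succ j j) (tm T (dg lam) k.succ)
    (tm T (sqm (dg lam)) k.succ)
    (by rw [y1, y2, add_sub_cancel_left]; exact single_le_sum (f := fun k : Fin n => p k.succ ^ 2) (fun _ _ => sq_nonneg _) (mem_univ k))
    (by rw [h1.T1, h1.T2, ← h1.T2, b3_T0 h1.toHJ, dg, if_neg (Fin.succ_ne_zero k), neg_zero])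
    (by rw [← h1.Ttr k.succ]; exact sum_congr rfl fun j _ => by rw [h1.T1, h1.T2])
    (b3_tm T lam _) (by rw [sqm_dg, b3_tm])
  rw [y1, y2, add_sub_cancel_left] at hm
  obtain ⟨G0, hG0⟩ : ∃ G0, G0 = s.G0 n (sv e0 p (dg lam)) (pw lam 4) := ⟨_, rfl⟩
  rw [← hG0] at hm hG
  have hm0 : 0 ≤ G0 + ∑ k : Fin n, p k.succ ^ 2 * m k := by
    rcases hσ.eq_or_lt with h2 | h2
    · have h3 := hm ⟨0, hn⟩
      have h4 : ∀ k : Fin n, p k.succ ^ 2 = 0 := fun k =>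
        (sum_eq_zero_iff_of_nonneg fun _ _ => sq_nonneg _).1 h2.symm k (mem_univ k)
      simp only [h4, zero_mul, sum_const_zero] at h3 ⊢
      exact h3
    · have h3 := sum_nonneg fun k (_ : k ∈ univ) => mul_nonneg (sq_nonneg (p k.succ)) (hm k)
      refine nonneg_of_mul_nonneg_right (le_of_le_of_eq h3 ?_) h2 |>.trans_eq rfl
      simp only [mul_add, sum_add_distrib, ← sum_mul, mul_left_comm _ (∑ k : Fin n, p k.succ ^ 2), ← mul_sum]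
  have h5 := sum_nonneg fun k (_ : k ∈ univ) => (hk' k).1
  have h6 := sum_le_sum fun k (_ : k ∈ univ) => (hk' k).2
  rw [← mul_sum] at h6
  rw [sum_sub_distrib] at h5 h6
  refine ⟨by linarith, ?_⟩
  rw [b3_gr h1.toHJ h0 hs.Φ3 hs.Φ5]
  have e4 : ∀ k : Fin n, Cf.gr e0 p (dg lam) T s.Φ k.succ = s.Φ.gk (sv e0 p (dg lam)) (lam k.succ)
      (p k.succ) (tm T (dg lam) k.succ) (tm T (sqm (dg lam)) k.succ) := fun k => by
    have := b3_gr (p := p) h1.toHJ h0 hs.Φ3 hs.Φ5 fun i => if i = k.succ then 1 else 0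
    simpa only [dp, mul_ite, mul_one, mul_zero, sum_ite_eq', mem_univ, if_true, Fin.succ_inj] using this
  simp only [e4, ← sq]
  exact h6.trans (mul_le_mul_of_nonneg_left (by linarith) (by linarith))

/-- `ScW` for `P² ≤ S - u²` only -/
def Ans.ScP (s : Ans) (m : ℕ) (R : (Fin 6 → ℝ) → Prop) : Prop :=
  ∀ (y : Fin 6 → ℝ) (l : ℝ) (μ : Fin m → ℝ), Adm R y l μ →
    0 ≤ s.Φ y ∧ 0 < s.c 0 y + 2 * s.c 7 y * l ∧ ((∀ j, 0 < s.c 0 y + 2 * s.c 7 y * μ j) →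
      ∃ mm : ℝ, 0 ≤ s.G0 (m + 1) y (l ^ 4 + ∑ j, μ j ^ 4) + (y 2 - y 1 ^ 2) * mm ∧
      ∀ P v w Q : ℝ, P ^ 2 ≤ y 2 - y 1 ^ 2 → (∀ α β : ℝ, 2 * (α * v + β * w) - (α ^ 2 * gA (s.c 0 y) (s.c 7 y) l μ
          + 2 * α * β * gB (s.c 0 y) (s.c 7 y) l μ + β ^ 2 * gC (s.c 0 y) (s.c 7 y) l μ) ≤ Q) →
        0 ≤ Q + s.Gk y l P v w - P ^ 2 * mm ∧ s.Φ.gk y l P v w ^ 2 ≤ 4 * s.Φ y * (Q + s.Gk y l P v w - P ^ 2 * mm))

theorem Ans.dirP_of_scP {s : Ans} {m : ℕ} {R : (Fin 6 → ℝ) → Prop} (h : s.ScP m R) : s.DirP (m + 1) R := by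
  intro lam y h0 tr y0 y4 h1 h2 h3 _ h5 hR hC
  have key : ∀ k : Fin (m + 2), k ≠ 0 → ∃ ι : Fin m → Fin (m + 2), Adm R y (lam k) (lam ∘ ι) ∧
      (∀ j, ι j ≠ 0 ∧ ι j ≠ k) ∧ ∀ f : Fin (m + 2) → ℝ, ∑ i, f i = f 0 + (f k + ∑ j, f (ι j)) := fun k hk => by
    obtain ⟨ι, a1, a2, a3⟩ := exists_enum lam hk
    refine ⟨ι, ⟨a1, ?_, ?_, ?_, h1, h2, h3, h5, hR, hC k, fun j => hC _⟩, a2, a3⟩
    · rw [a3, h0, zero_add] at tr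
      exact tr
    · rw [y0, pw, a3, h0]
      simp
    · rw [y4, pw, a3, h0]
      simp
  have he : ∀ k : Fin (m + 2), k ≠ 0 → 0 < s.c 0 y + 2 * s.c 7 y * lam k := fun k hk => by
    obtain ⟨ι, a, -⟩ := key k hk
    exact (h y _ _ a).2.1
  refine ⟨?_, fun i j l hi hj hl _ _ _ => by linarith [he i hi, he j hj, he l hl], fun k hk => ?_⟩
  · obtain ⟨ι, a, -⟩ := key 1 (by simp)
    exact (h y _ _ a).1
  obtain ⟨ι, a, a2, a3⟩ := key k hk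
  have hμ : ∀ j, 0 < s.c 0 y + 2 * s.c 7 y * (lam ∘ ι) j := fun j => he _ (a2 j).1
  obtain ⟨mm, hm, hq⟩ := (h y _ _ a).2.2 hμ
  have e4 : pw lam 4 = lam k ^ 4 + ∑ j, (lam ∘ ι) j ^ 4 := by
    rw [pw, a3, h0]
    simp
  refine ⟨mm, by rw [e4]; exact hm, fun P x v w hP x0 xs hv hw => hq P v w _ hP fun α β => ?_⟩
  rw [a3, x0, zero_add] at xs
  have g := gram_w (he k hk) hμ (x := x ∘ ι) xs α β
  rw [hv, hw, Wk, a3, a3, a3, x0]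
  simp only [Function.comp] at g ⊢
  linarith

/-- `NW` for `P² ≤ S - u²` only -/
def Tab.NWP (N : Tab) (m : ℕ) (R' : ℝ → ℝ → Prop) : Prop :=
  ∀ (s z p w θ : ℝ) (ν : Fin m → ℝ), NAdm N.c R' s z p w ν → θ = w ^ 3 + ∑ j, ν j ^ 3 →
    0 < N.F.h s z p θ ∧ 0 < N.K.v s z p θ + 2 * (s * N.D.v s z p θ) * w ∧
    ((∀ j, 0 < N.K.v s z p θ + 2 * (s * N.D.v s z p θ) * ν j) →
      ∃ mm : ℝ, 0 ≤ N.G0 s z p θ (m + 1) + N.PP s z p * mm ∧ ∀ P v v' Q : ℝ, P ^ 2 ≤ N.PP s z p →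
        (∀ α β : ℝ, 2 * (α * v + β * v') - (α ^ 2 * gA (N.K.v s z p θ) (s * N.D.v s z p θ) w ν
          + 2 * α * β * gB (N.K.v s z p θ) (s * N.D.v s z p θ) w ν
          + β ^ 2 * gC (N.K.v s z p θ) (s * N.D.v s z p θ) w ν) ≤ Q) →
        0 ≤ Q + (N.M1 s z p θ * v ^ 2 + 2 * N.M2 s z p θ * v * v' + N.M3 s z p θ * v' ^ 2)
          + 2 * P * (N.b1 s z p θ w * v + N.b2 s z p θ w * v') + (N.cc s z p θ w - mm) * P ^ 2)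

theorem Tab.scP {N : Tab} (hN : N.Sh) {m : ℕ} {R : (Fin 6 → ℝ) → Prop} {R' : ℝ → ℝ → Prop}
    (hR : ∀ y, R y → R' (y 1 ^ 2 * y 0) (1 - y 2)) (h : N.NWP m R')
    (hK : ∀ z p, 0 ≤ z → 0 ≤ p → p ≤ 1 → z ^ 2 ≤ N.c * (1 - p) → 0 < N.K.v 0 z p 0) : N.ans.ScP m R := by
  intro y l μ a
  by_cases h0 : 0 < y 0
  swap
  · obtain ⟨rfl, rfl⟩ := a.zero h0
    obtain ⟨h1, h2, mm, h3, h4⟩ := Ans.scW_zero (Tab.scZ hN hK) a
    exact ⟨h1, h2, fun _ => ⟨mm, h3, fun P v w Q _ => h4 P v w Q⟩⟩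
  obtain ⟨σ, s, z, p, θ, w, ν, s0, co, rfl, rfl, na, hθ⟩ := a.norm hN.c hR h0
  obtain ⟨h1, h2, h3⟩ := h s z p w θ ν na hθ
  have al := co.all
  generalize σ ^ (2 * N.al) = W at al
  have hσ := co.σ0
  have hW := al.W0
  have hc := hN.c
  have eF : N.F.v s z p θ = s ^ 2 * N.F.h s z p θ := by rw [Tb.v_eq, hN.F, pe, zero_add]
  have eFz : N.F.vz s z p θ = s ^ 2 * N.F.hz s z p θ := by rw [Tb.vz_eq, hN.F, pz, zero_add]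
  have eFp : N.F.vp s z p θ = s ^ 2 * N.F.hp s z p θ := by rw [Tb.vp_eq, hN.F, pp, zero_add]
  have eA : N.A.v s z p θ = s ^ 2 * N.A.h s z p θ := by rw [Tb.v_eq, hN.A, pe, zero_add]
  have eAz : N.A.vz s z p θ = s ^ 2 * N.A.hz s z p θ := by rw [Tb.vz_eq, hN.A, pz, zero_add]
  have eAp : N.A.vp s z p θ = s ^ 2 * N.A.hp s z p θ := by rw [Tb.vp_eq, hN.A, pp, zero_add]
  have eBz : N.B.vz s z p θ = s ^ 2 * N.B.hz s z p θ := by rw [Tb.vz_eq, hN.Bz, zero_add]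
  have c5 : N.ans.c 5 = fun _ => 0 := rfl
  have hΦ : 0 < N.ans.Φ y := by rw [al.F.v, eF]; positivity
  have ew : ∀ x, N.ans.c 0 y + 2 * N.ans.c 7 y * (σ * s * x)
      = W / σ ^ 2 * (N.K.v s z p θ + 2 * (s * N.D.v s z p θ) * x) := fun x => by
    rw [al.K.v, al.D.v]; field_simp
  refine ⟨hΦ.le, by rw [ew]; positivity, fun hμ => ?_⟩
  obtain ⟨mm, g1, g2⟩ := h3 fun j => by
    have := hμ j
    rw [ew] at this
    exact (mul_pos_iff_of_pos_left (by positivity)).1 this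
  have hκ : 0 < W * σ ^ 2 * s ^ 2 := by positivity
  have ePP : y 2 - y 1 ^ 2 = N.PP s z p := by
    have : 1 - s ^ 2 = N.c / σ ^ 2 := by rw [co.cs]; field_simp
    rw [Tab.PP, co.y1, co.y2, this]
    field_simp
  have eG : ∀ t4, N.ans.G0 (m + 1) y t4 = W * σ ^ 2 * s ^ 2 * N.G0 s z p θ (m + 1) := fun t4 => by
    have : (1 - s ^ 2) / N.c = 1 / σ ^ 2 := by rw [div_eq_div_iff hc.ne' (by positivity), co.cs]; ring
    rw [Ans.G0, Tab.G0, this, al.F.v, al.K.v, al.A.v, al.B.v, al.C.v, al.D.v, eF, eA, co.y0, co.y1, co.y4, c5,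
      show N.ans.Λ = N.Λ from rfl]
    field_simp
    ring
  have e1 : N.ans.M1 y = W * σ ^ 2 * s ^ 2 / (σ ^ 3 * s ^ 2) ^ 2 * N.M1 s z p θ := by
    rw [Ans.M1, Tab.M1, al.K.d0, al.F.d0, al.F.v, eF]
    field_simp
  have e2 : N.ans.M2 y = W * σ ^ 2 * s ^ 2 / (σ ^ 3 * s ^ 2 * (σ ^ 4 * s ^ 3)) * N.M2 s z p θ := by
    rw [Ans.M2, Tab.M2, al.K.d4, al.D.d0, al.F.d0, al.F.d4, al.F.v, eF]
    field_simp
  have e3 : N.ans.M3 y = W * σ ^ 2 * s ^ 2 / (σ ^ 4 * s ^ 3) ^ 2 * N.M3 s z p θ := by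
    rw [Ans.M3, Tab.M3, al.D.d4, al.F.d4, al.F.v, eF]
    field_simp
  have e4 : N.ans.b1 y (σ * s * w) = W * σ ^ 2 * s ^ 2 / (σ ^ 3 * s ^ 2) * N.b1 s z p θ w := by
    simp only [Ans.b1, Tab.b1, Tab.FP, Cf.P, al.K.d1, al.K.d2, al.A.d0, al.B.d0, al.C.d0, al.C.v, al.F.d0, al.F.d1,
      al.F.d2, al.F.v, eF, eFz, eFp, c5, Cf.D_zero]
    field_simp
    ring
  have e5 : N.ans.b2 y (σ * s * w) = W * σ ^ 2 * s ^ 2 / (σ ^ 4 * s ^ 3) * N.b2 s z p θ w := by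
    simp only [Ans.b2, Tab.b2, Tab.FP, Cf.P, al.D.d1, al.D.d2, al.A.d4, al.B.d4, al.C.d4, al.F.d4, al.F.d1,
      al.F.d2, al.F.v, eF, eFz, eFp, c5, Cf.D_zero]
    field_simp
    ring
  have e6 : N.ans.cc y (σ * s * w) = W * σ ^ 2 * s ^ 2 * N.cc s z p θ w := by
    simp only [Ans.cc, Tab.cc, Tab.FP, Cf.P, al.A.d1, al.A.d2, al.B.d1, al.B.d2, al.C.d1, al.C.d2, al.F.d1,
      al.F.d2, al.F.v, eF, eFz, eFp, eAz, eAp, eBz, c5, Cf.D_zero]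
    field_simp
    ring
  have e7 : N.ans.c 7 y = W / σ ^ 2 * (s * N.D.v s z p θ) / (σ * s) := by rw [al.D.v]; field_simp
  obtain ⟨k1, k2, k3⟩ := g_scale (κ := W / σ ^ 2) (η := σ * s) (K := N.K.v s z p θ) (D := s * N.D.v s z p θ) (w := w)
    (by positivity) (by positivity) ν
  refine ⟨W * σ ^ 2 * s ^ 2 * mm, ?_, fun P v v' Q hP hQ => fin_of_nn hΦ ?_⟩
  · rw [eG, ePP]
    nlinarith [mul_nonneg hκ.le g1]
  · rw [al.K.v, e7, k1, k2, k3] at hQ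
    have g3 := mul_nonneg hκ.le (g2 P (v / (σ ^ 3 * s ^ 2)) (v' / (σ ^ 4 * s ^ 3)) (Q / (W * σ ^ 2 * s ^ 2)) (ePP ▸ hP) fun α β => by
      rw [le_div_iff₀ hκ]
      refine le_of_eq_of_le ?_ (hQ (α * (W * σ ^ 2 * s ^ 2) / (σ ^ 3 * s ^ 2)) (β * (W * σ ^ 2 * s ^ 2) / (σ ^ 4 * s ^ 3)))
      field_simp)
    have g4 := N.ans.Gk_eq hΦ (σ * s * w) P v v'
    rw [e1, e2, e3, e4, e5, e6] at g4
    have : Q + N.ans.Gk y (σ * s * w) P v v' - P ^ 2 * (W * σ ^ 2 * s ^ 2 * mm)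
        - N.ans.Φ.gk y (σ * s * w) P v v' ^ 2 / (4 * N.ans.Φ y) = Q - P ^ 2 * (W * σ ^ 2 * s ^ 2 * mm)
          + (N.ans.Gk y (σ * s * w) P v v' - N.ans.Φ.gk y (σ * s * w) P v v' ^ 2 / (4 * N.ans.Φ y)) := by ring
    rw [this, g4]
    refine g3.trans_eq ?_
    field_simp
    ring

theorem Tab.intJC_of_NWP {N : Tab} (hN : N.Sh) {m : ℕ} {R : (Fin 6 → ℝ) → Prop} {R' : ℝ → ℝ → Prop}
    (hR : ∀ y, R y → R' (y 1 ^ 2 * y 0) (1 - y 2)) (h : N.NWP m R')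
    (hK : ∀ z p, 0 ≤ z → 0 ≤ p → p ≤ 1 → z ^ 2 ≤ N.c * (1 - p) → 0 < N.K.v 0 z p 0) : N.ans.IntJC (m + 2) R :=
  Ans.intJC_of_dirP (by omega) N.diag (Ans.dirP_of_scP (Tab.scP hN hR h hK))

end Crest.Agent.R97
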