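import Crest.Agent.R97.CertB9a
import Crest.Agent.R97.CertE4

/-! CertB9b (helper87): the primal (matrix) form of the interior condition, on the spectra with a double root. -/

set_option autoImplicit false
open Finset

namespace Crest.Agent.R97

theorem gram_range {A B C v w Q : ℝ} (hΓ : ∀ α β : ℝ, 0 ≤ α ^ 2 * A + 2 * α * β * B + β ^ 2 * C)
    (hQ : ∀ α β : ℝ, 2 * (α * v + β * w) - (α ^ 2 * A + 2 * α * β * B + β ^ 2 * C) ≤ Q) :
    ∃ α β : ℝ, v = α * A + β * B ∧ w = α * B + β * C := by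
  have hA : 0 ≤ A := by simpa using hΓ 1 0
  have hC : 0 ≤ C := by simpa using hΓ 0 1
  have hB : B ^ 2 ≤ A * C := by
    have := discrim_le_zero (a := A) (b := 2 * B) (c := C) fun x => by nlinarith [hΓ x 1]
    rw [discrim] at this
    nlinarith
  have ker : ∀ a b : ℝ, a ^ 2 * A + 2 * a * b * B + b ^ 2 * C = 0 → a * v + b * w = 0 := fun a b h => by
    by_contra hn
    have h0 : 0 ≤ Q := by simpa using hQ 0 0
    have := hQ ((Q + 1) / (a * v + b * w) * a) ((Q + 1) / (a * v + b * w) * b)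
    have e1 : (Q + 1) / (a * v + b * w) * a * v + (Q + 1) / (a * v + b * w) * b * w = Q + 1 := by field_simp
    have e2 : ((Q + 1) / (a * v + b * w) * a) ^ 2 * A + 2 * ((Q + 1) / (a * v + b * w) * a)
        * ((Q + 1) / (a * v + b * w) * b) * B + ((Q + 1) / (a * v + b * w) * b) ^ 2 * C = 0 := by
      linear_combination ((Q + 1) / (a * v + b * w)) ^ 2 * h
    rw [e1, e2] at this
    linarith
  rcases hB.eq_or_lt with h | h
  · rcases hA.eq_or_lt with hA0 | hA0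
    · have hB0 : B = 0 := by rw [← hA0, zero_mul] at h; exact pow_eq_zero_iff two_ne_zero |>.1 h
      have hv : v = 0 := by simpa using ker 1 0 (by simp [← hA0])
      rcases hC.eq_or_lt with hC0 | hC0
      · exact ⟨0, 0, by simp [hv], by simpa using ker 0 1 (by simp [← hC0])⟩
      · exact ⟨0, w / C, by simp [hv, hB0], by field_simp; ring⟩
    · have := ker (-B) A (by linear_combination (-A) * h)
      exact ⟨v / A, 0, by field_simp; ring, by field_simp; linarith⟩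
  · obtain ⟨D, hD⟩ : ∃ D, D = A * C - B ^ 2 := ⟨_, rfl⟩
    have hd : D ≠ 0 := by rw [hD]; linarith
    exact ⟨(C * v - B * w) / D, (A * w - B * v) / D, by field_simp; rw [hD]; ring, by field_simp; rw [hD]; ring⟩

/-- weights, eigenvalue `l`, double root `b`: a primal vector from the Gram bound of a spectrum with the same `e1, e2, e3` -/
theorem prim_of_gram {K D l b c d v w Q : ℝ} {ν : Fin 4 → ℝ} (hl : 0 < K + 2 * D * l) (hν : ∀ j, 0 < K + 2 * D * ν j)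
    (hb : 0 < 3 * K + 2 * D * (l + 2 * b)) (hc : 0 < 3 * K + 2 * D * (l + 2 * c)) (hd : 0 < 3 * K + 2 * D * (l + 2 * d))
    (E1 : b + b + c + d = ν 0 + ν 1 + ν 2 + ν 3)
    (E2 : b * b + b * c + b * d + b * c + b * d + c * d
      = ν 0 * ν 1 + ν 0 * ν 2 + ν 0 * ν 3 + ν 1 * ν 2 + ν 1 * ν 3 + ν 2 * ν 3)
    (E3 : b * b * c + b * b * d + b * c * d + b * c * d
      = ν 0 * ν 1 * ν 2 + ν 0 * ν 1 * ν 3 + ν 0 * ν 2 * ν 3 + ν 1 * ν 2 * ν 3)
    (E4 : b * b * c * d ≤ ν 0 * ν 1 * ν 2 * ν 3)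
    (hQ : ∀ α β : ℝ, 2 * (α * v + β * w) - (α ^ 2 * gA K D l ν + 2 * α * β * gB K D l ν + β ^ 2 * gC K D l ν) ≤ Q) :
    ∃ xb xc xd : ℝ, v = -(2 * xb + xc + xd) * l + 2 * xb * b + xc * c + xd * d ∧
      w = -(2 * xb + xc + xd) * l ^ 2 + 2 * xb * b ^ 2 + xc * c ^ 2 + xd * d ^ 2 ∧
      (K + 2 * D * l) * (2 * xb + xc + xd) ^ 2 + 2 * (3 * K + 2 * D * (l + 2 * b)) * xb ^ 2
        + (3 * K + 2 * D * (l + 2 * c)) * xc ^ 2 + (3 * K + 2 * D * (l + 2 * d)) * xd ^ 2 ≤ Q := by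
  obtain ⟨il, hil⟩ : ∃ i, i = (K + 2 * D * l)⁻¹ := ⟨_, rfl⟩
  obtain ⟨ib, hib⟩ : ∃ i, i = (3 * K + 2 * D * (l + 2 * b))⁻¹ := ⟨_, rfl⟩
  obtain ⟨ic, hic⟩ : ∃ i, i = (3 * K + 2 * D * (l + 2 * c))⁻¹ := ⟨_, rfl⟩
  obtain ⟨id, hid⟩ : ∃ i, i = (3 * K + 2 * D * (l + 2 * d))⁻¹ := ⟨_, rfl⟩
  have pl : 0 < il := hil ▸ inv_pos.2 hl
  have pb : 0 < ib := hib ▸ inv_pos.2 hb
  have pc : 0 < ic := hic ▸ inv_pos.2 hc
  have pd : 0 < id := hid ▸ inv_pos.2 hd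
  obtain ⟨S, hS⟩ : ∃ S : ℕ → ℝ, S = fun k => l ^ k * il + 2 * b ^ k * ib + c ^ k * ic + d ^ k * id := ⟨_, rfl⟩
  have S0 : 0 < S 0 := by simp only [hS]; positivity
  obtain ⟨θ, hθ⟩ : ∃ θ : ℝ → ℝ → ℝ, θ = fun α β => -((α * S 1 + β * S 2) / S 0) := ⟨_, rfl⟩
  have hθ0 : ∀ α β, θ α β * S 0 + α * S 1 + β * S 2 = 0 := fun α β => by simp only [hθ]; field_simp; ring
  have eΓ : ∀ α β, α ^ 2 * (S 2 - S 1 ^ 2 / S 0) + 2 * α * β * (S 3 - S 1 * S 2 / S 0) + β ^ 2 * (S 4 - S 2 ^ 2 / S 0)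
      = (θ α β + α * l + β * l ^ 2) ^ 2 * il + 2 * (θ α β + α * b + β * b ^ 2) ^ 2 * ib
        + (θ α β + α * c + β * c ^ 2) ^ 2 * ic + (θ α β + α * d + β * d ^ 2) ^ 2 * id := fun α β => by
    have : (θ α β + α * l + β * l ^ 2) ^ 2 * il + 2 * (θ α β + α * b + β * b ^ 2) ^ 2 * ib
        + (θ α β + α * c + β * c ^ 2) ^ 2 * ic + (θ α β + α * d + β * d ^ 2) ^ 2 * id
        = α ^ 2 * S 2 + 2 * α * β * S 3 + β ^ 2 * S 4 + 2 * θ α β * (α * S 1 + β * S 2) + θ α β ^ 2 * S 0 := by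
      simp only [hS]; ring
    rw [this, hθ]
    field_simp
    ring
  have maj : ∀ α β, α ^ 2 * gA K D l ν + 2 * α * β * gB K D l ν + β ^ 2 * gC K D l ν
      ≤ α ^ 2 * (S 2 - S 1 ^ 2 / S 0) + 2 * α * β * (S 3 - S 1 * S 2 / S 0) + β ^ 2 * (S 4 - S 2 ^ 2 / S 0) := fun α β => by
    have hw : ∀ j, 0 < 3 * K + 2 * D * l + 4 * D * ν j := fun j => by linarith [hν j]
    have hb' : 0 < 3 * K + 2 * D * l + 4 * D * b := by linarith
    have hc' : 0 < 3 * K + 2 * D * l + 4 * D * c := by linarith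
    have hd' : 0 < 3 * K + 2 * D * l + 4 * D * d := by linarith
    have g := e4_gram (hw 0) (hw 1) (hw 2) (hw 3) E1 E2 E3 E4 (by rw [ePi_eq]; positivity) (θ α β) α β
    rw [eNq_eq, ePi_eq] at g
    have g2 : α ^ 2 * gA K D l ν + 2 * α * β * gB K D l ν + β ^ 2 * gC K D l ν
        ≤ (θ α β + α * l + β * l ^ 2) ^ 2 / (K + 2 * D * l)
          + ∑ j, (θ α β + α * ν j + β * ν j ^ 2) ^ 2 / (3 * K + 2 * D * (l + 2 * ν j)) := by
      have h0 : 0 < sk K D l ν 0 := add_pos_of_pos_of_nonneg (div_pos (by simp) hl)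
        (sum_nonneg fun j _ => (div_pos (by simp) (by linarith [hw j])).le)
      have e : (θ α β + α * l + β * l ^ 2) ^ 2 / (K + 2 * D * l)
          + ∑ j, (θ α β + α * ν j + β * ν j ^ 2) ^ 2 / (3 * K + 2 * D * (l + 2 * ν j))
          = α ^ 2 * gA K D l ν + 2 * α * β * gB K D l ν + β ^ 2 * gC K D l ν
            + (θ α β * sk K D l ν 0 + α * sk K D l ν 1 + β * sk K D l ν 2) ^ 2 / sk K D l ν 0 := by
        have : (θ α β + α * l + β * l ^ 2) ^ 2 / (K + 2 * D * l)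
            + ∑ j, (θ α β + α * ν j + β * ν j ^ 2) ^ 2 / (3 * K + 2 * D * (l + 2 * ν j))
            = α ^ 2 * sk K D l ν 2 + 2 * α * β * sk K D l ν 3 + β ^ 2 * sk K D l ν 4 + 2 * θ α β * (α * sk K D l ν 1
              + β * sk K D l ν 2) + θ α β ^ 2 * sk K D l ν 0 := by
          simp only [sk, Fin.sum_univ_four]; ring
        rw [this, gA, gB, gC]
        field_simp
        ring
      rw [e]
      exact le_add_of_nonneg_right (by positivity)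
    rw [Fin.sum_univ_four] at g2
    have r : ∀ x, 3 * K + 2 * D * (l + 2 * x) = 3 * K + 2 * D * l + 4 * D * x := fun x => by ring
    rw [eΓ, hil, hib, hic, hid]
    simp only [r] at g2 ⊢
    refine g2.trans ((add_le_add_right g _).trans_eq ?_)
    generalize 3 * K + 2 * D * l + 4 * D * b = wb at hb'
    generalize 3 * K + 2 * D * l + 4 * D * c = wc at hc'
    generalize 3 * K + 2 * D * l + 4 * D * d = wd at hd'
    generalize K + 2 * D * l = wl at hl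
    generalize θ α β + α * b + β * b ^ 2 = qb
    generalize θ α β + α * c + β * c ^ 2 = qc
    generalize θ α β + α * d + β * d ^ 2 = qd
    generalize θ α β + α * l + β * l ^ 2 = ql
    field_simp
    ring
  obtain ⟨α, β, hv, hw⟩ := gram_range (fun α β => (gram_nn hl hν α β).trans (maj α β))
    (fun α β => by linarith [hQ α β, maj α β]) (v := v) (w := w) (Q := Q)
  have h1 := hθ0 α β
  have xl : -(2 * ((θ α β + α * b + β * b ^ 2) * ib) + (θ α β + α * c + β * c ^ 2) * ic + (θ α β + α * d + β * d ^ 2) * id)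
      = (θ α β + α * l + β * l ^ 2) * il := by
    simp only [hS] at h1
    linear_combination (-1 : ℝ) * h1
  refine ⟨(θ α β + α * b + β * b ^ 2) * ib, (θ α β + α * c + β * c ^ 2) * ic, (θ α β + α * d + β * d ^ 2) * id, ?_, ?_, ?_⟩
  · have : v = θ α β * S 1 + α * S 2 + β * S 3 := by rw [hv, hθ]; field_simp; ring
    rw [xl, this, hS]; ring
  · have : w = θ α β * S 2 + α * S 3 + β * S 4 := by rw [hw, hθ]; field_simp; ring
    rw [xl, this, hS]; ring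
  · have g := hQ α β
    have g2 := maj α β
    have g3 : α * v + β * w = α ^ 2 * (S 2 - S 1 ^ 2 / S 0) + 2 * α * β * (S 3 - S 1 * S 2 / S 0)
        + β ^ 2 * (S 4 - S 2 ^ 2 / S 0) := by rw [hv, hw]; ring
    rw [← neg_sq, xl]
    refine le_trans (le_of_eq ?_) (show α ^ 2 * (S 2 - S 1 ^ 2 / S 0) + 2 * α * β * (S 3 - S 1 * S 2 / S 0)
        + β ^ 2 * (S 4 - S 2 ^ 2 / S 0) ≤ Q by linarith)
    rw [eΓ, hil, hib, hic, hid]
    field_simp

/-- admissible data on the double root family: `b = -l/4 + t` (twice), `c, d = -l/4 - t ± R` -/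
structure PAdm (c0 : ℝ) (R' : ℝ → ℝ → Prop) (s z p l t R b c d : ℝ) : Prop where
  hb : b = -l / 4 + t
  hc : c = -l / 4 - t + R
  hd : d = -l / 4 - t - R
  s0 : 0 ≤ s
  s1 : s ≤ 1
  z0 : 0 ≤ z
  p0 : 0 ≤ p
  p1 : p ≤ 1
  zS : z ^ 2 * (1 - s ^ 2) ≤ c0 * (1 - p)
  hR : R' ((z * s) ^ 2) p
  R0 : 0 ≤ R
  tR : 4 * t ^ 2 ≤ R ^ 2
  nrm : 5 / 4 * l ^ 2 + 4 * t ^ 2 + 2 * R ^ 2 = 1
  cl : 0 ≤ z * s * l + p / 2
  cb : 0 ≤ z * s * b + p / 2
  e1 : 0 ≤ 2 * p - z * s * l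
  e2 : 0 ≤ (z * s * b + p / 2) ^ 2 + 2 * (z * s * b + p / 2) * ((z * s * c + p / 2) + (z * s * d + p / 2))
    + (z * s * c + p / 2) * (z * s * d + p / 2)
  e3 : 0 ≤ (z * s * b + p / 2) ^ 2 * ((z * s * c + p / 2) + (z * s * d + p / 2))
    + 2 * (z * s * b + p / 2) * ((z * s * c + p / 2) * (z * s * d + p / 2))

theorem NAdm.double {c0 : ℝ} {R' : ℝ → ℝ → Prop} {s z p l : ℝ} {ν : Fin 4 → ℝ} (a : NAdm c0 R' s z p l ν) :
    ∃ t R b c d : ℝ, PAdm c0 R' s z p l t R b c d ∧ ν 1 ≤ b ∧ b ≤ ν 2 ∧ b + b + c + d = ν 0 + ν 1 + ν 2 + ν 3 ∧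
      b * b + b * c + b * d + b * c + b * d + c * d
        = ν 0 * ν 1 + ν 0 * ν 2 + ν 0 * ν 3 + ν 1 * ν 2 + ν 1 * ν 3 + ν 2 * ν 3 ∧
      b * b * c + b * b * d + b * c * d + b * c * d
        = ν 0 * ν 1 * ν 2 + ν 0 * ν 1 * ν 3 + ν 0 * ν 2 * ν 3 + ν 1 * ν 2 * ν 3 ∧
      b * b * c * d ≤ ν 0 * ν 1 * ν 2 * ν 3 := by
  obtain ⟨b, a1, a2, a3, a4, a5⟩ := e4_crit_sorted (a.mono (show (0 : Fin 4) ≤ 1 by decide))
    (a.mono (show (1 : Fin 4) ≤ 2 by decide)) (a.mono (show (2 : Fin 4) ≤ 3 by decide))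
  have tr := a.tr
  have nr := a.nrm
  rw [Fin.sum_univ_four] at tr nr
  have c0' := a.cν 0
  have c1 := a.cν 1
  have c2 := a.cν 2
  have c3 := a.cν 3
  have hw : 0 ≤ z * s := mul_nonneg a.z0 a.s0
  have cb : 0 ≤ z * s * b + p / 2 := by nlinarith [mul_le_mul_of_nonneg_left a1 hw]
  generalize ν 0 = n0 at *
  generalize ν 1 = n1 at *
  generalize ν 2 = n2 at *
  generalize ν 3 = n3 at *
  have e2 : n0 * n1 + n0 * n2 + n0 * n3 + n1 * n2 + n1 * n3 + n2 * n3 = l ^ 2 - 1 / 2 := by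
    linear_combination (n0 + n1 + n2 + n3 - l) / 2 * tr - 1 / 2 * nr
  have h12 : 12 * (b + l / 4) ^ 2 ≤ 1 - 5 / 4 * l ^ 2 := by
    have : (b - n0) * (b - n1) + (b - n0) * (b - n2) + (b - n0) * (b - n3) + (b - n1) * (b - n2) + (b - n1) * (b - n3)
      + (b - n2) * (b - n3) = 6 * b ^ 2 + 3 * b * l + l ^ 2 - 1 / 2 := by linear_combination e2 - 3 * b * tr
    nlinarith
  obtain ⟨R, R0, hR⟩ : ∃ R : ℝ, 0 ≤ R ∧ R ^ 2 = (1 - 5 / 4 * l ^ 2 - 4 * (b + l / 4) ^ 2) / 2 :=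
    ⟨_, Real.sqrt_nonneg _, Real.sq_sqrt (by nlinarith [sq_nonneg (b + l / 4)])⟩
  obtain ⟨c, hc⟩ : ∃ c, c = -l / 4 - (b + l / 4) + R := ⟨_, rfl⟩
  obtain ⟨d, hd⟩ : ∃ d, d = -l / 4 - (b + l / 4) - R := ⟨_, rfl⟩
  have E1 : b + b + c + d = n0 + n1 + n2 + n3 := by rw [hc, hd]; linarith
  have E2 : b * b + b * c + b * d + b * c + b * d + c * d = n0 * n1 + n0 * n2 + n0 * n3 + n1 * n2 + n1 * n3 + n2 * n3 := by
    rw [e2, hc, hd]; linear_combination (-1 : ℝ) * hR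
  have E3 : b * b * c + b * b * d + b * c * d + b * c * d = n0 * n1 * n2 + n0 * n1 * n3 + n0 * n2 * n3 + n1 * n2 * n3 := by
    linear_combination a4 - 3 * b ^ 2 * E1 + 2 * b * E2
  have E4 : (b - n0) * (b - n1) * (b - n2) * (b - n3) = n0 * n1 * n2 * n3 - b * b * c * d := by
    linear_combination b ^ 3 * E1 - b ^ 2 * E2 + b * E3
  refine ⟨b + l / 4, R, b, c, d, ⟨by ring, hc, hd, a.s0, a.s1, a.z0, a.p0, a.p1, a.zS, a.R, R0, by linarith, by linarith,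
    a.cl, cb, ?_, ?_, ?_⟩, a1, a2, E1, E2, E3, by linarith⟩
  · have : 2 * p - z * s * l = (z * s * n0 + p / 2) + (z * s * n1 + p / 2) + (z * s * n2 + p / 2) + (z * s * n3 + p / 2) := by
      linear_combination (-(z * s)) * tr
    linarith
  · have := add_nonneg (add_nonneg (add_nonneg (mul_nonneg c0' c1) (mul_nonneg c0' c2)) (add_nonneg (mul_nonneg c0' c3)
      (mul_nonneg c1 c2))) (add_nonneg (mul_nonneg c1 c3) (mul_nonneg c2 c3))
    refine this.trans_eq ?_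
    linear_combination (-(z * s) ^ 2) * E2 - 3 * (z * s) * (p / 2) * E1
  · have := add_nonneg (add_nonneg (mul_nonneg (mul_nonneg c0' c1) c2) (mul_nonneg (mul_nonneg c0' c1) c3))
      (add_nonneg (mul_nonneg (mul_nonneg c0' c2) c3) (mul_nonneg (mul_nonneg c1 c2) c3))
    refine this.trans_eq ?_
    linear_combination (-(z * s) ^ 3) * E3 - 2 * (z * s) ^ 2 * (p / 2) * E2 - 3 * (z * s) * (p / 2) ^ 2 * E1

namespace Tab
variable (N : Tab) (s z p θ w : ℝ)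
noncomputable def pM1 : ℝ := 2 * s ^ 2 * N.K.vo s z p θ (2 * N.al - 2)
noncomputable def pM2 : ℝ := s ^ 3 * (3 * N.K.vt s z p θ + 2 * N.D.vo s z p θ (2 * N.al - 3)) / 2
noncomputable def pM3 : ℝ := 3 * s ^ 4 * N.D.vt s z p θ
noncomputable def pb1 : ℝ := (N.C.v s z p θ + (N.K.vz s z p θ - 2 * s * w * N.K.vp s z p θ)
  + 2 * (N.A.vo s z p θ (2 * N.al + 1) + s * w * N.B.vo s z p θ (2 * N.al)
    + (s * w) ^ 2 * N.C.vo s z p θ (2 * N.al - 1))) / 2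
noncomputable def pb2 : ℝ := s * (((N.D.vz s z p θ - 2 * s * w * N.D.vp s z p θ)
  + 3 * (N.A.vt s z p θ + s * w * N.B.vt s z p θ + (s * w) ^ 2 * N.C.vt s z p θ)) / 2)
noncomputable def pcc : ℝ := (N.A.hz s z p θ - 2 * s * w * N.A.hp s z p θ)
  + w * (s * N.B.hz s z p θ - 2 * w * N.B.vp s z p θ) + w ^ 2 * (N.C.vz s z p θ - 2 * s * w * N.C.vp s z p θ)

/-- the polynomial form in `(π, v, v', η)`; `Q` is the `T²` part -/
noncomputable def PF (Pt π v v' η Q : ℝ) : ℝ :=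
  π ^ 2 * (N.G0 s z p θ 5 + N.pcc s z p θ w * N.PP s z p)
    + π * Pt * (2 * (N.pb1 s z p θ w * v + N.pb2 s z p θ w * v') + N.FP s z p θ w * η) + Q
    + (N.pM1 s z p θ * v ^ 2 + 2 * N.pM2 s z p θ * v * v' + N.pM3 s z p θ * v' ^ 2)
    + η * (2 * N.F.vo s z p θ (2 * N.al) * v + 3 * s * N.F.vt s z p θ * v') + N.F.h s z p θ * η ^ 2

/-- the interior condition in primal form -/
def NP (R' : ℝ → ℝ → Prop) : Prop :=
  ∀ s z p l t R b c d θ K D : ℝ, PAdm N.c R' s z p l t R b c d → θ = l ^ 3 + 2 * b ^ 3 + c ^ 3 + d ^ 3 →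
    K = N.K.v s z p θ → D = s * N.D.v s z p θ →
    0 < N.F.h s z p θ ∧ 0 < K + 2 * D * l ∧ 0 < 3 * K + 2 * D * (l + 2 * c) ∧ 0 < 3 * K + 2 * D * (l + 2 * d) ∧
    ∃ Pt : ℝ, N.PP s z p ≤ Pt ^ 2 ∧ ∀ π xb xc xd η : ℝ, 0 ≤ N.PF s z p θ l Pt π
      (-(2 * xb + xc + xd) * l + 2 * xb * b + xc * c + xd * d)
      (-(2 * xb + xc + xd) * l ^ 2 + 2 * xb * b ^ 2 + xc * c ^ 2 + xd * d ^ 2) η
      ((K + 2 * D * l) * (2 * xb + xc + xd) ^ 2 + 2 * (3 * K + 2 * D * (l + 2 * b)) * xb ^ 2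
        + (3 * K + 2 * D * (l + 2 * c)) * xc ^ 2 + (3 * K + 2 * D * (l + 2 * d)) * xd ^ 2)
end Tab

theorem Tab.NWP_of_NP {N : Tab} (hc : 0 < N.c) {R' : ℝ → ℝ → Prop} (h : N.NP R') : N.NWP 4 R' := by
  intro s z p l θ ν a hθ
  obtain ⟨t, R, b, c, d, pa, b1, b2, E1, E2, E3, E4⟩ := a.double
  have hθ' : θ = l ^ 3 + 2 * b ^ 3 + c ^ 3 + d ^ 3 := by
    rw [hθ, Fin.sum_univ_four]
    linear_combination (-((b + b + c + d) ^ 2 + (b + b + c + d) * (ν 0 + ν 1 + ν 2 + ν 3) + (ν 0 + ν 1 + ν 2 + ν 3) ^ 2)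
      + 3 * (b * b + b * c + b * d + b * c + b * d + c * d)) * E1 + 3 * (ν 0 + ν 1 + ν 2 + ν 3) * E2 - 3 * E3
  obtain ⟨h1, h2, h3, h4, Pt, h5, h6⟩ := h s z p l t R b c d θ _ _ pa hθ' rfl rfl
  have hP : 0 ≤ N.PP s z p := by
    rw [Tab.PP, sub_nonneg, div_le_iff₀ hc]
    linarith [a.zS]
  refine ⟨h1, h2, fun hν => ?_⟩
  have hb : 0 < 3 * N.K.v s z p θ + 2 * (s * N.D.v s z p θ) * (l + 2 * b) := by
    rcases le_total 0 (s * N.D.v s z p θ) with h0 | h0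
    · nlinarith [hν 1, mul_le_mul_of_nonneg_left b1 h0]
    · nlinarith [hν 2, mul_le_mul_of_nonpos_left b2 h0]
  have g1 : 0 ≤ N.G0 s z p θ 5 + N.pcc s z p θ l * N.PP s z p := by
    refine (h6 1 0 0 0 0).trans_eq ?_
    simp only [Tab.PF]
    ring
  have key : ∀ π v v' Q : ℝ, (∀ α β : ℝ, 2 * (α * v + β * v') - (α ^ 2 * gA (N.K.v s z p θ) (s * N.D.v s z p θ) l ν
      + 2 * α * β * gB (N.K.v s z p θ) (s * N.D.v s z p θ) l ν
      + β ^ 2 * gC (N.K.v s z p θ) (s * N.D.v s z p θ) l ν) ≤ Q) →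
      0 ≤ Q + (N.M1 s z p θ * v ^ 2 + 2 * N.M2 s z p θ * v * v' + N.M3 s z p θ * v' ^ 2)
        + 2 * (π * Pt) * (N.b1 s z p θ l * v + N.b2 s z p θ l * v') + (N.cc s z p θ l - N.pcc s z p θ l) * (π * Pt) ^ 2
        + π ^ 2 * (N.G0 s z p θ 5 + N.pcc s z p θ l * N.PP s z p) := fun π v v' Q hQ => by
    obtain ⟨xb, xc, xd, e1, e2, e3⟩ := prim_of_gram h2 hν hb h3 h4 E1 E2 E3 E4 hQ
    have g := h6 π xb xc xd (-(2 * N.F.vo s z p θ (2 * N.al) * v + 3 * s * N.F.vt s z p θ * v'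
      + π * Pt * N.FP s z p θ l) / (2 * N.F.h s z p θ))
    rw [← e1, ← e2] at g
    generalize (N.K.v s z p θ + 2 * (s * N.D.v s z p θ) * l) * (2 * xb + xc + xd) ^ 2
      + 2 * (3 * N.K.v s z p θ + 2 * (s * N.D.v s z p θ) * (l + 2 * b)) * xb ^ 2
      + (3 * N.K.v s z p θ + 2 * (s * N.D.v s z p θ) * (l + 2 * c)) * xc ^ 2
      + (3 * N.K.v s z p θ + 2 * (s * N.D.v s z p θ) * (l + 2 * d)) * xd ^ 2 = Q' at g e3
    refine (add_nonneg g (sub_nonneg.2 e3)).trans_eq ?_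
    simp only [Tab.PF, Tab.M1, Tab.M2, Tab.M3, Tab.b1, Tab.b2, Tab.cc, Tab.pM1, Tab.pM2, Tab.pM3, Tab.pb1, Tab.pb2, Tab.pcc]
    field_simp
    ring
  by_cases h0 : Pt = 0
  · have hP0 : N.PP s z p = 0 := le_antisymm (by simpa [h0] using h5) hP
    refine ⟨0, by simpa [hP0] using g1, fun P v v' Q hP2 hQ => ?_⟩
    have : P = 0 := pow_eq_zero_iff two_ne_zero |>.1 (le_antisymm (hP0 ▸ hP2) (sq_nonneg P))
    simpa [this] using key 0 v v' Q hQ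
  · have h7 : 0 < Pt ^ 2 := by positivity
    refine ⟨N.pcc s z p θ l - (N.G0 s z p θ 5 + N.pcc s z p θ l * N.PP s z p) / Pt ^ 2, ?_, fun P v v' Q _ hQ => ?_⟩
    · have := mul_nonneg g1 (sub_nonneg.2 ((div_le_one h7).2 h5))
      refine this.trans_eq ?_
      norm_num
      field_simp
      ring
    · refine (key (P / Pt) v v' Q hQ).trans_eq ?_
      field_simp
      ring

end Crest.Agent.R97
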