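import Crest.Agent.R97.CertE5
import Crest.Agent.R97.CertB6
import Crest.Agent.R97.CertN

/-!
CertE6 (helper51): the interior condition of class F in the normalised variables `s = |a|/σ`, `z = uσ`, `p = 1 - S`
and the unit spectrum `(l, n, th)`.
-/

set_option autoImplicit false
open Finset

namespace Crest.Agent.R97

section tform
variable (t n2 e3 f : ℝ)
/-- `ePi / E⁴`, `eNj / E³` with `t = F / E`, `e1 = 0`, `e2 = -6 n2` -/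
def hPi : ℝ := 1 + t ^ 2 * (t * (e3 + f * t) - 6 * n2)
def hN0 : ℝ := 4 + t ^ 2 * (e3 * t - 12 * n2)
def hN1 : ℝ := t * (t * (3 * e3 + 4 * (f * t)) - 12 * n2)
def hN2 : ℝ := 12 * n2 - t * (3 * e3 + 4 * (f * t))
def hN3 : ℝ := 3 * e3 + t * ((4 * f - 72 * n2 ^ 2) + 12 * (n2 * (t * (e3 + f * t))))
def hN4 : ℝ := (72 * n2 ^ 2 - 4 * f) + t * (t * (3 * (e3 * (e3 + f * t)) - 12 * (n2 * f)) - 30 * (n2 * e3))
end tform

section gram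
variable (wl E t L n2 e3 f : ℝ)
/-- normalised moments and the Schur complement -/
noncomputable def hG0 : ℝ := 1 / wl + hN0 t n2 e3 / (E * hPi t n2 e3 f)
noncomputable def hG1 : ℝ := L / wl + hN1 t n2 e3 f / (E * hPi t n2 e3 f)
noncomputable def hG2 : ℝ := L ^ 2 / wl + hN2 t n2 e3 f / (E * hPi t n2 e3 f)
noncomputable def hG3 : ℝ := L ^ 3 / wl + hN3 t n2 e3 f / (E * hPi t n2 e3 f)
noncomputable def hG4 : ℝ := L ^ 4 / wl + hN4 t n2 e3 f / (E * hPi t n2 e3 f)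
noncomputable def hA : ℝ := hG2 wl E t L n2 e3 f - hG1 wl E t L n2 e3 f ^ 2 / hG0 wl E t n2 e3 f
noncomputable def hB : ℝ := hG3 wl E t L n2 e3 f - hG1 wl E t L n2 e3 f * hG2 wl E t L n2 e3 f / hG0 wl E t n2 e3 f
noncomputable def hC : ℝ := hG4 wl E t L n2 e3 f - hG2 wl E t L n2 e3 f ^ 2 / hG0 wl E t n2 e3 f
end gram

section scale
variable {κ ρ wl E t L n2 e3 f wl' E' F' L' e2' e3' f' : ℝ}

theorem ePi_t (hρ : ρ ≠ 0) (h1 : E' = κ * E) (h2 : F' = κ * E * t / ρ) (h3 : e2' = -6 * (ρ ^ 2 * n2))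
    (h4 : e3' = ρ ^ 3 * e3) (h5 : f' = ρ ^ 4 * f) : ePi E' F' 0 e2' e3' f' = (κ * E) ^ 4 * hPi t n2 e3 f := by
  rw [h1, h2, h3, h4, h5, ePi, hPi]
  field_simp
  ring

theorem ck_t (hκ : κ ≠ 0) (hρ : ρ ≠ 0) (hE : E ≠ 0) (hw : wl ≠ 0) (hp : hPi t n2 e3 f ≠ 0) (h0 : wl' = κ * wl)
    (h1 : E' = κ * E) (h2 : F' = κ * E * t / ρ) (h3 : e2' = -6 * (ρ ^ 2 * n2))
    (h4 : e3' = ρ ^ 3 * e3) (h5 : f' = ρ ^ 4 * f) (h6 : L' = ρ * L) :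
    ck0 wl' E' F' e2' e3' f' = hG0 wl E t n2 e3 f / κ ∧
    ck1 wl' E' F' L' e2' e3' f' = ρ * hG1 wl E t L n2 e3 f / κ ∧
    ck2 wl' E' F' L' e2' e3' f' = ρ ^ 2 * hG2 wl E t L n2 e3 f / κ ∧
    ck3 wl' E' F' L' e2' e3' f' = ρ ^ 3 * hG3 wl E t L n2 e3 f / κ ∧
    ck4 wl' E' F' L' e2' e3' f' = ρ ^ 4 * hG4 wl E t L n2 e3 f / κ := by
  have e := ePi_t hρ h1 h2 h3 h4 h5
  have a0 : eN0 E' F' 0 e2' e3' = (κ * E) ^ 3 * hN0 t n2 e3 := by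
    rw [h1, h2, h3, h4, eN0, hN0]; field_simp; ring
  have a1 : eN1 E' F' 0 e2' e3' f' = (κ * E) ^ 3 * (ρ * hN1 t n2 e3 f) := by
    rw [h1, h2, h3, h4, h5, eN1, hN1]; field_simp; ring
  have a2 : eN2 E' F' 0 e2' e3' f' = (κ * E) ^ 3 * (ρ ^ 2 * hN2 t n2 e3 f) := by
    rw [h1, h2, h3, h4, h5, eN2, eP2, hN2]; field_simp; ring
  have a3 : eN3 E' F' 0 e2' e3' f' = (κ * E) ^ 3 * (ρ ^ 3 * hN3 t n2 e3 f) := by
    rw [h1, h2, h3, h4, h5, eN3, eP4, eP3, eP2, hN3]; field_simp; ring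
  have a4 : eN4 E' F' 0 e2' e3' f' = (κ * E) ^ 3 * (ρ ^ 4 * hN4 t n2 e3 f) := by
    rw [h1, h2, h3, h4, h5, eN4, eP5, eP4, eP3, eP2, hN4]; field_simp; ring
  rw [ck0, ck1, ck2, ck3, ck4, e, a0, a1, a2, a3, a4, hG0, hG1, hG2, hG3, hG4, h0, h6]
  generalize hPi t n2 e3 f = π at *
  refine ⟨?_, ?_, ?_, ?_, ?_⟩ <;> field_simp

theorem cABC_t (hκ : κ ≠ 0) (hρ : ρ ≠ 0) (hE : E ≠ 0) (hw : wl ≠ 0) (hp : hPi t n2 e3 f ≠ 0) (h0 : wl' = κ * wl)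
    (h1 : E' = κ * E) (h2 : F' = κ * E * t / ρ) (h3 : e2' = -6 * (ρ ^ 2 * n2))
    (h4 : e3' = ρ ^ 3 * e3) (h5 : f' = ρ ^ 4 * f) (h6 : L' = ρ * L) :
    cA wl' E' F' L' e2' e3' f' = ρ ^ 2 / κ * hA wl E t L n2 e3 f ∧
    cB wl' E' F' L' e2' e3' f' = ρ ^ 3 / κ * hB wl E t L n2 e3 f ∧
    cC wl' E' F' L' e2' e3' f' = ρ ^ 4 / κ * hC wl E t L n2 e3 f := by
  obtain ⟨a0, a1, a2, a3, a4⟩ := ck_t hκ hρ hE hw hp h0 h1 h2 h3 h4 h5 h6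
  rw [cA, cB, cC, a0, a1, a2, a3, a4, hA, hB, hC]
  generalize hG0 wl E t n2 e3 f = g0, hG1 wl E t L n2 e3 f = g1, hG2 wl E t L n2 e3 f = g2,
    hG3 wl E t L n2 e3 f = g3, hG4 wl E t L n2 e3 f = g4
  rcases eq_or_ne g0 0 with h | h
  · subst h
    refine ⟨?_, ?_, ?_⟩ <;> simp only [zero_div, div_zero, sub_zero] <;> ring
  · refine ⟨?_, ?_, ?_⟩ <;> field_simp

theorem q_norm {α β k A B C M1 M2 M3 d1 d2 A' B' C' M1' M2' M3' b1 b2 : ℝ} (hα : α ≠ 0) (hβ : β ≠ 0)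
    (h1 : A' = α * A) (h2 : B' = α * β * B) (h3 : C' = α * β ^ 2 * C) (h4 : M1' = M1 / α) (h5 : M2' = M2 / (α * β))
    (h6 : M3' = M3 / (α * β ^ 2)) (h7 : b1 = k * d1) (h8 : b2 = k / β * d2) :
    qT A' B' C' M1' M2' M3' = qT A B C M1 M2 M3 ∧ qD A' B' C' M1' M2' M3' = qD A B C M1 M2 M3 ∧
      qN A' B' C' M1' M2' M3' b1 b2 = α * k ^ 2 * qN A B C M1 M2 M3 d1 d2 := by
  rw [h1, h2, h3, h4, h5, h6, h7, h8]
  unfold qD qT qN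
  refine ⟨?_, ?_, ?_⟩ <;> field_simp
end scale

namespace Tab
variable (N : Tab) (s z p l t : ℝ)
/-- normalised values; `t = tr â³` for the unit spectrum `â`, `r = 1 - s²`, `τ = s² (s t)` -/
def nF : ℝ := N.F.gh (1 - s ^ 2) z p (s ^ 2 * (s * t)) (s * t)
def nA : ℝ := N.A.gh (1 - s ^ 2) z p (s ^ 2 * (s * t)) (s * t)
def nK : ℝ := N.K.g (1 - s ^ 2) z p (s ^ 2 * (s * t))
def nD : ℝ := N.D.g (1 - s ^ 2) z p (s ^ 2 * (s * t))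
def nB : ℝ := N.B.g (1 - s ^ 2) z p (s ^ 2 * (s * t))
def nC : ℝ := N.C.g (1 - s ^ 2) z p (s ^ 2 * (s * t))
noncomputable def g1 : ℝ := N.F.go (1 - s ^ 2) z p (s ^ 2 * (s * t)) (2 * N.al)
noncomputable def g2 : ℝ := 3 / 2 * N.F.gt (1 - s ^ 2) z p (s ^ 2 * (s * t))
noncomputable def g3 : ℝ := N.F.ghz (1 - s ^ 2) z p (s ^ 2 * (s * t)) (s * t) / 2
  - s * l * N.F.ghp (1 - s ^ 2) z p (s ^ 2 * (s * t)) (s * t)
noncomputable def M11 : ℝ := s ^ 2 * (2 * N.K.go (1 - s ^ 2) z p (s ^ 2 * (s * t)) (2 * N.al - 2))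
  - N.g1 s z p t ^ 2 / N.nF s z p t
noncomputable def M12 : ℝ := s ^ 2 * (3 / 2 * N.K.gt (1 - s ^ 2) z p (s ^ 2 * (s * t))
  + N.D.go (1 - s ^ 2) z p (s ^ 2 * (s * t)) (2 * N.al - 3)) - N.g1 s z p t * N.g2 s z p t / N.nF s z p t
noncomputable def M22 : ℝ := s ^ 2 * (3 * N.D.gt (1 - s ^ 2) z p (s ^ 2 * (s * t))) - N.g2 s z p t ^ 2 / N.nF s z p t
noncomputable def nb1 : ℝ := (N.nC s z p t + N.K.gz (1 - s ^ 2) z p (s ^ 2 * (s * t))) / 2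
  + N.A.go (1 - s ^ 2) z p (s ^ 2 * (s * t)) (2 * N.al + 1)
  + s * l * (N.B.go (1 - s ^ 2) z p (s ^ 2 * (s * t)) (2 * N.al) - N.K.gp (1 - s ^ 2) z p (s ^ 2 * (s * t))
    + s * l * N.C.go (1 - s ^ 2) z p (s ^ 2 * (s * t)) (2 * N.al - 1))
  - N.g1 s z p t * N.g3 s z p l t / N.nF s z p t
noncomputable def nb2 : ℝ := N.D.gz (1 - s ^ 2) z p (s ^ 2 * (s * t)) / 2
  + 3 / 2 * N.A.gt (1 - s ^ 2) z p (s ^ 2 * (s * t))
  + s * l * (3 / 2 * N.B.gt (1 - s ^ 2) z p (s ^ 2 * (s * t)) - N.D.gp (1 - s ^ 2) z p (s ^ 2 * (s * t))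
    + s * l * (3 / 2 * N.C.gt (1 - s ^ 2) z p (s ^ 2 * (s * t))))
  - N.g2 s z p t * N.g3 s z p l t / N.nF s z p t
noncomputable def ncc : ℝ := N.A.ghz (1 - s ^ 2) z p (s ^ 2 * (s * t)) (s * t)
  + s * l * (N.B.ghz (1 - s ^ 2) z p (s ^ 2 * (s * t)) (s * t) - 2 * N.A.ghp (1 - s ^ 2) z p (s ^ 2 * (s * t)) (s * t))
  + l ^ 2 * (N.C.gz (1 - s ^ 2) z p (s ^ 2 * (s * t)) - 2 * N.B.gp (1 - s ^ 2) z p (s ^ 2 * (s * t))
    - s * l * (2 * N.C.gp (1 - s ^ 2) z p (s ^ 2 * (s * t))))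
  - N.g3 s z p l t ^ 2 / N.nF s z p t
def nG0 : ℝ := N.c * (N.nB s z p t + N.nC s z p t * (s * t)) + (1 - s ^ 2) * (5 * N.nK s z p t - 5 * z * N.nA s z p t
  - z * N.nC s z p t + 5 * N.nD s z p t * (s * t) - N.Λ * N.nF s z p t)
def nPq : ℝ := N.c * (1 - p) - (1 - s ^ 2) * z ^ 2
end Tab

/-- the normalised domain; `w = z s`, `Z = p / 2 - w l / 4` -/
structure AdmN (c s z p l n th e3 e4 w Z : ℝ) : Prop where
  s0 : 0 < s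
  s1 : s < 1
  z0 : 0 < z
  p0 : 0 ≤ p
  p1 : p < 1
  n0 : 0 ≤ n
  th0 : -1 ≤ th
  th1 : th ≤ 1
  un : 5 / 4 * l ^ 2 + 12 * n ^ 2 = 1
  he3 : e3 = 4 * n ^ 3 * (th ^ 3 - 3 * th)
  hw : w = z * s
  hZ : Z = p / 2 - w * l / 4
  pq : 0 ≤ c * (1 - p) - (1 - s ^ 2) * z ^ 2
  r0 : w ^ 2 ≤ 5 / 14 * (p * (2 - p))
  cl : 0 ≤ w * l + p / 2
  f1 : n ^ 4 * (3 * th ^ 4 - 6 * th ^ 2) ≤ e4
  cb : 0 ≤ Z + w * n * th
  c2 : w * n ≤ Z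
  c3 : 0 ≤ 4 * Z ^ 3 - 12 * (w * n) ^ 2 * Z + w ^ 3 * e3
  c4 : 0 ≤ Z ^ 4 - 6 * (w * n) ^ 2 * Z ^ 2 + w ^ 3 * e3 * Z + w ^ 4 * e4

/-- the normalised interior condition -/
def Tab.NC (N : Tab) : Prop :=
  ∀ s z p l n th e3 e4 w Z t : ℝ, AdmN N.c s z p l n th e3 e4 w Z → t = 15 / 16 * l ^ 3 - 9 * l * n ^ 2 + 3 * e3 →
    0 < N.nF s z p t ∧ 0 < N.nK s z p t + 2 * (s * N.nD s z p t * l) ∧ 0 < 3 * N.nK s z p t + s * N.nD s z p t * l ∧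
    ∃ f : ℝ, f ≤ e4 ∧ ∀ wl E tt A B C M1 M2 M3 d1 d2 : ℝ,
      wl = N.nK s z p t + 2 * (s * N.nD s z p t * l) → E = 3 * N.nK s z p t + s * N.nD s z p t * l →
      tt = 4 * (s * N.nD s z p t) / E →
      A = hA wl E tt (5 / 4 * l) (n ^ 2) e3 f → B = s * hB wl E tt (5 / 4 * l) (n ^ 2) e3 f →
      C = s ^ 2 * hC wl E tt (5 / 4 * l) (n ^ 2) e3 f →
      M1 = N.M11 s z p t - s * l * N.M12 s z p t + (s * l) ^ 2 / 4 * N.M22 s z p t →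
      M2 = N.M12 s z p t - s * l / 2 * N.M22 s z p t → M3 = N.M22 s z p t →
      d1 = N.nb1 s z p l t - s * l / 2 * N.nb2 s z p l t → d2 = N.nb2 s z p l t →
      0 < hPi tt (n ^ 2) e3 f ∧ 0 < qD A B C M1 M2 M3 ∧ 0 < 2 + qT A B C M1 M2 M3 ∧
        0 ≤ N.nG0 s z p t + N.nPq s z p * (N.ncc s z p l t - qN A B C M1 M2 M3 d1 d2 / qD A B C M1 M2 M3)

theorem Tb.g_nil {T : Tb} (h : T.L0 = []) (s z p a : ℝ) :
    T.g (1 - s ^ 2) z p (s ^ 2 * a) = s ^ 2 * T.gh (1 - s ^ 2) z p (s ^ 2 * a) a ∧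
    T.gp (1 - s ^ 2) z p (s ^ 2 * a) = s ^ 2 * T.ghp (1 - s ^ 2) z p (s ^ 2 * a) a := by
  simp only [Tb.g, Tb.gh, Tb.gp, Tb.ghp, h, pe, pp]
  constructor <;> ring

theorem Tb.gz_nil {T : Tb} (h : ∀ r z p t, pz T.L0 r z p t = 0) (s z p a : ℝ) :
    T.gz (1 - s ^ 2) z p (s ^ 2 * a) = s ^ 2 * T.ghz (1 - s ^ 2) z p (s ^ 2 * a) a := by
  simp only [Tb.gz, Tb.ghz, h]
  ring

theorem Tab.scC_of_NC {N : Tab} (hc : 0 < N.c) (hF : N.F.L0 = []) (hA0 : N.A.L0 = [])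
    (hB0 : ∀ r z p t, pz N.B.L0 r z p t = 0) (h : N.NC) : N.ans.ScC R0 := by
  intro y l n th e3 e4 Z adm h0
  have hy : 0 < y 0 + N.c := by linarith
  have hσ := sg_pos hy
  have hσ2 := sg_sq hy
  obtain ⟨σ, eσ⟩ : ∃ σ, σ = sg N.c y := ⟨_, rfl⟩
  obtain ⟨m, m0, hm⟩ : ∃ m : ℝ, 0 < m ∧ m ^ 2 = y 0 := ⟨√(y 0), Real.sqrt_pos.2 h0, Real.sq_sqrt h0.le⟩
  rw [← eσ] at hσ hσ2
  obtain ⟨s, es⟩ : ∃ s, s = m / σ := ⟨_, rfl⟩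
  have s0 : 0 < s := by rw [es]; positivity
  have em : m = σ * s := by rw [es]; field_simp
  obtain ⟨z, ez⟩ : ∃ z, z = y 1 * σ := ⟨_, rfl⟩
  obtain ⟨p, ep⟩ : ∃ p, p = 1 - y 2 := ⟨_, rfl⟩
  obtain ⟨lh, el⟩ : ∃ lh, l = σ * s * lh := ⟨l / (σ * s), by field_simp⟩
  obtain ⟨nh, en⟩ : ∃ nh, n = σ * s * nh := ⟨n / (σ * s), by field_simp⟩
  obtain ⟨e3h, ee3⟩ : ∃ e3h, e3 = (σ * s) ^ 3 * e3h := ⟨e3 / (σ * s) ^ 3, by field_simp⟩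
  obtain ⟨e4h, ee4⟩ : ∃ e4h, e4 = (σ * s) ^ 4 * e4h := ⟨e4 / (σ * s) ^ 4, by field_simp⟩
  obtain ⟨t, et⟩ : ∃ t, t = 15 / 16 * lh ^ 3 - 9 * lh * nh ^ 2 + 3 * e3h := ⟨_, rfl⟩
  have ρ0 : 0 < σ * s := by positivity
  have y0 : y 0 = (σ * s) ^ 2 := by rw [← hm, em]
  have y1 : y 1 = z / σ := by rw [ez]; field_simp
  have y2 : y 2 = 1 - p := by rw [ep]; ring
  have y4 : y 4 = (σ * s) ^ 3 * t := by rw [adm.y4, el, en, ee3, et]; ring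
  have hr : N.c / σ ^ 2 = 1 - s ^ 2 := by
    rw [div_eq_iff (by positivity)]
    linear_combination (-1 : ℝ) * hσ2 - y0
  have hcr : N.c = σ ^ 2 * (1 - s ^ 2) := by rw [← hr]; field_simp
  have hτ : y 4 / σ ^ 3 = s ^ 2 * (s * t) := by rw [y4]; field_simp
  have s1 : s < 1 := by
    have : 0 < 1 - s ^ 2 := by rw [← hr]; positivity
    nlinarith
  have uw : y 1 * (σ * s) = z * s := by rw [ez]; ring
  have ul : y 1 * l = z * s * lh := by rw [el, ← uw]; ring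
  have un : y 1 * n = z * s * nh := by rw [en, ← uw]; ring
  have u3 : y 1 ^ 3 * e3 = (z * s) ^ 3 * e3h := by rw [ee3, ← uw]; ring
  have u4 : y 1 ^ 4 * e4 = (z * s) ^ 4 * e4h := by rw [ee4, ← uw]; ring
  have pqe : y 2 - y 1 ^ 2 = N.nPq s z p / N.c := by
    rw [Tab.nPq, y1, y2, eq_div_iff hc.ne', hcr]
    field_simp
  have adn : AdmN N.c s z p lh nh th e3h e4h (z * s) Z := by
    refine ⟨s0, s1, by rw [ez]; exact mul_pos adm.u0 hσ, by rw [ep]; linarith [adm.S1], ?_, ?_, adm.th0, adm.th1, ?_, ?_,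
      rfl, ?_, ?_, ?_, ?_, ?_, ?_, ?_, ?_, ?_⟩
    · have := adm.uS
      have := pow_pos adm.u0 2
      rw [ep]; linarith
    · have := adm.n0
      rw [en] at this
      exact nonneg_of_mul_nonneg_right this ρ0
    · have := adm.y0
      rw [y0, el, en] at this
      refine mul_left_cancel₀ (pow_pos ρ0 2).ne' ?_
      linear_combination -this
    · have := adm.he3
      rw [ee3, en] at this
      refine mul_left_cancel₀ (pow_pos ρ0 3).ne' ?_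
      linear_combination this
    · rw [adm.hZ, ul, ep]
    · have h1 := sub_nonneg.2 adm.uS
      rw [pqe] at h1
      exact (le_div_iff₀ hc).1 h1 |>.trans' (zero_mul _).ge
    · have := adm.R
      rw [R0, y0, y2, ← mul_pow, uw] at this
      linarith
    · have := adm.cl
      rwa [ul, ← ep] at this
    · have := adm.f1
      rw [ee4, en] at this
      refine le_of_mul_le_mul_left ?_ (pow_pos ρ0 4)
      linarith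
    · have := adm.cb
      rwa [un] at this
    · have := adm.c2
      rwa [un] at this
    · have := adm.c3
      rwa [un, u3] at this
    · have := adm.c4
      rwa [un, u3, u4] at this
  obtain ⟨kF, kw, kE, f, hf, hk⟩ := h s z p lh nh th e3h e4h _ Z t adn et
  obtain ⟨kp, kD, kT, kG⟩ := hk _ _ _ _ _ _ _ _ _ _ _ rfl rfl rfl rfl rfl rfl rfl rfl rfl rfl rfl
  obtain ⟨W, eW⟩ : ∃ W, W = σ ^ (2 * N.al) := ⟨_, rfl⟩
  have W0 : 0 < W := by rw [eW]; positivity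
  have w1 : σ ^ (2 * N.al - 1) = W / σ := by rw [eW, Real.rpow_sub_one hσ.ne']
  have w2 : σ ^ (2 * N.al - 2) = W / σ ^ 2 := by rw [eW, Real.rpow_sub hσ, Real.rpow_two]
  have w3 : σ ^ (2 * N.al - 3) = W / σ ^ 3 := by
    rw [eW, Real.rpow_sub hσ, show (3 : ℝ) = ((3 : ℕ) : ℝ) by norm_num, Real.rpow_natCast]
  have w4 : σ ^ (2 * N.al + 1) = W * σ := by rw [eW, Real.rpow_add_one hσ.ne']
  have a0 : N.ans.c 0 = cf N.c (2 * N.al - 2) N.K := rfl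
  have a2 : N.ans.c 2 = cf N.c (2 * N.al + 1) N.A := rfl
  have a3 : N.ans.c 3 = cf N.c (2 * N.al) N.B := rfl
  have a4 : N.ans.c 4 = cf N.c (2 * N.al - 1) N.C := rfl
  have a5 : N.ans.c 5 = fun _ => 0 := rfl
  have a7 : N.ans.c 7 = cf N.c (2 * N.al - 3) N.D := rfl
  have aΦ : N.ans.Φ = cf N.c (2 * N.al) N.F := rfl
  have aΛ : N.ans.Λ = N.Λ := rfl
  have v : ∀ (e : ℝ) (T : Tb), cf N.c e T y = σ ^ e * T.g (1 - s ^ 2) z p (s ^ 2 * (s * t)) := fun e T => by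
    rw [cf, ← eσ, hr, hτ, ← ez, ← ep]
  have d0 : ∀ (e : ℝ) (T : Tb), (cf N.c e T).D 0 y = σ ^ e / σ ^ 2 * T.go (1 - s ^ 2) z p (s ^ 2 * (s * t)) e :=
    fun e T => by rw [cf_D0 hy, ← eσ, hr, hτ, ← ez, ← ep]
  have d1 : ∀ (e : ℝ) (T : Tb), (cf N.c e T).D 1 y = σ ^ e * σ * T.gz (1 - s ^ 2) z p (s ^ 2 * (s * t)) :=
    fun e T => by rw [cf_D1, ← eσ, hr, hτ, ← ez, ← ep]
  have d2 : ∀ (e : ℝ) (T : Tb), (cf N.c e T).D 2 y = -(σ ^ e * T.gp (1 - s ^ 2) z p (s ^ 2 * (s * t))) :=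
    fun e T => by rw [cf_D2, ← eσ, hr, hτ, ← ez, ← ep]
  have d4 : ∀ (e : ℝ) (T : Tb), (cf N.c e T).D 4 y = σ ^ e / σ ^ 3 * T.gt (1 - s ^ 2) z p (s ^ 2 * (s * t)) :=
    fun e T => by rw [cf_D4, ← eσ, hr, hτ, ← ez, ← ep]
  have F0 := Tb.g_nil hF s z p (s * t)
  have A0 := Tb.g_nil hA0 s z p (s * t)
  have Fz := Tb.gz_nil (T := N.F) (fun _ _ _ _ => by rw [hF, pz]) s z p (s * t)
  have Az := Tb.gz_nil (T := N.A) (fun _ _ _ _ => by rw [hA0, pz]) s z p (s * t)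
  have Bz := Tb.gz_nil hB0 s z p (s * t)
  have kF' := kF.ne'
  have vΦ : N.ans.Φ y = W * (s ^ 2 * N.nF s z p t) := by rw [aΦ, v, F0.1, ← eW, Tab.nF]
  have v0 : N.ans.c 0 y = W / σ ^ 2 * N.nK s z p t := by rw [a0, v, w2, Tab.nK]
  have v7 : N.ans.c 7 y = W / σ ^ 3 * N.nD s z p t := by rw [a7, v, w3, Tab.nD]
  have ewl : N.ans.c 0 y + 2 * N.ans.c 7 y * l = W / σ ^ 2 * (N.nK s z p t + 2 * (s * N.nD s z p t * lh)) := by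
    rw [v0, v7, el]; field_simp
  have eE : 3 * N.ans.c 0 y + N.ans.c 7 y * l = W / σ ^ 2 * (3 * N.nK s z p t + s * N.nD s z p t * lh) := by
    rw [v0, v7, el]; field_simp
  have eF : 4 * N.ans.c 7 y = W / σ ^ 2 * (3 * N.nK s z p t + s * N.nD s z p t * lh)
      * (4 * (s * N.nD s z p t) / (3 * N.nK s z p t + s * N.nD s z p t * lh)) / (σ * s) := by
    rw [v7]
    generalize 3 * N.nK s z p t + s * N.nD s z p t * lh = E at kE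
    field_simp
  have e2' : -6 * n ^ 2 = -6 * ((σ * s) ^ 2 * nh ^ 2) := by rw [en]; ring
  have eL : 5 / 4 * l = σ * s * (5 / 4 * lh) := by rw [el]; ring
  have κ0 : 0 < W / σ ^ 2 := by positivity
  refine ⟨by rw [vΦ]; positivity, by rw [ewl]; positivity, (σ * s) ^ 4 * f,
    by rw [ee4]; exact mul_le_mul_of_nonneg_left hf (by positivity), ?_, ?_⟩
  · rw [ePi_t ρ0.ne' eE eF e2' ee3 rfl]
    positivity
  rintro A B C M1 M2 M3 b1 b2 rfl rfl rfl rfl rfl rfl rfl rfl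
  obtain ⟨c1, c2, c3⟩ := cABC_t κ0.ne' ρ0.ne' kE.ne' kw.ne' kp.ne' ewl eE eF e2' ee3 rfl eL
  have m1 : N.ans.M1 y = N.M11 s z p t / (σ ^ 4 * s ^ 2 / W) := by
    rw [Ans.M1, vΦ, a0, aΦ, d0, d0, w2, ← eW, Tab.M11, Tab.g1]
    field_simp
  have m2 : N.ans.M2 y = N.M12 s z p t / (σ ^ 4 * s ^ 2 / W * σ) := by
    rw [Ans.M2, vΦ, a0, a7, aΦ, d0, d0, d4, d4, w2, w3, ← eW, Tab.M12, Tab.g1, Tab.g2]
    field_simp
  have m3 : N.ans.M3 y = N.M22 s z p t / (σ ^ 4 * s ^ 2 / W * σ ^ 2) := by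
    rw [Ans.M3, vΦ, a7, aΦ, d4, d4, w3, ← eW, Tab.M22, Tab.g2]
    field_simp
    ring
  have PΦ : N.ans.Φ.P y l = W * σ * (s ^ 2 * (2 * N.g3 s z p lh t)) := by
    rw [Cf.P, aΦ, d1, d2, ← eW, Fz, F0.2, Tab.g3, el]
    ring
  have n1 : N.ans.b1 y l = W / σ * N.nb1 s z p lh t := by
    rw [Ans.b1, PΦ, vΦ, Cf.P, a0, a2, a3, a4, a5, aΦ, Cf.D_zero, v, d0, d0, d0, d0, d1, d2, w1, w2, w4, ← eW, Tab.nb1,
      Tab.nC, Tab.g1, el]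
    field_simp
    ring
  have n2 : N.ans.b2 y l = W / σ / σ * N.nb2 s z p lh t := by
    rw [Ans.b2, PΦ, vΦ, Cf.P, a7, a2, a3, a4, a5, aΦ, Cf.D_zero, d4, d4, d4, d4, d1, d2, w1, w3, w4, ← eW, Tab.nb2,
      Tab.g2, el]
    field_simp
    ring
  have n3 : N.ans.cc y l = W * σ ^ 2 * s ^ 2 * N.ncc s z p lh t := by
    rw [Ans.cc, PΦ, vΦ, Cf.P, Cf.P, Cf.P, Cf.P, a2, a3, a4, a5, Cf.D_zero, Cf.D_zero, d1, d1, d1, d2, d2, d2, w1, w4, ← eW,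
      Az, Bz, A0.2, Tab.ncc, el]
    field_simp
    ring
  have n4 : ∀ t4 : ℝ, N.ans.G0 5 y t4 = W * σ ^ 2 * s ^ 2 * N.nG0 s z p t / N.c := fun t4 => by
    rw [Ans.G0, vΦ, v0, v7, a2, a3, a4, a5, aΛ, v, v, v, w1, w4, ← eW, A0.1, y0, y1, y4, Tab.nG0, Tab.nA, Tab.nB, Tab.nC,
      eq_div_iff hc.ne', hcr]
    push_cast
    field_simp
    ring
  have z1 : ∀ X : ℝ, (σ * s) ^ 2 / (W / σ ^ 2) * X = σ ^ 4 * s ^ 2 / W * X := fun X => by field_simp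
  have z2 : ∀ X : ℝ, (σ * s) ^ 3 / (W / σ ^ 2) * X = σ ^ 4 * s ^ 2 / W * σ * (s * X) := fun X => by field_simp
  have z3 : ∀ X : ℝ, (σ * s) ^ 4 / (W / σ ^ 2) * X = σ ^ 4 * s ^ 2 / W * σ ^ 2 * (s ^ 2 * X) := fun X => by field_simp
  obtain ⟨q1, q2, q3⟩ := q_norm (α := σ ^ 4 * s ^ 2 / W) (β := σ) (k := W / σ) (by positivity) hσ.ne'
    (c1.trans (z1 _)) (c2.trans (z2 _)) (c3.trans (z3 _))
    (M1' := N.ans.M1 y - l * N.ans.M2 y + l ^ 2 / 4 * N.ans.M3 y)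
    (M1 := N.M11 s z p t - s * lh * N.M12 s z p t + (s * lh) ^ 2 / 4 * N.M22 s z p t)
    (by rw [m1, m2, m3, el]; field_simp)
    (M2' := N.ans.M2 y - l / 2 * N.ans.M3 y) (M2 := N.M12 s z p t - s * lh / 2 * N.M22 s z p t)
    (by rw [m2, m3, el]; field_simp) m3
    (b1 := N.ans.b1 y l - l / 2 * N.ans.b2 y l) (d1 := N.nb1 s z p lh t - s * lh / 2 * N.nb2 s z p lh t)
    (by rw [n1, n2, el]; field_simp) n2
  rw [q1, q2, q3, n3, n4, pqe]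
  refine ⟨kD, kT, ?_⟩
  generalize qD _ _ _ _ _ _ = Dq at kD kG ⊢
  generalize qN _ _ _ _ _ _ _ _ = Nq at kG ⊢
  have k1 := mul_nonneg (show 0 ≤ W * σ ^ 2 * s ^ 2 / N.c * Dq by positivity) kG
  refine sub_nonneg.1 (k1.trans_eq ?_)
  field_simp
  ring

/-- parametrisation of the ellipse `5/4 l² + 12 n² = 1`, `n ≥ 0` -/
theorem exists_ph {l n : ℝ} (n0 : 0 ≤ n) (h : 5 / 4 * l ^ 2 + 12 * n ^ 2 = 1) : ∃ ph : ℝ, -1 ≤ ph ∧ ph ≤ 1 ∧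
    l = ph / (1 + ph ^ 2) * √(16 / 5) ∧ n = (2 / (1 + ph ^ 2) - 1) * √(1 / 12) := by
  obtain ⟨a, a0, ha⟩ : ∃ a : ℝ, 0 < a ∧ a = √(16 / 5) := ⟨_, by positivity, rfl⟩
  obtain ⟨b, b0, hb⟩ : ∃ b : ℝ, 0 < b ∧ b = √(1 / 12) := ⟨_, by positivity, rfl⟩
  have a2 : a ^ 2 = 16 / 5 := by rw [ha, Real.sq_sqrt (by norm_num)]
  have b2 : b ^ 2 = 1 / 12 := by rw [hb, Real.sq_sqrt (by norm_num)]
  obtain ⟨X, hX⟩ : ∃ X, l = X * a / 2 := ⟨2 * l / a, by field_simp⟩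
  obtain ⟨Y, hY⟩ : ∃ Y, n = Y * b := ⟨n / b, by field_simp⟩
  have Y0 : 0 ≤ Y := nonneg_of_mul_nonneg_left (hY ▸ n0) b0
  have e : X ^ 2 + Y ^ 2 = 1 := by
    rw [hX, hY] at h
    linear_combination h - 5 / 16 * X ^ 2 * a2 - 12 * Y ^ 2 * b2
  have hX1 := abs_le_of_sq_le_sq' (show X ^ 2 ≤ (1 + Y) ^ 2 by nlinarith) (by linarith)
  have Y1 : 0 < 1 + Y := by linarith
  have e2 : 1 + (X / (1 + Y)) ^ 2 = 2 / (1 + Y) := by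
    field_simp
    linear_combination e
  refine ⟨X / (1 + Y), by rw [le_div_iff₀ Y1]; linarith [hX1.1], by rw [div_le_iff₀ Y1]; linarith [hX1.2], ?_, ?_⟩
  · rw [e2, ← ha, hX]; field_simp
  · rw [e2, ← hb, hY]; field_simp; ring

end Crest.Agent.R97
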