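import Crest.Agent.R97.CertS2
import Crest.Agent.R97.CertB8

/-! CertMX (helper53): the interior condition `NW` from the PRIMAL MATRIX: a polynomial quadratic form in five unknowns
`(π, xb, xc, xd, η)` on the double-root spectra `(l; b, b, c, d)`. -/

set_option autoImplicit false
open Finset Filter Topology

namespace Crest.Agent.R97

/-- from the primal form to the dual form -/
theorem mx_dual {A B C v w Q M1 M2 M3 b1 b2 γ : ℝ}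
    (hΓ : ∀ α β : ℝ, 0 ≤ α ^ 2 * A + 2 * α * β * B + β ^ 2 * C)
    (hQ : ∀ α β : ℝ, 2 * (α * v + β * w) - (α ^ 2 * A + 2 * α * β * B + β ^ 2 * C) ≤ Q)
    (h : ∀ α β : ℝ, 0 ≤ (α ^ 2 * A + 2 * α * β * B + β ^ 2 * C) + (M1 * (A * α + B * β) ^ 2
      + 2 * M2 * (A * α + B * β) * (B * α + C * β) + M3 * (B * α + C * β) ^ 2)
      + (b1 * (A * α + B * β) + b2 * (B * α + C * β)) + γ) :
    0 ≤ Q + (M1 * v ^ 2 + 2 * M2 * v * w + M3 * w ^ 2) + (b1 * v + b2 * w) + γ := by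
  have hA : 0 ≤ A := by simpa using hΓ 1 0
  have hC : 0 ≤ C := by simpa using hΓ 0 1
  have hB : B ^ 2 ≤ A * C := by
    have := discrim_le_zero (a := A) (b := 2 * B) (c := C) fun x => by nlinarith [hΓ x 1]
    rw [discrim] at this
    nlinarith
  have Q0 : 0 ≤ Q := by simpa using hQ 0 0
  have key : ∀ e : ℝ, 0 < e → ∃ a b : ℝ, a ^ 2 + b ^ 2 ≤ e * Q ∧
      0 ≤ Q + (M1 * (v - a) ^ 2 + 2 * M2 * (v - a) * (w - b) + M3 * (w - b) ^ 2) + (b1 * (v - a) + b2 * (w - b)) + γ := by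
    intro e he
    obtain ⟨D, hD⟩ : ∃ D, D = (A + e) * (C + e) - B ^ 2 := ⟨_, rfl⟩
    have D0 : 0 < D := by rw [hD]; nlinarith
    obtain ⟨α, hα⟩ : ∃ α, α = ((C + e) * v - B * w) / D := ⟨_, rfl⟩
    obtain ⟨β, hβ⟩ : ∃ β, β = ((A + e) * w - B * v) / D := ⟨_, rfl⟩
    have e1 : A * α + B * β = v - e * α := by
      rw [hα, hβ]; field_simp; rw [hD]; ring
    have e2 : B * α + C * β = w - e * β := by
      rw [hα, hβ]; field_simp; rw [hD]; ring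
    have e3 : α * v + β * w = (α ^ 2 * A + 2 * α * β * B + β ^ 2 * C) + e * (α ^ 2 + β ^ 2) := by
      linear_combination (-α) * e1 - β * e2
    have k1 := hQ α β
    have k2 := h α β
    have k3 := hΓ α β
    rw [e1, e2] at k2
    rw [e3] at k1
    have k4 : 0 ≤ e * (α ^ 2 + β ^ 2) := by positivity
    refine ⟨e * α, e * β, ?_, by linarith⟩
    have : e * (e * (α ^ 2 + β ^ 2)) ≤ e * Q := mul_le_mul_of_nonneg_left (by linarith) he.le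
    nlinarith
  by_contra hn
  have cf : Continuous fun y : ℝ × ℝ => Q + (M1 * (v - y.1) ^ 2 + 2 * M2 * (v - y.1) * (w - y.2) + M3 * (w - y.2) ^ 2)
      + (b1 * (v - y.1) + b2 * (w - y.2)) + γ := by fun_prop
  have ev := (cf.tendsto (0, 0)).eventually (gt_mem_nhds (a := 0) (by simpa using not_le.1 hn))
  obtain ⟨r, r0, hr⟩ := Metric.eventually_nhds_iff.1 ev
  obtain ⟨a, b, h1, h2⟩ := key (r ^ 2 / (Q + 1)) (by positivity)
  have h3 : r ^ 2 / (Q + 1) * Q < r ^ 2 := by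
    rw [div_mul_eq_mul_div, div_lt_iff₀ (by positivity)]
    nlinarith [pow_pos r0 2]
  have h4 : dist (a, b) ((0, 0) : ℝ × ℝ) < r := by
    rw [Prod.dist_eq, max_lt_iff, Real.dist_eq, Real.dist_eq, sub_zero, sub_zero]
    exact ⟨abs_lt_of_sq_lt_sq (by nlinarith [sq_nonneg b]) r0.le, abs_lt_of_sq_lt_sq (by nlinarith [sq_nonneg a]) r0.le⟩
  exact absurd (hr h4) (not_lt.2 h2)

/-- the `T`-form on the double-root spectrum, `xl = -(2 xb + xc + xd)` -/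
def mxQ (K D l b c d xb xc xd : ℝ) : ℝ := (K + 2 * D * l) * (2 * xb + xc + xd) ^ 2 + 2 * (3 * K + 2 * D * (l + 2 * b)) * xb ^ 2
  + (3 * K + 2 * D * (l + 2 * c)) * xc ^ 2 + (3 * K + 2 * D * (l + 2 * d)) * xd ^ 2
/-- `T(a)` -/
def mxV (l b c d xb xc xd : ℝ) : ℝ := 2 * (b - l) * xb + (c - l) * xc + (d - l) * xd
/-- `T(a²)` -/
def mxW (l b c d xb xc xd : ℝ) : ℝ := 2 * (b ^ 2 - l ^ 2) * xb + (c ^ 2 - l ^ 2) * xc + (d ^ 2 - l ^ 2) * xd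

theorem mx_form {K D l b c d v w Q M1 M2 M3 b1 b2 γ : ℝ} {μ : Fin 4 → ℝ} (hl : 0 < K + 2 * D * l)
    (hμ : ∀ j, 0 < K + 2 * D * μ j) (hb : 0 < 3 * K + 2 * D * (l + 2 * b)) (hc : 0 < 3 * K + 2 * D * (l + 2 * c))
    (hd : 0 < 3 * K + 2 * D * (l + 2 * d)) (h1 : μ 0 + μ 1 + μ 2 + μ 3 = b + b + c + d)
    (h2 : μ 0 * μ 1 + μ 0 * μ 2 + μ 0 * μ 3 + μ 1 * μ 2 + μ 1 * μ 3 + μ 2 * μ 3 = b * b + b * c + b * d + b * c + b * d + c * d)
    (h3 : μ 0 * μ 1 * μ 2 + μ 0 * μ 1 * μ 3 + μ 0 * μ 2 * μ 3 + μ 1 * μ 2 * μ 3 = b * b * c + b * b * d + b * c * d + b * c * d)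
    (h4 : b * b * c * d ≤ μ 0 * μ 1 * μ 2 * μ 3)
    (hQ : ∀ α β : ℝ, 2 * (α * v + β * w) - (α ^ 2 * gA K D l μ + 2 * α * β * gB K D l μ + β ^ 2 * gC K D l μ) ≤ Q)
    (h : ∀ xb xc xd : ℝ, 0 ≤ mxQ K D l b c d xb xc xd + (M1 * mxV l b c d xb xc xd ^ 2
      + 2 * M2 * mxV l b c d xb xc xd * mxW l b c d xb xc xd + M3 * mxW l b c d xb xc xd ^ 2)
      + (b1 * mxV l b c d xb xc xd + b2 * mxW l b c d xb xc xd) + γ) :
    0 ≤ Q + (M1 * v ^ 2 + 2 * M2 * v * w + M3 * w ^ 2) + (b1 * v + b2 * w) + γ := by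
  obtain ⟨il, hil⟩ : ∃ x, x = (K + 2 * D * l)⁻¹ := ⟨_, rfl⟩
  obtain ⟨ib, hib⟩ : ∃ x, x = (3 * K + 2 * D * (l + 2 * b))⁻¹ := ⟨_, rfl⟩
  obtain ⟨ic, hic⟩ : ∃ x, x = (3 * K + 2 * D * (l + 2 * c))⁻¹ := ⟨_, rfl⟩
  obtain ⟨id, hid⟩ : ∃ x, x = (3 * K + 2 * D * (l + 2 * d))⁻¹ := ⟨_, rfl⟩
  have pl : 0 < il := hil ▸ inv_pos.2 hl
  have pb : 0 < ib := hib ▸ inv_pos.2 hb
  have pc : 0 < ic := hic ▸ inv_pos.2 hc
  have pd : 0 < id := hid ▸ inv_pos.2 hd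
  have ul : (K + 2 * D * l) * il = 1 := by rw [hil]; exact mul_inv_cancel₀ hl.ne'
  have ub : (3 * K + 2 * D * (l + 2 * b)) * ib = 1 := by rw [hib]; exact mul_inv_cancel₀ hb.ne'
  have uc : (3 * K + 2 * D * (l + 2 * c)) * ic = 1 := by rw [hic]; exact mul_inv_cancel₀ hc.ne'
  have ud : (3 * K + 2 * D * (l + 2 * d)) * id = 1 := by rw [hid]; exact mul_inv_cancel₀ hd.ne'
  obtain ⟨s0, h0⟩ : ∃ x, x = il + 2 * ib + ic + id := ⟨_, rfl⟩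
  have p0 : 0 < s0 := by rw [h0]; positivity
  obtain ⟨i0, hi0⟩ : ∃ x, x = s0⁻¹ := ⟨_, rfl⟩
  have u0 : (il + 2 * ib + ic + id) * i0 = 1 := by rw [hi0, ← h0]; exact mul_inv_cancel₀ p0.ne'
  obtain ⟨s1, g1⟩ : ∃ x, x = l * il + 2 * b * ib + c * ic + d * id := ⟨_, rfl⟩
  obtain ⟨s2, g2⟩ : ∃ x, x = l ^ 2 * il + 2 * b ^ 2 * ib + c ^ 2 * ic + d ^ 2 * id := ⟨_, rfl⟩
  obtain ⟨s3, g3⟩ : ∃ x, x = l ^ 3 * il + 2 * b ^ 3 * ib + c ^ 3 * ic + d ^ 3 * id := ⟨_, rfl⟩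
  obtain ⟨s4, g4⟩ : ∃ x, x = l ^ 4 * il + 2 * b ^ 4 * ib + c ^ 4 * ic + d ^ 4 * id := ⟨_, rfl⟩
  have gr : ∀ α β θ : ℝ, θ = -(α * s1 + β * s2) * i0 →
      α ^ 2 * (s2 - s1 ^ 2 * i0) + 2 * α * β * (s3 - s1 * s2 * i0) + β ^ 2 * (s4 - s2 ^ 2 * i0)
      = (θ + α * l + β * l ^ 2) ^ 2 * il + 2 * (θ + α * b + β * b ^ 2) ^ 2 * ib + (θ + α * c + β * c ^ 2) ^ 2 * ic
        + (θ + α * d + β * d ^ 2) ^ 2 * id := fun α β θ hθ => by
    have e : (θ + α * l + β * l ^ 2) ^ 2 * il + 2 * (θ + α * b + β * b ^ 2) ^ 2 * ib + (θ + α * c + β * c ^ 2) ^ 2 * ic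
        + (θ + α * d + β * d ^ 2) ^ 2 * id = θ ^ 2 * (il + 2 * ib + ic + id) + 2 * θ * (α * s1 + β * s2)
          + α ^ 2 * s2 + 2 * α * β * s3 + β ^ 2 * s4 := by rw [g1, g2, g3, g4]; ring
    rw [e, hθ]
    linear_combination (-(α * s1 + β * s2) ^ 2 * i0) * u0
  refine mx_dual (A := s2 - s1 ^ 2 * i0) (B := s3 - s1 * s2 * i0) (C := s4 - s2 ^ 2 * i0) (fun α β => ?_) (fun α β => ?_)
    (fun α β => ?_)
  · rw [gr α β _ rfl]; positivity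
  · refine le_trans (sub_le_sub_left ?_ _) (hQ α β)
    obtain ⟨θ, hθ⟩ : ∃ θ, θ = -(α * s1 + β * s2) * i0 := ⟨_, rfl⟩
    rw [gr α β θ hθ]
    refine (q_gram_le hl hμ α β θ).trans ?_
    have ew : ∀ x : ℝ, 3 * K + 2 * D * (l + 2 * x) = (3 * K + 2 * D * l) + 4 * D * x := fun x => by ring
    have hw : ∀ j, 0 < (3 * K + 2 * D * l) + 4 * D * μ j := fun j => by linarith [hμ j]
    rw [ew] at hb hc hd ub uc ud
    have hP : 0 < ePi (3 * K + 2 * D * l) (4 * D) (b + b + c + d) (b * b + b * c + b * d + b * c + b * d + c * d)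
        (b * b * c + b * b * d + b * c * d + b * c * d) (b * b * c * d) := by rw [ePi_eq]; positivity
    have g := e4_gram (hw 0) (hw 1) (hw 2) (hw 3) h1.symm h2.symm h3.symm h4 hP θ α β
    rw [ePi_eq, eNq_eq] at g
    simp only [Fin.sum_univ_four, ew]
    rw [hil, div_eq_mul_inv, add_assoc (_ * _⁻¹), add_assoc (_ * _⁻¹)]
    refine add_le_add le_rfl (g.trans (le_of_eq ?_))
    rw [hib, hic, hid, ew, ew, ew]
    generalize θ + α * b + β * b ^ 2 = qb, θ + α * c + β * c ^ 2 = qc, θ + α * d + β * d ^ 2 = qd,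
      3 * K + 2 * D * l + 4 * D * b = wb, 3 * K + 2 * D * l + 4 * D * c = wc, 3 * K + 2 * D * l + 4 * D * d = wd at *
    field_simp
    ring
  · obtain ⟨θ, hθ⟩ : ∃ θ, θ = -(α * s1 + β * s2) * i0 := ⟨_, rfl⟩
    have k := h ((θ + α * b + β * b ^ 2) * ib) ((θ + α * c + β * c ^ 2) * ic) ((θ + α * d + β * d ^ 2) * id)
    have z0 : θ * (il + 2 * ib + ic + id) + (α * s1 + β * s2) = 0 := by
      rw [hθ]; linear_combination (-(α * s1 + β * s2)) * u0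
    have xl : 2 * ((θ + α * b + β * b ^ 2) * ib) + (θ + α * c + β * c ^ 2) * ic + (θ + α * d + β * d ^ 2) * id
        = -((θ + α * l + β * l ^ 2) * il) := by
      rw [g1, g2] at z0; linear_combination z0
    have eV : mxV l b c d ((θ + α * b + β * b ^ 2) * ib) ((θ + α * c + β * c ^ 2) * ic) ((θ + α * d + β * d ^ 2) * id)
        = (s2 - s1 ^ 2 * i0) * α + (s3 - s1 * s2 * i0) * β := by
      have : θ * s1 + α * s2 + β * s3 = (s2 - s1 ^ 2 * i0) * α + (s3 - s1 * s2 * i0) * β := by rw [hθ]; ring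
      rw [← this, mxV, g1, g2, g3]
      linear_combination (-l) * xl
    have eW : mxW l b c d ((θ + α * b + β * b ^ 2) * ib) ((θ + α * c + β * c ^ 2) * ic) ((θ + α * d + β * d ^ 2) * id)
        = (s3 - s1 * s2 * i0) * α + (s4 - s2 ^ 2 * i0) * β := by
      have : θ * s2 + α * s3 + β * s4 = (s3 - s1 * s2 * i0) * α + (s4 - s2 ^ 2 * i0) * β := by rw [hθ]; ring
      rw [← this, mxW, g2, g3, g4]
      linear_combination (-l ^ 2) * xl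
    have eQ : mxQ K D l b c d ((θ + α * b + β * b ^ 2) * ib) ((θ + α * c + β * c ^ 2) * ic) ((θ + α * d + β * d ^ 2) * id)
        = α ^ 2 * (s2 - s1 ^ 2 * i0) + 2 * α * β * (s3 - s1 * s2 * i0) + β ^ 2 * (s4 - s2 ^ 2 * i0) := by
      rw [gr α β θ hθ, mxQ, xl]
      linear_combination (θ + α * l + β * l ^ 2) ^ 2 * il * ul + 2 * (θ + α * b + β * b ^ 2) ^ 2 * ib * ub
        + (θ + α * c + β * c ^ 2) ^ 2 * ic * uc + (θ + α * d + β * d ^ 2) ^ 2 * id * ud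
    rwa [eV, eW, eQ] at k

namespace Tab
variable (N : Tab) (s z p θ w : ℝ)
noncomputable def m1 : ℝ := 2 * s ^ 2 * N.K.vo s z p θ (2 * N.al - 2)
noncomputable def m2 : ℝ := s ^ 3 * (3 * N.K.vt s z p θ + 2 * N.D.vo s z p θ (2 * N.al - 3)) / 2
def m3 : ℝ := 3 * s ^ 4 * N.D.vt s z p θ
noncomputable def a1 : ℝ := (N.C.v s z p θ + (N.K.vz s z p θ - 2 * s * w * N.K.vp s z p θ)
  + 2 * (N.A.vo s z p θ (2 * N.al + 1) + s * w * N.B.vo s z p θ (2 * N.al)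
    + (s * w) ^ 2 * N.C.vo s z p θ (2 * N.al - 1))) / 2
noncomputable def a2 : ℝ := s * (((N.D.vz s z p θ - 2 * s * w * N.D.vp s z p θ)
  + 3 * (N.A.vt s z p θ + s * w * N.B.vt s z p θ + (s * w) ^ 2 * N.C.vt s z p θ)) / 2)
def c0 : ℝ := (N.A.hz s z p θ - 2 * s * w * N.A.hp s z p θ) + w * (s * N.B.hz s z p θ - 2 * w * N.B.vp s z p θ)
  + w ^ 2 * (N.C.vz s z p θ - 2 * s * w * N.C.vp s z p θ)
noncomputable def g1 : ℝ := 2 * N.F.vo s z p θ (2 * N.al)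
def g2 : ℝ := 3 * s * N.F.vt s z p θ

/-- the primal form; `V = T(a)`, `W = T(a²)`, `Q` = the `T`-form, `P` = (a majorant of) `|P|` -/
noncomputable def form (P π η Q V W : ℝ) : ℝ :=
  Q + (N.m1 s z p θ * V ^ 2 + 2 * N.m2 s z p θ * V * W + N.m3 s z p θ * W ^ 2)
    + 2 * π * P * (N.a1 s z p θ w * V + N.a2 s z p θ w * W)
    + π ^ 2 * (N.G0 s z p θ 5 + N.PP s z p * N.c0 s z p θ w)
    + N.F.h s z p θ * η ^ 2 + η * (N.g1 s z p θ * V + N.g2 s z p θ * W + P * N.FP s z p θ w * π)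

/-- the matrix condition at the spectrum `(l; b, b, c, d)` -/
def MXat (s z p θ l b c d : ℝ) : Prop :=
  0 < N.F.h s z p θ ∧ 0 < N.K.v s z p θ + 2 * (s * N.D.v s z p θ) * l ∧
    0 < 3 * N.K.v s z p θ + 2 * (s * N.D.v s z p θ) * (l + 2 * c) ∧
    0 < 3 * N.K.v s z p θ + 2 * (s * N.D.v s z p θ) * (l + 2 * d) ∧
    ∃ P : ℝ, 0 < P ∧ N.PP s z p ≤ P ^ 2 ∧ ∀ π xb xc xd η : ℝ,
      0 ≤ N.form s z p θ l P π η (mxQ (N.K.v s z p θ) (s * N.D.v s z p θ) l b c d xb xc xd) (mxV l b c d xb xc xd)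
        (mxW l b c d xb xc xd)

/-- the matrix condition on the domain `S2.Dom` -/
def MX : Prop := ∀ s z p l n th e3 e4 δ θ : ℝ, S2.Dom N.c s z p l n th e3 e4 → 0 ≤ δ → δ ^ 2 = 6 - 2 * th ^ 2 →
  θ = l * (15 / 16 * l ^ 2 - 9 * n ^ 2) + 3 * e3 →
  N.MXat s z p θ l (-l / 4 + n * th) (-l / 4 + n * (-th - δ)) (-l / 4 + n * (-th + δ))
end Tab

theorem Tab.NW_of_MX {N : Tab} {R' : ℝ → ℝ → Prop} (hR : ∀ X p, R' X p → X ≤ 5 / 14 * (p * (2 - p)))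
    (h : N.MX) : N.NW 4 R' := by
  intro s z p w θ μ a hθ
  obtain ⟨n, th, e3, ν, hν, hμ, he, hD, hθ'⟩ := dom_of_nadm hR a hθ
  have t1 := (sq_le_one_iff_abs_le_one th).2 hν.th1
  obtain ⟨δ, hδ⟩ : ∃ δ, δ = √(6 - 2 * th ^ 2) := ⟨_, rfl⟩
  have δ0 : 0 ≤ δ := hδ ▸ Real.sqrt_nonneg _
  have δ2 : δ ^ 2 = 6 - 2 * th ^ 2 := by rw [hδ, Real.sq_sqrt (by linarith)]
  obtain ⟨h1, h2, hc, hd, P0, p0, pP, hf⟩ := h s z p w n th e3 _ δ θ hD δ0 δ2 hθ'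
  refine ⟨h1, h2, fun hK => ?_⟩
  have hb : 0 < 3 * N.K.v s z p θ + 2 * (s * N.D.v s z p θ) * (w + 2 * (-w / 4 + n * th)) := by
    have k1 := hK 1
    have k2 := hK 2
    rw [hμ] at k1 k2
    rcases le_total 0 (s * N.D.v s z p θ * n) with k | k
    · nlinarith [mul_le_mul_of_nonneg_left hν.lo k]
    · nlinarith [mul_le_mul_of_nonpos_left hν.hi k]
  have f0 : 0 ≤ N.G0 s z p θ 5 + N.PP s z p * N.c0 s z p θ w := by
    simpa [Tab.form, mxQ, mxV, mxW] using hf 1 0 0 0 0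
  obtain ⟨X, hX⟩ : ∃ X, X = (N.G0 s z p θ 5 + N.PP s z p * N.c0 s z p θ w) / P0 ^ 2 := ⟨_, rfl⟩
  have X0 : 0 ≤ X := by rw [hX]; positivity
  have eX : N.G0 s z p θ 5 + N.PP s z p * N.c0 s z p θ w = X * P0 ^ 2 := by rw [hX]; field_simp
  refine ⟨N.c0 s z p θ w - X, by nlinarith [mul_le_mul_of_nonneg_left pP X0], fun P v v' Q hQ => ?_⟩
  have k := mx_form (M1 := N.M1 s z p θ) (M2 := N.M2 s z p θ) (M3 := N.M3 s z p θ) (b1 := 2 * P * N.b1 s z p θ w)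
    (b2 := 2 * P * N.b2 s z p θ w) (γ := (N.cc s z p θ w - (N.c0 s z p θ w - X)) * P ^ 2) h2 hK hb hc hd
    (by simp only [hμ]; linear_combination n * hν.e1)
    (by simp only [hμ]; linear_combination (-3 * w / 4 * n) * hν.e1 + n ^ 2 * hν.e2 + n ^ 2 * δ2)
    (by
      simp only [hμ]
      linear_combination (3 * w ^ 2 / 16 * n) * hν.e1 - w / 2 * n ^ 2 * hν.e2 + n ^ 3 * hν.e3
        + (-w / 2 * n ^ 2 + 2 * th * n ^ 3) * δ2)
    (by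
      simp only [hμ]
      have := mul_le_mul_of_nonneg_left hν.e4 (show 0 ≤ n ^ 4 by positivity)
      have e : (-w / 4 + n * ν 0) * (-w / 4 + n * ν 1) * (-w / 4 + n * ν 2) * (-w / 4 + n * ν 3)
          - (-w / 4 + n * th) * (-w / 4 + n * th) * (-w / 4 + n * (-th - δ)) * (-w / 4 + n * (-th + δ))
          = n ^ 4 * (ν 0 * ν 1 * ν 2 * ν 3) - n ^ 4 * (3 * th ^ 4 - 6 * th ^ 2) := by
        linear_combination (-w ^ 3 / 64 * n) * hν.e1 + w ^ 2 / 16 * n ^ 2 * hν.e2 - w / 4 * n ^ 3 * hν.e3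
          + (n ^ 2 * (-w / 4 + n * th) ^ 2) * δ2
      linarith) hQ
    (fun xb xc xd => by
      have g := fun η => hf (P / P0) xb xc xd η
      generalize mxQ _ _ _ _ _ _ xb xc xd = Q', mxV _ _ _ _ xb xc xd = V, mxW _ _ _ _ xb xc xd = W at g ⊢
      have g' := g (-(N.g1 s z p θ * V + N.g2 s z p θ * W + P * N.FP s z p θ w) / (2 * N.F.h s z p θ))
      refine g'.trans (le_of_eq ?_)
      rw [Tab.form, eX]
      simp only [Tab.M1, Tab.M2, Tab.M3, Tab.b1, Tab.b2, Tab.cc, Tab.m1, Tab.m2, Tab.m3, Tab.a1, Tab.a2, Tab.c0, Tab.g1,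
        Tab.g2]
      generalize N.F.h s z p θ = F at h1 ⊢
      field_simp
      ring)
  linarith

end Crest.Agent.R97
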