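import Crest.Agent.R97.CertP7
import Crest.Agent.R97.CertBz

/-!
CertP8 (helper51): the scalar rows on the pure box `z = k y`, `p = (1 - y²)(1 - q) + s² y²` (`c = k²`).
-/

set_option autoImplicit false
open Finset

namespace Crest.Agent.R97

theorem box3 {k s z p : ℝ} (k0 : 0 < k) (hk : 5 / 7 ≤ k ^ 2) (z0 : 0 ≤ z) (p0 : 0 ≤ p)
    (zS : z ^ 2 * (1 - s ^ 2) ≤ k ^ 2 * (1 - p)) (r1 : (z * s) ^ 2 ≤ 5 / 14 * (p * (2 - p))) :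
    ∃ y q : ℝ, 0 ≤ y ∧ y ≤ 1 ∧ 0 ≤ q ∧ q ≤ 1 ∧ z = k * y ∧ p = (1 - y ^ 2) * (1 - q) + s ^ 2 * y ^ 2 := by
  obtain ⟨y, hy⟩ : ∃ y, z = k * y := ⟨z / k, by field_simp⟩
  have y0 : 0 ≤ y := nonneg_of_mul_nonneg_right (hy ▸ z0) k0
  subst hy
  have h1 : (y * s) ^ 2 ≤ p := by
    refine le_of_mul_le_mul_left ?_ (pow_pos k0 2)
    nlinarith [mul_nonneg p0 (sub_nonneg.2 hk), sq_nonneg p]
  have h2 : y ^ 2 * (1 - s ^ 2) ≤ 1 - p := by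
    refine le_of_mul_le_mul_left ?_ (pow_pos k0 2)
    linarith
  have y2 : 0 ≤ 1 - y ^ 2 := by linarith
  have y1 : y ≤ 1 := by nlinarith
  rcases y2.eq_or_lt with h | h
  · exact ⟨y, 0, y0, y1, le_rfl, zero_le_one, rfl, by nlinarith⟩
  · refine ⟨y, (1 - p - y ^ 2 * (1 - s ^ 2)) / (1 - y ^ 2), y0, y1, div_nonneg (by linarith) y2,
      (div_le_one h).2 (by linarith), rfl, ?_⟩
    field_simp
    ring

/-- the row `K + 2 s D l > 0` on the pure box, shape variables `(u, η)` -/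
theorem Tab.row1_of_box {N : Tab} {k zm : ℝ} (k0 : 0 < k) (hc : N.c = k ^ 2) (hk : 5 / 7 ≤ k ^ 2)
    (h : ∀ s y q u η z p l n θ : ℝ, 0 ≤ s → s ≤ 1 → 0 ≤ y → y ≤ 1 → 0 ≤ q → q ≤ 1 → -(9 / 20) ≤ u → u ≤ 9 / 20 →
      -(77 / 100) ≤ η → η ≤ 77 / 100 → z = k * y → p = (1 - y ^ 2) * (1 - q) + s ^ 2 * y ^ 2 →
      l = 4 * u / (1 + 5 * u ^ 2) → n = (1 - 5 * u ^ 2) / (2 * (1 + 5 * u ^ 2)) →
      θ = l * (15 / 16 * l ^ 2 - 3 * n ^ 2) - 6 * (n ^ 3 * η) → (z * s) ^ 2 ≤ 5 / 14 * (p * (2 - p)) →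
      0 < N.K.v s z p θ + 2 * (s * N.D.v s z p θ) * l) : N.Row1 zm := by
  intro s z p u η l n θ s0 s1 z0 _ p0 _ u0 u1 e0 e1 _ zS r1 hl hn hθ
  rw [hc] at zS
  obtain ⟨y, q, y0, y1, q0, q1, hz, hp⟩ := box3 k0 hk z0 p0 zS r1
  exact h s y q u η z p l n θ s0 s1 y0 y1 q0 q1 u0 u1 e0 e1 hz hp hl hn hθ r1

theorem exists_th {η : ℝ} (e0 : -(77 / 100) ≤ η) (e1 : η ≤ 77 / 100) (f : ℝ → ℝ) (hf : ∀ a b t, f (a + t * (b - a)) = f a + t * (f b - f a))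
    (h0 : 0 < f (-(77 / 100))) (h1 : 0 < f (77 / 100)) : 0 < f η := by
  have e := hf (-(77 / 100)) (77 / 100) ((η + 77 / 100) * (50 / 77))
  rw [show -(77 / 100) + (η + 77 / 100) * (50 / 77) * (77 / 100 - -(77 / 100)) = η by ring] at e
  rw [e]
  rcases le_total (f (-(77 / 100))) (f (77 / 100)) with h | h
  · nlinarith [mul_nonneg (show 0 ≤ η + 77 / 100 by linarith) (sub_nonneg.2 h)]
  · nlinarith [mul_nonneg (show 0 ≤ 77 / 100 - η by linarith) (sub_nonneg.2 h)]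

/-- chart of the pairs (eigenvalue, sum of cubes), variables `(u, th)` -/
theorem exists_uth {μ a b c d : ℝ} (h1 : μ + a + b + c + d = 0) (h2 : μ ^ 2 + a ^ 2 + b ^ 2 + c ^ 2 + d ^ 2 = 1) :
    ∃ u th n : ℝ, -(9 / 20) ≤ u ∧ u ≤ 9 / 20 ∧ -(29 / 50) ≤ th ∧ th ≤ 29 / 50 ∧
      μ = 4 * u / (1 + 5 * u ^ 2) ∧ n = (1 - 5 * u ^ 2) / (2 * (1 + 5 * u ^ 2)) ∧
      μ ^ 3 + a ^ 3 + b ^ 3 + c ^ 3 + d ^ 3 = sTh μ n th := by
  obtain ⟨t, R, R0, t0, t1, k2, k3, -, -⟩ :=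
    exists_dr (a := a + μ / 4) (b := b + μ / 4) (c := c + μ / 4) (d := d + μ / 4) (by linarith)
  have hd : d = -(μ + a + b + c) := by linarith
  have un : 5 / 4 * μ ^ 2 + 4 * t ^ 2 + 2 * R ^ 2 = 1 := by
    rw [hd] at h2 k2
    linear_combination h2 - 2 * k2
  obtain ⟨u, th, n, δ, n0, δ1, hδ, rfl, rfl, th3, u5, un', hl, hn⟩ := exists_chart un R0 t0 t1
  have uu := abs_le_of_sq_le_sq' (show u ^ 2 ≤ (9 / 20) ^ 2 by linarith) (by norm_num)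
  have tt := abs_le_of_sq_le_sq' (show th ^ 2 ≤ (29 / 50) ^ 2 by linarith) (by norm_num)
  refine ⟨u, th, n, uu.1, uu.2, tt.1, tt.2, hl, hn, ?_⟩
  have e : sTh μ n th
      = μ * (15 / 16 * μ ^ 2 + 3 / 2 * (-(2 * (n * th) ^ 2) - (n * δ) ^ 2)) + 3 * -(2 * (n * th) * (n * δ) ^ 2) := by
    rw [mul_pow n δ, hδ, sTh, sD]; ring
  rw [e, k2, k3, hd]; ring

/-- the scalar rows from one row on the pure box, shape variables `(u, th)` -/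
theorem Tab.rows_of_box {N : Tab} {k zm : ℝ} (k0 : 0 < k) (hc : N.c = k ^ 2) (hk : 5 / 7 ≤ k ^ 2)
    (h : ∀ s y q u th z p l n θ : ℝ, 0 ≤ s → s ≤ 1 → 0 ≤ y → y ≤ 1 → 0 ≤ q → q ≤ 1 → -(9 / 20) ≤ u → u ≤ 9 / 20 →
      -(29 / 50) ≤ th → th ≤ 29 / 50 → z = k * y → p = (1 - y ^ 2) * (1 - q) + s ^ 2 * y ^ 2 →
      l = 4 * u / (1 + 5 * u ^ 2) → n = (1 - 5 * u ^ 2) / (2 * (1 + 5 * u ^ 2)) → θ = sTh l n th →
      0 < N.K.v s z p θ + 2 * (s * N.D.v s z p θ) * l) : N.Rows zm := by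
  intro s z P u th p l n θ K D dom hθ hK hD
  have c0 : 0 < N.c := by rw [hc]; positivity
  have zS : z ^ 2 * (1 - s ^ 2) ≤ N.c * (1 - p) := by
    have : z ^ 2 * (1 - s ^ 2) / N.c ≤ 1 - p := by rw [dom.hp]; linarith [sq_nonneg P]
    rw [div_le_iff₀ c0] at this
    linarith
  rw [hc] at zS
  obtain ⟨y, q, y0, y1, q0, q1, hz, hp⟩ := box3 k0 hk dom.z0 dom.p0 zS dom.r1
  have key : ∀ μ a b c d : ℝ, μ + a + b + c + d = 0 → μ ^ 2 + a ^ 2 + b ^ 2 + c ^ 2 + d ^ 2 = 1 →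
      θ = μ ^ 3 + a ^ 3 + b ^ 3 + c ^ 3 + d ^ 3 → 0 < K + 2 * D * μ := fun μ a b c d h1 h2 h3 => by
    obtain ⟨u', th', n', k1, k2, k3, k4, k6, k7, k8⟩ := exists_uth h1 h2
    rw [hK, hD]
    exact h s y q u' th' z p μ n' θ dom.s0 dom.s1 y0 y1 q0 q1 k1 k2 k3 k4 hz hp k6 k7 (h3.trans k8)
  have d0 : 0 ≤ sD th := by rw [sD]; linarith [dom.th3]
  obtain ⟨δ, hδ⟩ : ∃ δ : ℝ, δ ^ 2 = sD th := ⟨_, Real.sq_sqrt d0⟩
  obtain ⟨b, hb⟩ : ∃ b, b = -l / 4 + n * th := ⟨_, rfl⟩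
  obtain ⟨c, hc'⟩ : ∃ c, c = -l / 4 - n * th - n * δ := ⟨_, rfl⟩
  obtain ⟨d, hd⟩ : ∃ d, d = -l / 4 - n * th + n * δ := ⟨_, rfl⟩
  have hδ' : δ ^ 2 = 2 - 2 * th ^ 2 := hδ
  have e1 : l + b + b + c + d = 0 := by rw [hb, hc', hd]; ring
  have e2 : l ^ 2 + b ^ 2 + b ^ 2 + c ^ 2 + d ^ 2 = 1 := by
    rw [hb, hc', hd]; linear_combination dom.un + 2 * n ^ 2 * hδ'
  have e3 : θ = l ^ 3 + b ^ 3 + b ^ 3 + c ^ 3 + d ^ 3 := by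
    rw [hθ, sTh, sD, hb, hc', hd]; linear_combination (6 * n ^ 3 * th + 3 / 2 * l * n ^ 2) * hδ'
  have kl := key l b b c d e1 e2 e3
  have kb := key b l b c d (by linarith) (by linarith) (by linarith)
  have kc := key c l b b d (by linarith) (by linarith) (by linarith)
  have kd := key d l b b c (by linarith) (by linarith) (by linarith)
  rw [hb] at kb
  rw [hc'] at kc
  rw [hd] at kd
  have q1 : 0 < 3 * K + D * (l - 4 * (n * th)) - 4 * D * (n * δ) := by linarith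
  have q2 : 0 < 3 * K + D * (l - 4 * (n * th)) + 4 * D * (n * δ) := by linarith
  refine ⟨kl, by linarith, by linarith, ?_⟩
  rw [← hδ]
  nlinarith [mul_pos q1 q2]

/-- the side row on the pure box -/
theorem Tab.NR_of_pure {N : Tab} {k : ℝ} (k0 : 0 < k) (hc : N.c = k ^ 2) (hk : 5 / 7 ≤ k ^ 2) (κ : ℝ)
    (h : ∀ s y q θ z p : ℝ, 0 ≤ s → s ≤ 1 → 0 ≤ y → y ≤ 1 → 0 ≤ q → q ≤ 1 → -(671 / 1000) ≤ θ → θ ≤ 671 / 1000 →
      z = k * y → p = (1 - y ^ 2) * (1 - q) + s ^ 2 * y ^ 2 → (z * s) ^ 2 ≤ 5 / 14 * (p * (2 - p)) →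
      (∀ β : ℝ, 0 ≤ z * s * (θ - 2 * β) + p / 2 * (1 + 5 * β ^ 2)) →
      N.K.v s z p θ - z * N.A.h s z p θ + s * θ * N.D.v s z p θ ≤ κ * N.F.h s z p θ) : N.NR 4 R1 κ := by
  intro s z p w θ ν a hθ
  have h1 := a.tr
  have h2 := a.nrm
  rw [Fin.sum_univ_four] at h1 h2 hθ
  have hR : (z * s) ^ 2 ≤ 5 / 14 * (p * (2 - p)) := a.R
  have hS := a.zS
  rw [hc] at hS
  obtain ⟨t0, t1⟩ := bz_th (a := w) (b := ν 0) (c := ν 1) (d := ν 2) (e := ν 3) h1 h2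
  rw [← hθ] at t0 t1
  obtain ⟨y, q, y0, y1, q0, q1, hz, hp⟩ := box3 k0 hk a.z0 a.p0 hS hR
  refine h s y q θ z p a.s0 a.s1 y0 y1 q0 q1 t0 t1 hz hp hR fun β => ?_
  have e := bz_mom (β := β) (γ := 0) (a := w) (b := ν 0) (c := ν 1) (d := ν 2) (e := ν 3) h1 h2 (z * s) (p / 2)
  rw [← hθ, add_zero, add_zero] at e
  rw [← e]
  have x0 := a.cl
  have x1 := a.cν 0
  have x2 := a.cν 1
  have x3 := a.cν 2
  have x4 := a.cν 3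
  positivity

end Crest.Agent.R97
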