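import Crest.Agent.R97.CertP7

/-!
CertPW (helper53): the 5×5 condition with a factor `A` on the first row and a factor `W` on the 4×4 block
(`W` form: `A = W = PP + η`; `P⁺` form: `W = 1`), on the chart domain and on pure boxes with `PP = q (1 - y²)`.
-/

set_option autoImplicit false

namespace Crest.Agent.R97

/-- `[[E, A b], [A b, W T]]` in `(π, xb, x0, x, y)` -/
noncomputable def matW (K D F g1 g2 g3 m1 m2 m3 c1 c2 E A W l n th x0 x1 x2 x3 x4 : ℝ) : ℝ :=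
  quad5 E
    (A * (c1 * sA1 l n th + c2 * sB1 l n th)) (A * (c1 * sA2 l n th + c2 * sB2 l n th))
    (A * (c1 * sA3 n th + c2 * sB3 l n th)) (A * g3)
    (W * (4 * (K + 2 * D * l) + 2 * (3 * K + D * (l + 4 * (n * th)))
      + sM m1 m2 m3 (sA1 l n th) (sB1 l n th) (sA1 l n th) (sB1 l n th)))
    (W * (4 * (K + 2 * D * l) + sM m1 m2 m3 (sA1 l n th) (sB1 l n th) (sA2 l n th) (sB2 l n th)))
    (W * sM m1 m2 m3 (sA1 l n th) (sB1 l n th) (sA3 n th) (sB3 l n th))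
    (W * (g1 * sA1 l n th + g2 * sB1 l n th))
    (W * (4 * (K + 2 * D * l) + 2 * (3 * K + D * (l - 4 * (n * th)))
      + sM m1 m2 m3 (sA2 l n th) (sB2 l n th) (sA2 l n th) (sB2 l n th)))
    (W * (8 * D * (n * sD th) + sM m1 m2 m3 (sA2 l n th) (sB2 l n th) (sA3 n th) (sB3 l n th)))
    (W * (g1 * sA2 l n th + g2 * sB2 l n th))
    (W * (2 * (3 * K + D * (l - 4 * (n * th))) * sD th + sM m1 m2 m3 (sA3 n th) (sB3 l n th) (sA3 n th) (sB3 l n th)))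
    (W * (g1 * sA3 n th + g2 * sB3 l n th))
    (W * F) x0 x1 x2 x3 x4

theorem matW_one (K D F g1 g2 g3 m1 m2 m3 c1 c2 E A l n th x0 x1 x2 x3 x4 : ℝ) :
    matW K D F g1 g2 g3 m1 m2 m3 c1 c2 E A 1 l n th x0 x1 x2 x3 x4
      = mat5 K D F g1 g2 g3 m1 m2 m3 c1 c2 0 E A l n th x0 x1 x2 x3 x4 := by
  simp only [matW, mat5, quad5]
  ring

theorem matW_eq (K D F g1 g2 g3 m1 m2 m3 c1 c2 E A W l n th Q x0 x1 x2 x3 x4 : ℝ) (h : A * x0 = W * Q) :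
    matW K D F g1 g2 g3 m1 m2 m3 c1 c2 E A W l n th x0 x1 x2 x3 x4
      = E * x0 ^ 2 + W * mat5 K D F g1 g2 g3 m1 m2 m3 c1 c2 0 0 1 l n th Q x1 x2 x3 x4 := by
  simp only [matW, mat5, quad5]
  linear_combination 2 * ((c1 * sA1 l n th + c2 * sB1 l n th) * x1 + (c1 * sA2 l n th + c2 * sB2 l n th) * x2
    + (c1 * sA3 n th + c2 * sB3 l n th) * x3 + g3 * x4) * h

theorem matW_F (K D F g1 g2 g3 m1 m2 m3 c1 c2 E A W l n th ε x0 x1 x2 x3 x4 : ℝ) :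
    matW K D F g1 g2 g3 m1 m2 m3 c1 c2 E A W l n th x0 x1 x2 x3 x4
      = matW K D (F - ε) g1 g2 g3 m1 m2 m3 c1 c2 E A W l n th x0 x1 x2 x3 x4 + W * ε * x4 ^ 2 := by
  simp only [matW, quad5]
  ring

theorem matW_e0 (K D F g1 g2 g3 m1 m2 m3 c1 c2 E A W l n th : ℝ) :
    matW K D F g1 g2 g3 m1 m2 m3 c1 c2 E A W l n th 1 0 0 0 0 = E := by
  simp only [matW, quad5]
  ring

theorem matW_e4 (K D F g1 g2 g3 m1 m2 m3 c1 c2 E A W l n th : ℝ) :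
    matW K D F g1 g2 g3 m1 m2 m3 c1 c2 E A W l n th 0 0 0 0 1 = W * F := by
  simp only [matW, quad5]
  ring

/-- the form of the table at one point -/
noncomputable def Tab.frmW (N : Tab) (s z p θ PP A W l n th x0 x1 x2 x3 x4 : ℝ) : ℝ :=
  matW (N.K.v s z p θ) (s * N.D.v s z p θ) (N.F.h s z p θ) (N.pg1 s z p θ) (N.pg2 s z p θ) (N.pg3 s z p θ l)
    (N.pm1 s z p θ) (N.pm2 s z p θ) (N.pm3 s z p θ) (N.pc1 s z p θ l) (N.pc2 s z p θ l)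
    (N.G0 s z p θ 5 + PP * N.pc0 s z p θ l) A W l n th x0 x1 x2 x3 x4

/-- the condition at one point -/
def Tab.PW (N : Tab) (s z p θ PP A W l n th : ℝ) : Prop :=
  0 < N.F.h s z p θ ∧ ∀ x0 x1 x2 x3 x4 : ℝ, 0 ≤ N.frmW s z p θ PP A W l n th x0 x1 x2 x3 x4

theorem Tab.PW.of_eps {N : Tab} {s z p θ PP A W l n th σ ε : ℝ} (W0 : 0 < W) (σ0 : 0 < σ) (ε0 : 0 < ε)
    (h : ∀ x0 x1 x2 x3 x4 : ℝ, ε * x4 ^ 2 ≤ σ * N.frmW s z p θ PP A W l n th x0 x1 x2 x3 x4) :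
    N.PW s z p θ PP A W l n th := by
  refine ⟨?_, fun x0 x1 x2 x3 x4 => ?_⟩
  · have := h 0 0 0 0 1
    rw [Tab.frmW, matW_e4] at this
    exact pos_of_mul_pos_of_pos_left' (pos_of_mul_pos_of_pos_left' (by linarith) σ0) W0
  · exact nonneg_of_mul_nonneg_right' ((mul_nonneg ε0.le (sq_nonneg x4)).trans (h x0 x1 x2 x3 x4)) σ0
where
  pos_of_mul_pos_of_pos_left' {a b : ℝ} (h : 0 < a * b) (ha : 0 < a) : 0 < b := (mul_pos_iff_of_pos_left ha).1 h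
  nonneg_of_mul_nonneg_right' {a b : ℝ} (h : 0 ≤ a * b) (ha : 0 < a) : 0 ≤ b := (mul_nonneg_iff_of_pos_left ha).1 h

/-- the matrix condition on the chart domain -/
def Tab.MatW (N : Tab) (zm : ℝ) : Prop :=
  ∀ s z P u th p l n θ : ℝ, DomC N.c zm s z P u th p l n → θ = sTh l n th →
    ∃ A W : ℝ, 0 < A ∧ 0 < W ∧ P ^ 2 * W ≤ A ^ 2 ∧ N.PW s z p θ (P ^ 2) A W l n th

theorem Tab.P5_of_matW {N : Tab} {zm : ℝ} (hc : 5 / 7 ≤ N.c) (z0 : 0 ≤ zm) (hz : N.c ≤ zm ^ 2) (hR : N.Rows zm)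
    (hM : N.MatW zm) : N.P5 := by
  intro s z p l t R θ K D dom hθ hK hD
  have c0 : 0 < N.c := by linarith
  obtain ⟨u, th, n, δ, n0, δ1, hδ, rfl, rfl, th3, u5, un, hl, hn⟩ := exists_chart dom.un dom.R0 dom.t0 dom.t1
  have PP0 : 0 ≤ N.PP s z p := by
    have := (div_le_iff₀ c0).2 (dom.zS.trans_eq (mul_comm _ _))
    rw [Tab.PP]; linarith
  obtain ⟨P, P0, hP⟩ : ∃ P : ℝ, 0 ≤ P ∧ P ^ 2 = N.PP s z p := ⟨_, Real.sqrt_nonneg _, Real.sq_sqrt PP0⟩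
  have s2 : 0 ≤ 1 - s ^ 2 := by nlinarith [dom.s0, dom.s1]
  have q0 : 0 ≤ z ^ 2 * (1 - s ^ 2) / N.c := by positivity
  have P1 : P ≤ 1 := by
    have : P ^ 2 ≤ 1 := by rw [hP, Tab.PP]; linarith [dom.p0]
    nlinarith
  have z1 : z ≤ zm := by
    refine (abs_le_of_sq_le_sq' (le_trans ?_ hz) z0).2
    nlinarith [dom.zS, dom.r1, mul_nonneg dom.p0 (sub_nonneg.2 hc), sq_nonneg p]
  have uu := abs_le_of_sq_le_sq' (show u ^ 2 ≤ (9 / 20) ^ 2 by linarith) (by norm_num)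
  have tt := abs_le_of_sq_le_sq' (show th ^ 2 ≤ (29 / 50) ^ 2 by linarith) (by norm_num)
  have e2 : (n * δ) ^ 2 = n ^ 2 * sD th := by rw [mul_pow, hδ]
  have dc : DomC N.c zm s z P u th p l n :=
    ⟨dom.s0, dom.s1, dom.z0, z1, P0, P1, uu.1, uu.2, tt.1, tt.2, by rw [hP, Tab.PP]; ring, hl, hn, dom.p0, dom.p1, u5,
      th3, n0, un, dom.r1, dom.cl, dom.cX, dom.cY, by rw [← e2, ← mul_pow]; exact dom.c3⟩
  have eθ : θ = sTh l n th := by rw [hθ, e2, sTh, sD]; ring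
  obtain ⟨k1, k2, k3, k4⟩ := hR s z P u th p l n θ K D dc eθ hK hD
  obtain ⟨A, W, A0, W0, hA, kF, k5⟩ := hM s z P u th p l n θ dc eθ
  simp only [Tab.frmW] at k5
  rw [← hK, ← hD] at k5
  have k6 := abs_lt_of_sq_lt_sq' (show (4 * D * (n * δ)) ^ 2 < (3 * K + D * (l - 4 * (n * th))) ^ 2 by
    rw [mul_pow, mul_pow, e2]; linarith) k3.le
  have δ0 : 0 < δ := by linarith
  refine ⟨kF, k1, k2, by linarith [k6.2], by linarith [k6.1], ?_⟩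
  rw [← hP]
  generalize N.pc0 s z p θ l = c0' at *
  generalize N.G0 s z p θ 5 = G at *
  obtain ⟨E, hE⟩ : ∃ E, E = G + P ^ 2 * c0' := ⟨_, rfl⟩
  rw [← hE] at k5
  have E0 : 0 ≤ E := by
    have := k5 1 0 0 0 0
    rwa [matW_e0] at this
  refine ⟨c0' - E * W / A ^ 2, ?_, fun Q xb x0 x1 y => ?_⟩
  · have e : G + P ^ 2 * (c0' - E * W / A ^ 2) = E * (A ^ 2 - P ^ 2 * W) / A ^ 2 := by
      rw [hE]; field_simp; ring
    rw [e]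
    exact div_nonneg (mul_nonneg E0 (sub_nonneg.2 hA)) (sq_nonneg A)
  · have k := k5 (W * Q / A) xb x0 (x1 / δ) y
    rw [matW_eq (Q := Q) (h := by field_simp), form5_eq _ _ _ _ _ _ _ _ _ _ _ _ _ _ _ _ _ δ _ _ _ _ _ hδ,
      mul_div_cancel₀ _ δ0.ne', one_mul, form5_P] at k
    rw [form5_P]
    refine (mul_nonneg_iff_of_pos_left W0).1 (k.trans_eq ?_)
    field_simp
    ring

theorem Tab.NW_of_matW {N : Tab} {zm : ℝ} (hc : 5 / 7 ≤ N.c) (z0 : 0 ≤ zm) (hz : N.c ≤ zm ^ 2) (hR : N.Rows zm)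
    (hM : N.MatW zm) : N.NW 4 R1 := Tab.NW_of_P5 (Tab.P5_of_matW hc z0 hz hR hM)

/-- the pure box with `PP = q (1 - y²)`, `c = k²`; the constraints of `DomB` (with `√q`) stay available -/
def Tab.MatL (N : Tab) (k : ℝ) : Prop :=
  ∀ s y q u th z p l n θ PP r : ℝ, DomB k s y r u th z p l n → q = r ^ 2 → 0 ≤ q → q ≤ 1 →
    p = (1 - y ^ 2) * (1 - q) + s ^ 2 * y ^ 2 → θ = sTh l n th → PP = q * (1 - y ^ 2) →
    ∃ A W : ℝ, 0 < A ∧ 0 < W ∧ PP * W ≤ A ^ 2 ∧ N.PW s z p θ PP A W l n th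

theorem Tab.matW_of_L {N : Tab} {k zm : ℝ} (k0 : 0 < k) (hc : N.c = k ^ 2) (hk : 5 / 7 ≤ k ^ 2) (h : N.MatL k) :
    N.MatW zm := fun s z P u th p l n θ dom hθ => by
  rw [hc] at dom
  obtain ⟨y, r, d, e⟩ := dom.box k0 hk
  exact h s y (r ^ 2) u th z p l n θ (P ^ 2) r d rfl (sq_nonneg r) (by nlinarith [d.q0, d.q1]) d.hp hθ e

/-- the `W` form on the unit box `(s, y, q, v, w) ∈ [0,1]⁵` for `c = 1`: `z = y`, `W = PP + η` -/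
def Tab.MatU (N : Tab) (η : ℝ) : Prop :=
  ∀ s y q v w u th p l n θ PP W : ℝ, 0 ≤ s → s ≤ 1 → 0 ≤ y → y ≤ 1 → 0 ≤ q → q ≤ 1 → 0 ≤ v → v ≤ 1 → 0 ≤ w → w ≤ 1 →
    u = 9 * (2 * v - 1) / 20 → th = 29 * (2 * w - 1) / 50 → p = (1 - y ^ 2) * (1 - q) + s ^ 2 * y ^ 2 →
    l = 4 * u / (1 + 5 * u ^ 2) → n = (1 - 5 * u ^ 2) / (2 * (1 + 5 * u ^ 2)) → θ = sTh l n th →
    PP = q * (1 - y ^ 2) → W = PP + η → N.PW s y p θ PP W W l n th

theorem Tab.matL_of_U {N : Tab} {η : ℝ} (η0 : 0 < η) (h : N.MatU η) : N.MatL 1 := by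
  intro s y q u th z p l n θ PP r d _ q0 q1 hp hθ hPP
  have y2 : 0 ≤ 1 - y ^ 2 := by nlinarith [d.y0, d.y1]
  have P0 : 0 ≤ PP := by rw [hPP]; positivity
  have W0 : 0 < PP + η := by linarith
  refine ⟨PP + η, PP + η, W0, W0, by nlinarith, ?_⟩
  rw [d.hz, one_mul]
  exact h s y q ((20 / 9 * u + 1) / 2) ((50 / 29 * th + 1) / 2) u th p l n θ PP _ d.s0 d.s1 d.y0 d.y1 q0 q1
    (by linarith [d.u0]) (by linarith [d.u1]) (by linarith [d.th0]) (by linarith [d.th1]) (by ring) (by ring) hp d.hl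
    d.hn hθ hPP rfl

theorem Tab.NW_of_matU {N : Tab} {η : ℝ} (hc : N.c = 1) (η0 : 0 < η) (h1 : N.Row1 1) (hM : N.MatU η) : N.NW 4 R1 :=
  Tab.NW_of_matW (zm := 1) (by rw [hc]; norm_num) zero_le_one (by rw [hc]; norm_num)
    (Tab.rows_of_one (by rw [hc]; exact one_pos) h1)
    (Tab.matW_of_L one_pos (by rw [hc]; norm_num) (by norm_num) (Tab.matL_of_U η0 hM))

/-- the certificate from the matrix condition with two factors -/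
theorem cert_of_matW {N : Tab} {zm : ℝ} (hN : N.Sh) (hΛ : 4 < N.Λ) (hc : 5 / 7 ≤ N.c) (z0 : 0 ≤ zm)
    (hz : N.c ≤ zm ^ 2) (h1 : N.Row1 zm) (hM : N.MatW zm) (hR : N.NR 4 R1 (5 / 4)) (hB : N.NB 4)
    {d : ℕ} (hd : 2 ≤ d) (hd6 : d ≤ 6) {u : E d → ℝ} (hu : Mn 1 u) (hh : Hom u) (hj : JetsNear u) :
    ∀ x, 0 < u x → ∀ a b, pd a (pd b u) x = 0 :=
  cert_of_tab hN hΛ (Tab.NW_of_matW hc z0 hz (Tab.rows_of_one hN.c h1) hM) hR hB hd hd6 hu hh hj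

/-- the certificate from the `W` form on the unit box -/
theorem cert_of_matU {N : Tab} {η : ℝ} (hN : N.Sh) (hΛ : 4 < N.Λ) (hc : N.c = 1) (η0 : 0 < η)
    (h1 : N.Row1 1) (hM : N.MatU η) (hR : N.NR 4 R1 (5 / 4)) (hB : N.NB 4)
    {d : ℕ} (hd : 2 ≤ d) (hd6 : d ≤ 6) {u : E d → ℝ} (hu : Mn 1 u) (hh : Hom u) (hj : JetsNear u) :
    ∀ x, 0 < u x → ∀ a b, pd a (pd b u) x = 0 :=
  cert_of_tab hN hΛ (Tab.NW_of_matU hc η0 h1 hM) hR hB hd hd6 hu hh hj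

end Crest.Agent.R97
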