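import Crest.Agent.R97.CertPW
import Crest.Agent.R97.CertB9

/-! CertPW2 (helper53): the certificate from the `W` form on the unit box with the relaxed side conditions. -/

set_option autoImplicit false

namespace Crest.Agent.R97

theorem Tab.NW_of_matU' {N : Tab} {η : ℝ} (hc : N.c = 1) (η0 : 0 < η) (hR : N.Rows 1) (hM : N.MatU η) : N.NW 4 R1 :=
  Tab.NW_of_matW (zm := 1) (by rw [hc]; norm_num) zero_le_one (by rw [hc]; norm_num) hR
    (Tab.matW_of_L one_pos (by rw [hc]; norm_num) (by norm_num) (Tab.matL_of_U η0 hM))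

theorem cert_of_matU2 {N : Tab} {η : ℝ} (hN : N.Sh) (hΛ : 4 < N.Λ) (hc : N.c = 1) (η0 : 0 < η)
    (hR : N.Rows 1) (hM : N.MatU η) (h5 : N.NR 3 R1 (7 / 4)) (h4 : N.NR 2 R1 (3 / 2)) (h3 : N.NR 1 R1 (5 / 4))
    (hB : N.NB 4) {d : ℕ} (hd : 2 ≤ d) (hd6 : d ≤ 6) {u : E d → ℝ} (hu : Mn 1 u) (hh : Hom u) (hj : JetsNear u) :
    ∀ x, 0 < u x → ∀ a b, pd a (pd b u) x = 0 :=
  cert_of_tab2 hN hΛ (Tab.NW_of_matU' hc η0 hR hM) h5 h4 h3 hB hd hd6 hu hh hj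

end Crest.Agent.R97
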