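import Crest.Agent.R97.CertS2
import Crest.Agent.R97.CertBz

/-! CertPr (helper26): the primal matrix form on the double-root family `(l; b, b, m - R, m + R)` implies `Tab.NW`. -/

set_option autoImplicit false
open Finset

namespace Crest.Agent.R97

theorem pr_range {A B C v w Q : ℝ} (_hΓ : ∀ α β : ℝ, 0 ≤ α ^ 2 * A + 2 * α * β * B + β ^ 2 * C)
    (hQ : ∀ α β : ℝ, 2 * (α * v + β * w) - (α ^ 2 * A + 2 * α * β * B + β ^ 2 * C) ≤ Q) :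
    ∃ α β, α * A + β * B = v ∧ α * B + β * C = w := by
  have lin : ∀ x : ℝ, (∀ t : ℝ, 2 * (t * x) ≤ Q) → x = 0 := fun x h => by
    by_contra h0
    have := h ((|Q| + 1) / x)
    rw [div_mul_cancel₀ _ h0] at this
    linarith [le_abs_self Q, abs_nonneg Q]
  by_cases hd : A * C - B ^ 2 = 0
  · by_cases hA : A = 0
    · have hB : B = 0 := by
        rw [hA, zero_mul, zero_sub, neg_eq_zero] at hd
        exact pow_eq_zero_iff two_ne_zero |>.1 hd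
      have hv : v = 0 := lin v fun t => by simpa [hA] using hQ t 0
      by_cases hC : C = 0
      · have hw : w = 0 := lin w fun t => by simpa [hC] using hQ 0 t
        exact ⟨0, 0, by simp [hv], by simp [hw]⟩
      · exact ⟨0, w / C, by simp [hv, hB], by field_simp; simp⟩
    · have : A * w - B * v = 0 := lin _ fun t => by
        have := hQ (-B * t) (A * t)
        have e : (-B * t) ^ 2 * A + 2 * (-B * t) * (A * t) * B + (A * t) ^ 2 * C = 0 := by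
          linear_combination t ^ 2 * A * hd
        linarith
      exact ⟨v / A, 0, by field_simp; simp, by field_simp; linarith⟩
  · exact ⟨(C * v - B * w) / (A * C - B ^ 2), (A * w - B * v) / (A * C - B ^ 2), 
      by rw [div_mul_eq_mul_div, div_mul_eq_mul_div, ← add_div, div_eq_iff hd]; ring,
      by rw [div_mul_eq_mul_div, div_mul_eq_mul_div, ← add_div, div_eq_iff hd]; ring⟩

/-- the primal point -/
theorem pr_ex {l b c d wl Wb Wc Wd v w Q : ℝ} (hl : 0 < wl) (hb : 0 < Wb) (hc : 0 < Wc) (hd : 0 < Wd)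
    (hQ : ∀ θ α β : ℝ, 2 * (α * v + β * w) - ((θ + α * l + β * l ^ 2) ^ 2 / wl + 2 * ((θ + α * b + β * b ^ 2) ^ 2 / Wb)
      + (θ + α * c + β * c ^ 2) ^ 2 / Wc + (θ + α * d + β * d ^ 2) ^ 2 / Wd) ≤ Q) :
    ∃ xl xb xc xd : ℝ, xl + 2 * xb + xc + xd = 0 ∧ v = l * xl + 2 * b * xb + c * xc + d * xd ∧
      w = l ^ 2 * xl + 2 * b ^ 2 * xb + c ^ 2 * xc + d ^ 2 * xd ∧
      wl * xl ^ 2 + 2 * Wb * xb ^ 2 + Wc * xc ^ 2 + Wd * xd ^ 2 ≤ Q := by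
  obtain ⟨il, rfl⟩ : ∃ i, wl = i⁻¹ := ⟨wl⁻¹, (inv_inv _).symm⟩
  obtain ⟨ib, rfl⟩ : ∃ i, Wb = i⁻¹ := ⟨Wb⁻¹, (inv_inv _).symm⟩
  obtain ⟨ic, rfl⟩ : ∃ i, Wc = i⁻¹ := ⟨Wc⁻¹, (inv_inv _).symm⟩
  obtain ⟨id, rfl⟩ : ∃ i, Wd = i⁻¹ := ⟨Wd⁻¹, (inv_inv _).symm⟩
  rw [inv_pos] at hl hb hc hd
  simp only [div_inv_eq_mul] at hQ
  obtain ⟨s0, h0⟩ : ∃ s, s = il + 2 * ib + ic + id := ⟨_, rfl⟩
  obtain ⟨s1, h1⟩ : ∃ s, s = l * il + 2 * b * ib + c * ic + d * id := ⟨_, rfl⟩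
  obtain ⟨s2, h2⟩ : ∃ s, s = l ^ 2 * il + 2 * b ^ 2 * ib + c ^ 2 * ic + d ^ 2 * id := ⟨_, rfl⟩
  obtain ⟨s3, h3⟩ : ∃ s, s = l ^ 3 * il + 2 * b ^ 3 * ib + c ^ 3 * ic + d ^ 3 * id := ⟨_, rfl⟩
  obtain ⟨s4, h4⟩ : ∃ s, s = l ^ 4 * il + 2 * b ^ 4 * ib + c ^ 4 * ic + d ^ 4 * id := ⟨_, rfl⟩
  have p0 : 0 < s0 := by rw [h0]; positivity
  have key : ∀ θ α β : ℝ, (θ + α * l + β * l ^ 2) ^ 2 * il + 2 * ((θ + α * b + β * b ^ 2) ^ 2 * ib)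
      + (θ + α * c + β * c ^ 2) ^ 2 * ic + (θ + α * d + β * d ^ 2) ^ 2 * id
      = θ ^ 2 * s0 + 2 * θ * (α * s1 + β * s2) + (α ^ 2 * s2 + 2 * α * β * s3 + β ^ 2 * s4) := fun θ α β => by
    rw [h0, h1, h2, h3, h4]; ring
  have e : ∀ α β : ℝ, α ^ 2 * (s2 - s1 ^ 2 / s0) + 2 * α * β * (s3 - s1 * s2 / s0) + β ^ 2 * (s4 - s2 ^ 2 / s0)
      = (-(α * s1 + β * s2) / s0) ^ 2 * s0 + 2 * (-(α * s1 + β * s2) / s0) * (α * s1 + β * s2)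
        + (α ^ 2 * s2 + 2 * α * β * s3 + β ^ 2 * s4) := fun α β => by field_simp; ring
  obtain ⟨α, β, a1, a2⟩ := pr_range (A := s2 - s1 ^ 2 / s0) (B := s3 - s1 * s2 / s0) (C := s4 - s2 ^ 2 / s0)
    (v := v) (w := w) (Q := Q) (fun α β => by rw [e, ← key]; positivity) (fun α β => by rw [e, ← key]; exact hQ _ α β)
  obtain ⟨θ, hθ⟩ : ∃ θ, θ = -(α * s1 + β * s2) / s0 := ⟨_, rfl⟩
  have t0 : θ * s0 + α * s1 + β * s2 = 0 := by rw [hθ]; field_simp; ring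
  have t1 : v = θ * s1 + α * s2 + β * s3 := by rw [← a1, hθ]; field_simp; ring
  have t2 : w = θ * s2 + α * s3 + β * s4 := by rw [← a2, hθ]; field_simp; ring
  refine ⟨(θ + α * l + β * l ^ 2) * il, (θ + α * b + β * b ^ 2) * ib, (θ + α * c + β * c ^ 2) * ic,
    (θ + α * d + β * d ^ 2) * id, by rw [← t0, h0, h1, h2]; ring, by rw [t1, h1, h2, h3]; ring,
    by rw [t2, h2, h3, h4]; ring, ?_⟩
  have k := key θ α β
  have q := hQ θ α β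
  have e2 : il⁻¹ * ((θ + α * l + β * l ^ 2) * il) ^ 2 + 2 * ib⁻¹ * ((θ + α * b + β * b ^ 2) * ib) ^ 2
      + ic⁻¹ * ((θ + α * c + β * c ^ 2) * ic) ^ 2 + id⁻¹ * ((θ + α * d + β * d ^ 2) * id) ^ 2
      = (θ + α * l + β * l ^ 2) ^ 2 * il + 2 * ((θ + α * b + β * b ^ 2) ^ 2 * ib)
      + (θ + α * c + β * c ^ 2) ^ 2 * ic + (θ + α * d + β * d ^ 2) ^ 2 * id := by field_simp
  rw [e2, k]
  rw [k, t1, t2] at q
  have : θ * (θ * s0 + α * s1 + β * s2) = 0 := by rw [t0, mul_zero]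
  linarith

/-- the Gram form is dominated by that of a spectrum with the same `e1, e2, e3` and a smaller product -/
theorem pr_gram {K D l b c d : ℝ} {μ : Fin 4 → ℝ} (hl : 0 < K + 2 * D * l) (hμ : ∀ j, 0 < K + 2 * D * μ j)
    (hb : 0 < 3 * K + 2 * D * (l + 2 * b)) (hc : 0 < 3 * K + 2 * D * (l + 2 * c)) (hd : 0 < 3 * K + 2 * D * (l + 2 * d))
    (h1 : b + b + c + d = μ 0 + μ 1 + μ 2 + μ 3)
    (h2 : b * b + b * c + b * d + b * c + b * d + c * d = μ 0 * μ 1 + μ 0 * μ 2 + μ 0 * μ 3 + μ 1 * μ 2 + μ 1 * μ 3 + μ 2 * μ 3)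
    (h3 : b * b * c + b * b * d + b * c * d + b * c * d
      = μ 0 * μ 1 * μ 2 + μ 0 * μ 1 * μ 3 + μ 0 * μ 2 * μ 3 + μ 1 * μ 2 * μ 3)
    (h4 : b * b * c * d ≤ μ 0 * μ 1 * μ 2 * μ 3) (θ α β : ℝ) :
    α ^ 2 * gA K D l μ + 2 * α * β * gB K D l μ + β ^ 2 * gC K D l μ ≤ (θ + α * l + β * l ^ 2) ^ 2 / (K + 2 * D * l)
      + 2 * ((θ + α * b + β * b ^ 2) ^ 2 / (3 * K + 2 * D * (l + 2 * b)))
      + (θ + α * c + β * c ^ 2) ^ 2 / (3 * K + 2 * D * (l + 2 * c))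
      + (θ + α * d + β * d ^ 2) ^ 2 / (3 * K + 2 * D * (l + 2 * d)) := by
  have ew : ∀ x, 3 * K + 2 * D * (l + 2 * x) = 3 * K + 2 * D * l + 4 * D * x := fun x => by ring
  have hw : ∀ j, 0 < 3 * K + 2 * D * l + 4 * D * μ j := fun j => by linarith [hμ j]
  refine (q_gram_le hl hμ α β θ).trans ?_
  simp only [ew] at hb hc hd ⊢
  have g := e4_gram (hw 0) (hw 1) (hw 2) (hw 3) h1 h2 h3 h4 (by rw [ePi_eq]; positivity) θ α β
  rw [ePi_eq, eNq_eq] at g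
  rw [Fin.sum_univ_four]
  generalize θ + α * b + β * b ^ 2 = qb, θ + α * c + β * c ^ 2 = qc, θ + α * d + β * d ^ 2 = qd,
    3 * K + 2 * D * l + 4 * D * b = wb, 3 * K + 2 * D * l + 4 * D * c = wc, 3 * K + 2 * D * l + 4 * D * d = wd at *
  refine (add_le_add le_rfl (g.trans_eq (?_ : _ = 2 * (qb ^ 2 / wb) + qc ^ 2 / wc + qd ^ 2 / wd))).trans_eq (by ring)
  field_simp
  ring

/-- the domain in the variables `(s, z, p, l, η, R)`: spectrum `l` and `-l/4 + (η, η, -η - R, -η + R)` -/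
structure DomP (c s z p l η R : ℝ) : Prop where
  s0 : 0 ≤ s
  s1 : s ≤ 1
  z0 : 0 ≤ z
  p0 : 0 ≤ p
  p1 : p ≤ 1
  R0 : 0 ≤ R
  nl : 5 / 4 * l ^ 2 + 4 * η ^ 2 + 2 * R ^ 2 = 1
  mid : 4 * η ^ 2 ≤ R ^ 2
  r0 : (z * s) ^ 2 ≤ 5 / 14 * (p * (2 - p))
  zS : z ^ 2 * (1 - s ^ 2) ≤ c * (1 - p)
  cl : 0 ≤ p / 2 + z * s * l
  c1 : 0 ≤ p / 2 - z * s * l / 4
  cb : 0 ≤ p / 2 - z * s * l / 4 + z * s * η
  c2 : (z * s) ^ 2 * (R ^ 2 + 2 * η ^ 2) ≤ 6 * (p / 2 - z * s * l / 4) ^ 2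
  c3 : 0 ≤ 4 * (p / 2 - z * s * l / 4) ^ 3 - 2 * (p / 2 - z * s * l / 4) * ((z * s) ^ 2 * (R ^ 2 + 2 * η ^ 2))
    - 2 * (z * s) ^ 3 * (η * R ^ 2)

theorem DomP.z1 {s z p l η R : ℝ} (h : DomP 2 s z p l η R) : z ≤ 71 / 50 := by
  have a := h.r0
  have b := h.zS
  have c := h.p0
  have : z ^ 2 ≤ 2 := by nlinarith
  nlinarith [h.z0]

/-- rational chart `(t, th)`, `δ² = 2 - 2 th²` -/
theorem DomP.chart {c s z p l η R : ℝ} (h : DomP c s z p l η R) : ∃ t th n δ : ℝ, -(9 / 20) ≤ t ∧ t ≤ 9 / 20 ∧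
    -(29 / 50) ≤ th ∧ th ≤ 29 / 50 ∧ 5 * t ^ 2 ≤ 1 ∧ 3 * th ^ 2 ≤ 1 ∧ l = 4 * t / (1 + 5 * t ^ 2) ∧
    n = (1 - 5 * t ^ 2) / (2 * (1 + 5 * t ^ 2)) ∧ 0 ≤ n ∧ η = n * th ∧ R = n * δ ∧ 0 < δ ∧ δ ^ 2 = 2 - 2 * th ^ 2 := by
  have nl := h.nl
  have mid := h.mid
  have R0 := h.R0
  obtain ⟨n, hn⟩ : ∃ n, n = √((R ^ 2 + 2 * η ^ 2) / 2) := ⟨_, rfl⟩
  have n0 : 0 ≤ n := hn ▸ Real.sqrt_nonneg _
  have n2 : n ^ 2 = (R ^ 2 + 2 * η ^ 2) / 2 := by rw [hn, Real.sq_sqrt (by positivity)]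
  have b1 : 0 < 1 + 2 * n := by linarith
  obtain ⟨t, ht⟩ : ∃ t, t = l / (2 * (1 + 2 * n)) := ⟨_, rfl⟩
  have t2 : 5 * t ^ 2 = (1 - 2 * n) / (1 + 2 * n) := by
    rw [ht]; field_simp; linear_combination 4 * nl + 16 * n2
  have e0 : 1 + 5 * t ^ 2 = 2 / (1 + 2 * n) := by rw [t2]; field_simp; ring
  have t1 : 5 * t ^ 2 ≤ 1 := by rw [t2, div_le_one b1]; linarith
  have el : l = 4 * t / (1 + 5 * t ^ 2) := by rw [e0, ht]; field_simp; ring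
  have en : n = (1 - 5 * t ^ 2) / (2 * (1 + 5 * t ^ 2)) := by rw [e0, t2]; field_simp; ring
  have ta : -(9 / 20) ≤ t := by nlinarith
  have tb : t ≤ 9 / 20 := by nlinarith
  rcases n0.eq_or_lt with h0 | h0
  · have hR : R = 0 := by
      rw [← h0] at n2
      exact pow_eq_zero_iff two_ne_zero |>.1 (le_antisymm (by nlinarith [sq_nonneg η]) (sq_nonneg R))
    have hη : η = 0 := by
      rw [← h0] at n2
      exact pow_eq_zero_iff two_ne_zero |>.1 (le_antisymm (by nlinarith [sq_nonneg R]) (sq_nonneg η))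
    exact ⟨t, 0, n, √2, ta, tb, by norm_num, by norm_num, t1, by norm_num, el, en, n0, by simp [hη], by simp [hR, ← h0],
      by positivity, by simp⟩
  · have th1 : 3 * (η / n) ^ 2 ≤ 1 := by
      rw [div_pow, ← mul_div_assoc, div_le_one (by positivity)]; linarith
    have d2 : (R / n) ^ 2 = 2 - 2 * (η / n) ^ 2 := by field_simp; linarith
    refine ⟨t, η / n, n, R / n, ta, tb, by nlinarith, by nlinarith, t1, th1, el, en, n0, by field_simp, by field_simp,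
      ?_, d2⟩
    rcases (div_nonneg R0 n0).eq_or_lt with h1 | h1
    · rw [← h1] at d2; linarith
    · exact h1

namespace Tab
variable (N : Tab) (s z p θ w : ℝ)
noncomputable def pM1 : ℝ := 2 * s ^ 2 * N.K.vo s z p θ (2 * N.al - 2)
noncomputable def pM2 : ℝ := s ^ 3 * (3 * N.K.vt s z p θ + 2 * N.D.vo s z p θ (2 * N.al - 3)) / 2
def pM3 : ℝ := 3 * s ^ 4 * N.D.vt s z p θ
noncomputable def pb1 : ℝ := (N.C.v s z p θ + (N.K.vz s z p θ - 2 * s * w * N.K.vp s z p θ)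
  + 2 * (N.A.vo s z p θ (2 * N.al + 1) + s * w * N.B.vo s z p θ (2 * N.al) + (s * w) ^ 2 * N.C.vo s z p θ (2 * N.al - 1))) / 2
noncomputable def pb2 : ℝ := s * (((N.D.vz s z p θ - 2 * s * w * N.D.vp s z p θ)
  + 3 * (N.A.vt s z p θ + s * w * N.B.vt s z p θ + (s * w) ^ 2 * N.C.vt s z p θ)) / 2)
def pcc : ℝ := (N.A.hz s z p θ - 2 * s * w * N.A.hp s z p θ) + w * (s * N.B.hz s z p θ - 2 * w * N.B.vp s z p θ)
  + w ^ 2 * (N.C.vz s z p θ - 2 * s * w * N.C.vp s z p θ)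
/-- the polynomial form without the `P²` term: `Q` the `T`-part, `e` the variable of the `Φ`-row -/
noncomputable def QF (Q v v' P e : ℝ) : ℝ := Q + (N.pM1 s z p θ * v ^ 2 + 2 * N.pM2 s z p θ * v * v' + N.pM3 s z p θ * v' ^ 2)
  + 2 * P * (N.pb1 s z p θ w * v + N.pb2 s z p θ w * v')
  + e * (2 * N.F.vo s z p θ (2 * N.al) * v + 3 * s * N.F.vt s z p θ * v' + N.FP s z p θ w * P) + N.F.h s z p θ * e ^ 2
/-- the form in the unknowns `xb, xm`; `X2 = x1²`, `RX = R x1`, `R2 = R²` -/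
noncomputable def QX (η R2 xb xm X2 RX P e : ℝ) : ℝ :=
  N.QF s z p θ w ((N.K.v s z p θ + 2 * (s * N.D.v s z p θ) * w) * (2 * xb + 2 * xm) ^ 2
      + 2 * (3 * N.K.v s z p θ + 2 * (s * N.D.v s z p θ) * (w + 2 * (-w / 4 + η))) * xb ^ 2
      + 2 * (3 * N.K.v s z p θ + 2 * (s * N.D.v s z p θ) * (w + 2 * (-w / 4 - η))) * (xm ^ 2 + X2)
      + 16 * (s * N.D.v s z p θ) * xm * RX)
    (2 * (-w / 4 + η - w) * xb + 2 * (-w / 4 - η - w) * xm + 2 * RX)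
    (2 * ((-w / 4 + η) ^ 2 - w ^ 2) * xb + 2 * ((-w / 4 - η) ^ 2 + R2 - w ^ 2) * xm + 4 * (-w / 4 - η) * RX) P e

/-- positivity of `F` and of the weights -/
def NP (R' : ℝ → ℝ → Prop) : Prop :=
  ∀ (s z p w θ : ℝ) (ν : Fin 4 → ℝ), NAdm N.c R' s z p w ν → θ = w ^ 3 + ∑ j, ν j ^ 3 →
    0 < N.F.h s z p θ ∧ ∀ x, -(8945 / 10000) ≤ x → x ≤ 8945 / 10000 → 0 < N.K.v s z p θ + 2 * (s * N.D.v s z p θ) * x

/-- the primal matrix condition -/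
def PF : Prop := ∀ s z p l η R θ : ℝ, DomP N.c s z p l η R →
  θ = l ^ 3 + 2 * (-l / 4 + η) ^ 3 + 2 * (-l / 4 - η) ^ 3 + 6 * (-l / 4 - η) * R ^ 2 →
  ∃ mm, 0 ≤ N.G0c s z p θ + N.Pq s z p * mm ∧
    ∀ xb xm x1 P e, 0 ≤ N.QX s z p θ l η (R ^ 2) xb xm (x1 ^ 2) (R * x1) P e + (N.pcc s z p θ l - mm) * P ^ 2
end Tab

theorem domP_of {c s z p l n th e3 e4 : ℝ} (h : S2.Dom c s z p l n th e3 e4) :
    DomP c s z p l (n * th) (n * √(6 - 2 * th ^ 2)) := by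
  have t1 : th ^ 2 ≤ 1 := by nlinarith [h.th0, h.th1]
  have q : (n * √(6 - 2 * th ^ 2)) ^ 2 = n ^ 2 * (6 - 2 * th ^ 2) := by rw [mul_pow, Real.sq_sqrt (by linarith)]
  have e3c := h.e3c
  rw [h.he] at e3c
  refine ⟨h.s0, h.s1, h.z0, h.p0, h.p1, mul_nonneg h.n0 (Real.sqrt_nonneg _), by rw [q]; linarith [h.nl], ?_,
    by linarith [h.c1], by linarith [h.c2], by linarith [h.c3], by linarith [h.y0], by linarith [h.e1],
    by rw [q]; linarith [h.e2], by rw [q]; linarith⟩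
  rw [q]
  nlinarith [mul_nonneg (sq_nonneg n) (sub_nonneg.2 t1)]

theorem Tab.NW_of_PF {N : Tab} (hc : 0 < N.c) {R' : ℝ → ℝ → Prop} (hR : ∀ X p, R' X p → X ≤ 5 / 14 * (p * (2 - p)))
    (hP : N.NP R') (h : N.PF) : N.NW 4 R' := by
  intro s z p w θ μ a hθ
  obtain ⟨hF, hK⟩ := hP s z p w θ μ a hθ
  obtain ⟨n, th, e3, ν, hν, hμ, he, hD, hθ'⟩ := dom_of_nadm hR a hθ
  have hd := domP_of hD
  have t1 : th ^ 2 ≤ 1 := by nlinarith [hD.th0, hD.th1]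
  have q : (n * √(6 - 2 * th ^ 2)) ^ 2 = n ^ 2 * (6 - 2 * th ^ 2) := by rw [mul_pow, Real.sq_sqrt (by linarith)]
  generalize n * √(6 - 2 * th ^ 2) = R at hd q
  obtain ⟨mm, g1, g2⟩ := h s z p w (n * th) R θ hd (by rw [hθ', he, q]; ring)
  obtain ⟨b, hb⟩ : ∃ b, b = -w / 4 + n * th := ⟨_, rfl⟩
  obtain ⟨m, hm⟩ : ∃ m, m = -w / 4 - n * th := ⟨_, rfl⟩
  have nl := hd.nl
  have u1 : w + (b + b + (m - R) + (m + R)) = 0 := by rw [hb, hm]; ring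
  have u2 : w ^ 2 + (b ^ 2 + b ^ 2 + (m - R) ^ 2 + (m + R) ^ 2) = 1 := by rw [hb, hm]; linarith
  have k0 := bz_one u1 u2
  have kb := bz_one (a := b) (b := w) (c := b) (d := m - R) (e := m + R) (by linarith) (by linarith)
  have kc := bz_one (a := m - R) (b := w) (c := b) (d := b) (e := m + R) (by linarith) (by linarith)
  have kd := bz_one (a := m + R) (b := w) (c := b) (d := b) (e := m - R) (by linarith) (by linarith)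
  have h2 := hK w k0.1 k0.2
  have wb := hK b kb.1 kb.2
  have wc := hK _ kc.1 kc.2
  have wd := hK _ kd.1 kd.2
  refine ⟨hF, h2, fun hK' => ⟨mm, (mul_nonneg_iff_of_pos_left hc).1 ?_, fun P v v' Q hQ => ?_⟩⟩
  · have e5 : N.G0c s z p θ = N.c * N.G0 s z p θ (4 + 1) := by
      rw [Tab.G0c, Tab.G0]; push_cast; field_simp
    have e6 : N.Pq s z p = N.c * N.PP s z p := by rw [Tab.Pq, Tab.PP]; field_simp
    rw [e5, e6] at g1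
    linarith
  have e4 := mul_le_mul_of_nonneg_left hν.e4 (show 0 ≤ n ^ 4 by positivity)
  have gr := pr_gram (b := b) (c := m - R) (d := m + R) h2 hK' (by linarith) (by linarith) (by linarith)
    (by simp only [hμ, hb, hm]; linear_combination (-n) * hν.e1)
    (by simp only [hμ, hb, hm]; linear_combination (-1) * q + 3 / 4 * w * n * hν.e1 - n ^ 2 * hν.e2)
    (by simp only [hμ, hb, hm]
        linear_combination (w / 2 - 2 * n * th) * q - 3 / 16 * w ^ 2 * n * hν.e1 + w / 2 * n ^ 2 * hν.e2 - n ^ 3 * hν.e3)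
    (by have : μ 0 * μ 1 * μ 2 * μ 3 - b * b * (m - R) * (m + R)
          = n ^ 4 * (ν 0 * ν 1 * ν 2 * ν 3) - n ^ 4 * (3 * th ^ 4 - 6 * th ^ 2) := by
          simp only [hμ, hb, hm]
          linear_combination (-w / 4 + n * th) ^ 2 * q - w ^ 3 / 64 * n * hν.e1 + w ^ 2 / 16 * n ^ 2 * hν.e2
            - w / 4 * n ^ 3 * hν.e3
        linarith)
  obtain ⟨xl, xb, xc, xd, x0, xv, xw, xQ⟩ := pr_ex (v := v) (w := v') (Q := Q) (l := w) (b := b) (c := m - R) (d := m + R) h2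
    (Wb := 3 * N.K.v s z p θ + 2 * (s * N.D.v s z p θ) * (w + 2 * b))
    (Wc := 3 * N.K.v s z p θ + 2 * (s * N.D.v s z p θ) * (w + 2 * (m - R)))
    (Wd := 3 * N.K.v s z p θ + 2 * (s * N.D.v s z p θ) * (w + 2 * (m + R))) (by linarith) (by linarith) (by linarith)
    fun t α β => by linarith [hQ α β, gr t α β]
  obtain ⟨g, hg⟩ : ∃ g, g = 2 * N.F.vo s z p θ (2 * N.al) * v + 3 * s * N.F.vt s z p θ * v' + N.FP s z p θ w * P := ⟨_, rfl⟩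
  have k := g2 xb ((xc + xd) / 2) ((xd - xc) / 2) P (-g / (2 * N.F.h s z p θ))
  have hxl : xl = -(2 * xb + xc + xd) := by linarith
  rw [Tab.QX, ← hb, ← hm,
    show 2 * (b - w) * xb + 2 * (m - w) * ((xc + xd) / 2) + 2 * (R * ((xd - xc) / 2)) = v by rw [xv, hxl]; ring,
    show 2 * (b ^ 2 - w ^ 2) * xb + 2 * (m ^ 2 + R ^ 2 - w ^ 2) * ((xc + xd) / 2) + 4 * m * (R * ((xd - xc) / 2)) = v' by
      rw [xw, hxl]; ring, Tab.QF, ← hg] at k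
  have e : N.M1 s z p θ * v ^ 2 + 2 * N.M2 s z p θ * v * v' + N.M3 s z p θ * v' ^ 2
      + 2 * P * (N.b1 s z p θ w * v + N.b2 s z p θ w * v') + N.cc s z p θ w * P ^ 2
      = N.pM1 s z p θ * v ^ 2 + 2 * N.pM2 s z p θ * v * v' + N.pM3 s z p θ * v' ^ 2
      + 2 * P * (N.pb1 s z p θ w * v + N.pb2 s z p θ w * v') + N.pcc s z p θ w * P ^ 2
      + (-g / (2 * N.F.h s z p θ) * g + N.F.h s z p θ * (-g / (2 * N.F.h s z p θ)) ^ 2) := by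
    rw [hg, Tab.M1, Tab.M2, Tab.M3, Tab.b1, Tab.b2, Tab.cc, Tab.pM1, Tab.pM2, Tab.pM3, Tab.pb1, Tab.pb2, Tab.pcc]
    field_simp
    ring
  rw [hxl] at xQ
  linarith

/-- `NP` from inequalities in `(s, z, p, θ)` -/
theorem Tab.NP_of_box (N : Tab) {R' : ℝ → ℝ → Prop} (hR : ∀ X p, R' X p → X ≤ 5 / 14 * (p * (2 - p)))
    (h : ∀ s z p θ : ℝ, 0 ≤ s → s ≤ 1 → 0 ≤ z → 0 ≤ p → p ≤ 1 → -(671 / 1000) ≤ θ → θ ≤ 671 / 1000 →
      (z * s) ^ 2 ≤ 5 / 14 * (p * (2 - p)) → z ^ 2 * (1 - s ^ 2) ≤ N.c * (1 - p) → (z * s) ^ 2 ≤ 5 * p ^ 2 →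
      0 < N.F.h s z p θ ∧ 0 < N.K.v s z p θ + 1789 / 1000 * (s * N.D.v s z p θ) ∧
        0 < N.K.v s z p θ - 1789 / 1000 * (s * N.D.v s z p θ)) : N.NP R' := by
  intro s z p w θ ν a hθ
  have h1 := a.tr
  have h2 := a.nrm
  obtain ⟨n, th, e3, ν', -, -, -, hD, -⟩ := dom_of_nadm hR a hθ
  rw [Fin.sum_univ_four] at h1 h2 hθ
  obtain ⟨t0, t1⟩ := bz_th h1 h2
  rw [← hθ] at t0 t1
  have zs : 0 ≤ z * s := mul_nonneg a.z0 a.s0
  obtain ⟨g1, g2, g3⟩ := h s z p θ a.s0 a.s1 a.z0 a.p0 a.p1 t0 t1 (hR _ _ a.R) a.zS (by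
    have c3 := hD.c3
    have e2 := hD.e2
    have y0 := hD.y0
    have nl := hD.nl
    generalize z * s = X at *
    have : X ^ 2 * (5 / 4 * w ^ 2 + 12 * n ^ 2) = X ^ 2 := by rw [nl, mul_one]
    nlinarith [mul_nonneg c3 y0])
  refine ⟨g1, fun x x0 x1 => ?_⟩
  rcases le_total 0 (s * N.D.v s z p θ) with h0 | h0
  · nlinarith [mul_nonneg h0 (show 0 ≤ x + 8945 / 10000 by linarith)]
  · nlinarith [mul_nonneg (neg_nonneg.2 h0) (show 0 ≤ 8945 / 10000 - x by linarith)]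

namespace Tab
variable (N : Tab)
theorem QX_hom (s z p θ w η R2 xb xm X2 RX P e : ℝ) : N.QX s z p θ w η R2 xb xm X2 RX P e
    = N.QX s z p θ w η R2 xb xm X2 RX 0 e + P * (N.QX s z p θ w η R2 xb xm X2 RX 1 e - N.QX s z p θ w η R2 xb xm X2 RX 0 e) := by
  simp only [QX, QF]; ring

/-- rational chart `(t, th)`, unknown `y` with `x1 = δ y`; every entry is polynomial after multiplication by a power
of `1 + 5 t²` -/
def PH : Prop := ∀ s z p t th l n θ : ℝ, 0 ≤ s → s ≤ 1 → 0 ≤ z → 0 ≤ p → p ≤ 1 → -(9 / 20) ≤ t → t ≤ 9 / 20 →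
  -(29 / 50) ≤ th → th ≤ 29 / 50 → 5 * t ^ 2 ≤ 1 → 3 * th ^ 2 ≤ 1 → l = 4 * t / (1 + 5 * t ^ 2) →
  n = (1 - 5 * t ^ 2) / (2 * (1 + 5 * t ^ 2)) → (z * s) ^ 2 ≤ 5 / 14 * (p * (2 - p)) → z ^ 2 * (1 - s ^ 2) ≤ N.c * (1 - p) →
  0 ≤ p / 2 + z * s * l → 0 ≤ p / 2 - z * s * l / 4 → 0 ≤ p / 2 - z * s * l / 4 + z * s * n * th →
  (z * s * n) ^ 2 ≤ 3 * (p / 2 - z * s * l / 4) ^ 2 →
  0 ≤ 4 * (p / 2 - z * s * l / 4) ^ 3 - 4 * (p / 2 - z * s * l / 4) * (z * s * n) ^ 2 + (z * s * n) ^ 3 * (4 * th ^ 3 - 4 * th) →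
  θ = l ^ 3 + 2 * (-l / 4 + n * th) ^ 3 + 2 * (-l / 4 - n * th) ^ 3 + 6 * (-l / 4 - n * th) * (n ^ 2 * (2 - 2 * th ^ 2)) →
  ∃ mm, 0 ≤ N.G0c s z p θ + N.Pq s z p * mm ∧ ∀ xb xm y P e, 0 ≤ N.QX s z p θ l (n * th) (n ^ 2 * (2 - 2 * th ^ 2)) xb xm
    ((2 - 2 * th ^ 2) * y ^ 2) (n * (2 - 2 * th ^ 2) * y) P e + (N.pcc s z p θ l - mm) * P ^ 2

theorem PF_of_PH (h : N.PH) : N.PF := by
  intro s z p l η R θ d hθ
  obtain ⟨t, th, n, δ, a1, a2, a3, a4, a5, a6, a7, a8, -, rfl, rfl, b1, b2⟩ := d.chart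
  have q : (n * δ) ^ 2 = n ^ 2 * (2 - 2 * th ^ 2) := by rw [mul_pow, b2]
  have c2 := d.c2
  have c3 := d.c3
  rw [q] at c2 c3 hθ ⊢
  obtain ⟨mm, g1, g2⟩ := h s z p t th l n θ d.s0 d.s1 d.z0 d.p0 d.p1 a1 a2 a3 a4 a5 a6 a7 a8 d.r0 d.zS d.cl d.c1
    (by linarith [d.cb]) (by linarith) (by linarith) hθ
  refine ⟨mm, g1, fun xb xm x1 P e => ?_⟩
  have := g2 xb xm (x1 / δ) P e
  rwa [← b2, show δ ^ 2 * (x1 / δ) ^ 2 = x1 ^ 2 by field_simp, show n * δ ^ 2 * (x1 / δ) = n * δ * x1 by field_simp, b2] at this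

/-- one matrix: `Pp ≥ P` in the mixed entries, `G0 + P² cc` in the corner (everything multiplied by `c` in the corner) -/
theorem mm_of_maj {s z p θ l Pp : ℝ} {f : ℝ → ℝ} (hP : 0 < Pp) (h1 : N.Pq s z p ≤ Pp ^ 2)
    (h0 : 0 ≤ N.G0c s z p θ + N.Pq s z p * N.pcc s z p θ l) :
    0 ≤ N.G0c s z p θ + N.Pq s z p * (N.pcc s z p θ l - (N.G0c s z p θ + N.Pq s z p * N.pcc s z p θ l) / Pp ^ 2) ∧
    ((∀ π, 0 ≤ f (Pp * π) + (N.G0c s z p θ + N.Pq s z p * N.pcc s z p θ l) * π ^ 2) → ∀ P, 0 ≤ f P + (N.pcc s z p θ l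
      - (N.pcc s z p θ l - (N.G0c s z p θ + N.Pq s z p * N.pcc s z p θ l) / Pp ^ 2)) * P ^ 2) := by
  generalize N.pcc s z p θ l = cc at *
  generalize N.G0c s z p θ = G at *
  generalize N.Pq s z p = q at *
  constructor
  · have : G + q * (cc - (G + q * cc) / Pp ^ 2) = (G + q * cc) * (Pp ^ 2 - q) / Pp ^ 2 := by field_simp; ring
    rw [this]
    exact div_nonneg (mul_nonneg h0 (by linarith)) (sq_nonneg _)
  · intro h P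
    have := h (P / Pp)
    rw [mul_div_cancel₀ _ hP.ne'] at this
    refine this.trans_eq ?_
    field_simp
    ring

/-- the matrix with a majorant `Pp` of `√Pq` -/
def PG : Prop := ∀ s z p l η R θ : ℝ, DomP N.c s z p l η R →
  θ = l ^ 3 + 2 * (-l / 4 + η) ^ 3 + 2 * (-l / 4 - η) ^ 3 + 6 * (-l / 4 - η) * R ^ 2 →
  ∃ Pp, 0 < Pp ∧ N.Pq s z p ≤ Pp ^ 2 ∧ ∀ xb xm x1 π e, 0 ≤ N.QX s z p θ l η (R ^ 2) xb xm (x1 ^ 2) (R * x1) (Pp * π) e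
    + (N.G0c s z p θ + N.Pq s z p * N.pcc s z p θ l) * π ^ 2

theorem PF_of_PG (h : N.PG) : N.PF := by
  intro s z p l η R θ d hθ
  obtain ⟨Pp, h1, h2, h3⟩ := h s z p l η R θ d hθ
  have h0 : 0 ≤ N.G0c s z p θ + N.Pq s z p * N.pcc s z p θ l := by
    have := h3 0 0 0 1 0
    simpa [QX, QF] using this
  exact ⟨_, (N.mm_of_maj (f := fun _ => 0) h1 h2 h0).1, fun xb xm x1 P e =>
    (N.mm_of_maj (f := fun P => N.QX s z p θ l η (R ^ 2) xb xm (x1 ^ 2) (R * x1) P e) h1 h2 h0).2 (fun π => h3 xb xm x1 π e) P⟩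

/-- the matrix in the chart variable `P = √Pq`, with a strict margin -/
def PS : Prop := ∀ s z p P l η R θ : ℝ, DomP N.c s z p l η R → 0 ≤ P → P ^ 2 = N.Pq s z p →
  θ = l ^ 3 + 2 * (-l / 4 + η) ^ 3 + 2 * (-l / 4 - η) ^ 3 + 6 * (-l / 4 - η) * R ^ 2 →
  ∃ ε, 0 < ε ∧ ∀ xb xm x1 π e, ε * (xb ^ 2 + xm ^ 2 + x1 ^ 2 + e ^ 2)
    ≤ N.QX s z p θ l η (R ^ 2) xb xm (x1 ^ 2) (R * x1) (P * π) e + (N.G0c s z p θ + P ^ 2 * N.pcc s z p θ l) * π ^ 2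

theorem PF_of_PS (h : N.PS) : N.PF := by
  intro s z p l η R θ d hθ
  have q0 : 0 ≤ N.Pq s z p := by rw [Pq]; linarith [d.zS]
  obtain ⟨ε, h1, h3⟩ := h s z p (√(N.Pq s z p)) l η R θ d (Real.sqrt_nonneg _) (Real.sq_sqrt q0) hθ
  rw [Real.sq_sqrt q0] at h3
  have h0 : 0 ≤ N.G0c s z p θ + N.Pq s z p * N.pcc s z p θ l := by
    have := h3 0 0 0 1 0
    simpa [QX, QF] using this
  rcases q0.eq_or_lt with h2 | h2
  · obtain ⟨b1, hb1⟩ : ∃ b, b = N.pb1 s z p θ l := ⟨_, rfl⟩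
    obtain ⟨b2, hb2⟩ : ∃ b, b = N.pb2 s z p θ l := ⟨_, rfl⟩
    obtain ⟨k1, hk1⟩ : ∃ k, k = b1 * (2 * (-l / 4 + η - l)) + b2 * (2 * ((-l / 4 + η) ^ 2 - l ^ 2)) := ⟨_, rfl⟩
    obtain ⟨k2, hk2⟩ : ∃ k, k = b1 * (2 * (-l / 4 - η - l)) + b2 * (2 * ((-l / 4 - η) ^ 2 + R ^ 2 - l ^ 2)) := ⟨_, rfl⟩
    obtain ⟨k3, hk3⟩ : ∃ k, k = b1 * (2 * R) + b2 * (4 * (-l / 4 - η) * R) := ⟨_, rfl⟩
    obtain ⟨k4, hk4⟩ : ∃ k, k = N.FP s z p θ l / 2 := ⟨_, rfl⟩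
    refine ⟨N.pcc s z p θ l - (k1 ^ 2 + k2 ^ 2 + k3 ^ 2 + k4 ^ 2) / ε, by rw [← h2] at h0 ⊢; simpa using h0,
      fun xb xm x1 P e => ?_⟩
    have g := h3 xb xm x1 0 e
    have e1 : N.QX s z p θ l η (R ^ 2) xb xm (x1 ^ 2) (R * x1) P e = N.QX s z p θ l η (R ^ 2) xb xm (x1 ^ 2) (R * x1) 0 e
        + 2 * P * (k1 * xb + k2 * xm + k3 * x1 + k4 * e) := by
      rw [hk1, hk2, hk3, hk4, hb1, hb2]; simp only [QX, QF]; ring
    have e2 : ε * (xb ^ 2 + xm ^ 2 + x1 ^ 2 + e ^ 2) + 2 * P * (k1 * xb + k2 * xm + k3 * x1 + k4 * e)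
        + (k1 ^ 2 + k2 ^ 2 + k3 ^ 2 + k4 ^ 2) / ε * P ^ 2
        = ((ε * xb + k1 * P) ^ 2 + (ε * xm + k2 * P) ^ 2 + (ε * x1 + k3 * P) ^ 2 + (ε * e + k4 * P) ^ 2) / ε := by
      field_simp; ring
    have e3 : 0 ≤ ((ε * xb + k1 * P) ^ 2 + (ε * xm + k2 * P) ^ 2 + (ε * x1 + k3 * P) ^ 2 + (ε * e + k4 * P) ^ 2) / ε := by
      positivity
    rw [mul_zero] at g
    rw [e1]
    nlinarith
  · have hP := Real.sqrt_pos.2 h2
    have hq := (Real.sq_sqrt q0).ge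
    exact ⟨_, (N.mm_of_maj (f := fun _ => 0) hP hq h0).1, fun xb xm x1 P e =>
      (N.mm_of_maj (f := fun P => N.QX s z p θ l η (R ^ 2) xb xm (x1 ^ 2) (R * x1) P e) hP hq h0).2
        (fun π => le_trans (by positivity) (h3 xb xm x1 π e)) P⟩
end Tab

/-- chart `(ph, th)` with `R = n √(6 - 2 th²)` -/
theorem DomP.chart' {c s z p l η R : ℝ} (h : DomP c s z p l η R) : ∃ ph th n : ℝ, -1 ≤ ph ∧ ph ≤ 1 ∧ -1 ≤ th ∧ th ≤ 1 ∧
    l = ph / (1 + ph ^ 2) * √(16 / 5) ∧ n = (2 / (1 + ph ^ 2) - 1) * √(1 / 12) ∧ 0 ≤ n ∧ η = n * th ∧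
    R = n * √(6 - 2 * th ^ 2) := by
  obtain ⟨t, th, n, δ, -, -, -, -, a5, a6, a7, a8, n0, rfl, rfl, b1, b2⟩ := h.chart
  have s5 : √5 ^ 2 = 5 := Real.sq_sqrt (by norm_num)
  have s3 : √3 ^ 2 = 3 := Real.sq_sqrt (by norm_num)
  have p5 : 0 < √5 := Real.sqrt_pos.2 (by norm_num)
  have p3 : 0 < √3 := Real.sqrt_pos.2 (by norm_num)
  have e1 : √(16 / 5) = 4 / √5 := by
    rw [Real.sqrt_eq_iff_mul_self_eq (by norm_num) (by positivity)]; field_simp; linarith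
  have e2 : √(1 / 12) = 1 / (2 * √3) := by
    rw [Real.sqrt_eq_iff_mul_self_eq (by norm_num) (by positivity)]; field_simp; linarith
  have e3 : √(6 - 2 * (√3 * th) ^ 2) = √3 * δ := by
    rw [Real.sqrt_eq_iff_mul_self_eq (by rw [mul_pow, s3]; linarith) (by positivity)]
    linear_combination (-δ ^ 2 - 2 * th ^ 2) * s3 - 3 * b2
  have q5 : (√5 * t) ^ 2 = 5 * t ^ 2 := by rw [mul_pow, s5]
  have q3 : (√3 * th) ^ 2 = 3 * th ^ 2 := by rw [mul_pow, s3]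
  have u5 := abs_le.1 ((sq_le_one_iff_abs_le_one (√5 * t)).1 (by rw [q5]; exact a5))
  have u3 := abs_le.1 ((sq_le_one_iff_abs_le_one (√3 * th)).1 (by rw [q3]; exact a6))
  refine ⟨√5 * t, √3 * th, n / √3, u5.1, u5.2, u3.1, u3.2, ?_, ?_, by positivity, by field_simp, by rw [e3]; field_simp⟩
  · rw [q5, e1, a7]; field_simp
  · rw [q5, e2, a8]; field_simp; ring

end Crest.Agent.R97
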