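import Crest.Agent.R97.CertB5
import Crest.Agent.R97.CertE4

/-! CertQ (helper26): the chart `(ph, th)` of the unit spectra for `d = 6` and the Gram majorant in this chart;
`ScG`: the determinant condition with an arbitrary majorant of the Gram matrix in the basis `(v, w + κ v)`. -/

set_option autoImplicit false
open Finset

namespace Crest.Agent.R97

/-- centred spectrum with middle critical point `th` -/
structure Nu (ν : Fin 4 → ℝ) (th : ℝ) : Prop where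
  mono : Monotone ν
  e1 : ν 0 + ν 1 + ν 2 + ν 3 = 0
  e2 : ν 0 * ν 1 + ν 0 * ν 2 + ν 0 * ν 3 + ν 1 * ν 2 + ν 1 * ν 3 + ν 2 * ν 3 = -6
  e3 : ν 0 * ν 1 * ν 2 + ν 0 * ν 1 * ν 3 + ν 0 * ν 2 * ν 3 + ν 1 * ν 2 * ν 3 = 4 * (th ^ 3 - 3 * th)
  e4 : 3 * th ^ 4 - 6 * th ^ 2 ≤ ν 0 * ν 1 * ν 2 * ν 3
  lo : ν 1 ≤ th
  hi : th ≤ ν 2
  th1 : |th| ≤ 1

theorem nu_of {ν : Fin 4 → ℝ} (hm : Monotone ν) (h1 : ν 0 + ν 1 + ν 2 + ν 3 = 0)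
    (h2 : ν 0 ^ 2 + ν 1 ^ 2 + ν 2 ^ 2 + ν 3 ^ 2 = 12) : ∃ th, Nu ν th := by
  obtain ⟨z, a1, a2, a3, a4, a5⟩ := e4_crit_sorted (hm (show (0 : Fin 4) ≤ 1 by decide))
    (hm (show (1 : Fin 4) ≤ 2 by decide)) (hm (show (2 : Fin 4) ≤ 3 by decide))
  have e2 : ν 0 * ν 1 + ν 0 * ν 2 + ν 0 * ν 3 + ν 1 * ν 2 + ν 1 * ν 3 + ν 2 * ν 3 = -6 := by
    linear_combination (ν 0 + ν 1 + ν 2 + ν 3) / 2 * h1 - 1 / 2 * h2
  have e3 : ν 0 * ν 1 * ν 2 + ν 0 * ν 1 * ν 3 + ν 0 * ν 2 * ν 3 + ν 1 * ν 2 * ν 3 = 4 * (z ^ 3 - 3 * z) := by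
    linear_combination (-1) * a4 - 3 * z ^ 2 * h1 + 2 * z * e2
  have e4 : (z - ν 0) * (z - ν 1) * (z - ν 2) * (z - ν 3) = ν 0 * ν 1 * ν 2 * ν 3 - (3 * z ^ 4 - 6 * z ^ 2) := by
    linear_combination (-z ^ 3) * h1 + z ^ 2 * e2 - z * e3
  have e5 : (z - ν 0) * (z - ν 1) + (z - ν 0) * (z - ν 2) + (z - ν 0) * (z - ν 3) + (z - ν 1) * (z - ν 2)
      + (z - ν 1) * (z - ν 3) + (z - ν 2) * (z - ν 3) = 6 * z ^ 2 - 6 := by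
    linear_combination (-3 * z) * h1 + e2
  refine ⟨z, hm, h1, e2, e3, by linarith, a1, a2, ?_⟩
  rw [← sq_le_one_iff_abs_le_one]
  linarith

namespace Nu
variable {ν : Fin 4 → ℝ} {th : ℝ}

theorem p2 (h : Nu ν th) : ν 0 ^ 2 + ν 1 ^ 2 + ν 2 ^ 2 + ν 3 ^ 2 = 12 := by
  linear_combination (ν 0 + ν 1 + ν 2 + ν 3) * h.e1 - 2 * h.e2

theorem p3 (h : Nu ν th) : ν 0 ^ 3 + ν 1 ^ 3 + ν 2 ^ 3 + ν 3 ^ 3 = 12 * (th ^ 3 - 3 * th) := by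
  linear_combination ((ν 0 + ν 1 + ν 2 + ν 3) ^ 2
    - 3 * (ν 0 * ν 1 + ν 0 * ν 2 + ν 0 * ν 3 + ν 1 * ν 2 + ν 1 * ν 3 + ν 2 * ν 3)) * h.e1 + 3 * h.e3

/-- consequences of a lower bound `-x ≤ a ν` -/
theorem low' (h : Nu ν th) {a x : ℝ} (hx : ∀ j, 0 ≤ x + a * ν j) : 0 ≤ x ∧ a ^ 2 ≤ x ^ 2 ∧
    0 ≤ 4 * x ^ 3 - 12 * a ^ 2 * x + a ^ 3 * (4 * (th ^ 3 - 3 * th)) ∧
    0 ≤ x ^ 4 - 6 * a ^ 2 * x ^ 2 + a ^ 3 * (4 * (th ^ 3 - 3 * th)) * x + a ^ 4 * (ν 0 * ν 1 * ν 2 * ν 3) := by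
  have h0 := hx 0
  have h1 := hx 1
  have h2 := hx 2
  have h3 := hx 3
  have e1 : (x + a * ν 0) + (x + a * ν 1) + (x + a * ν 2) + (x + a * ν 3) = 4 * x := by linear_combination a * h.e1
  have e2 : (x + a * ν 0) * (x + a * ν 1) + (x + a * ν 0) * (x + a * ν 2) + (x + a * ν 0) * (x + a * ν 3)
      + (x + a * ν 1) * (x + a * ν 2) + (x + a * ν 1) * (x + a * ν 3) + (x + a * ν 2) * (x + a * ν 3)
      = 6 * x ^ 2 - 6 * a ^ 2 := by linear_combination 3 * x * a * h.e1 + a ^ 2 * h.e2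
  have e3 : (x + a * ν 0) * (x + a * ν 1) * (x + a * ν 2) + (x + a * ν 0) * (x + a * ν 1) * (x + a * ν 3)
      + (x + a * ν 0) * (x + a * ν 2) * (x + a * ν 3) + (x + a * ν 1) * (x + a * ν 2) * (x + a * ν 3)
      = 4 * x ^ 3 - 12 * a ^ 2 * x + a ^ 3 * (4 * (th ^ 3 - 3 * th)) := by
    linear_combination 3 * x ^ 2 * a * h.e1 + 2 * x * a ^ 2 * h.e2 + a ^ 3 * h.e3
  have e4 : (x + a * ν 0) * (x + a * ν 1) * (x + a * ν 2) * (x + a * ν 3)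
      = x ^ 4 - 6 * a ^ 2 * x ^ 2 + a ^ 3 * (4 * (th ^ 3 - 3 * th)) * x + a ^ 4 * (ν 0 * ν 1 * ν 2 * ν 3) := by
    linear_combination x ^ 3 * a * h.e1 + x ^ 2 * a ^ 2 * h.e2 + x * a ^ 3 * h.e3
  refine ⟨by linarith, ?_, by rw [← e3]; positivity, by rw [← e4]; positivity⟩
  have : 0 ≤ 6 * x ^ 2 - 6 * a ^ 2 := by rw [← e2]; positivity
  linarith

theorem low (h : Nu ν th) {x : ℝ} (hx : ∀ j, 0 ≤ x + ν j) : 1 ≤ x ∧ 0 ≤ 4 * x ^ 3 - 12 * x + 4 * (th ^ 3 - 3 * th) ∧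
    -(x ^ 4 - 6 * x ^ 2 + 4 * (th ^ 3 - 3 * th) * x) ≤ ν 0 * ν 1 * ν 2 * ν 3 := by
  obtain ⟨a, b, c, d⟩ := h.low' (a := 1) (x := x) fun j => by simpa using hx j
  exact ⟨by nlinarith, by linarith, by linarith⟩

theorem top (h : Nu ν th) : 1 ≤ ν 3 := by
  have a0 := h.mono (show (0 : Fin 4) ≤ 3 by decide)
  have a1 := h.mono (show (1 : Fin 4) ≤ 3 by decide)
  have a2 := h.mono (show (2 : Fin 4) ≤ 3 by decide)
  obtain ⟨a, b, -⟩ := h.low' (a := -1) (x := ν 3) fun j => by fin_cases j <;> simp <;> linarith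
  nlinarith

theorem bot (h : Nu ν th) : ν 0 ≤ -1 := by
  have a0 := h.mono (show (0 : Fin 4) ≤ 3 by decide)
  have a1 := h.mono (show (0 : Fin 4) ≤ 1 by decide)
  have a2 := h.mono (show (0 : Fin 4) ≤ 2 by decide)
  have := (h.low (x := -ν 0) fun j => by fin_cases j <;> simp <;> linarith).1
  linarith

/-- upper bound of `e4` at the outer critical points -/
theorem up (h : Nu ν th) {c : ℝ} (hc : c ^ 3 - 3 * c = th ^ 3 - 3 * th) (h1 : 1 ≤ c ^ 2) :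
    ν 0 * ν 1 * ν 2 * ν 3 ≤ 3 * c ^ 4 - 6 * c ^ 2 := by
  have e : ∀ x, (x - ν 0) * (x - ν 1) * (x - ν 2) * (x - ν 3) = (x - c) ^ 2 * (x ^ 2 + 2 * c * x + 3 * c ^ 2 - 6)
      + (ν 0 * ν 1 * ν 2 * ν 3 - (3 * c ^ 4 - 6 * c ^ 2)) := fun x => by
    linear_combination (-x ^ 3) * h.e1 + x ^ 2 * h.e2 - x * h.e3 + 4 * x * hc
  rcases le_total 0 c with h0 | h0
  · have c1 : 1 ≤ c := by nlinarith
    have t := h.top
    have e3 := e (ν 3)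
    have : 0 ≤ (ν 3 - c) ^ 2 * (ν 3 ^ 2 + 2 * c * ν 3 + 3 * c ^ 2 - 6) :=
      mul_nonneg (sq_nonneg _) (by nlinarith [mul_nonneg (sub_nonneg.2 c1) (sub_nonneg.2 t)])
    rw [sub_self, mul_zero] at e3
    linarith
  · have c1 : c ≤ -1 := by nlinarith
    have t := h.bot
    have e3 := e (ν 0)
    have : 0 ≤ (ν 0 - c) ^ 2 * (ν 0 ^ 2 + 2 * c * ν 0 + 3 * c ^ 2 - 6) :=
      mul_nonneg (sq_nonneg _) (by nlinarith [mul_nonneg (sub_nonneg.2 c1) (sub_nonneg.2 t)])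
    rw [sub_self, zero_mul, zero_mul, zero_mul] at e3
    linarith

end Nu

/-- the eigenvalue of the direction in the chart -/
noncomputable def chL (ph : ℝ) : ℝ := 2 / √5 * (2 * ph / (1 + ph ^ 2))
/-- the spread of the other eigenvalues in the chart -/
noncomputable def chN (ph : ℝ) : ℝ := 1 / √12 * ((1 - ph ^ 2) / (1 + ph ^ 2))

theorem exists_nu {l : ℝ} {μ : Fin 4 → ℝ} (hm : Monotone μ) (tr : l + ∑ j, μ j = 0) {n : ℝ} (hn : 0 ≤ n)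
    (h2 : ∑ j, μ j ^ 2 = l ^ 2 / 4 + 12 * n ^ 2) : ∃ (th : ℝ) (ν : Fin 4 → ℝ), Nu ν th ∧ ∀ j, μ j = -l / 4 + n * ν j := by
  rw [Fin.sum_univ_four] at tr h2
  have h3 : (μ 0 + l / 4) ^ 2 + (μ 1 + l / 4) ^ 2 + (μ 2 + l / 4) ^ 2 + (μ 3 + l / 4) ^ 2 = 12 * n ^ 2 := by
    linear_combination h2 + l / 2 * tr
  rcases hn.eq_or_lt with h0 | h0
  · obtain ⟨th, h⟩ := nu_of (ν := ![-3, 1, 1, 1]) (by
      intro i j hij
      fin_cases i <;> fin_cases j <;> simp_all <;> norm_num) (by simp; norm_num) (by simp; norm_num)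
    refine ⟨th, _, h, fun j => ?_⟩
    rw [← h0] at h3 ⊢
    have : (μ j + l / 4) ^ 2 ≤ 0 := by
      fin_cases j <;> simp only [Fin.reduceFinMk, Fin.zero_eta, Fin.mk_one, Fin.isValue] <;>
        nlinarith [sq_nonneg (μ 0 + l / 4), sq_nonneg (μ 1 + l / 4), sq_nonneg (μ 2 + l / 4), sq_nonneg (μ 3 + l / 4)]
    have := pow_eq_zero_iff (two_ne_zero) |>.1 (le_antisymm this (sq_nonneg _))
    linarith
  · obtain ⟨th, h⟩ := nu_of (ν := fun j => (μ j + l / 4) / n)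
      (fun i j hij => div_le_div_of_nonneg_right (by linarith [hm hij]) h0.le)
      (by field_simp; linarith) (by simp only [div_pow]; rw [← add_div, ← add_div, ← add_div, h3]; field_simp)
    exact ⟨th, _, h, fun j => by field_simp; ring⟩

theorem t3_nu {l n th : ℝ} {μ ν : Fin 4 → ℝ} (h : Nu ν th) (hμ : ∀ j, μ j = -l / 4 + n * ν j) :
    l ^ 3 + ∑ j, μ j ^ 3 = l ^ 3 - l ^ 3 / 16 - 9 * l * n ^ 2 + 3 * n ^ 3 * (4 * (th ^ 3 - 3 * th)) := by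
  simp only [Fin.sum_univ_four, hμ]
  linear_combination 3 * l ^ 2 / 16 * n * h.e1 - 3 * l / 4 * n ^ 2 * h.p2 + n ^ 3 * h.p3

theorem chart_spec {l : ℝ} {μ : Fin 4 → ℝ} (hm : Monotone μ) (tr : l + ∑ j, μ j = 0) (h2 : l ^ 2 + ∑ j, μ j ^ 2 = 1) :
    ∃ (ph th : ℝ) (ν : Fin 4 → ℝ), |ph| ≤ 1 ∧ Nu ν th ∧ l = chL ph ∧ (∀ j, μ j = -l / 4 + chN ph * ν j) ∧
      0 ≤ chN ph ∧ 5 / 4 * l ^ 2 + 12 * chN ph ^ 2 = 1 := by
  have h0 : 0 ≤ 1 - 5 / 4 * l ^ 2 := by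
    rw [Fin.sum_univ_four] at tr h2
    have h3 : (μ 0 + l / 4) ^ 2 + (μ 1 + l / 4) ^ 2 + (μ 2 + l / 4) ^ 2 + (μ 3 + l / 4) ^ 2 = 1 - 5 / 4 * l ^ 2 := by
      linear_combination h2 + l / 2 * tr
    rw [← h3]; positivity
  obtain ⟨b, hb⟩ : ∃ b, b = √(1 - 5 / 4 * l ^ 2) := ⟨_, rfl⟩
  have b0 : 0 ≤ b := hb ▸ Real.sqrt_nonneg _
  have b2 : b ^ 2 = 1 - 5 / 4 * l ^ 2 := by rw [hb, Real.sq_sqrt h0]
  have s5 : √5 ^ 2 = 5 := Real.sq_sqrt (by norm_num)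
  have s12 : √12 ^ 2 = 12 := Real.sq_sqrt (by norm_num)
  have p5 : 0 < √5 := Real.sqrt_pos.2 (by norm_num)
  have p12 : 0 < √12 := Real.sqrt_pos.2 (by norm_num)
  obtain ⟨a, ha⟩ : ∃ a, a = √5 * l / 2 := ⟨_, rfl⟩
  have a2 : a ^ 2 = 1 - b ^ 2 := by rw [ha, b2, div_pow, mul_pow, s5]; ring
  have b1 : 0 < 1 + b := by linarith
  have e0 : 1 + (a / (1 + b)) ^ 2 = 2 / (1 + b) := by
    rw [div_pow, a2]; field_simp; ring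
  have eN : chN (a / (1 + b)) = b / √12 := by
    rw [chN, show 1 - (a / (1 + b)) ^ 2 = 2 - (1 + (a / (1 + b)) ^ 2) by ring, e0]
    field_simp
    ring
  have eL : l = chL (a / (1 + b)) := by
    rw [chL, e0, ha]
    field_simp
  have n2 : 12 * (b / √12) ^ 2 = b ^ 2 := by rw [div_pow, s12]; ring
  obtain ⟨th, ν, h, hμ⟩ := exists_nu hm tr (n := b / √12) (by positivity) (by rw [n2, b2]; linarith)
  refine ⟨a / (1 + b), th, ν, ?_, h, eL, by rw [eN]; exact hμ, by rw [eN]; positivity, by rw [eN, n2, b2]; ring⟩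
  rw [← sq_le_one_iff_abs_le_one, div_pow, div_le_one (by positivity), a2]
  nlinarith

/-- moments in the centred variable: `wl = K + 2 D l`, `E = 3 K + D l`, `t = 4 D n / E`, `L = 5 l / 4` -/
noncomputable def cG0 (wl E t e3 f : ℝ) : ℝ := 1 / wl + eN0 1 t 0 (-6) e3 / (E * ePi 1 t 0 (-6) e3 f)
noncomputable def cG1 (wl E n L t e3 f : ℝ) : ℝ := L / wl + n * eN1 1 t 0 (-6) e3 f / (E * ePi 1 t 0 (-6) e3 f)
noncomputable def cG2 (wl E n L t e3 f : ℝ) : ℝ :=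
  L ^ 2 / wl + n ^ 2 * eN2 1 t 0 (-6) e3 f / (E * ePi 1 t 0 (-6) e3 f)
noncomputable def cG3 (wl E n L t e3 f : ℝ) : ℝ :=
  L ^ 3 / wl + n ^ 3 * eN3 1 t 0 (-6) e3 f / (E * ePi 1 t 0 (-6) e3 f)
noncomputable def cG4 (wl E n L t e3 f : ℝ) : ℝ :=
  L ^ 4 / wl + n ^ 4 * eN4 1 t 0 (-6) e3 f / (E * ePi 1 t 0 (-6) e3 f)
noncomputable def qcA (wl E n L t e3 f : ℝ) : ℝ := cG2 wl E n L t e3 f - cG1 wl E n L t e3 f ^ 2 / cG0 wl E t e3 f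
noncomputable def qcB (wl E n L t e3 f : ℝ) : ℝ :=
  cG3 wl E n L t e3 f - cG1 wl E n L t e3 f * cG2 wl E n L t e3 f / cG0 wl E t e3 f
noncomputable def qcC (wl E n L t e3 f : ℝ) : ℝ := cG4 wl E n L t e3 f - cG2 wl E n L t e3 f ^ 2 / cG0 wl E t e3 f

theorem ePi_c (t e3 f : ℝ) : ePi 1 t 0 (-6) e3 f = 1 - 6 * t ^ 2 + e3 * t ^ 3 + f * t ^ 4 := by unfold ePi; ring
theorem eN0_c (t e3 : ℝ) : eN0 1 t 0 (-6) e3 = 4 - 12 * t ^ 2 + e3 * t ^ 3 := by unfold eN0; ring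
theorem eN1_c (t e3 f : ℝ) : eN1 1 t 0 (-6) e3 f = -12 * t + 3 * e3 * t ^ 2 + 4 * f * t ^ 3 := by unfold eN1; ring
theorem eN2_c (t e3 f : ℝ) : eN2 1 t 0 (-6) e3 f = 12 - 3 * e3 * t - 4 * f * t ^ 2 := by unfold eN2 eP2; ring
theorem eN3_c (t e3 f : ℝ) : eN3 1 t 0 (-6) e3 f = 3 * e3 + (4 * f - 72) * t + 12 * e3 * t ^ 2 + 12 * f * t ^ 3 := by
  unfold eN3 eP4 eP3 eP2; ring
theorem eN4_c (t e3 f : ℝ) : eN4 1 t 0 (-6) e3 f =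
    72 - 4 * f - 30 * e3 * t + (3 * e3 ^ 2 - 12 * f) * t ^ 2 + 3 * e3 * f * t ^ 3 := by
  unfold eN4 eP5 eP4 eP3 eP2; ring

/-- the Gram form of `CertB5` is a minimum over the constant -/
theorem q_gram_le {m : ℕ} {c0 c7 l : ℝ} {μ : Fin m → ℝ} (hl : 0 < c0 + 2 * c7 * l) (hμ : ∀ j, 0 < c0 + 2 * c7 * μ j)
    (α β θ : ℝ) : α ^ 2 * gA c0 c7 l μ + 2 * α * β * gB c0 c7 l μ + β ^ 2 * gC c0 c7 l μ
      ≤ (θ + α * l + β * l ^ 2) ^ 2 / (c0 + 2 * c7 * l)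
        + ∑ j, (θ + α * μ j + β * μ j ^ 2) ^ 2 / (3 * c0 + 2 * c7 * (l + 2 * μ j)) := by
  have hw : ∀ j, 0 < 3 * c0 + 2 * c7 * (l + 2 * μ j) := fun j => by linarith [hμ j]
  have h0 : 0 < sk c0 c7 l μ 0 :=
    add_pos_of_pos_of_nonneg (div_pos (by simp) hl) (sum_nonneg fun j _ => (div_pos (by simp) (hw j)).le)
  have : ∑ j, (θ + α * μ j + β * μ j ^ 2) ^ 2 / (3 * c0 + 2 * c7 * (l + 2 * μ j))
      = α ^ 2 * ∑ j, μ j ^ 2 / (3 * c0 + 2 * c7 * (l + 2 * μ j))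
        + 2 * α * β * ∑ j, μ j ^ 3 / (3 * c0 + 2 * c7 * (l + 2 * μ j))
        + β ^ 2 * ∑ j, μ j ^ 4 / (3 * c0 + 2 * c7 * (l + 2 * μ j))
        + 2 * θ * α * ∑ j, μ j ^ 1 / (3 * c0 + 2 * c7 * (l + 2 * μ j))
        + 2 * θ * β * ∑ j, μ j ^ 2 / (3 * c0 + 2 * c7 * (l + 2 * μ j))
        + θ ^ 2 * ∑ j, μ j ^ 0 / (3 * c0 + 2 * c7 * (l + 2 * μ j)) := by
    simp only [mul_sum, ← sum_add_distrib]
    exact sum_congr rfl fun j _ => by ring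
  have e : (θ + α * l + β * l ^ 2) ^ 2 / (c0 + 2 * c7 * l)
        + ∑ j, (θ + α * μ j + β * μ j ^ 2) ^ 2 / (3 * c0 + 2 * c7 * (l + 2 * μ j))
      = α ^ 2 * sk c0 c7 l μ 2 + 2 * α * β * sk c0 c7 l μ 3 + β ^ 2 * sk c0 c7 l μ 4
        + 2 * θ * α * sk c0 c7 l μ 1 + 2 * θ * β * sk c0 c7 l μ 2 + θ ^ 2 * sk c0 c7 l μ 0 := by
    rw [this]
    simp only [sk]
    ring
  rw [e, gA, gB, gC, ← sub_nonneg]
  generalize sk c0 c7 l μ 0 = s0 at *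
  generalize sk c0 c7 l μ 1 = s1
  generalize sk c0 c7 l μ 2 = s2
  generalize sk c0 c7 l μ 3 = s3
  generalize sk c0 c7 l μ 4 = s4
  have e2 : α ^ 2 * s2 + 2 * α * β * s3 + β ^ 2 * s4 + 2 * θ * α * s1 + 2 * θ * β * s2 + θ ^ 2 * s0
      - (α ^ 2 * (s2 - s1 ^ 2 / s0) + 2 * α * β * (s3 - s1 * s2 / s0) + β ^ 2 * (s4 - s2 ^ 2 / s0))
      = (θ * s0 + α * s1 + β * s2) ^ 2 / s0 := by field_simp; ring
  rw [e2]
  positivity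

theorem chart_E {K D l n th : ℝ} {μ ν : Fin 4 → ℝ} (h : Nu ν th) (hν : ∀ j, μ j = -l / 4 + n * ν j)
    (hl : 0 < K + 2 * D * l) (hμ : ∀ j, 0 < K + 2 * D * μ j) : 0 < 3 * K + D * l := by
  have h0 := hμ 0
  have h1 := hμ 1
  have h2 := hμ 2
  have h3 := hμ 3
  rw [hν] at h0 h1 h2 h3
  have : D * n * (ν 0 + ν 1 + ν 2 + ν 3) = 0 := by rw [h.e1, mul_zero]
  nlinarith

/-- the Gram majorant in the chart, for the pair `(v, w + l v / 2)` -/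
theorem chart_gram {K D l n th f wl E t L e3 : ℝ} {μ ν : Fin 4 → ℝ} (h : Nu ν th) (hν : ∀ j, μ j = -l / 4 + n * ν j)
    (hl : 0 < K + 2 * D * l) (hμ : ∀ j, 0 < K + 2 * D * μ j) (hwl : wl = K + 2 * D * l) (hE : E = 3 * K + D * l)
    (ht : t = 4 * D * n / E) (hL : L = 5 * l / 4) (he : e3 = 4 * (th ^ 3 - 3 * th)) (hf : f ≤ ν 0 * ν 1 * ν 2 * ν 3)
    (hP : 0 < ePi 1 t 0 (-6) e3 f) (α β : ℝ) :
    (α + β * (l / 2)) ^ 2 * gA K D l μ + 2 * (α + β * (l / 2)) * β * gB K D l μ + β ^ 2 * gC K D l μ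
      ≤ α ^ 2 * qcA wl E n L t e3 f + 2 * α * β * qcB wl E n L t e3 f + β ^ 2 * qcC wl E n L t e3 f := by
  have E0 : 0 < E := hE ▸ chart_E h hν hl hμ
  have w0 : 0 < wl := hwl ▸ hl
  have ew : ∀ j, 3 * K + 2 * D * (l + 2 * μ j) = E * (1 + t * ν j) := fun j => by
    have : E * t = 4 * D * n := by rw [ht]; field_simp
    rw [hν]
    linear_combination (-ν j) * this - hE
  have hw : ∀ j, 0 < 1 + t * ν j := fun j =>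
    (mul_pos_iff_of_pos_left E0).1 (by rw [← ew]; linarith [hμ j])
  have g := fun γ a b => e4_gram (hw 0) (hw 1) (hw 2) (hw 3) h.e1.symm h.e2.symm (he.trans h.e3.symm) hf hP γ a b
  have G0 : 0 < cG0 wl E t e3 f := by
    have g0 := g 1 0 0
    have a0 := hw 0
    have a1 := hw 1
    have a2 := hw 2
    have a3 := hw 3
    have g1 : 0 ≤ eNq 1 t 0 (-6) e3 f 1 0 0 / ePi 1 t 0 (-6) e3 f := le_trans (by positivity) g0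
    have e : eN0 1 t 0 (-6) e3 / (E * ePi 1 t 0 (-6) e3 f) = eNq 1 t 0 (-6) e3 f 1 0 0 / ePi 1 t 0 (-6) e3 f / E := by
      simp only [eNq]; field_simp; ring
    rw [cG0, e]
    positivity
  obtain ⟨θ, hθ⟩ : ∃ θ, θ = -(α * cG1 wl E n L t e3 f + β * cG2 wl E n L t e3 f) / cG0 wl E t e3 f := ⟨_, rfl⟩
  refine (q_gram_le hl hμ (α + β * (l / 2)) β (θ + α * l / 4 + β * l ^ 2 / 16)).trans ?_
  have e1 : ∀ j, (θ + α * l / 4 + β * l ^ 2 / 16 + (α + β * (l / 2)) * μ j + β * μ j ^ 2) ^ 2 /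
      (3 * K + 2 * D * (l + 2 * μ j)) = (θ + α * n * ν j + β * n ^ 2 * ν j ^ 2) ^ 2 / (1 + t * ν j) / E := fun j => by
    rw [ew, div_div, mul_comm E, hν]
    congr 1
    ring
  have e2 : (θ + α * l / 4 + β * l ^ 2 / 16 + (α + β * (l / 2)) * l + β * l ^ 2) ^ 2 = (θ + α * L + β * L ^ 2) ^ 2 := by
    rw [hL]; ring
  have e3' : α ^ 2 * qcA wl E n L t e3 f + 2 * α * β * qcB wl E n L t e3 f + β ^ 2 * qcC wl E n L t e3 f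
      = θ ^ 2 * cG0 wl E t e3 f + 2 * θ * α * cG1 wl E n L t e3 f + (α ^ 2 + 2 * θ * β) * cG2 wl E n L t e3 f
        + 2 * α * β * cG3 wl E n L t e3 f + β ^ 2 * cG4 wl E n L t e3 f := by
    rw [hθ, qcA, qcB, qcC]
    field_simp
    ring
  have e4 : θ ^ 2 * cG0 wl E t e3 f + 2 * θ * α * cG1 wl E n L t e3 f + (α ^ 2 + 2 * θ * β) * cG2 wl E n L t e3 f
        + 2 * α * β * cG3 wl E n L t e3 f + β ^ 2 * cG4 wl E n L t e3 f = (θ + α * L + β * L ^ 2) ^ 2 / wl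
        + eNq 1 t 0 (-6) e3 f θ (α * n) (β * n ^ 2) / ePi 1 t 0 (-6) e3 f / E := by
    simp only [cG0, cG1, cG2, cG3, cG4, eNq]
    field_simp
    ring
  rw [e3', e4, e2, ← hwl]
  simp only [e1, Fin.sum_univ_four, ← add_div]
  exact add_le_add le_rfl (div_le_div_of_nonneg_right (g θ (α * n) (β * n ^ 2)) E0.le)

/-- the determinant criterion in the basis `(v, w + κ v)` with a majorant of the Gram matrix -/
theorem quad_maj {A0 B0 C0 A B C κ M1 M2 M3 v w Q : ℝ} (b1 b2 P : ℝ)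
    (hΓ : ∀ α β : ℝ, 0 ≤ α ^ 2 * A0 + 2 * α * β * B0 + β ^ 2 * C0)
    (hM : ∀ α β : ℝ, (α + β * κ) ^ 2 * A0 + 2 * (α + β * κ) * β * B0 + β ^ 2 * C0 ≤ α ^ 2 * A + 2 * α * β * B + β ^ 2 * C)
    (hQ : ∀ α β : ℝ, 2 * (α * v + β * w) - (α ^ 2 * A0 + 2 * α * β * B0 + β ^ 2 * C0) ≤ Q)
    (h1 : 0 < qD A B C (M1 - 2 * κ * M2 + κ ^ 2 * M3) (M2 - κ * M3) M3)
    (h2 : 0 < 2 + qT A B C (M1 - 2 * κ * M2 + κ ^ 2 * M3) (M2 - κ * M3) M3) :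
    0 ≤ Q + (M1 * v ^ 2 + 2 * M2 * v * w + M3 * w ^ 2) + 2 * P * (b1 * v + b2 * w)
      + qN A B C (M1 - 2 * κ * M2 + κ ^ 2 * M3) (M2 - κ * M3) M3 (b1 - κ * b2) b2
        / qD A B C (M1 - 2 * κ * M2 + κ ^ 2 * M3) (M2 - κ * M3) M3 * P ^ 2 := by
  have := quad_det (v := v) (w := w + κ * v) (Q := Q) (b1 - κ * b2) b2 P (fun α β => (hΓ _ _).trans (hM α β))
    (fun α β => by linarith [hQ (α + β * κ) β, hM α β]) h1 h2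
  linarith

/-- the determinant form with a majorant, `a ≠ 0` -/
def Ans.ScG (s : Ans) (m : ℕ) (R : (Fin 6 → ℝ) → Prop) : Prop :=
  ∀ (y : Fin 6 → ℝ) (l : ℝ) (μ : Fin m → ℝ), Adm R y l μ → 0 < y 0 →
    0 < s.Φ y ∧ 0 < s.c 0 y + 2 * s.c 7 y * l ∧ ((∀ j, 0 < s.c 0 y + 2 * s.c 7 y * μ j) → ∃ A B C κ M1 M2 : ℝ,
      (∀ α β : ℝ, (α + β * κ) ^ 2 * gA (s.c 0 y) (s.c 7 y) l μ + 2 * (α + β * κ) * β * gB (s.c 0 y) (s.c 7 y) l μ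
        + β ^ 2 * gC (s.c 0 y) (s.c 7 y) l μ ≤ α ^ 2 * A + 2 * α * β * B + β ^ 2 * C) ∧
      M1 = s.M1 y - 2 * κ * s.M2 y + κ ^ 2 * s.M3 y ∧ M2 = s.M2 y - κ * s.M3 y ∧
      0 < qD A B C M1 M2 (s.M3 y) ∧ 0 < 2 + qT A B C M1 M2 (s.M3 y) ∧
      (y 2 - y 1 ^ 2) * qN A B C M1 M2 (s.M3 y) (s.b1 y l - κ * s.b2 y l) (s.b2 y l)
        ≤ (s.G0 (m + 1) y (l ^ 4 + ∑ j, μ j ^ 4) + (y 2 - y 1 ^ 2) * s.cc y l) * qD A B C M1 M2 (s.M3 y))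

theorem Ans.scW_of_G {s : Ans} {m : ℕ} {R : (Fin 6 → ℝ) → Prop} (h : s.ScG m R) (hz : s.ScZ m) : s.ScW m R := by
  intro y l μ a
  by_cases h0 : 0 < y 0
  · obtain ⟨h1, h2, h3⟩ := h y l μ a h0
    refine ⟨h1.le, h2, fun hμ => ?_⟩
    obtain ⟨A, B, C, κ, M1, M2, hM, rfl, rfl, h3, h4, h5⟩ := h3 hμ
    refine ⟨s.cc y l - qN A B C (s.M1 y - 2 * κ * s.M2 y + κ ^ 2 * s.M3 y) (s.M2 y - κ * s.M3 y) (s.M3 y)
      (s.b1 y l - κ * s.b2 y l) (s.b2 y l) / qD A B C (s.M1 y - 2 * κ * s.M2 y + κ ^ 2 * s.M3 y)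
      (s.M2 y - κ * s.M3 y) (s.M3 y), ?_, fun P v w Q hQ => fin_of_nn h1 ?_⟩
    · rw [← div_le_iff₀ h3, mul_div_assoc] at h5
      linarith
    · have h6 := quad_maj (s.b1 y l) (s.b2 y l) P (gram_nn h2 hμ) hM hQ h3 h4
      have h7 := s.Gk_eq h1 l P v w
      linarith
  · obtain ⟨rfl, rfl⟩ := a.zero h0
    obtain ⟨h1, h2, h3⟩ := Ans.scW_zero hz a
    exact ⟨h1, h2, fun _ => h3⟩

end Crest.Agent.R97
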