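import Crest.Agent.R97.CertB7
import Crest.Agent.R97.CertQ

/-! CertS2 (helper26): the final scalar inequality of the certifier (pair `(v, s w - (3/4) s l v)`) implies `Tab.NW`. -/

set_option autoImplicit false
open Finset

namespace Crest.Agent.R97
namespace S2

def pi (t N e3 f : ℝ) : ℝ := 1 + t ^ 2 * (t * (e3 + f * t) - 6 * N)
def n0 (t N e3 : ℝ) : ℝ := 4 + t ^ 2 * (e3 * t - 12 * N)
def n1 (t N e3 f : ℝ) : ℝ := t * (t * (3 * e3 + 4 * (f * t)) - 12 * N)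
def n2 (t N e3 f : ℝ) : ℝ := 12 * N - t * (3 * e3 + 4 * (f * t))
def n3 (t N e3 f : ℝ) : ℝ := 3 * e3 + t * ((4 * f - 72 * N ^ 2) + 12 * (N * (t * (e3 + f * t))))
def n4 (t N e3 f : ℝ) : ℝ :=
  (72 * N ^ 2 - 4 * f) + t * (t * (3 * (e3 * (e3 + f * t)) - 12 * (N * f)) - 30 * (N * e3))
def m11 (t N e3 f : ℝ) : ℝ := 48 * N - 4 * (t * (3 * e3 + 4 * (f * t)))
def m12 (t N e3 f : ℝ) : ℝ := 12 * e3 + t * ((16 * f - 144 * N ^ 2) + 12 * (N * e3 * t))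
def m22 (t N e3 f : ℝ) : ℝ := (144 * N ^ 2 - 16 * f) + t * (3 * (e3 ^ 2 * t) - 48 * (N * e3))
def m14 (t N e3 f : ℝ) : ℝ := 3 * (e3 * (t * (3 * e3 + 4 * (f * t)) - 12 * N))
def m24 (t N e3 f : ℝ) : ℝ := (864 * (N ^ 2 * N) - 9 * e3 ^ 2 - 48 * (N * f))
  - t * (12 * (e3 * f) + 144 * (N ^ 2 * (e3 + f * t)))
def V (t N e3 f : ℝ) : ℝ := (1728 * (N ^ 2 * N) - 36 * e3 ^ 2 - 192 * (N * f)) - t * (48 * (e3 * f) + 144 * (N ^ 2 * e3))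
def d0 (t N e3 f rw : ℝ) : ℝ := pi t N e3 f + rw * n0 t N e3
def gA (t N e3 f L rw : ℝ) : ℝ := L * (L * n0 t N e3 - 2 * n1 t N e3 f) + n2 t N e3 f + rw * m11 t N e3 f
def gB (t N e3 f L rw s : ℝ) : ℝ :=
  s * (n3 t N e3 f + L * (L * n1 t N e3 f - 2 * n2 t N e3 f) + rw * (m12 t N e3 f - L * m11 t N e3 f))
def gC (t N e3 f L rw s : ℝ) : ℝ := s ^ 2 * (n4 t N e3 f + L * (L * n2 t N e3 f - 2 * n3 t N e3 f)
  + rw * (m22 t N e3 f + L * (L * m11 t N e3 f - 2 * m12 t N e3 f)))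
def U (t N e3 f L : ℝ) : ℝ := m24 t N e3 f + L * (L * ((m22 t N e3 f - 6 * (N * m11 t N e3 f))
  + L * (L * m11 t N e3 f - 2 * m12 t N e3 f)) - 2 * m14 t N e3 f)
def dg (t N e3 f L rw s : ℝ) : ℝ := s ^ 2 * (U t N e3 f L + rw * V t N e3 f)
def qT (t N e3 f L rw s H11 H12 H22 : ℝ) : ℝ :=
  gA t N e3 f L rw * H11 + 2 * (gB t N e3 f L rw s * H12) + gC t N e3 f L rw s * H22
def qD (t N e3 f L rw s H11 H12 H22 : ℝ) : ℝ :=
  d0 t N e3 f rw + qT t N e3 f L rw s H11 H12 H22 + dg t N e3 f L rw s * (H11 * H22 - H12 ^ 2)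
def qN (t N e3 f L rw s H11 H12 H22 d1 d2 : ℝ) : ℝ :=
  (gA t N e3 f L rw + dg t N e3 f L rw s * H22) * d1 ^ 2 + 2 * ((gB t N e3 f L rw s - dg t N e3 f L rw s * H12) * (d1 * d2))
    + (gC t N e3 f L rw s + dg t N e3 f L rw s * H11) * d2 ^ 2

theorem r11 (t N e3 f : ℝ) : n0 t N e3 * n2 t N e3 f - n1 t N e3 f ^ 2 = pi t N e3 f * m11 t N e3 f := by
  unfold n0 n1 n2 pi m11; ring
theorem r12 (t N e3 f : ℝ) : n0 t N e3 * n3 t N e3 f - n1 t N e3 f * n2 t N e3 f = pi t N e3 f * m12 t N e3 f := by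
  unfold n0 n1 n2 n3 pi m12; ring
theorem r22 (t N e3 f : ℝ) : n0 t N e3 * n4 t N e3 f - n2 t N e3 f ^ 2 = pi t N e3 f * m22 t N e3 f := by
  unfold n0 n2 n4 pi m22; ring
theorem det_eq (t N e3 f L rw s : ℝ) : gA t N e3 f L rw * gC t N e3 f L rw s - gB t N e3 f L rw s ^ 2
    = dg t N e3 f L rw s * d0 t N e3 f rw := by
  unfold gA gB gC dg d0 U V n0 n1 n2 n3 n4 pi m11 m12 m22 m14 m24; ring
theorem ePi_s (t N e3 f : ℝ) : ePi 1 t 0 (-6 * N) e3 f = pi t N e3 f := by unfold ePi pi; ring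
theorem eNq_s (t N e3 f γ a b : ℝ) : eNq 1 t 0 (-6 * N) e3 f γ a b = γ ^ 2 * n0 t N e3
    + 2 * γ * (a * n1 t N e3 f + b * n2 t N e3 f) + (a ^ 2 * n2 t N e3 f + 2 * a * b * n3 t N e3 f + b ^ 2 * n4 t N e3 f) := by
  unfold eNq eN0 eN1 eN2 eN3 eN4 eP5 eP4 eP3 eP2 n0 n1 n2 n3 n4; ring

/-- the Gram majorant for the pair `(v, s w - (3/4) s l v)` -/
theorem gram {K D l n th f E t rw L N e3 : ℝ} {μ ν : Fin 4 → ℝ} (h : Nu ν th) (hν : ∀ j, μ j = -l / 4 + n * ν j)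
    (hl : 0 < K + 2 * D * l) (hμ : ∀ j, 0 < K + 2 * D * μ j) (hE : E = 3 * K + D * l) (ht : t = 4 * (D / E))
    (hrw : rw = (K + 2 * D * l) / E) (hL : L = 5 / 4 * l) (hN : N = n ^ 2) (he : e3 = 4 * (th ^ 3 - 3 * th) * n ^ 3)
    (hf : f ≤ n ^ 4 * (ν 0 * ν 1 * ν 2 * ν 3)) (hP : 0 < pi t N e3 f) (hd : 0 < d0 t N e3 f rw) (s α β : ℝ) :
    (α - β * (3 / 4 * (s * l))) ^ 2 * R97.gA K D l μ + 2 * (α - β * (3 / 4 * (s * l))) * (β * s) * R97.gB K D l μ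
      + (β * s) ^ 2 * R97.gC K D l μ ≤ α ^ 2 * (gA t N e3 f L rw / (E * d0 t N e3 f rw))
        + 2 * α * β * (gB t N e3 f L rw s / (E * d0 t N e3 f rw)) + β ^ 2 * (gC t N e3 f L rw s / (E * d0 t N e3 f rw)) := by
  have E0 : 0 < E := hE ▸ chart_E h hν hl hμ
  have r0 : 0 < rw := hrw ▸ div_pos hl E0
  have ewl : K + 2 * D * l = rw * E := by rw [hrw]; field_simp
  have ew : ∀ j, 3 * K + 2 * D * (l + 2 * μ j) = E * (1 + t * (n * ν j)) := fun j => by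
    have : E * t = 4 * D := by rw [ht]; field_simp
    rw [hν]
    linear_combination (-n * ν j) * this - hE
  have hw : ∀ j, 0 < 1 + t * (n * ν j) := fun j =>
    (mul_pos_iff_of_pos_left E0).1 (by rw [← ew]; linarith [hμ j])
  have g := fun γ a b => e4_gram (f := f) (e1 := 0) (e2 := -6 * N) (e3 := e3) (hw 0) (hw 1) (hw 2) (hw 3)
    (by linear_combination (-n) * h.e1) (by rw [hN]; linear_combination (-n ^ 2) * h.e2)
    (by rw [he]; linear_combination (-n ^ 3) * h.e3) (hf.trans_eq (by ring)) (by rw [ePi_s]; exact hP) γ a b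
  obtain ⟨b, hb⟩ : ∃ b, b = β * s := ⟨_, rfl⟩
  obtain ⟨a, ha⟩ : ∃ a, a = α - b * L := ⟨_, rfl⟩
  obtain ⟨X, hX⟩ : ∃ X, X = a * n1 t N e3 f + b * n2 t N e3 f := ⟨_, rfl⟩
  obtain ⟨Y, hY⟩ : ∃ Y, Y = a ^ 2 * n2 t N e3 f + 2 * a * b * n3 t N e3 f + b ^ 2 * n4 t N e3 f := ⟨_, rfl⟩
  obtain ⟨Z, hZ⟩ : ∃ Z, Z = a ^ 2 * m11 t N e3 f + 2 * a * b * m12 t N e3 f + b ^ 2 * m22 t N e3 f := ⟨_, rfl⟩
  have hXY : Y * n0 t N e3 - X ^ 2 = pi t N e3 f * Z := by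
    rw [hX, hY, hZ]
    linear_combination a ^ 2 * r11 t N e3 f + 2 * a * b * r12 t N e3 f + b ^ 2 * r22 t N e3 f
  obtain ⟨θ, hθ⟩ : ∃ θ, θ = -(α * L * pi t N e3 f + X * rw) / d0 t N e3 f rw := ⟨_, rfl⟩
  rw [← hb]
  refine (q_gram_le hl hμ (α - β * (3 / 4 * (s * l))) b (θ + α * l / 4 - b * l ^ 2 / 4)).trans ?_
  have e1 : ∀ j, (θ + α * l / 4 - b * l ^ 2 / 4 + (α - β * (3 / 4 * (s * l))) * μ j + b * μ j ^ 2) ^ 2 /
      (3 * K + 2 * D * (l + 2 * μ j)) = (θ + a * (n * ν j) + b * (n * ν j) ^ 2) ^ 2 / (1 + t * (n * ν j)) / E := fun j => by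
    rw [ew, div_div, mul_comm E, hν, ha, hL, hb]
    congr 1
    ring
  have e2 : (θ + α * l / 4 - b * l ^ 2 / 4 + (α - β * (3 / 4 * (s * l))) * l + b * l ^ 2) ^ 2 = (θ + α * L) ^ 2 := by
    rw [hL, hb]; ring
  have e3' : α ^ 2 * (gA t N e3 f L rw / (E * d0 t N e3 f rw))
        + 2 * α * β * (gB t N e3 f L rw s / (E * d0 t N e3 f rw)) + β ^ 2 * (gC t N e3 f L rw s / (E * d0 t N e3 f rw))
      = (α ^ 2 * L ^ 2 * n0 t N e3 + Y - 2 * α * L * X + rw * Z) / (E * d0 t N e3 f rw) := by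
    rw [hX, hY, hZ, ha, hb, gA, gB, gC]
    ring
  have e4 : (α ^ 2 * L ^ 2 * n0 t N e3 + Y - 2 * α * L * X + rw * Z) / (E * d0 t N e3 f rw)
      = (θ + α * L) ^ 2 / (rw * E) + (θ ^ 2 * n0 t N e3 + 2 * θ * X + Y) / pi t N e3 f / E := by
    have hZ' : Z = (Y * n0 t N e3 - X ^ 2) / pi t N e3 f := by rw [hXY]; field_simp
    have hd' : n0 t N e3 = (d0 t N e3 f rw - pi t N e3 f) / rw := by rw [d0]; field_simp; ring
    rw [hθ, hZ', hd']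
    generalize pi t N e3 f = π at *
    generalize d0 t N e3 f rw = d at *
    field_simp
    ring
  rw [e3', e4, e2, ewl]
  simp only [e1, Fin.sum_univ_four, ← add_div]
  refine add_le_add le_rfl (div_le_div_of_nonneg_right ?_ E0.le)
  have := g θ a b
  rwa [ePi_s, eNq_s, ← hX, ← hY] at this

/-- the quadratic form inequality from the four scalar conditions -/
theorem form {K D l n th f E t rw L N e3 s ka M11 M12 M22 b1 b2 H11 H12 H22 : ℝ} {μ ν : Fin 4 → ℝ} (h : Nu ν th)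
    (hν : ∀ j, μ j = -l / 4 + n * ν j)
    (hl : 0 < K + 2 * D * l) (hμ : ∀ j, 0 < K + 2 * D * μ j) (hE : E = 3 * K + D * l) (ht : t = 4 * (D / E))
    (hrw : rw = (K + 2 * D * l) / E) (hL : L = 5 / 4 * l) (hN : N = n ^ 2) (he : e3 = 4 * (th ^ 3 - 3 * th) * n ^ 3)
    (hf : f ≤ n ^ 4 * (ν 0 * ν 1 * ν 2 * ν 3)) (hka : ka = 3 / 4 * (s * l))
    (h11 : H11 = (M11 + 2 * ka * M12 + ka ^ 2 * M22) / E) (h12 : H12 = (M12 + ka * M22) / E) (h22 : H22 = M22 / E)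
    (hP : 0 < pi t N e3 f) (hd : 0 < d0 t N e3 f rw) (hD : 0 < qD t N e3 f L rw s H11 H12 H22)
    (hT : 0 < 2 * d0 t N e3 f rw + qT t N e3 f L rw s H11 H12 H22) {P v v' Q : ℝ}
    (hQ : ∀ α β : ℝ, 2 * (α * v + β * v') - (α ^ 2 * R97.gA K D l μ + 2 * α * β * R97.gB K D l μ
      + β ^ 2 * R97.gC K D l μ) ≤ Q) :
    0 ≤ Q + (M11 * v ^ 2 + 2 * (s * M12) * v * v' + s ^ 2 * M22 * v' ^ 2) + 2 * P * (b1 * v + s * b2 * v')
      + qN t N e3 f L rw s H11 H12 H22 (b1 + ka * b2) b2 / (E * qD t N e3 f L rw s H11 H12 H22) * P ^ 2 := by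
  have E0 : 0 < E := hE ▸ chart_E h hν hl hμ
  have g := gram h hν hl hμ hE ht hrw hL hN he hf hP hd s
  rw [← hka] at g
  have hdet := det_eq t N e3 f L rw s
  have eT : R97.qT (gA t N e3 f L rw / (E * d0 t N e3 f rw)) (gB t N e3 f L rw s / (E * d0 t N e3 f rw))
      (gC t N e3 f L rw s / (E * d0 t N e3 f rw)) (E * H11) (E * H12) (E * H22)
      = qT t N e3 f L rw s H11 H12 H22 / d0 t N e3 f rw := by
    rw [R97.qT, qT]; field_simp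
  have eG : gA t N e3 f L rw / (E * d0 t N e3 f rw) * (gC t N e3 f L rw s / (E * d0 t N e3 f rw))
      - (gB t N e3 f L rw s / (E * d0 t N e3 f rw)) ^ 2 = dg t N e3 f L rw s / (E ^ 2 * d0 t N e3 f rw) := by
    field_simp
    linear_combination hdet
  have eD : R97.qD (gA t N e3 f L rw / (E * d0 t N e3 f rw)) (gB t N e3 f L rw s / (E * d0 t N e3 f rw))
      (gC t N e3 f L rw s / (E * d0 t N e3 f rw)) (E * H11) (E * H12) (E * H22)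
      = qD t N e3 f L rw s H11 H12 H22 / d0 t N e3 f rw := by
    rw [R97.qD, eT, eG, qD]; field_simp
  have eN : R97.qN (gA t N e3 f L rw / (E * d0 t N e3 f rw)) (gB t N e3 f L rw s / (E * d0 t N e3 f rw))
      (gC t N e3 f L rw s / (E * d0 t N e3 f rw)) (E * H11) (E * H12) (E * H22) (b1 + ka * b2) b2
      = qN t N e3 f L rw s H11 H12 H22 (b1 + ka * b2) b2 / (E * d0 t N e3 f rw) := by
    rw [R97.qN, eG, qN]; field_simp; ring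
  have := quad_det (v := v) (w := s * v' - ka * v) (Q := Q) (M1 := E * H11) (M2 := E * H12) (M3 := E * H22)
    (b1 + ka * b2) b2 P (fun α β => (gram_nn hl hμ _ _).trans (g α β))
    (fun α β => by linarith [hQ (α - β * ka) (β * s), g α β]) (by rw [eD]; positivity)
    (by rw [eT, show 2 + qT t N e3 f L rw s H11 H12 H22 / d0 t N e3 f rw
      = (2 * d0 t N e3 f rw + qT t N e3 f L rw s H11 H12 H22) / d0 t N e3 f rw by field_simp]; positivity)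
  rw [eD, eN, show qN t N e3 f L rw s H11 H12 H22 (b1 + ka * b2) b2 / (E * d0 t N e3 f rw)
    / (qD t N e3 f L rw s H11 H12 H22 / d0 t N e3 f rw) = qN t N e3 f L rw s H11 H12 H22 (b1 + ka * b2) b2
    / (E * qD t N e3 f L rw s H11 H12 H22) by field_simp,
    show E * H11 = M11 + 2 * ka * M12 + ka ^ 2 * M22 by rw [h11]; field_simp,
    show E * H12 = M12 + ka * M22 by rw [h12]; field_simp, show E * H22 = M22 by rw [h22]; field_simp] at this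
  linarith

/-- the final conditions, on abstract table values (`D = s * D.v`, `G0, Pq` multiplied by `c`) -/
structure Fin2 (s l n e3 f K D N11 N12 N22 d1 d2 cc G0 Pq : ℝ) : Prop where
  hP : 0 < pi (4 * (D / (3 * K + D * l))) (n ^ 2) e3 f
  hd : 0 < d0 (4 * (D / (3 * K + D * l))) (n ^ 2) e3 f ((K + 2 * D * l) / (3 * K + D * l))
  hD : 0 < qD (4 * (D / (3 * K + D * l))) (n ^ 2) e3 f (5 / 4 * l) ((K + 2 * D * l) / (3 * K + D * l)) s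
    (N11 / (3 * K + D * l)) (N12 / (3 * K + D * l)) (N22 / (3 * K + D * l))
  hT : 0 < 2 * d0 (4 * (D / (3 * K + D * l))) (n ^ 2) e3 f ((K + 2 * D * l) / (3 * K + D * l))
    + qT (4 * (D / (3 * K + D * l))) (n ^ 2) e3 f (5 / 4 * l) ((K + 2 * D * l) / (3 * K + D * l)) s
      (N11 / (3 * K + D * l)) (N12 / (3 * K + D * l)) (N22 / (3 * K + D * l))
  hF : Pq * qN (4 * (D / (3 * K + D * l))) (n ^ 2) e3 f (5 / 4 * l) ((K + 2 * D * l) / (3 * K + D * l)) s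
      (N11 / (3 * K + D * l)) (N12 / (3 * K + D * l)) (N22 / (3 * K + D * l)) d1 d2
    ≤ (G0 + Pq * cc) * (3 * K + D * l) * qD (4 * (D / (3 * K + D * l))) (n ^ 2) e3 f (5 / 4 * l)
      ((K + 2 * D * l) / (3 * K + D * l)) s (N11 / (3 * K + D * l)) (N12 / (3 * K + D * l)) (N22 / (3 * K + D * l))

/-- the domain in the variables `(s, z, p, l, n, th)`; `e4` is the product of the four centred eigenvalues -/
structure Dom (c s z p l n th e3 e4 : ℝ) : Prop where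
  s0 : 0 ≤ s
  s1 : s ≤ 1
  z0 : 0 ≤ z
  p0 : 0 ≤ p
  p1 : p ≤ 1
  n0 : 0 ≤ n
  nl : 5 / 4 * l ^ 2 + 12 * n ^ 2 = 1
  th0 : -1 ≤ th
  th1 : th ≤ 1
  he : e3 = 4 * (th * (th ^ 2 - 3)) * (n ^ 2 * n)
  c1 : 0 ≤ 5 / 14 * p * (2 - p) - (z * s) ^ 2
  c2 : 0 ≤ c * (1 - p) - (1 - s ^ 2) * z ^ 2
  c3 : 0 ≤ p + 2 * (z * s * l)
  y0 : 0 ≤ p - z * s * l / 2
  e1 : 0 ≤ p - z * s * l / 2 + 2 * (z * s) * (n * th)
  e2 : 0 ≤ (p - z * s * l / 2) ^ 2 - (2 * (z * s)) ^ 2 * n ^ 2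
  e3c : 0 ≤ 4 * (p - z * s * l / 2) ^ 3 - 12 * (p - z * s * l / 2) * ((2 * (z * s)) ^ 2 * n ^ 2) + (2 * (z * s)) ^ 3 * e3
  fb : (n ^ 2) ^ 2 * (th ^ 2 * (3 * th ^ 2 - 6)) ≤ e4
  e4c : 0 ≤ (p - z * s * l / 2) ^ 4 - 6 * (2 * (z * s)) ^ 2 * n ^ 2 * (p - z * s * l / 2) ^ 2
    + (2 * (z * s)) ^ 3 * e3 * (p - z * s * l / 2) + (2 * (z * s)) ^ 4 * e4
  hank : e4 ≤ (n ^ 2) ^ 2 * (9 - 3 * (th * (th ^ 2 - 3)) ^ 2)
  up : ∀ x, x ^ 2 + x * th + th ^ 2 = 3 → e4 ≤ (n ^ 2) ^ 2 * (x ^ 2 * (3 * x ^ 2 - 6))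

theorem Dom.c5 {c s z p l n th e3 e4 : ℝ} (h : Dom c s z p l n th e3 e4) :
    0 ≤ ((2 * (z * s)) ^ 2 * n ^ 2) ^ 2 * (9 - 3 * (th * (th ^ 2 - 3)) ^ 2) + (p - z * s * l / 2) ^ 4
      - 6 * (p - z * s * l / 2) ^ 2 * ((2 * (z * s)) ^ 2 * n ^ 2) + (p - z * s * l / 2) * (2 * (z * s)) ^ 3 * e3 := by
  have := mul_le_mul_of_nonneg_left h.hank (show 0 ≤ (2 * (z * s)) ^ 4 by positivity)
  linarith [h.e4c]

theorem Dom.fr {c s z p l n th e3 e4 x : ℝ} (h : Dom c s z p l n th e3 e4) (h0 : 0 < z * s)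
    (hx : x = p / (2 * (z * s)) - l / 4) : -(x * (x * (x ^ 2 - 6 * n ^ 2) + e3)) ≤ e4 := by
  have e := h.e4c
  generalize z * s = w at *
  rw [show p - w * l / 2 = 2 * w * x by rw [hx]; field_simp; ring] at e
  have : 0 ≤ (2 * w) ^ 4 * (x * (x * (x ^ 2 - 6 * n ^ 2) + e3) + e4) := e.trans_eq (by ring)
  have := (mul_nonneg_iff_of_pos_left (by positivity)).1 this
  linarith

theorem Dom.z1 {s z p l n th e3 e4 : ℝ} (h : Dom 2 s z p l n th e3 e4) : z ≤ 71 / 50 := by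
  have a := h.c1
  have b := h.c2
  have c := h.p0
  have : z ^ 2 ≤ 2 := by nlinarith
  nlinarith [h.z0]

/-- the chart `ph` of the ellipse -/
theorem Dom.chart {c s z p l n th e3 e4 : ℝ} (h : Dom c s z p l n th e3 e4) : ∃ ph : ℝ, -1 ≤ ph ∧ ph ≤ 1 ∧
    l = ph / (1 + ph ^ 2) * √(16 / 5) ∧ n = (2 / (1 + ph ^ 2) - 1) * √(1 / 12) := by
  have n0 := h.n0
  have nl := h.nl
  have s5 : √(16 / 5) ^ 2 = (16 / 5 : ℝ) := Real.sq_sqrt (by norm_num)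
  have s12 : √(1 / 12) ^ 2 = (1 / 12 : ℝ) := Real.sq_sqrt (by norm_num)
  have p5 : 0 < √(16 / 5 : ℝ) := Real.sqrt_pos.2 (by norm_num)
  have p12 : 0 < √(1 / 12 : ℝ) := Real.sqrt_pos.2 (by norm_num)
  generalize √(16 / 5 : ℝ) = q5 at *
  generalize √(1 / 12 : ℝ) = q12 at *
  obtain ⟨b, hb⟩ : ∃ b, b = n / q12 := ⟨_, rfl⟩
  obtain ⟨a, ha⟩ : ∃ a, a = 2 * l / q5 := ⟨_, rfl⟩
  have b0 : 0 ≤ b := hb ▸ by positivity
  have a2 : a ^ 2 = 1 - b ^ 2 := by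
    rw [ha, hb, div_pow, div_pow, s5, s12]; linarith
  have b1 : 0 < 1 + b := by linarith
  have e0 : 1 + (a / (1 + b)) ^ 2 = 2 / (1 + b) := by
    rw [div_pow, a2]; field_simp; ring
  have ab : |a / (1 + b)| ≤ 1 := by
    rw [← sq_le_one_iff_abs_le_one, div_pow, div_le_one (by positivity), a2]
    nlinarith
  refine ⟨a / (1 + b), (abs_le.1 ab).1, (abs_le.1 ab).2, ?_, ?_⟩
  · rw [e0, ha]; field_simp
  · rw [e0, hb]; field_simp; ring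

end S2

namespace Tab
variable (N : Tab) (s z p θ w : ℝ)
noncomputable def M12 : ℝ := s ^ 2 * (3 * N.K.vt s z p θ + 2 * N.D.vo s z p θ (2 * N.al - 3)) / 2
  - 3 / 2 * (N.F.vo s z p θ (2 * N.al) * N.F.vt s z p θ / N.F.h s z p θ)
noncomputable def M22 : ℝ := 3 * s ^ 2 * N.D.vt s z p θ - 9 / 4 * (N.F.vt s z p θ ^ 2 / N.F.h s z p θ)
noncomputable def d2 : ℝ := ((N.D.vz s z p θ - 2 * s * w * N.D.vp s z p θ)
  + 3 * (N.A.vt s z p θ + s * w * N.B.vt s z p θ + (s * w) ^ 2 * N.C.vt s z p θ)) / 2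
  - 3 / 4 * (N.F.vt s z p θ * N.FP s z p θ w / N.F.h s z p θ)
noncomputable def N11 : ℝ := N.M1 s z p θ + 2 * (3 / 4 * (s * w)) * N.M12 s z p θ + (3 / 4 * (s * w)) ^ 2 * N.M22 s z p θ
noncomputable def N12 : ℝ := N.M12 s z p θ + 3 / 4 * (s * w) * N.M22 s z p θ
noncomputable def d1 : ℝ := N.b1 s z p θ w + 3 / 4 * (s * w) * N.d2 s z p θ w
/-- `c * G0` -/
def G0c : ℝ := N.c * (N.B.v s z p θ + s * θ * N.C.v s z p θ) + (1 - s ^ 2) * (5 * N.K.v s z p θ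
  - 5 * z * N.A.h s z p θ - z * N.C.v s z p θ + 5 * s * θ * N.D.v s z p θ - N.Λ * N.F.h s z p θ)
/-- `c * PP` -/
def Pq : ℝ := N.c * (1 - p) - (1 - s ^ 2) * z ^ 2

/-- the statement to be certified -/
def BS : Prop := ∀ s z p l n th e3 e4 θ : ℝ, S2.Dom N.c s z p l n th e3 e4 →
  θ = l * (15 / 16 * l ^ 2 - 9 * n ^ 2) + 3 * e3 →
  0 < N.F.h s z p θ ∧ 0 < N.K.v s z p θ + 2 * (s * N.D.v s z p θ) * l ∧
    (0 < 3 * N.K.v s z p θ + s * N.D.v s z p θ * l → ∃ f, f ≤ e4 ∧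
      S2.Fin2 s l n e3 f (N.K.v s z p θ) (s * N.D.v s z p θ) (N.N11 s z p θ l) (N.N12 s z p θ l) (N.M22 s z p θ)
        (N.d1 s z p θ l) (N.d2 s z p θ l) (N.cc s z p θ l) (N.G0c s z p θ) (N.Pq s z p))
end Tab

theorem Nu.hank {ν : Fin 4 → ℝ} {th : ℝ} (h : Nu ν th) : ν 0 * ν 1 * ν 2 * ν 3 ≤ 9 - 3 * (th * (th ^ 2 - 3)) ^ 2 := by
  obtain ⟨q, hq⟩ : ∃ q, q = th ^ 3 - 3 * th := ⟨_, rfl⟩
  have p3 := h.p3
  have e3 := h.e3
  rw [← hq] at p3 e3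
  have p4 : ν 0 ^ 4 + ν 1 ^ 4 + ν 2 ^ 4 + ν 3 ^ 4 = 72 - 4 * (ν 0 * ν 1 * ν 2 * ν 3) := by
    linear_combination (ν 0 ^ 3 + ν 1 ^ 3 + ν 2 ^ 3 + ν 3 ^ 3
      + (ν 0 * ν 1 * ν 2 + ν 0 * ν 1 * ν 3 + ν 0 * ν 2 * ν 3 + ν 1 * ν 2 * ν 3)) * h.e1
      - (ν 0 ^ 2 + ν 1 ^ 2 + ν 2 ^ 2 + ν 3 ^ 2) * h.e2 + 6 * h.p2
  have e : (ν 0 ^ 2 - q * ν 0 - 3) ^ 2 + (ν 1 ^ 2 - q * ν 1 - 3) ^ 2 + (ν 2 ^ 2 - q * ν 2 - 3) ^ 2
      + (ν 3 ^ 2 - q * ν 3 - 3) ^ 2 = 36 - 12 * q ^ 2 - 4 * (ν 0 * ν 1 * ν 2 * ν 3) := by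
    linear_combination p4 - 2 * q * p3 + (q ^ 2 - 6) * h.p2 + 6 * q * h.e1
  have : 0 ≤ 36 - 12 * q ^ 2 - 4 * (ν 0 * ν 1 * ν 2 * ν 3) := by rw [← e]; positivity
  rw [show th * (th ^ 2 - 3) = q by rw [hq]; ring]
  linarith

theorem dom_of_nadm {c s z p w θ : ℝ} {μ : Fin 4 → ℝ} {R' : ℝ → ℝ → Prop}
    (hR : ∀ X p, R' X p → X ≤ 5 / 14 * (p * (2 - p))) (a : NAdm c R' s z p w μ) (hθ : θ = w ^ 3 + ∑ j, μ j ^ 3) :
    ∃ (n th e3 : ℝ) (ν : Fin 4 → ℝ), Nu ν th ∧ (∀ j, μ j = -w / 4 + n * ν j) ∧ e3 = 4 * (th ^ 3 - 3 * th) * n ^ 3 ∧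
      S2.Dom c s z p w n th e3 (n ^ 4 * (ν 0 * ν 1 * ν 2 * ν 3)) ∧ θ = w * (15 / 16 * w ^ 2 - 9 * n ^ 2) + 3 * e3 := by
  obtain ⟨ph, th, ν, -, h, -, hμ, n0, nl⟩ := chart_spec a.mono a.tr a.nrm
  generalize chN ph = n at *
  have zs : 0 ≤ z * s := mul_nonneg a.z0 a.s0
  have hx : ∀ j, 0 ≤ p - z * s * w / 2 + 2 * (z * s) * n * ν j := fun j => by
    have := a.cν j
    rw [hμ] at this
    linarith
  obtain ⟨l1, l2, l3, l4⟩ := h.low' hx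
  refine ⟨n, th, _, ν, h, hμ, rfl, ⟨a.s0, a.s1, a.z0, a.p0, a.p1, n0, nl, (abs_le.1 h.th1).1, (abs_le.1 h.th1).2, by ring,
    by linarith [hR _ _ a.R], by linarith [a.zS], by linarith [a.cl], l1, ?_, by linarith, by linarith, ?_, by linarith, ?_,
    fun x hx => ?_⟩, ?_⟩
  · have := mul_le_mul_of_nonneg_left h.lo (show 0 ≤ 2 * (z * s) * n by positivity)
    linarith [hx 1]
  · have := mul_le_mul_of_nonneg_left h.e4 (show 0 ≤ n ^ 4 by positivity)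
    linarith
  · have := mul_le_mul_of_nonneg_left h.hank (show 0 ≤ n ^ 4 by positivity)
    linarith
  · have t1 := (sq_le_one_iff_abs_le_one th).2 h.th1
    have := mul_le_mul_of_nonneg_left (h.up (c := x) (by linear_combination (x - th) * hx)
      (by nlinarith [sq_nonneg (x - th)])) (show 0 ≤ n ^ 4 by positivity)
    linarith
  · rw [hθ, t3_nu h hμ]; ring

theorem Tab.NW_of_BS {N : Tab} (hc : 0 < N.c) {R' : ℝ → ℝ → Prop} (hR : ∀ X p, R' X p → X ≤ 5 / 14 * (p * (2 - p)))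
    (h : N.BS) : N.NW 4 R' := by
  intro s z p w θ μ a hθ
  obtain ⟨n, th, e3, ν, hν, hμ, he, hD, hθ'⟩ := dom_of_nadm hR a hθ
  obtain ⟨h1, h2, h3⟩ := h s z p w n th e3 _ θ hD hθ'
  refine ⟨h1, h2, fun hK => ?_⟩
  have E0 := chart_E hν hμ h2 hK
  obtain ⟨f, hf, g1, g2, g3, g4, g5⟩ := h3 E0
  have k := fun P v v' Q hQ => S2.form (M11 := N.M1 s z p θ) (M12 := N.M12 s z p θ) (M22 := N.M22 s z p θ)
    (b1 := N.b1 s z p θ w) (b2 := N.d2 s z p θ w) (P := P) (v := v) (v' := v') (Q := Q) hν hμ h2 hK rfl rfl rfl rfl rfl he hf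
    rfl rfl rfl rfl g1 g2 g3 g4 hQ
  have e2 : N.M2 s z p θ = s * N.M12 s z p θ := by rw [Tab.M2, Tab.M12]; ring
  have e3' : N.M3 s z p θ = s ^ 2 * N.M22 s z p θ := by rw [Tab.M3, Tab.M22]; ring
  have e4 : N.b2 s z p θ w = s * N.d2 s z p θ w := by rw [Tab.b2, Tab.d2]
  have e5 : N.G0c s z p θ = N.c * N.G0 s z p θ (4 + 1) := by
    rw [Tab.G0c, Tab.G0]; push_cast; field_simp
  have e6 : N.Pq s z p = N.c * N.PP s z p := by rw [Tab.Pq, Tab.PP]; field_simp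
  rw [e5, e6, mul_assoc _ (3 * _ + _), ← div_le_iff₀ (mul_pos E0 g3), mul_div_assoc] at g5
  simp only [Tab.N11, Tab.N12, Tab.d1] at g5
  generalize S2.qN _ _ _ _ _ _ _ _ _ _ _ _ / _ = X at g5 k
  refine ⟨N.cc s z p θ w - X, (mul_nonneg_iff_of_pos_left hc).1 (by linarith), fun P v v' Q hQ => ?_⟩
  have := k P v v' Q hQ
  rw [e2, e3', e4]
  linarith

end Crest.Agent.R97
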