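import Crest.Agent.R97.CertPW
import Crest.Agent.Lib.BSp.Ten

/-! CertT4 (helper96): the shape factors of the separated form of the 5×5 matrix. -/

set_option autoImplicit false
set_option linter.unusedSimpArgs false
set_option linter.unusedVariables false

namespace Crest.Agent.R97
open Crest.Agent.BSp

/-- the monomials of a quadratic form in five variables (lower triangle, row by row) -/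
structure Xi (ξ : ℕ → ℝ) (x0 x1 x2 x3 x4 : ℝ) : Prop where
  h0 : ξ 0 = x0 ^ 2
  h1 : ξ 1 = 2 * x1 * x0
  h2 : ξ 2 = x1 ^ 2
  h3 : ξ 3 = 2 * x2 * x0
  h4 : ξ 4 = 2 * x2 * x1
  h5 : ξ 5 = x2 ^ 2
  h6 : ξ 6 = 2 * x3 * x0
  h7 : ξ 7 = 2 * x3 * x1
  h8 : ξ 8 = 2 * x3 * x2
  h9 : ξ 9 = x3 ^ 2
  h10 : ξ 10 = 2 * x4 * x0
  h11 : ξ 11 = 2 * x4 * x1
  h12 : ξ 12 = 2 * x4 * x2
  h13 : ξ 13 = 2 * x4 * x3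
  h14 : ξ 14 = x4 ^ 2

/-- values of the shape variables -/
structure SEnv (e : ℕ → ℝ) (l n th W T : ℝ) : Prop where
  h0 : e 0 = l / 4 * W
  h1 : e 1 = n * W
  h2 : e 2 = th * T
  h3 : e 3 = W
  h4 : e 4 = T

def fK (th x1 x2 x3 : ℝ) : ℝ := 10 * x1 ^ 2 + 8 * x1 * x2 + 10 * x2 ^ 2 + 6 * sD th * x3 ^ 2
def fD (l n th x1 x2 x3 : ℝ) : ℝ := (10 * l + 8 * (n * th)) * x1 ^ 2 + 16 * l * x1 * x2 + (10 * l - 8 * (n * th)) * x2 ^ 2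
  + 16 * (n * sD th) * x2 * x3 + 2 * (l - 4 * (n * th)) * sD th * x3 ^ 2
noncomputable def fV (l n th x1 x2 x3 : ℝ) : ℝ := sA1 l n th * x1 + sA2 l n th * x2 + sA3 n th * x3
noncomputable def fW (l n th x1 x2 x3 : ℝ) : ℝ := sB1 l n th * x1 + sB2 l n th * x2 + sB3 l n th * x3

def sx0 : List Ex := [.c 0,
  .c 0,
  .m (.v 4) (.m (.v 4) (.m (.v 4) (.m (.v 4) (.m (.v 4) (.m (.v 4) (.m (.v 4) (.m (.v 4) (.m (.m (.v 3) (.m (.v 3) (.m (.v 3) (.m (.v 3) (.m (.v 3) (.v 3)))))) (.c 10))))))))),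
  .c 0,
  .m (.v 4) (.m (.v 4) (.m (.v 4) (.m (.v 4) (.m (.v 4) (.m (.v 4) (.m (.v 4) (.m (.v 4) (.m (.m (.v 3) (.m (.v 3) (.m (.v 3) (.m (.v 3) (.m (.v 3) (.v 3)))))) (.c 4))))))))),
  .m (.v 4) (.m (.v 4) (.m (.v 4) (.m (.v 4) (.m (.v 4) (.m (.v 4) (.m (.v 4) (.m (.v 4) (.m (.m (.v 3) (.m (.v 3) (.m (.v 3) (.m (.v 3) (.m (.v 3) (.v 3)))))) (.c 10))))))))),
  .c 0,
  .c 0,
  .c 0,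
  .m (.v 4) (.m (.v 4) (.m (.v 4) (.m (.v 4) (.m (.v 4) (.m (.v 4) (.m (.m (.v 3) (.m (.v 3) (.m (.v 3) (.m (.v 3) (.m (.v 3) (.v 3)))))) (.m (.c 6) (.a (.m (.v 4) (.m (.v 4) (.c 2))) (.m (.c (-1)) (.m (.c 2) (.m (.v 2) (.v 2)))))))))))),
  .c 0,
  .c 0,
  .c 0,
  .c 0,
  .c 0]
def sx1 : List Ex := [.c 0,
  .c 0,
  .m (.v 4) (.m (.v 4) (.m (.v 4) (.m (.v 4) (.m (.v 4) (.m (.m (.v 3) (.m (.v 3) (.v 3))) (.m (.a (.m (.v 4) (.m (.v 4) (.m (.v 4) (.a (.m (.c 60) (.m (.v 0) (.m (.v 0) (.v 0)))) (.m (.c (-1)) (.m (.c 12) (.m (.v 0) (.m (.v 1) (.v 1))))))))) (.m (.c (-1)) (.m (.c 6) (.m (.m (.v 1) (.m (.v 1) (.v 1))) (.m (.v 2) (.a (.m (.v 4) (.m (.v 4) (.c 2))) (.m (.c (-1)) (.m (.c 2) (.m (.v 2) (.v 2)))))))))) (.c 10))))))),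
  .c 0,
  .m (.v 4) (.m (.v 4) (.m (.v 4) (.m (.v 4) (.m (.v 4) (.m (.m (.v 3) (.m (.v 3) (.v 3))) (.m (.a (.m (.v 4) (.m (.v 4) (.m (.v 4) (.a (.m (.c 60) (.m (.v 0) (.m (.v 0) (.v 0)))) (.m (.c (-1)) (.m (.c 12) (.m (.v 0) (.m (.v 1) (.v 1))))))))) (.m (.c (-1)) (.m (.c 6) (.m (.m (.v 1) (.m (.v 1) (.v 1))) (.m (.v 2) (.a (.m (.v 4) (.m (.v 4) (.c 2))) (.m (.c (-1)) (.m (.c 2) (.m (.v 2) (.v 2)))))))))) (.c 4))))))),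
  .m (.v 4) (.m (.v 4) (.m (.v 4) (.m (.v 4) (.m (.v 4) (.m (.m (.v 3) (.m (.v 3) (.v 3))) (.m (.a (.m (.v 4) (.m (.v 4) (.m (.v 4) (.a (.m (.c 60) (.m (.v 0) (.m (.v 0) (.v 0)))) (.m (.c (-1)) (.m (.c 12) (.m (.v 0) (.m (.v 1) (.v 1))))))))) (.m (.c (-1)) (.m (.c 6) (.m (.m (.v 1) (.m (.v 1) (.v 1))) (.m (.v 2) (.a (.m (.v 4) (.m (.v 4) (.c 2))) (.m (.c (-1)) (.m (.c 2) (.m (.v 2) (.v 2)))))))))) (.c 10))))))),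
  .c 0,
  .c 0,
  .c 0,
  .m (.v 4) (.m (.v 4) (.m (.v 4) (.m (.m (.v 3) (.m (.v 3) (.v 3))) (.m (.a (.m (.v 4) (.m (.v 4) (.m (.v 4) (.a (.m (.c 60) (.m (.v 0) (.m (.v 0) (.v 0)))) (.m (.c (-1)) (.m (.c 12) (.m (.v 0) (.m (.v 1) (.v 1))))))))) (.m (.c (-1)) (.m (.c 6) (.m (.m (.v 1) (.m (.v 1) (.v 1))) (.m (.v 2) (.a (.m (.v 4) (.m (.v 4) (.c 2))) (.m (.c (-1)) (.m (.c 2) (.m (.v 2) (.v 2)))))))))) (.m (.c 6) (.a (.m (.v 4) (.m (.v 4) (.c 2))) (.m (.c (-1)) (.m (.c 2) (.m (.v 2) (.v 2)))))))))),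
  .c 0,
  .c 0,
  .c 0,
  .c 0,
  .c 0]
def sx2 : List Ex := [.c 0,
  .c 0,
  .m (.v 4) (.m (.v 4) (.m (.v 4) (.m (.v 4) (.m (.v 4) (.m (.v 4) (.m (.v 4) (.m (.m (.v 3) (.m (.v 3) (.m (.v 3) (.m (.v 3) (.v 3))))) (.a (.m (.v 4) (.m (.c 40) (.v 0))) (.m (.c 8) (.m (.v 1) (.v 2))))))))))),
  .c 0,
  .m (.v 4) (.m (.v 4) (.m (.v 4) (.m (.v 4) (.m (.v 4) (.m (.v 4) (.m (.v 4) (.m (.v 4) (.m (.m (.v 3) (.m (.v 3) (.m (.v 3) (.m (.v 3) (.v 3))))) (.m (.c 32) (.v 0)))))))))),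
  .m (.v 4) (.m (.v 4) (.m (.v 4) (.m (.v 4) (.m (.v 4) (.m (.v 4) (.m (.v 4) (.m (.m (.v 3) (.m (.v 3) (.m (.v 3) (.m (.v 3) (.v 3))))) (.a (.m (.v 4) (.m (.c 40) (.v 0))) (.m (.c (-1)) (.m (.c 8) (.m (.v 1) (.v 2)))))))))))),
  .c 0,
  .c 0,
  .m (.v 4) (.m (.v 4) (.m (.v 4) (.m (.v 4) (.m (.v 4) (.m (.v 4) (.m (.m (.v 3) (.m (.v 3) (.m (.v 3) (.m (.v 3) (.v 3))))) (.m (.c 8) (.m (.v 1) (.a (.m (.v 4) (.m (.v 4) (.c 2))) (.m (.c (-1)) (.m (.c 2) (.m (.v 2) (.v 2))))))))))))),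
  .m (.v 4) (.m (.v 4) (.m (.v 4) (.m (.v 4) (.m (.v 4) (.m (.m (.v 3) (.m (.v 3) (.m (.v 3) (.m (.v 3) (.v 3))))) (.m (.a (.m (.v 4) (.m (.c 8) (.v 0))) (.m (.c (-1)) (.m (.c 8) (.m (.v 1) (.v 2))))) (.a (.m (.v 4) (.m (.v 4) (.c 2))) (.m (.c (-1)) (.m (.c 2) (.m (.v 2) (.v 2))))))))))),
  .c 0,
  .c 0,
  .c 0,
  .c 0,
  .c 0]
def sx3 : List Ex := [.c 0,
  .c 0,
  .m (.v 4) (.m (.v 4) (.m (.v 4) (.m (.v 4) (.m (.m (.v 3) (.v 3)) (.m (.a (.m (.v 4) (.m (.v 4) (.m (.v 4) (.a (.m (.c 60) (.m (.v 0) (.m (.v 0) (.v 0)))) (.m (.c (-1)) (.m (.c 12) (.m (.v 0) (.m (.v 1) (.v 1))))))))) (.m (.c (-1)) (.m (.c 6) (.m (.m (.v 1) (.m (.v 1) (.v 1))) (.m (.v 2) (.a (.m (.v 4) (.m (.v 4) (.c 2))) (.m (.c (-1)) (.m (.c 2) (.m (.v 2) (.v 2)))))))))) (.a (.m (.v 4) (.m (.c 40)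 (.v 0))) (.m (.c 8) (.m (.v 1) (.v 2))))))))),
  .c 0,
  .m (.v 4) (.m (.v 4) (.m (.v 4) (.m (.v 4) (.m (.v 4) (.m (.m (.v 3) (.v 3)) (.m (.a (.m (.v 4) (.m (.v 4) (.m (.v 4) (.a (.m (.c 60) (.m (.v 0) (.m (.v 0) (.v 0)))) (.m (.c (-1)) (.m (.c 12) (.m (.v 0) (.m (.v 1) (.v 1))))))))) (.m (.c (-1)) (.m (.c 6) (.m (.m (.v 1) (.m (.v 1) (.v 1))) (.m (.v 2) (.a (.m (.v 4) (.m (.v 4) (.c 2))) (.m (.c (-1)) (.m (.c 2) (.m (.v 2) (.v 2)))))))))) (.m (.c 32) (.v 0)))))))),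
  .m (.v 4) (.m (.v 4) (.m (.v 4) (.m (.v 4) (.m (.m (.v 3) (.v 3)) (.m (.a (.m (.v 4) (.m (.v 4) (.m (.v 4) (.a (.m (.c 60) (.m (.v 0) (.m (.v 0) (.v 0)))) (.m (.c (-1)) (.m (.c 12) (.m (.v 0) (.m (.v 1) (.v 1))))))))) (.m (.c (-1)) (.m (.c 6) (.m (.m (.v 1) (.m (.v 1) (.v 1))) (.m (.v 2) (.a (.m (.v 4) (.m (.v 4) (.c 2))) (.m (.c (-1)) (.m (.c 2) (.m (.v 2) (.v 2)))))))))) (.a (.m (.v 4) (.m (.c 40) (.v 0))) (.m (.c (-1)) (.m (.c 8) (.m (.v 1) (.v 2)))))))))),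
  .c 0,
  .c 0,
  .m (.v 4) (.m (.v 4) (.m (.v 4) (.m (.m (.v 3) (.v 3)) (.m (.a (.m (.v 4) (.m (.v 4) (.m (.v 4) (.a (.m (.c 60) (.m (.v 0) (.m (.v 0) (.v 0)))) (.m (.c (-1)) (.m (.c 12) (.m (.v 0) (.m (.v 1) (.v 1))))))))) (.m (.c (-1)) (.m (.c 6) (.m (.m (.v 1) (.m (.v 1) (.v 1))) (.m (.v 2) (.a (.m (.v 4) (.m (.v 4) (.c 2))) (.m (.c (-1)) (.m (.c 2) (.m (.v 2) (.v 2)))))))))) (.m (.c 8) (.m (.v 1) (.a (.m (.v 4) (.m (.v 4) (.c 2))) (.m (.c (-1)) (.m (.c 2) (.m (.v 2) (.v 2))))))))))),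
  .m (.v 4) (.m (.v 4) (.m (.m (.v 3) (.v 3)) (.m (.a (.m (.v 4) (.m (.v 4) (.m (.v 4) (.a (.m (.c 60) (.m (.v 0) (.m (.v 0) (.v 0)))) (.m (.c (-1)) (.m (.c 12) (.m (.v 0) (.m (.v 1) (.v 1))))))))) (.m (.c (-1)) (.m (.c 6) (.m (.m (.v 1) (.m (.v 1) (.v 1))) (.m (.v 2) (.a (.m (.v 4) (.m (.v 4) (.c 2))) (.m (.c (-1)) (.m (.c 2) (.m (.v 2) (.v 2)))))))))) (.m (.a (.m (.v 4) (.m (.c 8) (.v 0))) (.m (.c (-1)) (.m (.c 8) (.m (.v 1) (.v 2))))) (.a (.m (.v 4) (.m (.v 4) (.c 2))) (.m (.c (-1)) (.m (.c 2) (.m (.v 2) (.v 2))))))))),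
  .c 0,
  .c 0,
  .c 0,
  .c 0,
  .c 0]
def sx4 : List Ex := [.c 0,
  .c 0,
  .m (.v 4) (.m (.v 4) (.m (.v 4) (.m (.v 4) (.m (.v 4) (.m (.v 4) (.m (.m (.v 3) (.m (.v 3) (.m (.v 3) (.v 3)))) (.m (.m (.c 2) (.a (.m (.v 1) (.v 2)) (.m (.v 4) (.m (.c (-1)) (.m (.c 5) (.v 0)))))) (.m (.c 2) (.a (.m (.v 1) (.v 2)) (.m (.v 4) (.m (.c (-1)) (.m (.c 5) (.v 0))))))))))))),
  .c 0,
  .m (.v 4) (.m (.v 4) (.m (.v 4) (.m (.v 4) (.m (.v 4) (.m (.v 4) (.m (.m (.v 3) (.m (.v 3) (.m (.v 3) (.v 3)))) (.m (.m (.c (-2)) (.a (.m (.v 1) (.v 2)) (.m (.v 4) (.m (.c 5) (.v 0))))) (.m (.c 2) (.a (.m (.v 1) (.v 2)) (.m (.v 4) (.m (.c (-1)) (.m (.c 5) (.v 0))))))))))))),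
  .m (.v 4) (.m (.v 4) (.m (.v 4) (.m (.v 4) (.m (.v 4) (.m (.v 4) (.m (.m (.v 3) (.m (.v 3) (.m (.v 3) (.v 3)))) (.m (.m (.c (-2)) (.a (.m (.v 1) (.v 2)) (.m (.v 4) (.m (.c 5) (.v 0))))) (.m (.c (-2)) (.a (.m (.v 1) (.v 2)) (.m (.v 4) (.m (.c 5) (.v 0)))))))))))),
  .c 0,
  .m (.v 4) (.m (.v 4) (.m (.v 4) (.m (.v 4) (.m (.v 4) (.m (.m (.v 3) (.m (.v 3) (.m (.v 3) (.v 3)))) (.m (.m (.c 2) (.m (.v 1) (.a (.m (.v 4) (.m (.v 4) (.c 2))) (.m (.c (-1)) (.m (.c 2) (.m (.v 2) (.v 2))))))) (.m (.c 2) (.a (.m (.v 1) (.v 2)) (.m (.v 4) (.m (.c (-1)) (.m (.c 5) (.v 0)))))))))))),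
  .m (.v 4) (.m (.v 4) (.m (.v 4) (.m (.v 4) (.m (.v 4) (.m (.m (.v 3) (.m (.v 3) (.m (.v 3) (.v 3)))) (.m (.m (.c 2) (.m (.v 1) (.a (.m (.v 4) (.m (.v 4) (.c 2))) (.m (.c (-1)) (.m (.c 2) (.m (.v 2) (.v 2))))))) (.m (.c (-2)) (.a (.m (.v 1) (.v 2)) (.m (.v 4) (.m (.c 5) (.v 0))))))))))),
  .m (.v 4) (.m (.v 4) (.m (.v 4) (.m (.v 4) (.m (.m (.v 3) (.m (.v 3) (.m (.v 3) (.v 3)))) (.m (.m (.c 2) (.m (.v 1) (.a (.m (.v 4) (.m (.v 4) (.c 2))) (.m (.c (-1)) (.m (.c 2) (.m (.v 2) (.v 2))))))) (.m (.c 2) (.m (.v 1) (.a (.m (.v 4) (.m (.v 4) (.c 2))) (.m (.c (-1)) (.m (.c 2) (.m (.v 2) (.v 2)))))))))))),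
  .c 0,
  .c 0,
  .c 0,
  .c 0,
  .c 0]
def sx5 : List Ex := [.c 0,
  .c 0,
  .m (.v 4) (.m (.v 4) (.m (.v 4) (.m (.v 3) (.m (.a (.m (.v 4) (.m (.v 4) (.m (.v 4) (.a (.m (.c 60) (.m (.v 0) (.m (.v 0) (.v 0)))) (.m (.c (-1)) (.m (.c 12) (.m (.v 0) (.m (.v 1) (.v 1))))))))) (.m (.c (-1)) (.m (.c 6) (.m (.m (.v 1) (.m (.v 1) (.v 1))) (.m (.v 2) (.a (.m (.v 4) (.m (.v 4) (.c 2))) (.m (.c (-1)) (.m (.c 2) (.m (.v 2) (.v 2)))))))))) (.m (.m (.c 2) (.a (.m (.v 1) (.v 2)) (.m (.v 4) (.m (.c (-1)) (.m (.c 5) (.v 0)))))) (.m (.c 2) (.a (.m (.v 1) (.v 2)) (.m (.v 4) (.m (.c (-1)) (.m (.c 5) (.v 0))))))))))),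
  .c 0,
  .m (.v 4) (.m (.v 4) (.m (.v 4) (.m (.v 3) (.m (.a (.m (.v 4) (.m (.v 4) (.m (.v 4) (.a (.m (.c 60) (.m (.v 0) (.m (.v 0) (.v 0)))) (.m (.c (-1)) (.m (.c 12) (.m (.v 0) (.m (.v 1) (.v 1))))))))) (.m (.c (-1)) (.m (.c 6) (.m (.m (.v 1) (.m (.v 1) (.v 1))) (.m (.v 2) (.a (.m (.v 4) (.m (.v 4) (.c 2))) (.m (.c (-1)) (.m (.c 2) (.m (.v 2) (.v 2)))))))))) (.m (.m (.c (-2)) (.a (.m (.v 1) (.v 2)) (.m (.v 4) (.m (.c 5) (.v 0))))) (.m (.c 2) (.a (.m (.v 1) (.v 2)) (.m (.v 4) (.m (.c (-1)) (.m (.c 5) (.v 0))))))))))),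
  .m (.v 4) (.m (.v 4) (.m (.v 4) (.m (.v 3) (.m (.a (.m (.v 4) (.m (.v 4) (.m (.v 4) (.a (.m (.c 60) (.m (.v 0) (.m (.v 0) (.v 0)))) (.m (.c (-1)) (.m (.c 12) (.m (.v 0) (.m (.v 1) (.v 1))))))))) (.m (.c (-1)) (.m (.c 6) (.m (.m (.v 1) (.m (.v 1) (.v 1))) (.m (.v 2) (.a (.m (.v 4) (.m (.v 4) (.c 2))) (.m (.c (-1)) (.m (.c 2) (.m (.v 2) (.v 2)))))))))) (.m (.m (.c (-2)) (.a (.m (.v 1) (.v 2)) (.m (.v 4) (.m (.c 5) (.v 0))))) (.m (.c (-2)) (.a (.m (.v 1) (.v 2)) (.m (.v 4) (.m (.c 5) (.v 0)))))))))),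
  .c 0,
  .m (.v 4) (.m (.v 4) (.m (.v 3) (.m (.a (.m (.v 4) (.m (.v 4) (.m (.v 4) (.a (.m (.c 60) (.m (.v 0) (.m (.v 0) (.v 0)))) (.m (.c (-1)) (.m (.c 12) (.m (.v 0) (.m (.v 1) (.v 1))))))))) (.m (.c (-1)) (.m (.c 6) (.m (.m (.v 1) (.m (.v 1) (.v 1))) (.m (.v 2) (.a (.m (.v 4) (.m (.v 4) (.c 2))) (.m (.c (-1)) (.m (.c 2) (.m (.v 2) (.v 2)))))))))) (.m (.m (.c 2) (.m (.v 1) (.a (.m (.v 4) (.m (.v 4) (.c 2))) (.m (.c (-1)) (.m (.c 2) (.m (.v 2) (.v 2))))))) (.m (.c 2) (.a (.m (.v 1) (.v 2)) (.m (.v 4) (.m (.c (-1)) (.m (.c 5) (.v 0)))))))))),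
  .m (.v 4) (.m (.v 4) (.m (.v 3) (.m (.a (.m (.v 4) (.m (.v 4) (.m (.v 4) (.a (.m (.c 60) (.m (.v 0) (.m (.v 0) (.v 0)))) (.m (.c (-1)) (.m (.c 12) (.m (.v 0) (.m (.v 1) (.v 1))))))))) (.m (.c (-1)) (.m (.c 6) (.m (.m (.v 1) (.m (.v 1) (.v 1))) (.m (.v 2) (.a (.m (.v 4) (.m (.v 4) (.c 2))) (.m (.c (-1)) (.m (.c 2) (.m (.v 2) (.v 2)))))))))) (.m (.m (.c 2) (.m (.v 1) (.a (.m (.v 4) (.m (.v 4) (.c 2))) (.m (.c (-1)) (.m (.c 2) (.m (.v 2) (.v 2))))))) (.m (.c (-2)) (.a (.m (.v 1) (.v 2)) (.m (.v 4) (.m (.c 5) (.v 0))))))))),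
  .m (.v 4) (.m (.v 3) (.m (.a (.m (.v 4) (.m (.v 4) (.m (.v 4) (.a (.m (.c 60) (.m (.v 0) (.m (.v 0) (.v 0)))) (.m (.c (-1)) (.m (.c 12) (.m (.v 0) (.m (.v 1) (.v 1))))))))) (.m (.c (-1)) (.m (.c 6) (.m (.m (.v 1) (.m (.v 1) (.v 1))) (.m (.v 2) (.a (.m (.v 4) (.m (.v 4) (.c 2))) (.m (.c (-1)) (.m (.c 2) (.m (.v 2) (.v 2)))))))))) (.m (.m (.c 2) (.m (.v 1) (.a (.m (.v 4) (.m (.v 4) (.c 2))) (.m (.c (-1)) (.m (.c 2) (.m (.v 2) (.v 2))))))) (.m (.c 2) (.m (.v 1) (.a (.m (.v 4) (.m (.v 4) (.c 2))) (.m (.c (-1)) (.m (.c 2) (.m (.v 2) (.v 2)))))))))),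
  .c 0,
  .c 0,
  .c 0,
  .c 0,
  .c 0]
def sx6 : List Ex := [.c 0,
  .c 0,
  .m (.v 4) (.m (.v 4) (.m (.v 4) (.m (.v 4) (.m (.v 4) (.m (.m (.v 3) (.m (.v 3) (.v 3))) (.a (.m (.m (.c 2) (.a (.m (.v 1) (.v 2)) (.m (.v 4) (.m (.c (-1)) (.m (.c 5) (.v 0)))))) (.m (.c 2) (.a (.m (.a (.m (.v 1) (.v 2)) (.m (.v 4) (.m (.c (-1)) (.v 0)))) (.a (.m (.v 1) (.v 2)) (.m (.v 4) (.m (.c (-1)) (.v 0))))) (.m (.v 4) (.m (.v 4) (.m (.c (-1)) (.m (.c 16) (.m (.v 0) (.v 0))))))))) (.m (.m (.c 2) (.a (.m (.v 1) (.v 2)) (.m (.v 4) (.m (.c (-1)) (.m (.c 5) (.v 0)))))) (.m (.c 2) (.a (.m (.a (.m (.v 1) (.v 2)) (.m (.v 4) (.m (.c (-1)) (.v 0)))) (.a (.m (.v 1) (.v 2)) (.m (.v 4) (.m (.c (-1)) (.v 0))))) (.m (.v 4) (.m (.v 4) (.m (.c (-1)) (.m (.c 16) (.m (.v 0) (.v 0))))))))))))))),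
  .c 0,
  .m (.v 4) (.m (.v 4) (.m (.v 4) (.m (.v 4) (.m (.v 4) (.m (.m (.v 3) (.m (.v 3) (.v 3))) (.a (.m (.m (.c (-2)) (.a (.m (.v 1) (.v 2)) (.m (.v 4) (.m (.c 5) (.v 0))))) (.m (.c 2) (.a (.m (.a (.m (.v 1) (.v 2)) (.m (.v 4) (.m (.c (-1)) (.v 0)))) (.a (.m (.v 1) (.v 2)) (.m (.v 4) (.m (.c (-1)) (.v 0))))) (.m (.v 4) (.m (.v 4) (.m (.c (-1)) (.m (.c 16) (.m (.v 0) (.v 0))))))))) (.m (.m (.c 2) (.a (.m (.v 1) (.v 2)) (.m (.v 4) (.m (.c (-1)) (.m (.c 5) (.v 0)))))) (.m (.c 2) (.a (.a (.m (.a (.m (.v 1) (.v 2)) (.m (.v 4) (.v 0))) (.a (.m (.v 1) (.v 2)) (.m (.v 4) (.v 0)))) (.m (.m (.v 1) (.v 1)) (.a (.m (.v 4) (.m (.v 4) (.c 2))) (.m (.c (-1)) (.m (.c 2) (.m (.v 2) (.v 2))))))) (.m (.v 4) (.m (.v 4) (.m (.c (-1)) (.m (.c 16) (.m (.v 0) (.v 0))))))))))))))),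
  .m (.v 4) (.m (.v 4) (.m (.v 4) (.m (.v 4) (.m (.v 4) (.m (.m (.v 3) (.m (.v 3) (.v 3))) (.a (.m (.m (.c (-2)) (.a (.m (.v 1) (.v 2)) (.m (.v 4) (.m (.c 5) (.v 0))))) (.m (.c 2) (.a (.a (.m (.a (.m (.v 1) (.v 2)) (.m (.v 4) (.v 0))) (.a (.m (.v 1) (.v 2)) (.m (.v 4) (.v 0)))) (.m (.m (.v 1) (.v 1)) (.a (.m (.v 4) (.m (.v 4) (.c 2))) (.m (.c (-1)) (.m (.c 2) (.m (.v 2) (.v 2))))))) (.m (.v 4) (.m (.v 4) (.m (.c (-1)) (.m (.c 16) (.m (.v 0) (.v 0))))))))) (.m (.m (.c (-2)) (.a (.m (.v 1) (.v 2)) (.m (.v 4) (.m (.c 5) (.v 0))))) (.m (.c 2) (.a (.a (.m (.a (.m (.v 1) (.v 2)) (.m (.v 4) (.v 0))) (.a (.m (.v 1) (.v 2)) (.m (.v 4) (.v 0)))) (.m (.m (.v 1) (.v 1)) (.a (.m (.v 4) (.m (.v 4) (.c 2))) (.m (.c (-1)) (.m (.c 2) (.m (.v 2) (.v 2))))))) (.m (.v 4) (.m (.v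 4) (.m (.c (-1)) (.m (.c 16) (.m (.v 0) (.v 0))))))))))))))),
  .c 0,
  .m (.v 4) (.m (.v 4) (.m (.v 4) (.m (.v 4) (.m (.m (.v 3) (.m (.v 3) (.v 3))) (.a (.m (.m (.c 2) (.m (.v 1) (.a (.m (.v 4) (.m (.v 4) (.c 2))) (.m (.c (-1)) (.m (.c 2) (.m (.v 2) (.v 2))))))) (.m (.c 2) (.a (.m (.a (.m (.v 1) (.v 2)) (.m (.v 4) (.m (.c (-1)) (.v 0)))) (.a (.m (.v 1) (.v 2)) (.m (.v 4) (.m (.c (-1)) (.v 0))))) (.m (.v 4) (.m (.v 4) (.m (.c (-1)) (.m (.c 16) (.m (.v 0) (.v 0))))))))) (.m (.m (.c 2) (.a (.m (.v 1) (.v 2)) (.m (.v 4) (.m (.c (-1)) (.m (.c 5) (.v 0)))))) (.m (.c (-4)) (.m (.m (.v 1) (.a (.m (.v 4) (.m (.v 4) (.c 2))) (.m (.c (-1)) (.m (.c 2) (.m (.v 2) (.v 2)))))) (.a (.m (.v 1) (.v 2)) (.m (.v 4) (.v 0))))))))))),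
  .m (.v 4) (.m (.v 4) (.m (.v 4) (.m (.v 4) (.m (.m (.v 3) (.m (.v 3) (.v 3))) (.a (.m (.m (.c 2) (.m (.v 1) (.a (.m (.v 4) (.m (.v 4) (.c 2))) (.m (.c (-1)) (.m (.c 2) (.m (.v 2) (.v 2))))))) (.m (.c 2) (.a (.a (.m (.a (.m (.v 1) (.v 2)) (.m (.v 4) (.v 0))) (.a (.m (.v 1) (.v 2)) (.m (.v 4) (.v 0)))) (.m (.m (.v 1) (.v 1)) (.a (.m (.v 4) (.m (.v 4) (.c 2))) (.m (.c (-1)) (.m (.c 2) (.m (.v 2) (.v 2))))))) (.m (.v 4) (.m (.v 4) (.m (.c (-1)) (.m (.c 16) (.m (.v 0) (.v 0))))))))) (.m (.m (.c (-2)) (.a (.m (.v 1) (.v 2)) (.m (.v 4) (.m (.c 5) (.v 0))))) (.m (.c (-4)) (.m (.m (.v 1) (.a (.m (.v 4) (.m (.v 4) (.c 2))) (.m (.c (-1)) (.m (.c 2) (.m (.v 2) (.v 2)))))) (.a (.m (.v 1) (.v 2)) (.m (.v 4) (.v 0))))))))))),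
  .m (.v 4) (.m (.v 4) (.m (.v 4) (.m (.m (.v 3) (.m (.v 3) (.v 3))) (.a (.m (.m (.c 2) (.m (.v 1) (.a (.m (.v 4) (.m (.v 4) (.c 2))) (.m (.c (-1)) (.m (.c 2) (.m (.v 2) (.v 2))))))) (.m (.c (-4)) (.m (.m (.v 1) (.a (.m (.v 4) (.m (.v 4) (.c 2))) (.m (.c (-1)) (.m (.c 2) (.m (.v 2) (.v 2)))))) (.a (.m (.v 1) (.v 2)) (.m (.v 4) (.v 0)))))) (.m (.m (.c 2) (.m (.v 1) (.a (.m (.v 4) (.m (.v 4) (.c 2))) (.m (.c (-1)) (.m (.c 2) (.m (.v 2) (.v 2))))))) (.m (.c (-4)) (.m (.m (.v 1) (.a (.m (.v 4) (.m (.v 4) (.c 2))) (.m (.c (-1)) (.m (.c 2) (.m (.v 2) (.v 2)))))) (.a (.m (.v 1) (.v 2)) (.m (.v 4) (.v 0)))))))))),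
  .c 0,
  .c 0,
  .c 0,
  .c 0,
  .c 0]
def sx7 : List Ex := [.c 0,
  .c 0,
  .m (.v 4) (.m (.v 4) (.m (.a (.m (.v 4) (.m (.v 4) (.m (.v 4) (.a (.m (.c 60) (.m (.v 0) (.m (.v 0) (.v 0)))) (.m (.c (-1)) (.m (.c 12) (.m (.v 0) (.m (.v 1) (.v 1))))))))) (.m (.c (-1)) (.m (.c 6) (.m (.m (.v 1) (.m (.v 1) (.v 1))) (.m (.v 2) (.a (.m (.v 4) (.m (.v 4) (.c 2))) (.m (.c (-1)) (.m (.c 2) (.m (.v 2) (.v 2)))))))))) (.a (.m (.m (.c 2) (.a (.m (.v 1) (.v 2)) (.m (.v 4) (.m (.c (-1)) (.m (.c 5) (.v 0)))))) (.m (.c 2) (.a (.m (.a (.m (.v 1) (.v 2)) (.m (.v 4) (.m (.c (-1)) (.v 0)))) (.a (.m (.v 1) (.v 2)) (.m (.v 4) (.m (.c (-1)) (.v 0))))) (.m (.v 4) (.m (.v 4) (.m (.c (-1)) (.m (.c 16) (.m (.v 0) (.v 0))))))))) (.m (.m (.c 2) (.a (.m (.v 1) (.v 2)) (.m (.v 4) (.m (.c (-1))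 (.m (.c 5) (.v 0)))))) (.m (.c 2) (.a (.m (.a (.m (.v 1) (.v 2)) (.m (.v 4) (.m (.c (-1)) (.v 0)))) (.a (.m (.v 1) (.v 2)) (.m (.v 4) (.m (.c (-1)) (.v 0))))) (.m (.v 4) (.m (.v 4) (.m (.c (-1)) (.m (.c 16) (.m (.v 0) (.v 0)))))))))))),
  .c 0,
  .m (.v 4) (.m (.v 4) (.m (.a (.m (.v 4) (.m (.v 4) (.m (.v 4) (.a (.m (.c 60) (.m (.v 0) (.m (.v 0) (.v 0)))) (.m (.c (-1)) (.m (.c 12) (.m (.v 0) (.m (.v 1) (.v 1))))))))) (.m (.c (-1)) (.m (.c 6) (.m (.m (.v 1) (.m (.v 1) (.v 1))) (.m (.v 2) (.a (.m (.v 4) (.m (.v 4) (.c 2))) (.m (.c (-1)) (.m (.c 2) (.m (.v 2) (.v 2)))))))))) (.a (.m (.m (.c (-2)) (.a (.m (.v 1) (.v 2)) (.m (.v 4) (.m (.c 5) (.v 0))))) (.m (.c 2) (.a (.m (.a (.m (.v 1) (.v 2)) (.m (.v 4) (.m (.c (-1)) (.v 0)))) (.a (.m (.v 1) (.v 2)) (.m (.v 4) (.m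 (.c (-1)) (.v 0))))) (.m (.v 4) (.m (.v 4) (.m (.c (-1)) (.m (.c 16) (.m (.v 0) (.v 0))))))))) (.m (.m (.c 2) (.a (.m (.v 1) (.v 2)) (.m (.v 4) (.m (.c (-1)) (.m (.c 5) (.v 0)))))) (.m (.c 2) (.a (.a (.m (.a (.m (.v 1) (.v 2)) (.m (.v 4) (.v 0))) (.a (.m (.v 1) (.v 2)) (.m (.v 4) (.v 0)))) (.m (.m (.v 1) (.v 1)) (.a (.m (.v 4) (.m (.v 4) (.c 2))) (.m (.c (-1)) (.m (.c 2) (.m (.v 2) (.v 2))))))) (.m (.v 4) (.m (.v 4) (.m (.c (-1)) (.m (.c 16) (.m (.v 0) (.v 0)))))))))))),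
  .m (.v 4) (.m (.v 4) (.m (.a (.m (.v 4) (.m (.v 4) (.m (.v 4) (.a (.m (.c 60) (.m (.v 0) (.m (.v 0) (.v 0)))) (.m (.c (-1)) (.m (.c 12) (.m (.v 0) (.m (.v 1) (.v 1))))))))) (.m (.c (-1)) (.m (.c 6) (.m (.m (.v 1) (.m (.v 1) (.v 1))) (.m (.v 2) (.a (.m (.v 4) (.m (.v 4) (.c 2))) (.m (.c (-1)) (.m (.c 2) (.m (.v 2) (.v 2)))))))))) (.a (.m (.m (.c (-2)) (.a (.m (.v 1) (.v 2)) (.m (.v 4) (.m (.c 5) (.v 0))))) (.m (.c 2) (.a (.a (.m (.a (.m (.v 1) (.v 2)) (.m (.v 4) (.v 0))) (.a (.m (.v 1) (.v 2)) (.m (.v 4) (.v 0)))) (.m (.m (.v 1) (.v 1)) (.a (.m (.v 4) (.m (.v 4) (.c 2))) (.m (.c (-1)) (.m (.c 2) (.m (.v 2) (.v 2))))))) (.m (.v 4) (.m (.v 4) (.m (.c (-1)) (.m (.c 16) (.m (.v 0) (.v 0))))))))) (.m (.m (.c (-2)) (.a (.m (.v 1) (.v 2)) (.m (.v 4) (.m (.c 5) (.v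 0))))) (.m (.c 2) (.a (.a (.m (.a (.m (.v 1) (.v 2)) (.m (.v 4) (.v 0))) (.a (.m (.v 1) (.v 2)) (.m (.v 4) (.v 0)))) (.m (.m (.v 1) (.v 1)) (.a (.m (.v 4) (.m (.v 4) (.c 2))) (.m (.c (-1)) (.m (.c 2) (.m (.v 2) (.v 2))))))) (.m (.v 4) (.m (.v 4) (.m (.c (-1)) (.m (.c 16) (.m (.v 0) (.v 0)))))))))))),
  .c 0,
  .m (.v 4) (.m (.a (.m (.v 4) (.m (.v 4) (.m (.v 4) (.a (.m (.c 60) (.m (.v 0) (.m (.v 0) (.v 0)))) (.m (.c (-1)) (.m (.c 12) (.m (.v 0) (.m (.v 1) (.v 1))))))))) (.m (.c (-1)) (.m (.c 6) (.m (.m (.v 1) (.m (.v 1) (.v 1))) (.m (.v 2) (.a (.m (.v 4) (.m (.v 4) (.c 2))) (.m (.c (-1)) (.m (.c 2) (.m (.v 2) (.v 2)))))))))) (.a (.m (.m (.c 2) (.m (.v 1) (.a (.m (.v 4) (.m (.v 4) (.c 2))) (.m (.c (-1)) (.m (.c 2) (.m (.v 2) (.v 2))))))) (.m (.c 2) (.a (.m (.a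 (.m (.v 1) (.v 2)) (.m (.v 4) (.m (.c (-1)) (.v 0)))) (.a (.m (.v 1) (.v 2)) (.m (.v 4) (.m (.c (-1)) (.v 0))))) (.m (.v 4) (.m (.v 4) (.m (.c (-1)) (.m (.c 16) (.m (.v 0) (.v 0))))))))) (.m (.m (.c 2) (.a (.m (.v 1) (.v 2)) (.m (.v 4) (.m (.c (-1)) (.m (.c 5) (.v 0)))))) (.m (.c (-4)) (.m (.m (.v 1) (.a (.m (.v 4) (.m (.v 4) (.c 2))) (.m (.c (-1)) (.m (.c 2) (.m (.v 2) (.v 2)))))) (.a (.m (.v 1) (.v 2)) (.m (.v 4) (.v 0)))))))),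
  .m (.v 4) (.m (.a (.m (.v 4) (.m (.v 4) (.m (.v 4) (.a (.m (.c 60) (.m (.v 0) (.m (.v 0) (.v 0)))) (.m (.c (-1)) (.m (.c 12) (.m (.v 0) (.m (.v 1) (.v 1))))))))) (.m (.c (-1)) (.m (.c 6) (.m (.m (.v 1) (.m (.v 1) (.v 1))) (.m (.v 2) (.a (.m (.v 4) (.m (.v 4) (.c 2))) (.m (.c (-1)) (.m (.c 2) (.m (.v 2) (.v 2)))))))))) (.a (.m (.m (.c 2) (.m (.v 1) (.a (.m (.v 4) (.m (.v 4) (.c 2))) (.m (.c (-1)) (.m (.c 2) (.m (.v 2) (.v 2))))))) (.m (.c 2) (.a (.a (.m (.a (.m (.v 1) (.v 2)) (.m (.v 4) (.v 0))) (.a (.m (.v 1) (.v 2)) (.m (.v 4) (.v 0)))) (.m (.m (.v 1) (.v 1)) (.a (.m (.v 4) (.m (.v 4) (.c 2))) (.m (.c (-1)) (.m (.c 2) (.m (.v 2) (.v 2))))))) (.m (.v 4) (.m (.v 4) (.m (.c (-1)) (.m (.c 16) (.m (.v 0) (.v 0))))))))) (.m (.m (.c (-2)) (.a (.m (.v 1) (.v 2))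 (.m (.v 4) (.m (.c 5) (.v 0))))) (.m (.c (-4)) (.m (.m (.v 1) (.a (.m (.v 4) (.m (.v 4) (.c 2))) (.m (.c (-1)) (.m (.c 2) (.m (.v 2) (.v 2)))))) (.a (.m (.v 1) (.v 2)) (.m (.v 4) (.v 0)))))))),
  .m (.a (.m (.v 4) (.m (.v 4) (.m (.v 4) (.a (.m (.c 60) (.m (.v 0) (.m (.v 0) (.v 0)))) (.m (.c (-1)) (.m (.c 12) (.m (.v 0) (.m (.v 1) (.v 1))))))))) (.m (.c (-1)) (.m (.c 6) (.m (.m (.v 1) (.m (.v 1) (.v 1))) (.m (.v 2) (.a (.m (.v 4) (.m (.v 4) (.c 2))) (.m (.c (-1)) (.m (.c 2) (.m (.v 2) (.v 2)))))))))) (.a (.m (.m (.c 2) (.m (.v 1) (.a (.m (.v 4) (.m (.v 4) (.c 2))) (.m (.c (-1)) (.m (.c 2) (.m (.v 2) (.v 2))))))) (.m (.c (-4)) (.m (.m (.v 1) (.a (.m (.v 4) (.m (.v 4) (.c 2))) (.m (.c (-1)) (.m (.c 2) (.m (.v 2) (.v 2)))))) (.a (.m (.v 1) (.v 2)) (.m (.v 4) (.v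 0)))))) (.m (.m (.c 2) (.m (.v 1) (.a (.m (.v 4) (.m (.v 4) (.c 2))) (.m (.c (-1)) (.m (.c 2) (.m (.v 2) (.v 2))))))) (.m (.c (-4)) (.m (.m (.v 1) (.a (.m (.v 4) (.m (.v 4) (.c 2))) (.m (.c (-1)) (.m (.c 2) (.m (.v 2) (.v 2)))))) (.a (.m (.v 1) (.v 2)) (.m (.v 4) (.v 0))))))),
  .c 0,
  .c 0,
  .c 0,
  .c 0,
  .c 0]
def sx8 : List Ex := [.c 0,
  .c 0,
  .m (.v 4) (.m (.v 4) (.m (.v 4) (.m (.v 4) (.m (.m (.v 3) (.v 3)) (.m (.m (.c 2) (.a (.m (.a (.m (.v 1) (.v 2)) (.m (.v 4) (.m (.c (-1)) (.v 0)))) (.a (.m (.v 1) (.v 2)) (.m (.v 4) (.m (.c (-1)) (.v 0))))) (.m (.v 4) (.m (.v 4) (.m (.c (-1)) (.m (.c 16) (.m (.v 0) (.v 0)))))))) (.m (.c 2) (.a (.m (.a (.m (.v 1) (.v 2)) (.m (.v 4) (.m (.c (-1)) (.v 0)))) (.a (.m (.v 1) (.v 2)) (.m (.v 4) (.m (.c (-1)) (.v 0)))))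 (.m (.v 4) (.m (.v 4) (.m (.c (-1)) (.m (.c 16) (.m (.v 0) (.v 0))))))))))))),
  .c 0,
  .m (.v 4) (.m (.v 4) (.m (.v 4) (.m (.v 4) (.m (.m (.v 3) (.v 3)) (.m (.m (.c 2) (.a (.a (.m (.a (.m (.v 1) (.v 2)) (.m (.v 4) (.v 0))) (.a (.m (.v 1) (.v 2)) (.m (.v 4) (.v 0)))) (.m (.m (.v 1) (.v 1)) (.a (.m (.v 4) (.m (.v 4) (.c 2))) (.m (.c (-1)) (.m (.c 2) (.m (.v 2) (.v 2))))))) (.m (.v 4) (.m (.v 4) (.m (.c (-1)) (.m (.c 16) (.m (.v 0) (.v 0)))))))) (.m (.c 2) (.a (.m (.a (.m (.v 1) (.v 2)) (.m (.v 4) (.m (.c (-1)) (.v 0)))) (.a (.m (.v 1) (.v 2)) (.m (.v 4) (.m (.c (-1)) (.v 0))))) (.m (.v 4) (.m (.v 4) (.m (.c (-1)) (.m (.c 16) (.m (.v 0) (.v 0))))))))))))),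
  .m (.v 4) (.m (.v 4) (.m (.v 4) (.m (.v 4) (.m (.m (.v 3) (.v 3)) (.m (.m (.c 2) (.a (.a (.m (.a (.m (.v 1) (.v 2)) (.m (.v 4) (.v 0))) (.a (.m (.v 1) (.v 2)) (.m (.v 4) (.v 0)))) (.m (.m (.v 1) (.v 1)) (.a (.m (.v 4) (.m (.v 4) (.c 2))) (.m (.c (-1)) (.m (.c 2) (.m (.v 2) (.v 2))))))) (.m (.v 4) (.m (.v 4) (.m (.c (-1)) (.m (.c 16) (.m (.v 0) (.v 0)))))))) (.m (.c 2) (.a (.a (.m (.a (.m (.v 1) (.v 2)) (.m (.v 4) (.v 0))) (.a (.m (.v 1) (.v 2)) (.m (.v 4) (.v 0)))) (.m (.m (.v 1) (.v 1)) (.a (.m (.v 4) (.m (.v 4) (.c 2))) (.m (.c (-1)) (.m (.c 2) (.m (.v 2) (.v 2))))))) (.m (.v 4) (.m (.v 4) (.m (.c (-1)) (.m (.c 16) (.m (.v 0) (.v 0))))))))))))),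
  .c 0,
  .m (.v 4) (.m (.v 4) (.m (.v 4) (.m (.m (.v 3) (.v 3)) (.m (.m (.c (-4)) (.m (.m (.v 1) (.a (.m (.v 4) (.m (.v 4) (.c 2))) (.m (.c (-1)) (.m (.c 2) (.m (.v 2) (.v 2)))))) (.a (.m (.v 1) (.v 2)) (.m (.v 4) (.v 0))))) (.m (.c 2) (.a (.m (.a (.m (.v 1) (.v 2)) (.m (.v 4) (.m (.c (-1)) (.v 0)))) (.a (.m (.v 1) (.v 2)) (.m (.v 4) (.m (.c (-1)) (.v 0))))) (.m (.v 4) (.m (.v 4) (.m (.c (-1)) (.m (.c 16) (.m (.v 0) (.v 0)))))))))))),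
  .m (.v 4) (.m (.v 4) (.m (.v 4) (.m (.m (.v 3) (.v 3)) (.m (.m (.c (-4)) (.m (.m (.v 1) (.a (.m (.v 4) (.m (.v 4) (.c 2))) (.m (.c (-1)) (.m (.c 2) (.m (.v 2) (.v 2)))))) (.a (.m (.v 1) (.v 2)) (.m (.v 4) (.v 0))))) (.m (.c 2) (.a (.a (.m (.a (.m (.v 1) (.v 2)) (.m (.v 4) (.v 0))) (.a (.m (.v 1) (.v 2)) (.m (.v 4) (.v 0)))) (.m (.m (.v 1) (.v 1)) (.a (.m (.v 4) (.m (.v 4) (.c 2))) (.m (.c (-1)) (.m (.c 2) (.m (.v 2) (.v 2))))))) (.m (.v 4) (.m (.v 4) (.m (.c (-1)) (.m (.c 16) (.m (.v 0) (.v 0)))))))))))),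
  .m (.v 4) (.m (.v 4) (.m (.m (.v 3) (.v 3)) (.m (.m (.c (-4)) (.m (.m (.v 1) (.a (.m (.v 4) (.m (.v 4) (.c 2))) (.m (.c (-1)) (.m (.c 2) (.m (.v 2) (.v 2)))))) (.a (.m (.v 1) (.v 2)) (.m (.v 4) (.v 0))))) (.m (.c (-4)) (.m (.m (.v 1) (.a (.m (.v 4) (.m (.v 4) (.c 2))) (.m (.c (-1)) (.m (.c 2) (.m (.v 2) (.v 2)))))) (.a (.m (.v 1) (.v 2)) (.m (.v 4) (.v 0)))))))),
  .c 0,
  .c 0,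
  .c 0,
  .c 0,
  .c 0]
def sx9 : List Ex := [.c 0,
  .m (.v 4) (.m (.v 4) (.m (.v 4) (.m (.v 4) (.m (.v 4) (.m (.v 4) (.m (.v 4) (.m (.m (.v 3) (.m (.v 3) (.m (.v 3) (.m (.v 3) (.v 3))))) (.m (.c 2) (.a (.m (.v 1) (.v 2)) (.m (.v 4) (.m (.c (-1)) (.m (.c 5) (.v 0))))))))))))),
  .c 0,
  .m (.v 4) (.m (.v 4) (.m (.v 4) (.m (.v 4) (.m (.v 4) (.m (.v 4) (.m (.v 4) (.m (.m (.v 3) (.m (.v 3) (.m (.v 3) (.m (.v 3) (.v 3))))) (.m (.c (-2)) (.a (.m (.v 1) (.v 2)) (.m (.v 4) (.m (.c 5) (.v 0)))))))))))),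
  .c 0,
  .c 0,
  .m (.v 4) (.m (.v 4) (.m (.v 4) (.m (.v 4) (.m (.v 4) (.m (.v 4) (.m (.m (.v 3) (.m (.v 3) (.m (.v 3) (.m (.v 3) (.v 3))))) (.m (.c 2) (.m (.v 1) (.a (.m (.v 4) (.m (.v 4) (.c 2))) (.m (.c (-1)) (.m (.c 2) (.m (.v 2) (.v 2))))))))))))),
  .c 0,
  .c 0,
  .c 0,
  .c 0,
  .c 0,
  .c 0,
  .c 0,
  .c 0]
def sx10 : List Ex := [.c 0,
  .m (.v 4) (.m (.v 4) (.m (.v 4) (.m (.v 4) (.m (.m (.v 3) (.v 3)) (.m (.a (.m (.v 4) (.m (.v 4) (.m (.v 4) (.a (.m (.c 60) (.m (.v 0) (.m (.v 0) (.v 0)))) (.m (.c (-1)) (.m (.c 12) (.m (.v 0) (.m (.v 1) (.v 1))))))))) (.m (.c (-1)) (.m (.c 6) (.m (.m (.v 1) (.m (.v 1) (.v 1))) (.m (.v 2) (.a (.m (.v 4) (.m (.v 4) (.c 2))) (.m (.c (-1)) (.m (.c 2) (.m (.v 2) (.v 2)))))))))) (.m (.c 2) (.a (.m (.v 1) (.v 2)) (.m (.v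 4) (.m (.c (-1)) (.m (.c 5) (.v 0))))))))))),
  .c 0,
  .m (.v 4) (.m (.v 4) (.m (.v 4) (.m (.v 4) (.m (.m (.v 3) (.v 3)) (.m (.a (.m (.v 4) (.m (.v 4) (.m (.v 4) (.a (.m (.c 60) (.m (.v 0) (.m (.v 0) (.v 0)))) (.m (.c (-1)) (.m (.c 12) (.m (.v 0) (.m (.v 1) (.v 1))))))))) (.m (.c (-1)) (.m (.c 6) (.m (.m (.v 1) (.m (.v 1) (.v 1))) (.m (.v 2) (.a (.m (.v 4) (.m (.v 4) (.c 2))) (.m (.c (-1)) (.m (.c 2) (.m (.v 2) (.v 2)))))))))) (.m (.c (-2)) (.a (.m (.v 1) (.v 2)) (.m (.v 4) (.m (.c 5) (.v 0)))))))))),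
  .c 0,
  .c 0,
  .m (.v 4) (.m (.v 4) (.m (.v 4) (.m (.m (.v 3) (.v 3)) (.m (.a (.m (.v 4) (.m (.v 4) (.m (.v 4) (.a (.m (.c 60) (.m (.v 0) (.m (.v 0) (.v 0)))) (.m (.c (-1)) (.m (.c 12) (.m (.v 0) (.m (.v 1) (.v 1))))))))) (.m (.c (-1)) (.m (.c 6) (.m (.m (.v 1) (.m (.v 1) (.v 1))) (.m (.v 2) (.a (.m (.v 4) (.m (.v 4) (.c 2))) (.m (.c (-1)) (.m (.c 2) (.m (.v 2) (.v 2)))))))))) (.m (.c 2) (.m (.v 1) (.a (.m (.v 4) (.m (.v 4) (.c 2))) (.m (.c (-1)) (.m (.c 2) (.m (.v 2) (.v 2))))))))))),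
  .c 0,
  .c 0,
  .c 0,
  .c 0,
  .c 0,
  .c 0,
  .c 0,
  .c 0]
def sx11 : List Ex := [.c 0,
  .m (.v 4) (.m (.v 4) (.m (.v 4) (.m (.v 4) (.m (.v 4) (.m (.v 4) (.m (.v 4) (.m (.m (.v 3) (.m (.v 3) (.m (.v 3) (.v 3)))) (.m (.m (.c 4) (.v 0)) (.m (.c 2) (.a (.m (.v 1) (.v 2)) (.m (.v 4) (.m (.c (-1)) (.m (.c 5) (.v 0)))))))))))))),
  .c 0,
  .m (.v 4) (.m (.v 4) (.m (.v 4) (.m (.v 4) (.m (.v 4) (.m (.v 4) (.m (.v 4) (.m (.m (.v 3) (.m (.v 3) (.m (.v 3) (.v 3)))) (.m (.m (.c 4) (.v 0)) (.m (.c (-2)) (.a (.m (.v 1) (.v 2)) (.m (.v 4) (.m (.c 5) (.v 0))))))))))))),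
  .c 0,
  .c 0,
  .m (.v 4) (.m (.v 4) (.m (.v 4) (.m (.v 4) (.m (.v 4) (.m (.v 4) (.m (.m (.v 3) (.m (.v 3) (.m (.v 3) (.v 3)))) (.m (.m (.c 4) (.v 0)) (.m (.c 2) (.m (.v 1) (.a (.m (.v 4) (.m (.v 4) (.c 2))) (.m (.c (-1)) (.m (.c 2) (.m (.v 2) (.v 2)))))))))))))),
  .c 0,
  .c 0,
  .c 0,
  .c 0,
  .c 0,
  .c 0,
  .c 0,
  .c 0]
def sx12 : List Ex := [.c 0,
  .m (.v 4) (.m (.v 4) (.m (.v 4) (.m (.v 4) (.m (.v 3) (.m (.m (.c 4) (.v 0)) (.m (.a (.m (.v 4) (.m (.v 4) (.m (.v 4) (.a (.m (.c 60) (.m (.v 0) (.m (.v 0) (.v 0)))) (.m (.c (-1)) (.m (.c 12) (.m (.v 0) (.m (.v 1) (.v 1))))))))) (.m (.c (-1)) (.m (.c 6) (.m (.m (.v 1) (.m (.v 1) (.v 1))) (.m (.v 2) (.a (.m (.v 4) (.m (.v 4) (.c 2))) (.m (.c (-1)) (.m (.c 2) (.m (.v 2) (.v 2)))))))))) (.m (.c 2) (.a (.m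 (.v 1) (.v 2)) (.m (.v 4) (.m (.c (-1)) (.m (.c 5) (.v 0)))))))))))),
  .c 0,
  .m (.v 4) (.m (.v 4) (.m (.v 4) (.m (.v 4) (.m (.v 3) (.m (.m (.c 4) (.v 0)) (.m (.a (.m (.v 4) (.m (.v 4) (.m (.v 4) (.a (.m (.c 60) (.m (.v 0) (.m (.v 0) (.v 0)))) (.m (.c (-1)) (.m (.c 12) (.m (.v 0) (.m (.v 1) (.v 1))))))))) (.m (.c (-1)) (.m (.c 6) (.m (.m (.v 1) (.m (.v 1) (.v 1))) (.m (.v 2) (.a (.m (.v 4) (.m (.v 4) (.c 2))) (.m (.c (-1)) (.m (.c 2) (.m (.v 2) (.v 2)))))))))) (.m (.c (-2)) (.a (.m (.v 1) (.v 2)) (.m (.v 4) (.m (.c 5) (.v 0))))))))))),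
  .c 0,
  .c 0,
  .m (.v 4) (.m (.v 4) (.m (.v 4) (.m (.v 3) (.m (.m (.c 4) (.v 0)) (.m (.a (.m (.v 4) (.m (.v 4) (.m (.v 4) (.a (.m (.c 60) (.m (.v 0) (.m (.v 0) (.v 0)))) (.m (.c (-1)) (.m (.c 12) (.m (.v 0) (.m (.v 1) (.v 1))))))))) (.m (.c (-1)) (.m (.c 6) (.m (.m (.v 1) (.m (.v 1) (.v 1))) (.m (.v 2) (.a (.m (.v 4) (.m (.v 4) (.c 2))) (.m (.c (-1)) (.m (.c 2) (.m (.v 2) (.v 2)))))))))) (.m (.c 2) (.m (.v 1) (.a (.m (.v 4) (.m (.v 4) (.c 2))) (.m (.c (-1)) (.m (.c 2) (.m (.v 2) (.v 2)))))))))))),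
  .c 0,
  .c 0,
  .c 0,
  .c 0,
  .c 0,
  .c 0,
  .c 0,
  .c 0]
def sx13 : List Ex := [.c 0,
  .m (.v 4) (.m (.v 4) (.m (.v 4) (.m (.v 4) (.m (.v 4) (.m (.v 4) (.m (.v 4) (.m (.m (.v 3) (.m (.v 3) (.v 3))) (.m (.m (.m (.c 4) (.v 0)) (.m (.c 4) (.v 0))) (.m (.c 2) (.a (.m (.v 1) (.v 2)) (.m (.v 4) (.m (.c (-1)) (.m (.c 5) (.v 0)))))))))))))),
  .c 0,
  .m (.v 4) (.m (.v 4) (.m (.v 4) (.m (.v 4) (.m (.v 4) (.m (.v 4) (.m (.v 4) (.m (.m (.v 3) (.m (.v 3) (.v 3))) (.m (.m (.m (.c 4) (.v 0)) (.m (.c 4) (.v 0))) (.m (.c (-2)) (.a (.m (.v 1) (.v 2)) (.m (.v 4) (.m (.c 5) (.v 0))))))))))))),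
  .c 0,
  .c 0,
  .m (.v 4) (.m (.v 4) (.m (.v 4) (.m (.v 4) (.m (.v 4) (.m (.v 4) (.m (.m (.v 3) (.m (.v 3) (.v 3))) (.m (.m (.m (.c 4) (.v 0)) (.m (.c 4) (.v 0))) (.m (.c 2) (.m (.v 1) (.a (.m (.v 4) (.m (.v 4) (.c 2))) (.m (.c (-1)) (.m (.c 2) (.m (.v 2) (.v 2)))))))))))))),
  .c 0,
  .c 0,
  .c 0,
  .c 0,
  .c 0,
  .c 0,
  .c 0,
  .c 0]
def sx14 : List Ex := [.c 0,
  .m (.v 4) (.m (.v 4) (.m (.v 4) (.m (.v 4) (.m (.m (.m (.c 4) (.v 0)) (.m (.c 4) (.v 0))) (.m (.a (.m (.v 4) (.m (.v 4) (.m (.v 4) (.a (.m (.c 60) (.m (.v 0) (.m (.v 0) (.v 0)))) (.m (.c (-1)) (.m (.c 12) (.m (.v 0) (.m (.v 1) (.v 1))))))))) (.m (.c (-1)) (.m (.c 6) (.m (.m (.v 1) (.m (.v 1) (.v 1))) (.m (.v 2) (.a (.m (.v 4) (.m (.v 4) (.c 2))) (.m (.c (-1)) (.m (.c 2) (.m (.v 2) (.v 2))))))))))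 (.m (.c 2) (.a (.m (.v 1) (.v 2)) (.m (.v 4) (.m (.c (-1)) (.m (.c 5) (.v 0))))))))))),
  .c 0,
  .m (.v 4) (.m (.v 4) (.m (.v 4) (.m (.v 4) (.m (.m (.m (.c 4) (.v 0)) (.m (.c 4) (.v 0))) (.m (.a (.m (.v 4) (.m (.v 4) (.m (.v 4) (.a (.m (.c 60) (.m (.v 0) (.m (.v 0) (.v 0)))) (.m (.c (-1)) (.m (.c 12) (.m (.v 0) (.m (.v 1) (.v 1))))))))) (.m (.c (-1)) (.m (.c 6) (.m (.m (.v 1) (.m (.v 1) (.v 1))) (.m (.v 2) (.a (.m (.v 4) (.m (.v 4) (.c 2))) (.m (.c (-1)) (.m (.c 2) (.m (.v 2) (.v 2)))))))))) (.m (.c (-2)) (.a (.m (.v 1) (.v 2)) (.m (.v 4) (.m (.c 5) (.v 0)))))))))),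
  .c 0,
  .c 0,
  .m (.v 4) (.m (.v 4) (.m (.v 4) (.m (.m (.m (.c 4) (.v 0)) (.m (.c 4) (.v 0))) (.m (.a (.m (.v 4) (.m (.v 4) (.m (.v 4) (.a (.m (.c 60) (.m (.v 0) (.m (.v 0) (.v 0)))) (.m (.c (-1)) (.m (.c 12) (.m (.v 0) (.m (.v 1) (.v 1))))))))) (.m (.c (-1)) (.m (.c 6) (.m (.m (.v 1) (.m (.v 1) (.v 1))) (.m (.v 2) (.a (.m (.v 4) (.m (.v 4) (.c 2))) (.m (.c (-1)) (.m (.c 2) (.m (.v 2) (.v 2)))))))))) (.m (.c 2) (.m (.v 1) (.a (.m (.v 4) (.m (.v 4) (.c 2))) (.m (.c (-1)) (.m (.c 2) (.m (.v 2) (.v 2))))))))))),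
  .c 0,
  .c 0,
  .c 0,
  .c 0,
  .c 0,
  .c 0,
  .c 0,
  .c 0]
def sx15 : List Ex := [.c 0,
  .m (.v 4) (.m (.v 4) (.m (.v 4) (.m (.v 4) (.m (.v 4) (.m (.v 4) (.m (.m (.v 3) (.m (.v 3) (.m (.v 3) (.v 3)))) (.m (.c 2) (.a (.m (.a (.m (.v 1) (.v 2)) (.m (.v 4) (.m (.c (-1)) (.v 0)))) (.a (.m (.v 1) (.v 2)) (.m (.v 4) (.m (.c (-1)) (.v 0))))) (.m (.v 4) (.m (.v 4) (.m (.c (-1)) (.m (.c 16) (.m (.v 0) (.v 0)))))))))))))),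
  .c 0,
  .m (.v 4) (.m (.v 4) (.m (.v 4) (.m (.v 4) (.m (.v 4) (.m (.v 4) (.m (.m (.v 3) (.m (.v 3) (.m (.v 3) (.v 3)))) (.m (.c 2) (.a (.a (.m (.a (.m (.v 1) (.v 2)) (.m (.v 4) (.v 0))) (.a (.m (.v 1) (.v 2)) (.m (.v 4) (.v 0)))) (.m (.m (.v 1) (.v 1)) (.a (.m (.v 4) (.m (.v 4) (.c 2))) (.m (.c (-1)) (.m (.c 2) (.m (.v 2) (.v 2))))))) (.m (.v 4) (.m (.v 4) (.m (.c (-1)) (.m (.c 16) (.m (.v 0) (.v 0)))))))))))))),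
  .c 0,
  .c 0,
  .m (.v 4) (.m (.v 4) (.m (.v 4) (.m (.v 4) (.m (.v 4) (.m (.m (.v 3) (.m (.v 3) (.m (.v 3) (.v 3)))) (.m (.c (-4)) (.m (.m (.v 1) (.a (.m (.v 4) (.m (.v 4) (.c 2))) (.m (.c (-1)) (.m (.c 2) (.m (.v 2) (.v 2)))))) (.a (.m (.v 1) (.v 2)) (.m (.v 4) (.v 0)))))))))),
  .c 0,
  .c 0,
  .c 0,
  .c 0,
  .c 0,
  .c 0,
  .c 0,
  .c 0]
def sx16 : List Ex := [.c 0,
  .m (.v 4) (.m (.v 4) (.m (.v 4) (.m (.v 3) (.m (.a (.m (.v 4) (.m (.v 4) (.m (.v 4) (.a (.m (.c 60) (.m (.v 0) (.m (.v 0) (.v 0)))) (.m (.c (-1)) (.m (.c 12) (.m (.v 0) (.m (.v 1) (.v 1))))))))) (.m (.c (-1)) (.m (.c 6) (.m (.m (.v 1) (.m (.v 1) (.v 1))) (.m (.v 2) (.a (.m (.v 4) (.m (.v 4) (.c 2))) (.m (.c (-1)) (.m (.c 2) (.m (.v 2) (.v 2)))))))))) (.m (.c 2) (.a (.m (.a (.m (.v 1) (.v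 2)) (.m (.v 4) (.m (.c (-1)) (.v 0)))) (.a (.m (.v 1) (.v 2)) (.m (.v 4) (.m (.c (-1)) (.v 0))))) (.m (.v 4) (.m (.v 4) (.m (.c (-1)) (.m (.c 16) (.m (.v 0) (.v 0)))))))))))),
  .c 0,
  .m (.v 4) (.m (.v 4) (.m (.v 4) (.m (.v 3) (.m (.a (.m (.v 4) (.m (.v 4) (.m (.v 4) (.a (.m (.c 60) (.m (.v 0) (.m (.v 0) (.v 0)))) (.m (.c (-1)) (.m (.c 12) (.m (.v 0) (.m (.v 1) (.v 1))))))))) (.m (.c (-1)) (.m (.c 6) (.m (.m (.v 1) (.m (.v 1) (.v 1))) (.m (.v 2) (.a (.m (.v 4) (.m (.v 4) (.c 2))) (.m (.c (-1)) (.m (.c 2) (.m (.v 2) (.v 2)))))))))) (.m (.c 2) (.a (.a (.m (.a (.m (.v 1) (.v 2)) (.m (.v 4) (.v 0))) (.a (.m (.v 1) (.v 2)) (.m (.v 4) (.v 0)))) (.m (.m (.v 1) (.v 1)) (.a (.m (.v 4) (.m (.v 4) (.c 2))) (.m (.c (-1)) (.m (.c 2) (.m (.v 2) (.v 2))))))) (.m (.v 4) (.m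 (.v 4) (.m (.c (-1)) (.m (.c 16) (.m (.v 0) (.v 0)))))))))))),
  .c 0,
  .c 0,
  .m (.v 4) (.m (.v 4) (.m (.v 3) (.m (.a (.m (.v 4) (.m (.v 4) (.m (.v 4) (.a (.m (.c 60) (.m (.v 0) (.m (.v 0) (.v 0)))) (.m (.c (-1)) (.m (.c 12) (.m (.v 0) (.m (.v 1) (.v 1))))))))) (.m (.c (-1)) (.m (.c 6) (.m (.m (.v 1) (.m (.v 1) (.v 1))) (.m (.v 2) (.a (.m (.v 4) (.m (.v 4) (.c 2))) (.m (.c (-1)) (.m (.c 2) (.m (.v 2) (.v 2)))))))))) (.m (.c (-4)) (.m (.m (.v 1) (.a (.m (.v 4) (.m (.v 4) (.c 2))) (.m (.c (-1)) (.m (.c 2) (.m (.v 2) (.v 2)))))) (.a (.m (.v 1) (.v 2)) (.m (.v 4) (.v 0)))))))),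
  .c 0,
  .c 0,
  .c 0,
  .c 0,
  .c 0,
  .c 0,
  .c 0,
  .c 0]
def sx17 : List Ex := [.c 0,
  .m (.v 4) (.m (.v 4) (.m (.v 4) (.m (.v 4) (.m (.v 4) (.m (.v 4) (.m (.m (.v 3) (.m (.v 3) (.v 3))) (.m (.m (.c 4) (.v 0)) (.m (.c 2) (.a (.m (.a (.m (.v 1) (.v 2)) (.m (.v 4) (.m (.c (-1)) (.v 0)))) (.a (.m (.v 1) (.v 2)) (.m (.v 4) (.m (.c (-1)) (.v 0))))) (.m (.v 4) (.m (.v 4) (.m (.c (-1)) (.m (.c 16) (.m (.v 0) (.v 0))))))))))))))),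
  .c 0,
  .m (.v 4) (.m (.v 4) (.m (.v 4) (.m (.v 4) (.m (.v 4) (.m (.v 4) (.m (.m (.v 3) (.m (.v 3) (.v 3))) (.m (.m (.c 4) (.v 0)) (.m (.c 2) (.a (.a (.m (.a (.m (.v 1) (.v 2)) (.m (.v 4) (.v 0))) (.a (.m (.v 1) (.v 2)) (.m (.v 4) (.v 0)))) (.m (.m (.v 1) (.v 1)) (.a (.m (.v 4) (.m (.v 4) (.c 2))) (.m (.c (-1)) (.m (.c 2) (.m (.v 2) (.v 2))))))) (.m (.v 4) (.m (.v 4) (.m (.c (-1)) (.m (.c 16) (.m (.v 0) (.v 0))))))))))))))),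
  .c 0,
  .c 0,
  .m (.v 4) (.m (.v 4) (.m (.v 4) (.m (.v 4) (.m (.v 4) (.m (.m (.v 3) (.m (.v 3) (.v 3))) (.m (.m (.c 4) (.v 0)) (.m (.c (-4)) (.m (.m (.v 1) (.a (.m (.v 4) (.m (.v 4) (.c 2))) (.m (.c (-1)) (.m (.c 2) (.m (.v 2) (.v 2)))))) (.a (.m (.v 1) (.v 2)) (.m (.v 4) (.v 0))))))))))),
  .c 0,
  .c 0,
  .c 0,
  .c 0,
  .c 0,
  .c 0,
  .c 0,
  .c 0]
def sx18 : List Ex := [.c 0,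
  .m (.v 4) (.m (.v 4) (.m (.v 4) (.m (.m (.c 4) (.v 0)) (.m (.a (.m (.v 4) (.m (.v 4) (.m (.v 4) (.a (.m (.c 60) (.m (.v 0) (.m (.v 0) (.v 0)))) (.m (.c (-1)) (.m (.c 12) (.m (.v 0) (.m (.v 1) (.v 1))))))))) (.m (.c (-1)) (.m (.c 6) (.m (.m (.v 1) (.m (.v 1) (.v 1))) (.m (.v 2) (.a (.m (.v 4) (.m (.v 4) (.c 2))) (.m (.c (-1)) (.m (.c 2) (.m (.v 2) (.v 2)))))))))) (.m (.c 2) (.a (.m (.a (.m (.v 1) (.v 2)) (.m (.v 4) (.m (.c (-1)) (.v 0)))) (.a (.m (.v 1) (.v 2)) (.m (.v 4) (.m (.c (-1)) (.v 0))))) (.m (.v 4) (.m (.v 4) (.m (.c (-1)) (.m (.c 16) (.m (.v 0) (.v 0)))))))))))),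
  .c 0,
  .m (.v 4) (.m (.v 4) (.m (.v 4) (.m (.m (.c 4) (.v 0)) (.m (.a (.m (.v 4) (.m (.v 4) (.m (.v 4) (.a (.m (.c 60) (.m (.v 0) (.m (.v 0) (.v 0)))) (.m (.c (-1)) (.m (.c 12) (.m (.v 0) (.m (.v 1) (.v 1))))))))) (.m (.c (-1)) (.m (.c 6) (.m (.m (.v 1) (.m (.v 1) (.v 1))) (.m (.v 2) (.a (.m (.v 4) (.m (.v 4) (.c 2))) (.m (.c (-1)) (.m (.c 2) (.m (.v 2) (.v 2)))))))))) (.m (.c 2) (.a (.a (.m (.a (.m (.v 1) (.v 2)) (.m (.v 4) (.v 0))) (.a (.m (.v 1) (.v 2)) (.m (.v 4) (.v 0)))) (.m (.m (.v 1) (.v 1)) (.a (.m (.v 4) (.m (.v 4) (.c 2))) (.m (.c (-1)) (.m (.c 2) (.m (.v 2) (.v 2))))))) (.m (.v 4) (.m (.v 4) (.m (.c (-1)) (.m (.c 16) (.m (.v 0) (.v 0)))))))))))),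
  .c 0,
  .c 0,
  .m (.v 4) (.m (.v 4) (.m (.m (.c 4) (.v 0)) (.m (.a (.m (.v 4) (.m (.v 4) (.m (.v 4) (.a (.m (.c 60) (.m (.v 0) (.m (.v 0) (.v 0)))) (.m (.c (-1)) (.m (.c 12) (.m (.v 0) (.m (.v 1) (.v 1))))))))) (.m (.c (-1)) (.m (.c 6) (.m (.m (.v 1) (.m (.v 1) (.v 1))) (.m (.v 2) (.a (.m (.v 4) (.m (.v 4) (.c 2))) (.m (.c (-1)) (.m (.c 2) (.m (.v 2) (.v 2)))))))))) (.m (.c (-4)) (.m (.m (.v 1) (.a (.m (.v 4) (.m (.v 4) (.c 2))) (.m (.c (-1)) (.m (.c 2) (.m (.v 2) (.v 2)))))) (.a (.m (.v 1) (.v 2)) (.m (.v 4) (.v 0)))))))),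
  .c 0,
  .c 0,
  .c 0,
  .c 0,
  .c 0,
  .c 0,
  .c 0,
  .c 0]
def sx19 : List Ex := [.c 0,
  .m (.v 4) (.m (.v 4) (.m (.v 4) (.m (.v 4) (.m (.v 4) (.m (.v 4) (.m (.m (.v 3) (.v 3)) (.m (.m (.m (.c 4) (.v 0)) (.m (.c 4) (.v 0))) (.m (.c 2) (.a (.m (.a (.m (.v 1) (.v 2)) (.m (.v 4) (.m (.c (-1)) (.v 0)))) (.a (.m (.v 1) (.v 2)) (.m (.v 4) (.m (.c (-1)) (.v 0))))) (.m (.v 4) (.m (.v 4) (.m (.c (-1)) (.m (.c 16) (.m (.v 0) (.v 0))))))))))))))),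
  .c 0,
  .m (.v 4) (.m (.v 4) (.m (.v 4) (.m (.v 4) (.m (.v 4) (.m (.v 4) (.m (.m (.v 3) (.v 3)) (.m (.m (.m (.c 4) (.v 0)) (.m (.c 4) (.v 0))) (.m (.c 2) (.a (.a (.m (.a (.m (.v 1) (.v 2)) (.m (.v 4) (.v 0))) (.a (.m (.v 1) (.v 2)) (.m (.v 4) (.v 0)))) (.m (.m (.v 1) (.v 1)) (.a (.m (.v 4) (.m (.v 4) (.c 2))) (.m (.c (-1)) (.m (.c 2) (.m (.v 2) (.v 2))))))) (.m (.v 4) (.m (.v 4) (.m (.c (-1)) (.m (.c 16) (.m (.v 0) (.v 0))))))))))))))),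
  .c 0,
  .c 0,
  .m (.v 4) (.m (.v 4) (.m (.v 4) (.m (.v 4) (.m (.v 4) (.m (.m (.v 3) (.v 3)) (.m (.m (.m (.c 4) (.v 0)) (.m (.c 4) (.v 0))) (.m (.c (-4)) (.m (.m (.v 1) (.a (.m (.v 4) (.m (.v 4) (.c 2))) (.m (.c (-1)) (.m (.c 2) (.m (.v 2) (.v 2)))))) (.a (.m (.v 1) (.v 2)) (.m (.v 4) (.v 0))))))))))),
  .c 0,
  .c 0,
  .c 0,
  .c 0,
  .c 0,
  .c 0,
  .c 0,
  .c 0]
def sx20 : List Ex := [.m (.v 4) (.m (.v 4) (.m (.v 4) (.m (.v 4) (.m (.v 4) (.m (.v 4) (.m (.v 4) (.m (.v 4) (.m (.v 3) (.m (.v 3) (.m (.v 3) (.m (.v 3) (.m (.v 3) (.v 3))))))))))))),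
  .c 0,
  .c 0,
  .c 0,
  .c 0,
  .c 0,
  .c 0,
  .c 0,
  .c 0,
  .c 0,
  .c 0,
  .c 0,
  .c 0,
  .c 0,
  .c 0]
def sx21 : List Ex := [.m (.v 4) (.m (.v 4) (.m (.v 4) (.m (.v 4) (.m (.v 4) (.m (.m (.v 3) (.m (.v 3) (.v 3))) (.a (.m (.v 4) (.m (.v 4) (.m (.v 4) (.a (.m (.c 60) (.m (.v 0) (.m (.v 0) (.v 0)))) (.m (.c (-1)) (.m (.c 12) (.m (.v 0) (.m (.v 1) (.v 1))))))))) (.m (.c (-1)) (.m (.c 6) (.m (.m (.v 1) (.m (.v 1) (.v 1))) (.m (.v 2) (.a (.m (.v 4) (.m (.v 4) (.c 2))) (.m (.c (-1)) (.m (.c 2) (.m (.v 2) (.v 2))))))))))))))),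
  .c 0,
  .c 0,
  .c 0,
  .c 0,
  .c 0,
  .c 0,
  .c 0,
  .c 0,
  .c 0,
  .c 0,
  .c 0,
  .c 0,
  .c 0,
  .c 0]
def sx22 : List Ex := [.m (.v 4) (.m (.v 4) (.m (.a (.m (.v 4) (.m (.v 4) (.m (.v 4) (.a (.m (.c 60) (.m (.v 0) (.m (.v 0) (.v 0)))) (.m (.c (-1)) (.m (.c 12) (.m (.v 0) (.m (.v 1) (.v 1))))))))) (.m (.c (-1)) (.m (.c 6) (.m (.m (.v 1) (.m (.v 1) (.v 1))) (.m (.v 2) (.a (.m (.v 4) (.m (.v 4) (.c 2))) (.m (.c (-1)) (.m (.c 2) (.m (.v 2) (.v 2)))))))))) (.a (.m (.v 4) (.m (.v 4) (.m (.v 4) (.a (.m (.c 60) (.m (.v 0) (.m (.v 0) (.v 0)))) (.m (.c (-1)) (.m (.c 12) (.m (.v 0) (.m (.v 1) (.v 1))))))))) (.m (.c (-1)) (.m (.c 6) (.m (.m (.v 1) (.m (.v 1) (.v 1))) (.m (.v 2) (.a (.m (.v 4) (.m (.v 4) (.c 2))) (.m (.c (-1)) (.m (.c 2) (.m (.v 2) (.v 2)))))))))))),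
  .c 0,
  .c 0,
  .c 0,
  .c 0,
  .c 0,
  .c 0,
  .c 0,
  .c 0,
  .c 0,
  .c 0,
  .c 0,
  .c 0,
  .c 0,
  .c 0]
def sx23 : List Ex := [.m (.v 4) (.m (.v 4) (.m (.v 4) (.m (.v 4) (.m (.v 4) (.m (.v 4) (.m (.v 4) (.m (.v 4) (.m (.m (.v 3) (.m (.v 3) (.m (.v 3) (.m (.v 3) (.v 3))))) (.m (.c 4) (.v 0)))))))))),
  .c 0,
  .c 0,
  .c 0,
  .c 0,
  .c 0,
  .c 0,
  .c 0,
  .c 0,
  .c 0,
  .c 0,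
  .c 0,
  .c 0,
  .c 0,
  .c 0]
def sx24 : List Ex := [.m (.v 4) (.m (.v 4) (.m (.v 4) (.m (.v 4) (.m (.v 4) (.m (.m (.v 3) (.v 3)) (.m (.m (.c 4) (.v 0)) (.a (.m (.v 4) (.m (.v 4) (.m (.v 4) (.a (.m (.c 60) (.m (.v 0) (.m (.v 0) (.v 0)))) (.m (.c (-1)) (.m (.c 12) (.m (.v 0) (.m (.v 1) (.v 1))))))))) (.m (.c (-1)) (.m (.c 6) (.m (.m (.v 1) (.m (.v 1) (.v 1))) (.m (.v 2) (.a (.m (.v 4) (.m (.v 4) (.c 2))) (.m (.c (-1)) (.m (.c 2) (.m (.v 2) (.v 2)))))))))))))))),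
  .c 0,
  .c 0,
  .c 0,
  .c 0,
  .c 0,
  .c 0,
  .c 0,
  .c 0,
  .c 0,
  .c 0,
  .c 0,
  .c 0,
  .c 0,
  .c 0]
def sx25 : List Ex := [.m (.v 4) (.m (.v 4) (.m (.v 4) (.m (.v 4) (.m (.v 4) (.m (.v 4) (.m (.v 4) (.m (.v 4) (.m (.m (.v 3) (.m (.v 3) (.m (.v 3) (.v 3)))) (.m (.m (.c 4) (.v 0)) (.m (.c 4) (.v 0))))))))))),
  .c 0,
  .c 0,
  .c 0,
  .c 0,
  .c 0,
  .c 0,
  .c 0,
  .c 0,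
  .c 0,
  .c 0,
  .c 0,
  .c 0,
  .c 0,
  .c 0]
def sx26 : List Ex := [.m (.v 4) (.m (.v 4) (.m (.v 4) (.m (.v 4) (.m (.v 4) (.m (.v 3) (.m (.m (.m (.c 4) (.v 0)) (.m (.c 4) (.v 0))) (.a (.m (.v 4) (.m (.v 4) (.m (.v 4) (.a (.m (.c 60) (.m (.v 0) (.m (.v 0) (.v 0)))) (.m (.c (-1)) (.m (.c 12) (.m (.v 0) (.m (.v 1) (.v 1))))))))) (.m (.c (-1)) (.m (.c 6) (.m (.m (.v 1) (.m (.v 1) (.v 1))) (.m (.v 2) (.a (.m (.v 4) (.m (.v 4) (.c 2))) (.m (.c (-1)) (.m (.c 2) (.m (.v 2) (.v 2)))))))))))))))),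
  .c 0,
  .c 0,
  .c 0,
  .c 0,
  .c 0,
  .c 0,
  .c 0,
  .c 0,
  .c 0,
  .c 0,
  .c 0,
  .c 0,
  .c 0,
  .c 0]
def sx27 : List Ex := [.m (.v 4) (.m (.v 4) (.m (.v 4) (.m (.v 4) (.m (.v 4) (.m (.v 4) (.m (.v 4) (.m (.v 4) (.m (.m (.v 3) (.m (.v 3) (.v 3))) (.m (.m (.c 4) (.v 0)) (.m (.m (.c 4) (.v 0)) (.m (.c 4) (.v 0)))))))))))),
  .c 0,
  .c 0,
  .c 0,
  .c 0,
  .c 0,
  .c 0,
  .c 0,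
  .c 0,
  .c 0,
  .c 0,
  .c 0,
  .c 0,
  .c 0,
  .c 0]
def sx28 : List Ex := [.m (.v 4) (.m (.v 4) (.m (.v 4) (.m (.v 4) (.m (.v 4) (.m (.m (.m (.c 4) (.v 0)) (.m (.m (.c 4) (.v 0)) (.m (.c 4) (.v 0)))) (.a (.m (.v 4) (.m (.v 4) (.m (.v 4) (.a (.m (.c 60) (.m (.v 0) (.m (.v 0) (.v 0)))) (.m (.c (-1)) (.m (.c 12) (.m (.v 0) (.m (.v 1) (.v 1))))))))) (.m (.c (-1)) (.m (.c 6) (.m (.m (.v 1) (.m (.v 1) (.v 1))) (.m (.v 2) (.a (.m (.v 4) (.m (.v 4) (.c 2))) (.m (.c (-1)) (.m (.c 2) (.m (.v 2) (.v 2))))))))))))))),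
  .c 0,
  .c 0,
  .c 0,
  .c 0,
  .c 0,
  .c 0,
  .c 0,
  .c 0,
  .c 0,
  .c 0,
  .c 0,
  .c 0,
  .c 0,
  .c 0]
def sx29 : List Ex := [.c 0,
  .c 0,
  .c 0,
  .c 0,
  .c 0,
  .c 0,
  .c 0,
  .c 0,
  .c 0,
  .c 0,
  .c 0,
  .c 0,
  .c 0,
  .c 0,
  .m (.v 4) (.m (.v 4) (.m (.v 4) (.m (.v 4) (.m (.v 4) (.m (.v 4) (.m (.v 4) (.m (.v 4) (.m (.v 3) (.m (.v 3) (.m (.v 3) (.m (.v 3) (.m (.v 3) (.v 3)))))))))))))]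
def sx30 : List Ex := [.c 0,
  .c 0,
  .c 0,
  .c 0,
  .c 0,
  .c 0,
  .c 0,
  .c 0,
  .c 0,
  .c 0,
  .c 0,
  .c 0,
  .c 0,
  .c 0,
  .m (.v 4) (.m (.v 4) (.m (.v 4) (.m (.v 4) (.m (.v 4) (.m (.m (.v 3) (.m (.v 3) (.v 3))) (.a (.m (.v 4) (.m (.v 4) (.m (.v 4) (.a (.m (.c 60) (.m (.v 0) (.m (.v 0) (.v 0)))) (.m (.c (-1)) (.m (.c 12) (.m (.v 0) (.m (.v 1) (.v 1))))))))) (.m (.c (-1)) (.m (.c 6) (.m (.m (.v 1) (.m (.v 1) (.v 1))) (.m (.v 2) (.a (.m (.v 4) (.m (.v 4) (.c 2))) (.m (.c (-1)) (.m (.c 2) (.m (.v 2) (.v 2)))))))))))))))]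
def sx31 : List Ex := [.c 0,
  .c 0,
  .c 0,
  .c 0,
  .c 0,
  .c 0,
  .c 0,
  .c 0,
  .c 0,
  .c 0,
  .c 0,
  .m (.v 4) (.m (.v 4) (.m (.v 4) (.m (.v 4) (.m (.v 4) (.m (.v 4) (.m (.v 4) (.m (.m (.v 3) (.m (.v 3) (.m (.v 3) (.m (.v 3) (.v 3))))) (.m (.c 2) (.a (.m (.v 1) (.v 2)) (.m (.v 4) (.m (.c (-1)) (.m (.c 5) (.v 0))))))))))))),
  .m (.v 4) (.m (.v 4) (.m (.v 4) (.m (.v 4) (.m (.v 4) (.m (.v 4) (.m (.v 4) (.m (.m (.v 3) (.m (.v 3) (.m (.v 3) (.m (.v 3) (.v 3))))) (.m (.c (-2)) (.a (.m (.v 1) (.v 2)) (.m (.v 4) (.m (.c 5) (.v 0)))))))))))),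
  .m (.v 4) (.m (.v 4) (.m (.v 4) (.m (.v 4) (.m (.v 4) (.m (.v 4) (.m (.m (.v 3) (.m (.v 3) (.m (.v 3) (.m (.v 3) (.v 3))))) (.m (.c 2) (.m (.v 1) (.a (.m (.v 4) (.m (.v 4) (.c 2))) (.m (.c (-1)) (.m (.c 2) (.m (.v 2) (.v 2))))))))))))),
  .c 0]
def sx32 : List Ex := [.c 0,
  .c 0,
  .c 0,
  .c 0,
  .c 0,
  .c 0,
  .c 0,
  .c 0,
  .c 0,
  .c 0,
  .c 0,
  .m (.v 4) (.m (.v 4) (.m (.v 4) (.m (.v 4) (.m (.m (.v 3) (.v 3)) (.m (.a (.m (.v 4) (.m (.v 4) (.m (.v 4) (.a (.m (.c 60) (.m (.v 0) (.m (.v 0) (.v 0)))) (.m (.c (-1)) (.m (.c 12) (.m (.v 0) (.m (.v 1) (.v 1))))))))) (.m (.c (-1)) (.m (.c 6) (.m (.m (.v 1) (.m (.v 1) (.v 1))) (.m (.v 2) (.a (.m (.v 4) (.m (.v 4) (.c 2))) (.m (.c (-1)) (.m (.c 2) (.m (.v 2) (.v 2)))))))))) (.m (.c 2) (.a (.m (.v 1) (.v 2))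 (.m (.v 4) (.m (.c (-1)) (.m (.c 5) (.v 0))))))))))),
  .m (.v 4) (.m (.v 4) (.m (.v 4) (.m (.v 4) (.m (.m (.v 3) (.v 3)) (.m (.a (.m (.v 4) (.m (.v 4) (.m (.v 4) (.a (.m (.c 60) (.m (.v 0) (.m (.v 0) (.v 0)))) (.m (.c (-1)) (.m (.c 12) (.m (.v 0) (.m (.v 1) (.v 1))))))))) (.m (.c (-1)) (.m (.c 6) (.m (.m (.v 1) (.m (.v 1) (.v 1))) (.m (.v 2) (.a (.m (.v 4) (.m (.v 4) (.c 2))) (.m (.c (-1)) (.m (.c 2) (.m (.v 2) (.v 2)))))))))) (.m (.c (-2)) (.a (.m (.v 1) (.v 2)) (.m (.v 4) (.m (.c 5) (.v 0)))))))))),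
  .m (.v 4) (.m (.v 4) (.m (.v 4) (.m (.m (.v 3) (.v 3)) (.m (.a (.m (.v 4) (.m (.v 4) (.m (.v 4) (.a (.m (.c 60) (.m (.v 0) (.m (.v 0) (.v 0)))) (.m (.c (-1)) (.m (.c 12) (.m (.v 0) (.m (.v 1) (.v 1))))))))) (.m (.c (-1)) (.m (.c 6) (.m (.m (.v 1) (.m (.v 1) (.v 1))) (.m (.v 2) (.a (.m (.v 4) (.m (.v 4) (.c 2))) (.m (.c (-1)) (.m (.c 2) (.m (.v 2) (.v 2)))))))))) (.m (.c 2) (.m (.v 1) (.a (.m (.v 4) (.m (.v 4) (.c 2))) (.m (.c (-1)) (.m (.c 2) (.m (.v 2) (.v 2))))))))))),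
  .c 0]
def sx33 : List Ex := [.c 0,
  .c 0,
  .c 0,
  .c 0,
  .c 0,
  .c 0,
  .c 0,
  .c 0,
  .c 0,
  .c 0,
  .c 0,
  .m (.v 4) (.m (.v 4) (.m (.v 4) (.m (.v 4) (.m (.v 4) (.m (.v 4) (.m (.m (.v 3) (.m (.v 3) (.m (.v 3) (.v 3)))) (.m (.c 2) (.a (.m (.a (.m (.v 1) (.v 2)) (.m (.v 4) (.m (.c (-1)) (.v 0)))) (.a (.m (.v 1) (.v 2)) (.m (.v 4) (.m (.c (-1)) (.v 0))))) (.m (.v 4) (.m (.v 4) (.m (.c (-1)) (.m (.c 16) (.m (.v 0) (.v 0)))))))))))))),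
  .m (.v 4) (.m (.v 4) (.m (.v 4) (.m (.v 4) (.m (.v 4) (.m (.v 4) (.m (.m (.v 3) (.m (.v 3) (.m (.v 3) (.v 3)))) (.m (.c 2) (.a (.a (.m (.a (.m (.v 1) (.v 2)) (.m (.v 4) (.v 0))) (.a (.m (.v 1) (.v 2)) (.m (.v 4) (.v 0)))) (.m (.m (.v 1) (.v 1)) (.a (.m (.v 4) (.m (.v 4) (.c 2))) (.m (.c (-1)) (.m (.c 2) (.m (.v 2) (.v 2))))))) (.m (.v 4) (.m (.v 4) (.m (.c (-1)) (.m (.c 16) (.m (.v 0) (.v 0)))))))))))))),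
  .m (.v 4) (.m (.v 4) (.m (.v 4) (.m (.v 4) (.m (.v 4) (.m (.m (.v 3) (.m (.v 3) (.m (.v 3) (.v 3)))) (.m (.c (-4)) (.m (.m (.v 1) (.a (.m (.v 4) (.m (.v 4) (.c 2))) (.m (.c (-1)) (.m (.c 2) (.m (.v 2) (.v 2)))))) (.a (.m (.v 1) (.v 2)) (.m (.v 4) (.v 0)))))))))),
  .c 0]
def sx34 : List Ex := [.c 0,
  .c 0,
  .c 0,
  .c 0,
  .c 0,
  .c 0,
  .c 0,
  .c 0,
  .c 0,
  .c 0,
  .m (.v 4) (.m (.v 4) (.m (.v 4) (.m (.v 4) (.m (.v 4) (.m (.v 4) (.m (.v 4) (.m (.v 4) (.m (.v 3) (.m (.v 3) (.m (.v 3) (.m (.v 3) (.m (.v 3) (.v 3))))))))))))),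
  .c 0,
  .c 0,
  .c 0,
  .c 0]
def sx35 : List Ex := [.c 0,
  .c 0,
  .c 0,
  .c 0,
  .c 0,
  .c 0,
  .c 0,
  .c 0,
  .c 0,
  .c 0,
  .m (.v 4) (.m (.v 4) (.m (.v 4) (.m (.v 4) (.m (.v 4) (.m (.m (.v 3) (.m (.v 3) (.v 3))) (.a (.m (.v 4) (.m (.v 4) (.m (.v 4) (.a (.m (.c 60) (.m (.v 0) (.m (.v 0) (.v 0)))) (.m (.c (-1)) (.m (.c 12) (.m (.v 0) (.m (.v 1) (.v 1))))))))) (.m (.c (-1)) (.m (.c 6) (.m (.m (.v 1) (.m (.v 1) (.v 1))) (.m (.v 2) (.a (.m (.v 4) (.m (.v 4) (.c 2))) (.m (.c (-1)) (.m (.c 2) (.m (.v 2) (.v 2))))))))))))))),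
  .c 0,
  .c 0,
  .c 0,
  .c 0]
def sx36 : List Ex := [.c 0,
  .c 0,
  .c 0,
  .c 0,
  .c 0,
  .c 0,
  .c 0,
  .c 0,
  .c 0,
  .c 0,
  .m (.v 4) (.m (.v 4) (.m (.v 4) (.m (.v 4) (.m (.v 4) (.m (.v 4) (.m (.v 4) (.m (.v 4) (.m (.m (.v 3) (.m (.v 3) (.m (.v 3) (.m (.v 3) (.v 3))))) (.m (.c 4) (.v 0)))))))))),
  .c 0,
  .c 0,
  .c 0,
  .c 0]
def sx37 : List Ex := [.c 0,
  .c 0,
  .c 0,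
  .c 0,
  .c 0,
  .c 0,
  .c 0,
  .c 0,
  .c 0,
  .c 0,
  .m (.v 4) (.m (.v 4) (.m (.v 4) (.m (.v 4) (.m (.v 4) (.m (.m (.v 3) (.v 3)) (.m (.m (.c 4) (.v 0)) (.a (.m (.v 4) (.m (.v 4) (.m (.v 4) (.a (.m (.c 60) (.m (.v 0) (.m (.v 0) (.v 0)))) (.m (.c (-1)) (.m (.c 12) (.m (.v 0) (.m (.v 1) (.v 1))))))))) (.m (.c (-1)) (.m (.c 6) (.m (.m (.v 1) (.m (.v 1) (.v 1))) (.m (.v 2) (.a (.m (.v 4) (.m (.v 4) (.c 2))) (.m (.c (-1)) (.m (.c 2) (.m (.v 2) (.v 2)))))))))))))))),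
  .c 0,
  .c 0,
  .c 0,
  .c 0]
def sx38 : List Ex := [.c 0,
  .c 0,
  .c 0,
  .c 0,
  .c 0,
  .c 0,
  .c 0,
  .c 0,
  .c 0,
  .c 0,
  .c 0,
  .c 0,
  .c 0,
  .c 0,
  .c 1]
def SX : List (List Ex) := [sx0, sx1, sx2, sx3, sx4, sx5, sx6, sx7, sx8, sx9, sx10, sx11, sx12, sx13, sx14, sx15, sx16, sx17, sx18, sx19, sx20, sx21, sx22, sx23, sx24, sx25, sx26, sx27, sx28, sx29, sx30, sx31, sx32, sx33, sx34, sx35, sx36, sx37, sx38]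

section
variable {ξ e : ℕ → ℝ} {x0 x1 x2 x3 x4 l n th W T : ℝ}
theorem sx0_s (hx : Xi ξ x0 x1 x2 x3 x4) (he : SEnv e l n th W T) :
    dw (Ex.ev e) ξ sx0 = W ^ 6 * T ^ 8 * (l ^ 0 * sTh l n th ^ 0 * fK th x1 x2 x3) := by
  simp only [sx0, dw, Ex.ev, Nat.reduceAdd, he.h0, he.h1, he.h2, he.h3, he.h4, hx.h2, hx.h4, hx.h5, hx.h9, fK, fD, fV, fW, sA1, sA2, sA3, sB1, sB2, sB3, sTh, sD]
  push_cast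
  ring
theorem sx1_s (hx : Xi ξ x0 x1 x2 x3 x4) (he : SEnv e l n th W T) :
    dw (Ex.ev e) ξ sx1 = W ^ 6 * T ^ 8 * (l ^ 0 * sTh l n th ^ 1 * fK th x1 x2 x3) := by
  simp only [sx1, dw, Ex.ev, Nat.reduceAdd, he.h0, he.h1, he.h2, he.h3, he.h4, hx.h2, hx.h4, hx.h5, hx.h9, fK, fD, fV, fW, sA1, sA2, sA3, sB1, sB2, sB3, sTh, sD]
  push_cast
  ring
theorem sx2_s (hx : Xi ξ x0 x1 x2 x3 x4) (he : SEnv e l n th W T) :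
    dw (Ex.ev e) ξ sx2 = W ^ 6 * T ^ 8 * (l ^ 0 * sTh l n th ^ 0 * fD l n th x1 x2 x3) := by
  simp only [sx2, dw, Ex.ev, Nat.reduceAdd, he.h0, he.h1, he.h2, he.h3, he.h4, hx.h2, hx.h4, hx.h5, hx.h8, hx.h9, fK, fD, fV, fW, sA1, sA2, sA3, sB1, sB2, sB3, sTh, sD]
  push_cast
  ring
theorem sx3_s (hx : Xi ξ x0 x1 x2 x3 x4) (he : SEnv e l n th W T) :
    dw (Ex.ev e) ξ sx3 = W ^ 6 * T ^ 8 * (l ^ 0 * sTh l n th ^ 1 * fD l n th x1 x2 x3) := by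
  simp only [sx3, dw, Ex.ev, Nat.reduceAdd, he.h0, he.h1, he.h2, he.h3, he.h4, hx.h2, hx.h4, hx.h5, hx.h8, hx.h9, fK, fD, fV, fW, sA1, sA2, sA3, sB1, sB2, sB3, sTh, sD]
  push_cast
  ring
theorem sx4_s (hx : Xi ξ x0 x1 x2 x3 x4) (he : SEnv e l n th W T) :
    dw (Ex.ev e) ξ sx4 = W ^ 6 * T ^ 8 * (l ^ 0 * sTh l n th ^ 0 * fV l n th x1 x2 x3 ^ 2) := by
  simp only [sx4, dw, Ex.ev, Nat.reduceAdd, he.h0, he.h1, he.h2, he.h3, he.h4, hx.h2, hx.h4, hx.h5, hx.h7, hx.h8, hx.h9, fK, fD, fV, fW, sA1, sA2, sA3, sB1, sB2, sB3, sTh, sD]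
  push_cast
  ring
theorem sx5_s (hx : Xi ξ x0 x1 x2 x3 x4) (he : SEnv e l n th W T) :
    dw (Ex.ev e) ξ sx5 = W ^ 6 * T ^ 8 * (l ^ 0 * sTh l n th ^ 1 * fV l n th x1 x2 x3 ^ 2) := by
  simp only [sx5, dw, Ex.ev, Nat.reduceAdd, he.h0, he.h1, he.h2, he.h3, he.h4, hx.h2, hx.h4, hx.h5, hx.h7, hx.h8, hx.h9, fK, fD, fV, fW, sA1, sA2, sA3, sB1, sB2, sB3, sTh, sD]
  push_cast
  ring
theorem sx6_s (hx : Xi ξ x0 x1 x2 x3 x4) (he : SEnv e l n th W T) :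
    dw (Ex.ev e) ξ sx6 = W ^ 6 * T ^ 8 * (l ^ 0 * sTh l n th ^ 0 * (2 * fV l n th x1 x2 x3 * fW l n th x1 x2 x3)) := by
  simp only [sx6, dw, Ex.ev, Nat.reduceAdd, he.h0, he.h1, he.h2, he.h3, he.h4, hx.h2, hx.h4, hx.h5, hx.h7, hx.h8, hx.h9, fK, fD, fV, fW, sA1, sA2, sA3, sB1, sB2, sB3, sTh, sD]
  push_cast
  ring
theorem sx7_s (hx : Xi ξ x0 x1 x2 x3 x4) (he : SEnv e l n th W T) :
    dw (Ex.ev e) ξ sx7 = W ^ 6 * T ^ 8 * (l ^ 0 * sTh l n th ^ 1 * (2 * fV l n th x1 x2 x3 * fW l n th x1 x2 x3)) := by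
  simp only [sx7, dw, Ex.ev, Nat.reduceAdd, he.h0, he.h1, he.h2, he.h3, he.h4, hx.h2, hx.h4, hx.h5, hx.h7, hx.h8, hx.h9, fK, fD, fV, fW, sA1, sA2, sA3, sB1, sB2, sB3, sTh, sD]
  push_cast
  ring
theorem sx8_s (hx : Xi ξ x0 x1 x2 x3 x4) (he : SEnv e l n th W T) :
    dw (Ex.ev e) ξ sx8 = W ^ 6 * T ^ 8 * (l ^ 0 * sTh l n th ^ 0 * fW l n th x1 x2 x3 ^ 2) := by
  simp only [sx8, dw, Ex.ev, Nat.reduceAdd, he.h0, he.h1, he.h2, he.h3, he.h4, hx.h2, hx.h4, hx.h5, hx.h7, hx.h8, hx.h9, fK, fD, fV, fW, sA1, sA2, sA3, sB1, sB2, sB3, sTh, sD]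
  push_cast
  ring
theorem sx9_s (hx : Xi ξ x0 x1 x2 x3 x4) (he : SEnv e l n th W T) :
    dw (Ex.ev e) ξ sx9 = W ^ 6 * T ^ 8 * (l ^ 0 * sTh l n th ^ 0 * (2 * x0 * fV l n th x1 x2 x3)) := by
  simp only [sx9, dw, Ex.ev, Nat.reduceAdd, he.h0, he.h1, he.h2, he.h3, he.h4, hx.h1, hx.h3, hx.h6, fK, fD, fV, fW, sA1, sA2, sA3, sB1, sB2, sB3, sTh, sD]
  push_cast
  ring
theorem sx10_s (hx : Xi ξ x0 x1 x2 x3 x4) (he : SEnv e l n th W T) :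
    dw (Ex.ev e) ξ sx10 = W ^ 6 * T ^ 8 * (l ^ 0 * sTh l n th ^ 1 * (2 * x0 * fV l n th x1 x2 x3)) := by
  simp only [sx10, dw, Ex.ev, Nat.reduceAdd, he.h0, he.h1, he.h2, he.h3, he.h4, hx.h1, hx.h3, hx.h6, fK, fD, fV, fW, sA1, sA2, sA3, sB1, sB2, sB3, sTh, sD]
  push_cast
  ring
theorem sx11_s (hx : Xi ξ x0 x1 x2 x3 x4) (he : SEnv e l n th W T) :
    dw (Ex.ev e) ξ sx11 = W ^ 6 * T ^ 8 * (l ^ 1 * sTh l n th ^ 0 * (2 * x0 * fV l n th x1 x2 x3)) := by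
  simp only [sx11, dw, Ex.ev, Nat.reduceAdd, he.h0, he.h1, he.h2, he.h3, he.h4, hx.h1, hx.h3, hx.h6, fK, fD, fV, fW, sA1, sA2, sA3, sB1, sB2, sB3, sTh, sD]
  push_cast
  ring
theorem sx12_s (hx : Xi ξ x0 x1 x2 x3 x4) (he : SEnv e l n th W T) :
    dw (Ex.ev e) ξ sx12 = W ^ 6 * T ^ 8 * (l ^ 1 * sTh l n th ^ 1 * (2 * x0 * fV l n th x1 x2 x3)) := by
  simp only [sx12, dw, Ex.ev, Nat.reduceAdd, he.h0, he.h1, he.h2, he.h3, he.h4, hx.h1, hx.h3, hx.h6, fK, fD, fV, fW, sA1, sA2, sA3, sB1, sB2, sB3, sTh, sD]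
  push_cast
  ring
theorem sx13_s (hx : Xi ξ x0 x1 x2 x3 x4) (he : SEnv e l n th W T) :
    dw (Ex.ev e) ξ sx13 = W ^ 6 * T ^ 8 * (l ^ 2 * sTh l n th ^ 0 * (2 * x0 * fV l n th x1 x2 x3)) := by
  simp only [sx13, dw, Ex.ev, Nat.reduceAdd, he.h0, he.h1, he.h2, he.h3, he.h4, hx.h1, hx.h3, hx.h6, fK, fD, fV, fW, sA1, sA2, sA3, sB1, sB2, sB3, sTh, sD]
  push_cast
  ring
theorem sx14_s (hx : Xi ξ x0 x1 x2 x3 x4) (he : SEnv e l n th W T) :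
    dw (Ex.ev e) ξ sx14 = W ^ 6 * T ^ 8 * (l ^ 2 * sTh l n th ^ 1 * (2 * x0 * fV l n th x1 x2 x3)) := by
  simp only [sx14, dw, Ex.ev, Nat.reduceAdd, he.h0, he.h1, he.h2, he.h3, he.h4, hx.h1, hx.h3, hx.h6, fK, fD, fV, fW, sA1, sA2, sA3, sB1, sB2, sB3, sTh, sD]
  push_cast
  ring
theorem sx15_s (hx : Xi ξ x0 x1 x2 x3 x4) (he : SEnv e l n th W T) :
    dw (Ex.ev e) ξ sx15 = W ^ 6 * T ^ 8 * (l ^ 0 * sTh l n th ^ 0 * (2 * x0 * fW l n th x1 x2 x3)) := by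
  simp only [sx15, dw, Ex.ev, Nat.reduceAdd, he.h0, he.h1, he.h2, he.h3, he.h4, hx.h1, hx.h3, hx.h6, fK, fD, fV, fW, sA1, sA2, sA3, sB1, sB2, sB3, sTh, sD]
  push_cast
  ring
theorem sx16_s (hx : Xi ξ x0 x1 x2 x3 x4) (he : SEnv e l n th W T) :
    dw (Ex.ev e) ξ sx16 = W ^ 6 * T ^ 8 * (l ^ 0 * sTh l n th ^ 1 * (2 * x0 * fW l n th x1 x2 x3)) := by
  simp only [sx16, dw, Ex.ev, Nat.reduceAdd, he.h0, he.h1, he.h2, he.h3, he.h4, hx.h1, hx.h3, hx.h6, fK, fD, fV, fW, sA1, sA2, sA3, sB1, sB2, sB3, sTh, sD]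
  push_cast
  ring
theorem sx17_s (hx : Xi ξ x0 x1 x2 x3 x4) (he : SEnv e l n th W T) :
    dw (Ex.ev e) ξ sx17 = W ^ 6 * T ^ 8 * (l ^ 1 * sTh l n th ^ 0 * (2 * x0 * fW l n th x1 x2 x3)) := by
  simp only [sx17, dw, Ex.ev, Nat.reduceAdd, he.h0, he.h1, he.h2, he.h3, he.h4, hx.h1, hx.h3, hx.h6, fK, fD, fV, fW, sA1, sA2, sA3, sB1, sB2, sB3, sTh, sD]
  push_cast
  ring
theorem sx18_s (hx : Xi ξ x0 x1 x2 x3 x4) (he : SEnv e l n th W T) :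
    dw (Ex.ev e) ξ sx18 = W ^ 6 * T ^ 8 * (l ^ 1 * sTh l n th ^ 1 * (2 * x0 * fW l n th x1 x2 x3)) := by
  simp only [sx18, dw, Ex.ev, Nat.reduceAdd, he.h0, he.h1, he.h2, he.h3, he.h4, hx.h1, hx.h3, hx.h6, fK, fD, fV, fW, sA1, sA2, sA3, sB1, sB2, sB3, sTh, sD]
  push_cast
  ring
theorem sx19_s (hx : Xi ξ x0 x1 x2 x3 x4) (he : SEnv e l n th W T) :
    dw (Ex.ev e) ξ sx19 = W ^ 6 * T ^ 8 * (l ^ 2 * sTh l n th ^ 0 * (2 * x0 * fW l n th x1 x2 x3)) := by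
  simp only [sx19, dw, Ex.ev, Nat.reduceAdd, he.h0, he.h1, he.h2, he.h3, he.h4, hx.h1, hx.h3, hx.h6, fK, fD, fV, fW, sA1, sA2, sA3, sB1, sB2, sB3, sTh, sD]
  push_cast
  ring
theorem sx20_s (hx : Xi ξ x0 x1 x2 x3 x4) (he : SEnv e l n th W T) :
    dw (Ex.ev e) ξ sx20 = W ^ 6 * T ^ 8 * (l ^ 0 * sTh l n th ^ 0 * x0 ^ 2) := by
  simp only [sx20, dw, Ex.ev, Nat.reduceAdd, he.h0, he.h1, he.h2, he.h3, he.h4, hx.h0, fK, fD, fV, fW, sA1, sA2, sA3, sB1, sB2, sB3, sTh, sD]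
  push_cast
  ring
theorem sx21_s (hx : Xi ξ x0 x1 x2 x3 x4) (he : SEnv e l n th W T) :
    dw (Ex.ev e) ξ sx21 = W ^ 6 * T ^ 8 * (l ^ 0 * sTh l n th ^ 1 * x0 ^ 2) := by
  simp only [sx21, dw, Ex.ev, Nat.reduceAdd, he.h0, he.h1, he.h2, he.h3, he.h4, hx.h0, fK, fD, fV, fW, sA1, sA2, sA3, sB1, sB2, sB3, sTh, sD]
  push_cast
  ring
theorem sx22_s (hx : Xi ξ x0 x1 x2 x3 x4) (he : SEnv e l n th W T) :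
    dw (Ex.ev e) ξ sx22 = W ^ 6 * T ^ 8 * (l ^ 0 * sTh l n th ^ 2 * x0 ^ 2) := by
  simp only [sx22, dw, Ex.ev, Nat.reduceAdd, he.h0, he.h1, he.h2, he.h3, he.h4, hx.h0, fK, fD, fV, fW, sA1, sA2, sA3, sB1, sB2, sB3, sTh, sD]
  push_cast
  ring
theorem sx23_s (hx : Xi ξ x0 x1 x2 x3 x4) (he : SEnv e l n th W T) :
    dw (Ex.ev e) ξ sx23 = W ^ 6 * T ^ 8 * (l ^ 1 * sTh l n th ^ 0 * x0 ^ 2) := by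
  simp only [sx23, dw, Ex.ev, Nat.reduceAdd, he.h0, he.h1, he.h2, he.h3, he.h4, hx.h0, fK, fD, fV, fW, sA1, sA2, sA3, sB1, sB2, sB3, sTh, sD]
  push_cast
  ring
theorem sx24_s (hx : Xi ξ x0 x1 x2 x3 x4) (he : SEnv e l n th W T) :
    dw (Ex.ev e) ξ sx24 = W ^ 6 * T ^ 8 * (l ^ 1 * sTh l n th ^ 1 * x0 ^ 2) := by
  simp only [sx24, dw, Ex.ev, Nat.reduceAdd, he.h0, he.h1, he.h2, he.h3, he.h4, hx.h0, fK, fD, fV, fW, sA1, sA2, sA3, sB1, sB2, sB3, sTh, sD]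
  push_cast
  ring
theorem sx25_s (hx : Xi ξ x0 x1 x2 x3 x4) (he : SEnv e l n th W T) :
    dw (Ex.ev e) ξ sx25 = W ^ 6 * T ^ 8 * (l ^ 2 * sTh l n th ^ 0 * x0 ^ 2) := by
  simp only [sx25, dw, Ex.ev, Nat.reduceAdd, he.h0, he.h1, he.h2, he.h3, he.h4, hx.h0, fK, fD, fV, fW, sA1, sA2, sA3, sB1, sB2, sB3, sTh, sD]
  push_cast
  ring
theorem sx26_s (hx : Xi ξ x0 x1 x2 x3 x4) (he : SEnv e l n th W T) :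
    dw (Ex.ev e) ξ sx26 = W ^ 6 * T ^ 8 * (l ^ 2 * sTh l n th ^ 1 * x0 ^ 2) := by
  simp only [sx26, dw, Ex.ev, Nat.reduceAdd, he.h0, he.h1, he.h2, he.h3, he.h4, hx.h0, fK, fD, fV, fW, sA1, sA2, sA3, sB1, sB2, sB3, sTh, sD]
  push_cast
  ring
theorem sx27_s (hx : Xi ξ x0 x1 x2 x3 x4) (he : SEnv e l n th W T) :
    dw (Ex.ev e) ξ sx27 = W ^ 6 * T ^ 8 * (l ^ 3 * sTh l n th ^ 0 * x0 ^ 2) := by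
  simp only [sx27, dw, Ex.ev, Nat.reduceAdd, he.h0, he.h1, he.h2, he.h3, he.h4, hx.h0, fK, fD, fV, fW, sA1, sA2, sA3, sB1, sB2, sB3, sTh, sD]
  push_cast
  ring
theorem sx28_s (hx : Xi ξ x0 x1 x2 x3 x4) (he : SEnv e l n th W T) :
    dw (Ex.ev e) ξ sx28 = W ^ 6 * T ^ 8 * (l ^ 3 * sTh l n th ^ 1 * x0 ^ 2) := by
  simp only [sx28, dw, Ex.ev, Nat.reduceAdd, he.h0, he.h1, he.h2, he.h3, he.h4, hx.h0, fK, fD, fV, fW, sA1, sA2, sA3, sB1, sB2, sB3, sTh, sD]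
  push_cast
  ring
theorem sx29_s (hx : Xi ξ x0 x1 x2 x3 x4) (he : SEnv e l n th W T) :
    dw (Ex.ev e) ξ sx29 = W ^ 6 * T ^ 8 * (l ^ 0 * sTh l n th ^ 0 * x4 ^ 2) := by
  simp only [sx29, dw, Ex.ev, Nat.reduceAdd, he.h0, he.h1, he.h2, he.h3, he.h4, hx.h14, fK, fD, fV, fW, sA1, sA2, sA3, sB1, sB2, sB3, sTh, sD]
  push_cast
  ring
theorem sx30_s (hx : Xi ξ x0 x1 x2 x3 x4) (he : SEnv e l n th W T) :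
    dw (Ex.ev e) ξ sx30 = W ^ 6 * T ^ 8 * (l ^ 0 * sTh l n th ^ 1 * x4 ^ 2) := by
  simp only [sx30, dw, Ex.ev, Nat.reduceAdd, he.h0, he.h1, he.h2, he.h3, he.h4, hx.h14, fK, fD, fV, fW, sA1, sA2, sA3, sB1, sB2, sB3, sTh, sD]
  push_cast
  ring
theorem sx31_s (hx : Xi ξ x0 x1 x2 x3 x4) (he : SEnv e l n th W T) :
    dw (Ex.ev e) ξ sx31 = W ^ 6 * T ^ 8 * (l ^ 0 * sTh l n th ^ 0 * (2 * x4 * fV l n th x1 x2 x3)) := by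
  simp only [sx31, dw, Ex.ev, Nat.reduceAdd, he.h0, he.h1, he.h2, he.h3, he.h4, hx.h11, hx.h12, hx.h13, fK, fD, fV, fW, sA1, sA2, sA3, sB1, sB2, sB3, sTh, sD]
  push_cast
  ring
theorem sx32_s (hx : Xi ξ x0 x1 x2 x3 x4) (he : SEnv e l n th W T) :
    dw (Ex.ev e) ξ sx32 = W ^ 6 * T ^ 8 * (l ^ 0 * sTh l n th ^ 1 * (2 * x4 * fV l n th x1 x2 x3)) := by
  simp only [sx32, dw, Ex.ev, Nat.reduceAdd, he.h0, he.h1, he.h2, he.h3, he.h4, hx.h11, hx.h12, hx.h13, fK, fD, fV, fW, sA1, sA2, sA3, sB1, sB2, sB3, sTh, sD]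
  push_cast
  ring
theorem sx33_s (hx : Xi ξ x0 x1 x2 x3 x4) (he : SEnv e l n th W T) :
    dw (Ex.ev e) ξ sx33 = W ^ 6 * T ^ 8 * (l ^ 0 * sTh l n th ^ 0 * (2 * x4 * fW l n th x1 x2 x3)) := by
  simp only [sx33, dw, Ex.ev, Nat.reduceAdd, he.h0, he.h1, he.h2, he.h3, he.h4, hx.h11, hx.h12, hx.h13, fK, fD, fV, fW, sA1, sA2, sA3, sB1, sB2, sB3, sTh, sD]
  push_cast
  ring
theorem sx34_s (hx : Xi ξ x0 x1 x2 x3 x4) (he : SEnv e l n th W T) :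
    dw (Ex.ev e) ξ sx34 = W ^ 6 * T ^ 8 * (l ^ 0 * sTh l n th ^ 0 * (2 * x0 * x4)) := by
  simp only [sx34, dw, Ex.ev, Nat.reduceAdd, he.h0, he.h1, he.h2, he.h3, he.h4, hx.h10, fK, fD, fV, fW, sA1, sA2, sA3, sB1, sB2, sB3, sTh, sD]
  push_cast
  ring
theorem sx35_s (hx : Xi ξ x0 x1 x2 x3 x4) (he : SEnv e l n th W T) :
    dw (Ex.ev e) ξ sx35 = W ^ 6 * T ^ 8 * (l ^ 0 * sTh l n th ^ 1 * (2 * x0 * x4)) := by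
  simp only [sx35, dw, Ex.ev, Nat.reduceAdd, he.h0, he.h1, he.h2, he.h3, he.h4, hx.h10, fK, fD, fV, fW, sA1, sA2, sA3, sB1, sB2, sB3, sTh, sD]
  push_cast
  ring
theorem sx36_s (hx : Xi ξ x0 x1 x2 x3 x4) (he : SEnv e l n th W T) :
    dw (Ex.ev e) ξ sx36 = W ^ 6 * T ^ 8 * (l ^ 1 * sTh l n th ^ 0 * (2 * x0 * x4)) := by
  simp only [sx36, dw, Ex.ev, Nat.reduceAdd, he.h0, he.h1, he.h2, he.h3, he.h4, hx.h10, fK, fD, fV, fW, sA1, sA2, sA3, sB1, sB2, sB3, sTh, sD]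
  push_cast
  ring
theorem sx37_s (hx : Xi ξ x0 x1 x2 x3 x4) (he : SEnv e l n th W T) :
    dw (Ex.ev e) ξ sx37 = W ^ 6 * T ^ 8 * (l ^ 1 * sTh l n th ^ 1 * (2 * x0 * x4)) := by
  simp only [sx37, dw, Ex.ev, Nat.reduceAdd, he.h0, he.h1, he.h2, he.h3, he.h4, hx.h10, fK, fD, fV, fW, sA1, sA2, sA3, sB1, sB2, sB3, sTh, sD]
  push_cast
  ring
theorem sx38_s (hx : Xi ξ x0 x1 x2 x3 x4) (he : SEnv e l n th W T) :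
    dw (Ex.ev e) ξ sx38 = x4 ^ 2 := by
  simp only [sx38, dw, Ex.ev, Nat.reduceAdd, he.h0, he.h1, he.h2, he.h3, he.h4, hx.h14, fK, fD, fV, fW, sA1, sA2, sA3, sB1, sB2, sB3, sTh, sD]
  push_cast
  ring
end

end Crest.Agent.R97
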