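import Crest.Agent.R97.CertT3
import Crest.Agent.R97.CertT4

/-! CertT5 (helper96): the separated form `Σ T_k S_k` of the 5×5 matrix of an integer table. -/

set_option autoImplicit false
set_option linter.unusedSimpArgs false
set_option linter.unusedVariables false

namespace Crest.Agent.R97
open Crest.Agent.BSp

def tx0 : Ex := .m (.v 4) (.m (.v 5) (.m (.m (.c 4) (.v 8)) (.v 24)))
def tx1 : Ex := .m (.v 4) (.m (.v 5) (.m (.m (.c 4) (.v 8)) (.m (.m (.v 0) (.m (.v 0) (.v 0))) (.v 28))))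
def tx2 : Ex := .m (.v 4) (.m (.v 5) (.m (.m (.c 4) (.v 8)) (.m (.v 0) (.v 32))))
def tx3 : Ex := .m (.v 4) (.m (.v 5) (.m (.m (.c 4) (.v 8)) (.m (.v 0) (.m (.m (.v 0) (.m (.v 0) (.v 0))) (.v 36)))))
def tx4 : Ex := .m (.v 4) (.m (.v 5) (.m (.c 4) (.m (.m (.v 0) (.v 0)) (.a (.a (.m (.a (.m (.c 2) (.v 7)) (.m (.c (-1)) (.m (.c 2) (.v 8)))) (.v 24)) (.m (.c (-1)) (.m (.m (.c 2) (.v 8)) (.m (.a (.c 1) (.m (.c (-1)) (.m (.v 0) (.v 0)))) (.v 25))))) (.m (.v 8) (.m (.v 1) (.v 26)))))))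
def tx5 : Ex := .m (.v 4) (.m (.v 5) (.m (.c 4) (.m (.m (.v 0) (.v 0)) (.m (.m (.v 0) (.m (.v 0) (.v 0))) (.a (.a (.m (.a (.m (.c 2) (.v 7)) (.m (.c (-1)) (.m (.c 5) (.v 8)))) (.v 28)) (.m (.c (-1)) (.m (.m (.c 2) (.v 8)) (.m (.a (.c 1) (.m (.c (-1)) (.m (.v 0) (.v 0)))) (.v 29))))) (.m (.v 8) (.m (.v 1) (.v 30))))))))
def tx6 : Ex := .m (.v 4) (.m (.v 5) (.m (.m (.v 0) (.m (.v 0) (.v 0))) (.a (.m (.m (.c 6) (.v 8)) (.v 28)) (.m (.c 2) (.a (.a (.m (.a (.m (.c 2) (.v 7)) (.m (.c (-1)) (.m (.c 3) (.v 8)))) (.v 32)) (.m (.c (-1)) (.m (.m (.c 2) (.v 8)) (.m (.a (.c 1) (.m (.c (-1)) (.m (.v 0) (.v 0)))) (.v 33))))) (.m (.v 8) (.m (.v 1) (.v 34))))))))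
def tx7 : Ex := .m (.v 4) (.m (.v 5) (.m (.c 2) (.m (.m (.v 0) (.m (.v 0) (.v 0))) (.m (.m (.v 0) (.m (.v 0) (.v 0))) (.a (.a (.m (.a (.m (.c 2) (.v 7)) (.m (.c (-1)) (.m (.c 6) (.v 8)))) (.v 36)) (.m (.c (-1)) (.m (.m (.c 2) (.v 8)) (.m (.a (.c 1) (.m (.c (-1)) (.m (.v 0) (.v 0)))) (.v 37))))) (.m (.v 8) (.m (.v 1) (.v 38))))))))
def tx8 : Ex := .m (.v 4) (.m (.v 5) (.m (.m (.c 12) (.v 8)) (.m (.m (.m (.v 0) (.v 0)) (.m (.v 0) (.v 0))) (.v 36))))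
def tx9 : Ex := .m (.v 3) (.m (.v 5) (.a (.m (.m (.c 2) (.v 8)) (.a (.v 60) (.v 26))) (.m (.c 2) (.a (.a (.m (.a (.m (.c 2) (.v 7)) (.m (.c (-1)) (.m (.c (-1)) (.v 8)))) (.m (.m (.v 0) (.v 0)) (.v 40))) (.m (.c (-1)) (.m (.m (.c 2) (.v 8)) (.m (.a (.c 1) (.m (.c (-1)) (.m (.v 0) (.v 0)))) (.a (.m (.m (.v 0) (.v 0)) (.v 41)) (.m (.c (-1)) (.v 40))))))) (.m (.v 8) (.m (.v 1) (.m (.m (.v 0) (.v 0)) (.v 42))))))))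
def tx10 : Ex := .m (.v 3) (.m (.v 5) (.a (.m (.m (.c 2) (.v 8)) (.a (.m (.m (.v 0) (.m (.v 0) (.v 0))) (.v 64)) (.m (.m (.v 0) (.m (.v 0) (.v 0))) (.v 30)))) (.m (.c 2) (.m (.m (.v 0) (.m (.v 0) (.v 0))) (.a (.a (.m (.a (.m (.c 2) (.v 7)) (.m (.c (-1)) (.m (.c 2) (.v 8)))) (.v 44)) (.m (.c (-1)) (.m (.m (.c 2) (.v 8)) (.m (.a (.c 1) (.m (.c (-1)) (.m (.v 0) (.v 0)))) (.v 45))))) (.m (.v 8) (.m (.v 1) (.v 46))))))))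
def tx11 : Ex := .m (.v 3) (.m (.v 5) (.m (.v 0) (.a (.m (.c 2) (.a (.a (.m (.a (.m (.c 2) (.v 7)) (.m (.c (-1)) (.m (.c 0) (.v 8)))) (.a (.v 48) (.m (.m (.v 0) (.v 0)) (.v 52)))) (.m (.c (-1)) (.m (.m (.c 2) (.v 8)) (.m (.a (.c 1) (.m (.c (-1)) (.m (.v 0) (.v 0)))) (.a (.a (.v 49) (.m (.c (-1)) (.v 52))) (.m (.m (.v 0) (.v 0)) (.v 53))))))) (.m (.v 8) (.m (.v 1) (.a (.v 50) (.m (.m (.v 0) (.v 0)) (.v 54))))))) (.m (.c (-1)) (.m (.m (.c 4) (.v 8)) (.v 27))))))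
def tx12 : Ex := .m (.v 3) (.m (.v 5) (.m (.v 0) (.a (.m (.c 2) (.m (.m (.v 0) (.m (.v 0) (.v 0))) (.a (.a (.m (.a (.m (.c 2) (.v 7)) (.m (.c (-1)) (.m (.c 3) (.v 8)))) (.v 56)) (.m (.c (-1)) (.m (.m (.c 2) (.v 8)) (.m (.a (.c 1) (.m (.c (-1)) (.m (.v 0) (.v 0)))) (.v 57))))) (.m (.v 8) (.m (.v 1) (.v 58)))))) (.m (.c (-1)) (.m (.m (.c 4) (.v 8)) (.m (.m (.v 0) (.m (.v 0) (.v 0))) (.v 31)))))))
def tx13 : Ex := .m (.v 3) (.m (.v 5) (.m (.m (.v 0) (.v 0)) (.m (.c 2) (.a (.a (.m (.a (.m (.c 2) (.v 7)) (.m (.c (-1)) (.m (.c 1) (.v 8)))) (.v 60)) (.m (.c (-1)) (.m (.m (.c 2) (.v 8)) (.m (.a (.c 1) (.m (.c (-1)) (.m (.v 0) (.v 0)))) (.v 61))))) (.m (.v 8) (.m (.v 1) (.v 62)))))))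
def tx14 : Ex := .m (.v 3) (.m (.v 5) (.m (.m (.v 0) (.v 0)) (.m (.c 2) (.m (.m (.v 0) (.m (.v 0) (.v 0))) (.a (.a (.m (.a (.m (.c 2) (.v 7)) (.m (.c (-1)) (.m (.c 4) (.v 8)))) (.v 64)) (.m (.c (-1)) (.m (.m (.c 2) (.v 8)) (.m (.a (.c 1) (.m (.c (-1)) (.m (.v 0) (.v 0)))) (.v 65))))) (.m (.v 8) (.m (.v 1) (.v 66))))))))
def tx15 : Ex := .m (.v 3) (.m (.v 5) (.m (.m (.c 2) (.v 8)) (.m (.v 0) (.a (.v 34) (.m (.c 3) (.v 44))))))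
def tx16 : Ex := .m (.v 3) (.m (.v 5) (.m (.m (.c 2) (.v 8)) (.m (.v 0) (.m (.m (.v 0) (.m (.v 0) (.v 0))) (.v 38)))))
def tx17 : Ex := .m (.v 3) (.m (.v 5) (.m (.v 8) (.m (.m (.v 0) (.v 0)) (.a (.m (.c 6) (.v 56)) (.m (.c (-1)) (.m (.c 4) (.v 35)))))))
def tx18 : Ex := .m (.v 3) (.m (.v 5) (.m (.m (.c (-4)) (.v 8)) (.m (.m (.v 0) (.v 0)) (.m (.m (.v 0) (.m (.v 0) (.v 0))) (.v 39)))))
def tx19 : Ex := .m (.v 3) (.m (.v 5) (.m (.m (.c 6) (.v 8)) (.m (.m (.v 0) (.m (.v 0) (.v 0))) (.v 64))))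
def tx20 : Ex := .a (.m (.m (.c 4) (.v 8)) (.a (.m (.m (.v 10) (.v 5)) (.a (.v 48) (.m (.m (.v 0) (.v 0)) (.v 52)))) (.m (.v 6) (.m (.a (.c 1) (.m (.c (-1)) (.m (.v 0) (.v 0)))) (.a (.m (.v 10) (.a (.m (.c 5) (.v 24)) (.m (.c (-1)) (.m (.v 1) (.a (.m (.c 5) (.v 40)) (.v 60)))))) (.m (.c (-1)) (.m (.v 9) (.v 16)))))))) (.m (.v 2) (.m (.m (.m (.c 4) (.v 8)) (.v 5)) (.v 42)))
def tx21 : Ex := .a (.m (.m (.c 4) (.v 8)) (.a (.m (.m (.v 10) (.v 5)) (.a (.m (.m (.v 0) (.m (.v 0) (.v 0))) (.v 56)) (.m (.v 0) (.v 60)))) (.m (.v 6) (.m (.a (.c 1) (.m (.c (-1)) (.m (.v 0) (.v 0)))) (.a (.m (.v 10) (.a (.a (.m (.c 5) (.m (.m (.v 0) (.m (.v 0) (.v 0))) (.v 28))) (.m (.c (-1)) (.m (.v 1) (.a (.m (.c 5) (.m (.v 0) (.v 44))) (.m (.m (.v 0) (.m (.v 0) (.v 0))) (.v 64)))))) (.m (.c 5) (.m (.v 0) (.v 32))))) (.m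 (.c (-1)) (.m (.v 9) (.m (.m (.v 0) (.m (.v 0) (.v 0))) (.v 20))))))))) (.m (.v 2) (.m (.m (.m (.c 4) (.v 8)) (.v 5)) (.m (.v 0) (.v 46))))
def tx22 : Ex := .m (.m (.c 4) (.v 8)) (.a (.m (.m (.v 10) (.v 5)) (.m (.v 0) (.m (.m (.v 0) (.m (.v 0) (.v 0))) (.v 64)))) (.m (.v 6) (.m (.a (.c 1) (.m (.c (-1)) (.m (.v 0) (.v 0)))) (.m (.v 10) (.m (.c 5) (.m (.v 0) (.m (.m (.v 0) (.m (.v 0) (.v 0))) (.v 36))))))))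
def tx23 : Ex := .m (.v 2) (.m (.m (.m (.c 4) (.v 8)) (.v 5)) (.m (.v 0) (.a (.v 54) (.m (.c (-1)) (.m (.c 2) (.v 43))))))
def tx24 : Ex := .m (.v 2) (.m (.m (.m (.c 4) (.v 8)) (.v 5)) (.m (.v 0) (.a (.m (.v 0) (.v 58)) (.m (.c (-1)) (.m (.c 2) (.m (.v 0) (.v 47)))))))
def tx25 : Ex := .m (.v 2) (.m (.m (.m (.c 4) (.v 8)) (.v 5)) (.a (.v 62) (.m (.c (-1)) (.m (.c 2) (.a (.v 51) (.m (.m (.v 0) (.v 0)) (.v 55)))))))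
def tx26 : Ex := .m (.v 2) (.m (.m (.m (.c 4) (.v 8)) (.v 5)) (.a (.m (.m (.v 0) (.m (.v 0) (.v 0))) (.v 66)) (.m (.c (-1)) (.m (.c 2) (.m (.m (.v 0) (.m (.v 0) (.v 0))) (.v 59))))))
def tx27 : Ex := .m (.v 2) (.m (.m (.m (.c 4) (.v 8)) (.v 5)) (.m (.c (-2)) (.m (.v 0) (.v 63))))
def tx28 : Ex := .m (.v 2) (.m (.m (.m (.c 4) (.v 8)) (.v 5)) (.m (.c (-2)) (.m (.v 0) (.m (.m (.v 0) (.m (.v 0) (.v 0))) (.v 67)))))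
def tx29 : Ex := .m (.v 4) (.m (.v 5) (.m (.m (.c 4) (.v 8)) (.v 16)))
def tx30 : Ex := .m (.v 4) (.m (.v 5) (.m (.m (.c 4) (.v 8)) (.m (.m (.v 0) (.m (.v 0) (.v 0))) (.v 20))))
def tx31 : Ex := .m (.v 4) (.m (.v 5) (.m (.c 2) (.a (.a (.m (.a (.m (.c 2) (.v 7)) (.m (.c (-1)) (.m (.c 0) (.v 8)))) (.m (.m (.v 0) (.v 0)) (.v 16))) (.m (.c (-1)) (.m (.m (.c 2) (.v 8)) (.m (.a (.c 1) (.m (.c (-1)) (.m (.v 0) (.v 0)))) (.a (.m (.m (.v 0) (.v 0)) (.v 17)) (.m (.c (-1)) (.v 16))))))) (.m (.v 8) (.m (.v 1) (.m (.m (.v 0) (.v 0)) (.v 18)))))))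
def tx32 : Ex := .m (.v 4) (.m (.v 5) (.m (.c 2) (.m (.m (.v 0) (.m (.v 0) (.v 0))) (.a (.a (.m (.a (.m (.c 2) (.v 7)) (.m (.c (-1)) (.m (.c 3) (.v 8)))) (.m (.m (.v 0) (.v 0)) (.v 20))) (.m (.c (-1)) (.m (.m (.c 2) (.v 8)) (.m (.a (.c 1) (.m (.c (-1)) (.m (.v 0) (.v 0)))) (.a (.m (.m (.v 0) (.v 0)) (.v 21)) (.m (.c (-1)) (.v 20))))))) (.m (.v 8) (.m (.v 1) (.m (.m (.v 0) (.v 0)) (.v 22))))))))
def tx33 : Ex := .m (.v 4) (.m (.v 5) (.m (.m (.c 6) (.v 8)) (.m (.m (.v 0) (.m (.v 0) (.v 0))) (.v 20))))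
def tx34 : Ex := .m (.v 3) (.m (.v 5) (.m (.m (.c 2) (.v 8)) (.v 18)))
def tx35 : Ex := .m (.v 3) (.m (.v 5) (.m (.m (.c 2) (.v 8)) (.m (.m (.v 0) (.m (.v 0) (.v 0))) (.v 22))))
def tx36 : Ex := .m (.v 3) (.m (.v 5) (.m (.m (.c (-4)) (.v 8)) (.m (.v 0) (.v 19))))
def tx37 : Ex := .m (.v 3) (.m (.v 5) (.m (.m (.c (-4)) (.v 8)) (.m (.v 0) (.m (.m (.v 0) (.m (.v 0) (.v 0))) (.v 23)))))
def tx38 : Ex := .c (-1)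
def TX : List Ex := [tx0, tx1, tx2, tx3, tx4, tx5, tx6, tx7, tx8, tx9, tx10, tx11, tx12, tx13, tx14, tx15, tx16, tx17, tx18, tx19, tx20, tx21, tx22, tx23, tx24, tx25, tx26, tx27, tx28, tx29, tx30, tx31, tx32, tx33, tx34, tx35, tx36, tx37, tx38]

/-- values of the table variables -/
structure TEnv (I : IT) (e : ℕ → ℝ) (s z p PP A W ω : ℝ) : Prop where
  h0 : e 0 = s
  h1 : e 1 = z
  h2 : e 2 = I.wq * PP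
  h3 : e 3 = I.wq * A
  h4 : e 4 = I.wq * W
  h5 : e 5 = I.cn
  h6 : e 6 = I.cd
  h7 : e 7 = I.an
  h8 : e 8 = I.ad
  h9 : e 9 = I.Ln
  h10 : e 10 = I.wq
  h16 : e 16 = ω * pv I.F0 (1 - s ^ 2) z p
  h17 : e 17 = ω * pv (dR I.F0) (1 - s ^ 2) z p
  h18 : e 18 = ω * pv (dZ I.F0) (1 - s ^ 2) z p
  h19 : e 19 = ω * pv (dP I.F0) (1 - s ^ 2) z p
  h20 : e 20 = ω * pv I.F1 (1 - s ^ 2) z p
  h21 : e 21 = ω * pv (dR I.F1) (1 - s ^ 2) z p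
  h22 : e 22 = ω * pv (dZ I.F1) (1 - s ^ 2) z p
  h23 : e 23 = ω * pv (dP I.F1) (1 - s ^ 2) z p
  h24 : e 24 = ω * pv I.K0 (1 - s ^ 2) z p
  h25 : e 25 = ω * pv (dR I.K0) (1 - s ^ 2) z p
  h26 : e 26 = ω * pv (dZ I.K0) (1 - s ^ 2) z p
  h27 : e 27 = ω * pv (dP I.K0) (1 - s ^ 2) z p
  h28 : e 28 = ω * pv I.K1 (1 - s ^ 2) z p
  h29 : e 29 = ω * pv (dR I.K1) (1 - s ^ 2) z p
  h30 : e 30 = ω * pv (dZ I.K1) (1 - s ^ 2) z p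
  h31 : e 31 = ω * pv (dP I.K1) (1 - s ^ 2) z p
  h32 : e 32 = ω * pv I.D0 (1 - s ^ 2) z p
  h33 : e 33 = ω * pv (dR I.D0) (1 - s ^ 2) z p
  h34 : e 34 = ω * pv (dZ I.D0) (1 - s ^ 2) z p
  h35 : e 35 = ω * pv (dP I.D0) (1 - s ^ 2) z p
  h36 : e 36 = ω * pv I.D1 (1 - s ^ 2) z p
  h37 : e 37 = ω * pv (dR I.D1) (1 - s ^ 2) z p
  h38 : e 38 = ω * pv (dZ I.D1) (1 - s ^ 2) z p
  h39 : e 39 = ω * pv (dP I.D1) (1 - s ^ 2) z p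
  h40 : e 40 = ω * pv I.A1 (1 - s ^ 2) z p
  h41 : e 41 = ω * pv (dR I.A1) (1 - s ^ 2) z p
  h42 : e 42 = ω * pv (dZ I.A1) (1 - s ^ 2) z p
  h43 : e 43 = ω * pv (dP I.A1) (1 - s ^ 2) z p
  h44 : e 44 = ω * pv I.A2 (1 - s ^ 2) z p
  h45 : e 45 = ω * pv (dR I.A2) (1 - s ^ 2) z p
  h46 : e 46 = ω * pv (dZ I.A2) (1 - s ^ 2) z p
  h47 : e 47 = ω * pv (dP I.A2) (1 - s ^ 2) z p
  h48 : e 48 = ω * pv I.B0 (1 - s ^ 2) z p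
  h49 : e 49 = ω * pv (dR I.B0) (1 - s ^ 2) z p
  h50 : e 50 = ω * pv (dZ I.B0) (1 - s ^ 2) z p
  h51 : e 51 = ω * pv (dP I.B0) (1 - s ^ 2) z p
  h52 : e 52 = ω * pv I.B1 (1 - s ^ 2) z p
  h53 : e 53 = ω * pv (dR I.B1) (1 - s ^ 2) z p
  h54 : e 54 = ω * pv (dZ I.B1) (1 - s ^ 2) z p
  h55 : e 55 = ω * pv (dP I.B1) (1 - s ^ 2) z p
  h56 : e 56 = ω * pv I.B2 (1 - s ^ 2) z p
  h57 : e 57 = ω * pv (dR I.B2) (1 - s ^ 2) z p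
  h58 : e 58 = ω * pv (dZ I.B2) (1 - s ^ 2) z p
  h59 : e 59 = ω * pv (dP I.B2) (1 - s ^ 2) z p
  h60 : e 60 = ω * pv I.C0 (1 - s ^ 2) z p
  h61 : e 61 = ω * pv (dR I.C0) (1 - s ^ 2) z p
  h62 : e 62 = ω * pv (dZ I.C0) (1 - s ^ 2) z p
  h63 : e 63 = ω * pv (dP I.C0) (1 - s ^ 2) z p
  h64 : e 64 = ω * pv I.C1 (1 - s ^ 2) z p
  h65 : e 65 = ω * pv (dR I.C1) (1 - s ^ 2) z p
  h66 : e 66 = ω * pv (dZ I.C1) (1 - s ^ 2) z p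
  h67 : e 67 = ω * pv (dP I.C1) (1 - s ^ 2) z p

/-- the common factor -/
def IT.sg (I : IT) (ω : ℝ) : ℝ := 40000 * I.ad * I.cn * I.wq * ω

section
variable {I : IT} {e : ℕ → ℝ} {s z p PP A W ω : ℝ}
theorem te0 (he : TEnv I e s z p PP A W ω) (h1 : (I.cn : ℝ) ≠ 0) (h2 : (I.cd : ℝ) ≠ 0) (h3 : (I.ad : ℝ) ≠ 0)
    (h4 : (I.wq : ℝ) ≠ 0) (θ l : ℝ) :
    tx0.ev e + θ * tx1.ev e = I.sg ω * (W * I.tab.K.v s z p θ) := by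
  simp only [tx0, tx1, Ex.ev, he.h0, he.h4, he.h5, he.h8, he.h24, he.h28, IT.sg, IT.tab, Tab.pm1, Tab.pm2, Tab.pm3, Tab.pc1, Tab.pc2, Tab.pc0, Tab.pg1, Tab.pg2, Tab.pg3, Tab.G0, Tb.v, Tb.vo, Tb.vt, Tb.vz, Tb.vp, Tb.h, Tb.hz, Tb.hp, Tb.g, Tb.go, Tb.gr, Tb.gz, Tb.gp, Tb.gt, Tb.gh, Tb.ghz, Tb.ghp, pe_app, pr_app, pz_app, pp_app, pt_app, pe_mon, pr_mon, pz_mon, pp_mon, pt_mon, pe, pr, pz, pp, pt]
  push_cast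
  field_simp
  ring
theorem te1 (he : TEnv I e s z p PP A W ω) (h1 : (I.cn : ℝ) ≠ 0) (h2 : (I.cd : ℝ) ≠ 0) (h3 : (I.ad : ℝ) ≠ 0)
    (h4 : (I.wq : ℝ) ≠ 0) (θ l : ℝ) :
    tx2.ev e + θ * tx3.ev e = I.sg ω * (W * (s * I.tab.D.v s z p θ)) := by
  simp only [tx2, tx3, Ex.ev, he.h0, he.h4, he.h5, he.h8, he.h32, he.h36, IT.sg, IT.tab, Tab.pm1, Tab.pm2, Tab.pm3, Tab.pc1, Tab.pc2, Tab.pc0, Tab.pg1, Tab.pg2, Tab.pg3, Tab.G0, Tb.v, Tb.vo, Tb.vt, Tb.vz, Tb.vp, Tb.h, Tb.hz, Tb.hp, Tb.g, Tb.go, Tb.gr, Tb.gz, Tb.gp, Tb.gt, Tb.gh, Tb.ghz, Tb.ghp, pe_app, pr_app, pz_app, pp_app, pt_app, pe_mon, pr_mon, pz_mon, pp_mon, pt_mon, pe, pr, pz, pp, pt]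
  push_cast
  field_simp
  ring
theorem te2 (he : TEnv I e s z p PP A W ω) (h1 : (I.cn : ℝ) ≠ 0) (h2 : (I.cd : ℝ) ≠ 0) (h3 : (I.ad : ℝ) ≠ 0)
    (h4 : (I.wq : ℝ) ≠ 0) (θ l : ℝ) :
    tx4.ev e + θ * tx5.ev e = I.sg ω * (W * I.tab.pm1 s z p θ) := by
  simp only [tx4, tx5, Ex.ev, he.h0, he.h1, he.h4, he.h5, he.h7, he.h8, he.h24, he.h25, he.h26, he.h28, he.h29, he.h30, IT.sg, IT.tab, Tab.pm1, Tab.pm2, Tab.pm3, Tab.pc1, Tab.pc2, Tab.pc0, Tab.pg1, Tab.pg2, Tab.pg3, Tab.G0, Tb.v, Tb.vo, Tb.vt, Tb.vz, Tb.vp, Tb.h, Tb.hz, Tb.hp, Tb.g, Tb.go, Tb.gr, Tb.gz, Tb.gp, Tb.gt, Tb.gh, Tb.ghz, Tb.ghp, pe_app, pr_app, pz_app, pp_app, pt_app, pe_mon, pr_mon, pz_mon, pp_mon, pt_mon, pe, pr, pz, pp, pt]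
  push_cast
  field_simp
  ring
theorem te3 (he : TEnv I e s z p PP A W ω) (h1 : (I.cn : ℝ) ≠ 0) (h2 : (I.cd : ℝ) ≠ 0) (h3 : (I.ad : ℝ) ≠ 0)
    (h4 : (I.wq : ℝ) ≠ 0) (θ l : ℝ) :
    tx6.ev e + θ * tx7.ev e = I.sg ω * (W * I.tab.pm2 s z p θ) := by
  simp only [tx6, tx7, Ex.ev, he.h0, he.h1, he.h4, he.h5, he.h7, he.h8, he.h28, he.h32, he.h33, he.h34, he.h36, he.h37, he.h38, IT.sg, IT.tab, Tab.pm1, Tab.pm2, Tab.pm3, Tab.pc1, Tab.pc2, Tab.pc0, Tab.pg1, Tab.pg2, Tab.pg3, Tab.G0, Tb.v, Tb.vo, Tb.vt, Tb.vz, Tb.vp, Tb.h, Tb.hz, Tb.hp, Tb.g, Tb.go, Tb.gr, Tb.gz, Tb.gp, Tb.gt, Tb.gh, Tb.ghz, Tb.ghp, pe_app, pr_app, pz_app, pp_app, pt_app, pe_mon, pr_mon, pz_mon, pp_mon, pt_mon, pe, pr, pz, pp, pt]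
  push_cast
  field_simp
  ring
theorem te4 (he : TEnv I e s z p PP A W ω) (h1 : (I.cn : ℝ) ≠ 0) (h2 : (I.cd : ℝ) ≠ 0) (h3 : (I.ad : ℝ) ≠ 0)
    (h4 : (I.wq : ℝ) ≠ 0) (θ l : ℝ) :
    tx8.ev e = I.sg ω * (W * I.tab.pm3 s z p θ) := by
  simp only [tx8, Ex.ev, he.h0, he.h4, he.h5, he.h8, he.h36, IT.sg, IT.tab, Tab.pm1, Tab.pm2, Tab.pm3, Tab.pc1, Tab.pc2, Tab.pc0, Tab.pg1, Tab.pg2, Tab.pg3, Tab.G0, Tb.v, Tb.vo, Tb.vt, Tb.vz, Tb.vp, Tb.h, Tb.hz, Tb.hp, Tb.g, Tb.go, Tb.gr, Tb.gz, Tb.gp, Tb.gt, Tb.gh, Tb.ghz, Tb.ghp, pe_app, pr_app, pz_app, pp_app, pt_app, pe_mon, pr_mon, pz_mon, pp_mon, pt_mon, pe, pr, pz, pp, pt]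
  push_cast
  field_simp
  ring
theorem te5 (he : TEnv I e s z p PP A W ω) (h1 : (I.cn : ℝ) ≠ 0) (h2 : (I.cd : ℝ) ≠ 0) (h3 : (I.ad : ℝ) ≠ 0)
    (h4 : (I.wq : ℝ) ≠ 0) (θ l : ℝ) :
    tx9.ev e + θ * tx10.ev e + l * (tx11.ev e + θ * tx12.ev e) + l ^ 2 * (tx13.ev e + θ * tx14.ev e) = I.sg ω * (A * I.tab.pc1 s z p θ l) := by
  simp only [tx9, tx10, tx11, tx12, tx13, tx14, Ex.ev, he.h0, he.h1, he.h3, he.h5, he.h7, he.h8, he.h26, he.h27, he.h30, he.h31, he.h40, he.h41, he.h42, he.h44, he.h45, he.h46, he.h48, he.h49, he.h50, he.h52, he.h53, he.h54, he.h56, he.h57, he.h58, he.h60, he.h61, he.h62, he.h64, he.h65, he.h66, IT.sg, IT.tab, Tab.pm1, Tab.pm2, Tab.pm3, Tab.pc1, Tab.pc2, Tab.pc0, Tab.pg1, Tab.pg2, Tab.pg3, Tab.G0, Tb.v, Tb.vo, Tb.vt, Tb.vz, Tb.vp, Tb.h, Tb.hz, Tb.hp, Tb.g, Tb.go, Tb.gr, Tb.gz,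 Tb.gp, Tb.gt, Tb.gh, Tb.ghz, Tb.ghp, pe_app, pr_app, pz_app, pp_app, pt_app, pe_mon, pr_mon, pz_mon, pp_mon, pt_mon, pe, pr, pz, pp, pt]
  push_cast
  field_simp
  ring
theorem te6 (he : TEnv I e s z p PP A W ω) (h1 : (I.cn : ℝ) ≠ 0) (h2 : (I.cd : ℝ) ≠ 0) (h3 : (I.ad : ℝ) ≠ 0)
    (h4 : (I.wq : ℝ) ≠ 0) (θ l : ℝ) :
    tx15.ev e + θ * tx16.ev e + l * (tx17.ev e + θ * tx18.ev e) + l ^ 2 * tx19.ev e = I.sg ω * (A * I.tab.pc2 s z p θ l) := by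
  simp only [tx15, tx16, tx17, tx18, tx19, Ex.ev, he.h0, he.h3, he.h5, he.h8, he.h34, he.h35, he.h38, he.h39, he.h44, he.h56, he.h64, IT.sg, IT.tab, Tab.pm1, Tab.pm2, Tab.pm3, Tab.pc1, Tab.pc2, Tab.pc0, Tab.pg1, Tab.pg2, Tab.pg3, Tab.G0, Tb.v, Tb.vo, Tb.vt, Tb.vz, Tb.vp, Tb.h, Tb.hz, Tb.hp, Tb.g, Tb.go, Tb.gr, Tb.gz, Tb.gp, Tb.gt, Tb.gh, Tb.ghz, Tb.ghp, pe_app, pr_app, pz_app, pp_app, pt_app, pe_mon, pr_mon, pz_mon, pp_mon, pt_mon, pe, pr, pz, pp, pt]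
  push_cast
  field_simp
  ring
theorem te7 (he : TEnv I e s z p PP A W ω) (h1 : (I.cn : ℝ) ≠ 0) (h2 : (I.cd : ℝ) ≠ 0) (h3 : (I.ad : ℝ) ≠ 0)
    (h4 : (I.wq : ℝ) ≠ 0) (θ l : ℝ) :
    tx20.ev e + θ * tx21.ev e + θ ^ 2 * tx22.ev e + l * (tx23.ev e + θ * tx24.ev e) + l ^ 2 * (tx25.ev e + θ * tx26.ev e) + l ^ 3 * (tx27.ev e + θ * tx28.ev e) = I.sg ω * (I.tab.G0 s z p θ 5 + PP * I.tab.pc0 s z p θ l) := by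
  simp only [tx20, tx21, tx22, tx23, tx24, tx25, tx26, tx27, tx28, Ex.ev, he.h0, he.h1, he.h2, he.h5, he.h6, he.h8, he.h9, he.h10, he.h16, he.h20, he.h24, he.h28, he.h32, he.h36, he.h40, he.h42, he.h43, he.h44, he.h46, he.h47, he.h48, he.h51, he.h52, he.h54, he.h55, he.h56, he.h58, he.h59, he.h60, he.h62, he.h63, he.h64, he.h66, he.h67, IT.sg, IT.tab, Tab.pm1, Tab.pm2, Tab.pm3, Tab.pc1, Tab.pc2, Tab.pc0, Tab.pg1, Tab.pg2, Tab.pg3, Tab.G0, Tb.v, Tb.vo, Tb.vt, Tb.vz, Tb.vp, Tb.h, Tb.hz, Tb.hp, Tb.g, Tb.go, Tb.gr, Tb.gz, Tb.gp, Tb.gt, Tb.gh, Tb.ghz, Tb.ghp, pe_app, pr_app, pz_app, pp_app, pt_app, pe_mon, pr_mon, pz_mon, pp_mon, pt_mon, pe, pr, pz, pp, pt]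
  push_cast
  field_simp
  ring
theorem te8 (he : TEnv I e s z p PP A W ω) (h1 : (I.cn : ℝ) ≠ 0) (h2 : (I.cd : ℝ) ≠ 0) (h3 : (I.ad : ℝ) ≠ 0)
    (h4 : (I.wq : ℝ) ≠ 0) (θ l : ℝ) :
    tx29.ev e + θ * tx30.ev e = I.sg ω * (W * I.tab.F.h s z p θ) := by
  simp only [tx29, tx30, Ex.ev, he.h0, he.h4, he.h5, he.h8, he.h16, he.h20, IT.sg, IT.tab, Tab.pm1, Tab.pm2, Tab.pm3, Tab.pc1, Tab.pc2, Tab.pc0, Tab.pg1, Tab.pg2, Tab.pg3, Tab.G0, Tb.v, Tb.vo, Tb.vt, Tb.vz, Tb.vp, Tb.h, Tb.hz, Tb.hp, Tb.g, Tb.go, Tb.gr, Tb.gz, Tb.gp, Tb.gt, Tb.gh, Tb.ghz, Tb.ghp, pe_app, pr_app, pz_app, pp_app, pt_app, pe_mon, pr_mon, pz_mon, pp_mon, pt_mon, pe, pr, pz, pp, pt]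
  push_cast
  field_simp
  ring
theorem te9 (he : TEnv I e s z p PP A W ω) (h1 : (I.cn : ℝ) ≠ 0) (h2 : (I.cd : ℝ) ≠ 0) (h3 : (I.ad : ℝ) ≠ 0)
    (h4 : (I.wq : ℝ) ≠ 0) (θ l : ℝ) :
    tx31.ev e + θ * tx32.ev e = I.sg ω * (W * I.tab.pg1 s z p θ) := by
  simp only [tx31, tx32, Ex.ev, he.h0, he.h1, he.h4, he.h5, he.h7, he.h8, he.h16, he.h17, he.h18, he.h20, he.h21, he.h22, IT.sg, IT.tab, Tab.pm1, Tab.pm2, Tab.pm3, Tab.pc1, Tab.pc2, Tab.pc0, Tab.pg1, Tab.pg2, Tab.pg3, Tab.G0, Tb.v, Tb.vo, Tb.vt, Tb.vz, Tb.vp, Tb.h, Tb.hz, Tb.hp, Tb.g, Tb.go, Tb.gr, Tb.gz, Tb.gp, Tb.gt, Tb.gh, Tb.ghz, Tb.ghp, pe_app, pr_app, pz_app, pp_app, pt_app, pe_mon, pr_mon, pz_mon, pp_mon, pt_mon, pe, pr, pz, pp, pt]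
  push_cast
  field_simp
  ring
theorem te10 (he : TEnv I e s z p PP A W ω) (h1 : (I.cn : ℝ) ≠ 0) (h2 : (I.cd : ℝ) ≠ 0) (h3 : (I.ad : ℝ) ≠ 0)
    (h4 : (I.wq : ℝ) ≠ 0) (θ l : ℝ) :
    tx33.ev e = I.sg ω * (W * I.tab.pg2 s z p θ) := by
  simp only [tx33, Ex.ev, he.h0, he.h4, he.h5, he.h8, he.h20, IT.sg, IT.tab, Tab.pm1, Tab.pm2, Tab.pm3, Tab.pc1, Tab.pc2, Tab.pc0, Tab.pg1, Tab.pg2, Tab.pg3, Tab.G0, Tb.v, Tb.vo, Tb.vt, Tb.vz, Tb.vp, Tb.h, Tb.hz, Tb.hp, Tb.g, Tb.go, Tb.gr, Tb.gz, Tb.gp, Tb.gt, Tb.gh, Tb.ghz, Tb.ghp, pe_app, pr_app, pz_app, pp_app, pt_app, pe_mon, pr_mon, pz_mon, pp_mon, pt_mon, pe, pr, pz, pp, pt]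
  push_cast
  field_simp
  ring
theorem te11 (he : TEnv I e s z p PP A W ω) (h1 : (I.cn : ℝ) ≠ 0) (h2 : (I.cd : ℝ) ≠ 0) (h3 : (I.ad : ℝ) ≠ 0)
    (h4 : (I.wq : ℝ) ≠ 0) (θ l : ℝ) :
    tx34.ev e + θ * tx35.ev e + l * (tx36.ev e + θ * tx37.ev e) = I.sg ω * (A * I.tab.pg3 s z p θ l) := by
  simp only [tx34, tx35, tx36, tx37, Ex.ev, he.h0, he.h3, he.h5, he.h8, he.h18, he.h19, he.h22, he.h23, IT.sg, IT.tab, Tab.pm1, Tab.pm2, Tab.pm3, Tab.pc1, Tab.pc2, Tab.pc0, Tab.pg1, Tab.pg2, Tab.pg3, Tab.G0, Tb.v, Tb.vo, Tb.vt, Tb.vz, Tb.vp, Tb.h, Tb.hz, Tb.hp, Tb.g, Tb.go, Tb.gr, Tb.gz, Tb.gp, Tb.gt, Tb.gh, Tb.ghz, Tb.ghp, pe_app, pr_app, pz_app, pp_app, pt_app, pe_mon, pr_mon, pz_mon, pp_mon, pt_mon, pe, pr, pz, pp, pt]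
  push_cast
  field_simp
  ring
end

/-- the separated form on expressions -/
def frx (te se ξ : ℕ → ℝ) : List Ex → List (List Ex) → ℝ
  | T :: TL, S :: SL => T.ev te * dw (Ex.ev se) ξ S + frx te se ξ TL SL
  | _, _ => 0

theorem frx_eq {I : IT} {te se ξ : ℕ → ℝ} {s z p PP A W ω l n th Wh T x0 x1 x2 x3 x4 : ℝ}
    (he : TEnv I te s z p PP A W ω) (hs : SEnv se l n th Wh T) (hx : Xi ξ x0 x1 x2 x3 x4)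
    (h1 : (I.cn : ℝ) ≠ 0) (h2 : (I.cd : ℝ) ≠ 0) (h3 : (I.ad : ℝ) ≠ 0) (h4 : (I.wq : ℝ) ≠ 0) :
    frx te se ξ TX SX = Wh ^ 6 * T ^ 8 * I.sg ω * I.tab.frmW s z p (sTh l n th) PP A W l n th x0 x1 x2 x3 x4 - x4 ^ 2 := by
  have e0 := te0 he h1 h2 h3 h4 (sTh l n th) l
  have e1 := te1 he h1 h2 h3 h4 (sTh l n th) l
  have e2 := te2 he h1 h2 h3 h4 (sTh l n th) l
  have e3 := te3 he h1 h2 h3 h4 (sTh l n th) l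
  have e4 := te4 he h1 h2 h3 h4 (sTh l n th) l
  have e5 := te5 he h1 h2 h3 h4 (sTh l n th) l
  have e6 := te6 he h1 h2 h3 h4 (sTh l n th) l
  have e7 := te7 he h1 h2 h3 h4 (sTh l n th) l
  have e8 := te8 he h1 h2 h3 h4 (sTh l n th) l
  have e9 := te9 he h1 h2 h3 h4 (sTh l n th) l
  have e10 := te10 he h1 h2 h3 h4 (sTh l n th) l
  have e11 := te11 he h1 h2 h3 h4 (sTh l n th) l
  have e38 : tx38.ev te = -1 := by simp [tx38, Ex.ev]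
  simp only [frx, TX, SX, sx0_s hx hs, sx1_s hx hs, sx2_s hx hs, sx3_s hx hs, sx4_s hx hs, sx5_s hx hs, sx6_s hx hs, sx7_s hx hs, sx8_s hx hs, sx9_s hx hs, sx10_s hx hs, sx11_s hx hs, sx12_s hx hs, sx13_s hx hs, sx14_s hx hs, sx15_s hx hs, sx16_s hx hs, sx17_s hx hs, sx18_s hx hs, sx19_s hx hs, sx20_s hx hs, sx21_s hx hs, sx22_s hx hs, sx23_s hx hs, sx24_s hx hs, sx25_s hx hs, sx26_s hx hs, sx27_s hx hs, sx28_s hx hs, sx29_s hx hs, sx30_s hx hs, sx31_s hx hs, sx32_s hx hs, sx33_s hx hs, sx34_s hx hs, sx35_s hx hs, sx36_s hx hs, sx37_s hx hs, sx38_s hx hs, e38, Tab.frmW, matW, quad5, sM, fK, fD, fV, fW]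
  generalize Wh ^ 6 * T ^ 8 = C
  linear_combination (norm := (simp only [fK, fD, fV, fW]; ring1)) C * (fK th x1 x2 x3 * e0 + fD l n th x1 x2 x3 * e1 + fV l n th x1 x2 x3 ^ 2 * e2 + (2 * fV l n th x1 x2 x3 * fW l n th x1 x2 x3) * e3 + fW l n th x1 x2 x3 ^ 2 * e4 + (2 * x0 * fV l n th x1 x2 x3) * e5 + (2 * x0 * fW l n th x1 x2 x3) * e6 + x0 ^ 2 * e7 + x4 ^ 2 * e8 + (2 * x4 * fV l n th x1 x2 x3) * e9 + (2 * x4 * fW l n th x1 x2 x3) * e10 + (2 * x0 * x4) * e11)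

def ckE (eS : ℕ → P2) : List P2 → List Ex → Bool
  | [], [] => true
  | p :: L, x :: X => eq2 p (x.pl A2 eS) && ckE eS L X
  | _, _ => false

def ckS (eS : ℕ → P2) : List (P3 × List P2) → List (List Ex) → Bool
  | [], [] => true
  | p :: M, S :: SL => ckE eS p.2 S && ckS eS M SL
  | _, _ => false

def ckT (eT : ℕ → P3) : List (P3 × List P2) → List Ex → Bool
  | [], [] => true
  | p :: M, T :: TL => eq3 p.1 (T.pl A3 eT) && ckT eT M TL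
  | _, _ => false

theorem ckE_s {eS : ℕ → P2} (v w : ℝ) {L : List P2} {X : List Ex} (h : ckE eS L X = true) (ξ : ℕ → ℝ) :
    dw (ev2 v w) ξ L = dw (Ex.ev fun i => ev2 v w (eS i)) ξ X := by
  induction L generalizing X ξ with
  | nil => cases X with
    | nil => rfl
    | cons x X => simp [ckE] at h
  | cons p L ih => cases X with
    | nil => simp [ckE] at h
    | cons x X =>
      rw [ckE, Bool.and_eq_true] at h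
      rw [dw, dw, ih h.2, eq2_s v w h.1, Ex.pl_ev (A2_ok v w)]

theorem ck_s {eT : ℕ → P3} {eS : ℕ → P2} (x y z v w : ℝ) (ξ : ℕ → ℝ) {M : List (P3 × List P2)} {TL : List Ex}
    {SL : List (List Ex)} (hT : ckT eT M TL = true) (hS : ckS eS M SL = true) :
    frm (ev3 x y z) (ev2 v w) ξ M = frx (fun i => ev3 x y z (eT i)) (fun i => ev2 v w (eS i)) ξ TL SL := by
  induction M generalizing TL SL with
  | nil => cases TL with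
    | nil => simp [frm, frx]
    | cons T TL => simp [ckT] at hT
  | cons p M ih => cases TL with
    | nil => simp [ckT] at hT
    | cons T TL => cases SL with
      | nil => simp [ckS] at hS
      | cons S SL =>
        rw [ckT, Bool.and_eq_true] at hT
        rw [ckS, Bool.and_eq_true] at hS
        rw [frm, frx, ih hT.2 hS.2, ckE_s v w hS.1, eq3_s x y z hT.1, Ex.pl_ev (A3_ok x y z)]

/-- a chart of the three table variables: `s, z, wp * p, wq * PP, wq * A, wq * W` as polynomials -/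
structure Ch where
  s : P3
  z : P3
  p : P3
  q : P3
  a : P3
  w : P3
  wp : ℕ
  dp : ℕ

def Ch.r (c : Ch) : P3 := A3.a (A3.c 1) (A3.m (A3.c (-1)) (A3.m c.s c.s))
def Ch.sub (c : Ch) (L : IL) : P3 := sub3 c.r c.z c.p (A3.c c.wp) c.dp L

def envT (I : IT) (c : Ch) (i : ℕ) : P3 :=
  [c.s, c.z, c.q, c.a, c.w, A3.c I.cn, A3.c I.cd, A3.c I.an, A3.c I.ad, A3.c I.Ln, A3.c I.wq, [], [], [], [], [],
    c.sub I.F0, c.sub (dR I.F0), c.sub (dZ I.F0), c.sub (dP I.F0),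
    c.sub I.F1, c.sub (dR I.F1), c.sub (dZ I.F1), c.sub (dP I.F1),
    c.sub I.K0, c.sub (dR I.K0), c.sub (dZ I.K0), c.sub (dP I.K0),
    c.sub I.K1, c.sub (dR I.K1), c.sub (dZ I.K1), c.sub (dP I.K1),
    c.sub I.D0, c.sub (dR I.D0), c.sub (dZ I.D0), c.sub (dP I.D0),
    c.sub I.D1, c.sub (dR I.D1), c.sub (dZ I.D1), c.sub (dP I.D1),
    c.sub I.A1, c.sub (dR I.A1), c.sub (dZ I.A1), c.sub (dP I.A1),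
    c.sub I.A2, c.sub (dR I.A2), c.sub (dZ I.A2), c.sub (dP I.A2),
    c.sub I.B0, c.sub (dR I.B0), c.sub (dZ I.B0), c.sub (dP I.B0),
    c.sub I.B1, c.sub (dR I.B1), c.sub (dZ I.B1), c.sub (dP I.B1),
    c.sub I.B2, c.sub (dR I.B2), c.sub (dZ I.B2), c.sub (dP I.B2),
    c.sub I.C0, c.sub (dR I.C0), c.sub (dZ I.C0), c.sub (dP I.C0),
    c.sub I.C1, c.sub (dR I.C1), c.sub (dZ I.C1), c.sub (dP I.C1)].getD i []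

def IT.le (I : IT) (d : ℕ) : Bool :=
  I.F0.le d && I.F1.le d && I.K0.le d && I.K1.le d && I.D0.le d && I.D1.le d && I.A1.le d && I.A2.le d && I.B0.le d && I.B1.le d && I.B2.le d && I.C0.le d && I.C1.le d

theorem envT_s {I : IT} {c : Ch} (h : I.le c.dp = true) {x y z' s z p PP A W : ℝ} (hs : ev3 x y z' c.s = s)
    (hz : ev3 x y z' c.z = z) (hp : ev3 x y z' c.p = c.wp * p) (hq : ev3 x y z' c.q = I.wq * PP)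
    (ha : ev3 x y z' c.a = I.wq * A) (hw : ev3 x y z' c.w = I.wq * W) :
    TEnv I (fun i => ev3 x y z' (envT I c i)) s z p PP A W ((c.wp : ℝ) ^ c.dp) := by
  have o := A3_ok x y z'
  have k : ∀ L : IL, L.le c.dp = true → ev3 x y z' (c.sub L) = (c.wp : ℝ) ^ c.dp * pv L (1 - s ^ 2) z p := fun L hL => by
    rw [Ch.sub, sub3_ev (p := p) (by rw [hp, o.c, Int.cast_natCast]) hL, o.c, Int.cast_natCast, hz, Ch.r, o.a, o.m, o.m,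
      o.c, o.c, hs]
    congr 2
    push_cast
    ring
  simp only [IT.le, Bool.and_eq_true] at h
  obtain ⟨⟨⟨⟨⟨⟨⟨⟨⟨⟨⟨⟨g0, g1⟩, g2⟩, g3⟩, g4⟩, g5⟩, g6⟩, g7⟩, g8⟩, g9⟩, g10⟩, g11⟩, g12⟩ := h
  exact ⟨hs, hz, hq, ha, hw, (o.c _).trans (Int.cast_natCast _), (o.c _).trans (Int.cast_natCast _), o.c _,
    (o.c _).trans (Int.cast_natCast _), o.c _, (o.c _).trans (Int.cast_natCast _),
    k _ g0, k _ (IL.le_dR g0), k _ (IL.le_dZ g0), k _ (IL.le_dP g0),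
    k _ g1, k _ (IL.le_dR g1), k _ (IL.le_dZ g1), k _ (IL.le_dP g1),
    k _ g2, k _ (IL.le_dR g2), k _ (IL.le_dZ g2), k _ (IL.le_dP g2),
    k _ g3, k _ (IL.le_dR g3), k _ (IL.le_dZ g3), k _ (IL.le_dP g3),
    k _ g4, k _ (IL.le_dR g4), k _ (IL.le_dZ g4), k _ (IL.le_dP g4),
    k _ g5, k _ (IL.le_dR g5), k _ (IL.le_dZ g5), k _ (IL.le_dP g5),
    k _ g6, k _ (IL.le_dR g6), k _ (IL.le_dZ g6), k _ (IL.le_dP g6),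
    k _ g7, k _ (IL.le_dR g7), k _ (IL.le_dZ g7), k _ (IL.le_dP g7),
    k _ g8, k _ (IL.le_dR g8), k _ (IL.le_dZ g8), k _ (IL.le_dP g8),
    k _ g9, k _ (IL.le_dR g9), k _ (IL.le_dZ g9), k _ (IL.le_dP g9),
    k _ g10, k _ (IL.le_dR g10), k _ (IL.le_dZ g10), k _ (IL.le_dP g10),
    k _ g11, k _ (IL.le_dR g11), k _ (IL.le_dZ g11), k _ (IL.le_dP g11),
    k _ g12, k _ (IL.le_dR g12), k _ (IL.le_dZ g12), k _ (IL.le_dP g12)⟩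

/-- the shape chart `u = 9 (2 v - 1) / 20`, `th = 29 (2 w - 1) / 50` -/
def envS (i : ℕ) : P2 :=
  [[[-72], [144]], [[-1], [324], [-324]], [[-29, 58]], [[322], [-648], [648]], [[50]]].getD i []

theorem envS_s {v w u th l n : ℝ} (hu : u = 9 * (2 * v - 1) / 20) (ht : th = 29 * (2 * w - 1) / 50)
    (hl : l = 4 * u / (1 + 5 * u ^ 2)) (hn : n = (1 - 5 * u ^ 2) / (2 * (1 + 5 * u ^ 2))) :
    SEnv (fun i => ev2 v w (envS i)) l n th (160 * (1 + 5 * u ^ 2)) 50 := by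
  have : 0 < 1 + 5 * u ^ 2 := by positivity
  have e0 : l / 4 * (160 * (1 + 5 * u ^ 2)) = 160 * u := by rw [hl]; field_simp
  have e1 : n * (160 * (1 + 5 * u ^ 2)) = 80 * (1 - 5 * u ^ 2) := by rw [hn]; field_simp; ring
  refine ⟨e0 ▸ ?_, e1 ▸ ?_, ?_, ?_, ?_⟩ <;> simp [envS, ev2, ev1, hv, hu, ht] <;> ring

/-- the pure box chart `(s, y, q)`, `W = PP + 1/1000` -/
def chU (dp : ℕ) : Ch where
  s := [[], [[1]]]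
  z := [[[], [1]]]
  p := [[[1, -1], [], [-1, 1]], [], [[], [], [1]]]
  q := [[[0, 1000], [], [0, -1000]]]
  a := [[[1, 1000], [], [0, -1000]]]
  w := [[[1, 1000], [], [0, -1000]]]
  wp := 1
  dp := dp

/-- the matrix condition on the unit box from the separated form -/
theorem matU_of_frm {I : IT} {dp : ℕ} {M : List (P3 × List P2)} (h1 : 0 < I.cn) (h2 : 0 < I.cd) (h3 : 0 < I.ad)
    (h4 : I.wq = 1000) (hd : I.le dp = true) (hT : ckT (envT I (chU dp)) M TX = true) (hS : ckS envS M SX = true)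
    {ξ : ℝ → ℝ → ℝ → ℝ → ℝ → ℕ → ℝ} (hξ : ∀ x0 x1 x2 x3 x4, Xi (ξ x0 x1 x2 x3 x4) x0 x1 x2 x3 x4)
    (h : ∀ s y q v w : ℝ, 0 ≤ s → s ≤ 1 → 0 ≤ y → y ≤ 1 → 0 ≤ q → q ≤ 1 → 0 ≤ v → v ≤ 1 → 0 ≤ w → w ≤ 1 →
      ∀ x0 x1 x2 x3 x4, 0 ≤ frm (ev3 s y q) (ev2 v w) (ξ x0 x1 x2 x3 x4) M) : I.tab.MatU (1 / 1000) := by
  intro s y q v w u th p l n θ PP W s0 s1 y0 y1 q0 q1 v0 v1 w0 w1 hu ht hp hl hn hθ hPP hW
  have y2 : 0 ≤ 1 - y ^ 2 := by nlinarith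
  have W0 : 0 < W := by rw [hW, hPP]; positivity
  have he := envT_s (I := I) (c := chU dp) hd (x := s) (y := y) (z' := q) (s := s) (z := y) (p := p) (PP := PP) (A := W)
    (W := W) (by simp [chU, ev3, ev2, ev1, hv]) (by simp [chU, ev3, ev2, ev1, hv])
    (by simp [chU, ev3, ev2, ev1, hv, hp]; ring) (by simp [chU, ev3, ev2, ev1, hv, hPP, h4]; ring)
    (by simp [chU, ev3, ev2, ev1, hv, hW, hPP, h4]; ring) (by simp [chU, ev3, ev2, ev1, hv, hW, hPP, h4]; ring)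
  have c4 : 0 < I.wq := by omega
  refine Tab.PW.of_eps (σ := (160 * (1 + 5 * u ^ 2)) ^ 6 * 50 ^ 8 * I.sg (((chU dp).wp : ℝ) ^ (chU dp).dp)) (ε := 1) W0
    (by simp only [IT.sg, chU]; positivity) one_pos fun x0 x1 x2 x3 x4 => ?_
  have k := h s y q v w s0 s1 y0 y1 q0 q1 v0 v1 w0 w1 x0 x1 x2 x3 x4
  rw [ck_s s y q v w _ hT hS, frx_eq he (envS_s hu ht hl hn) (hξ x0 x1 x2 x3 x4) (by positivity) (by positivity)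
    (by positivity) (by positivity), ← hθ] at k
  linarith

end Crest.Agent.R97
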