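import Crest.Agent.R97.CertT3

/-! The integer table W1 (helper96). -/

namespace Crest.Agent.R97

def W1 : IT where
  cn := 1
  cd := 1
  an := 1
  ad := 2
  Ln := 4001
  wq := 1000
  F0 := [(10000, 0, 0, 0), (-2142, 0, 0, 1), (-2312, 0, 0, 2), (7160, 0, 0, 3), (3829, 0, 1, 0), (19524, 0, 1, 1),
    (-24324, 0, 1, 2), (-10513, 0, 2, 0), (-12347, 0, 2, 1), (23516, 0, 3, 0), (856, 1, 0, 0), (15000, 1, 0, 1),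
    (-7544, 1, 0, 2), (-5487, 1, 1, 0), (-22104, 1, 1, 1), (-48, 1, 2, 0), (-11068, 2, 0, 0), (8506, 2, 0, 1),
    (5625, 2, 1, 0), (10126, 3, 0, 0)]
  F1 := [(-6641, 0, 0, 0), (6345, 0, 0, 1), (-3904, 0, 0, 2), (844, 0, 1, 0), (15693, 0, 1, 1), (-17821, 0, 2, 0),
    (-18568, 1, 0, 0), (22764, 1, 0, 1), (2436, 1, 1, 0), (6598, 2, 0, 0)]
  K0 := [(5099, 0, 0, 0), (-410, 0, 0, 1), (3224, 0, 0, 2), (7536, 0, 0, 3), (5442, 0, 1, 0), (6650, 0, 1, 1),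
    (-24279, 0, 1, 2), (-7354, 0, 2, 0), (21853, 0, 2, 1), (20953, 0, 3, 0), (8225, 1, 0, 0), (7633, 1, 0, 1),
    (-10380, 1, 0, 2), (-4119, 1, 1, 0), (30000, 1, 1, 1), (2765, 1, 2, 0), (-15000, 2, 0, 0), (15000, 2, 0, 1),
    (4462, 2, 1, 0), (9593, 3, 0, 0)]
  K1 := [(-4710, 0, 0, 0), (2111, 0, 0, 1), (994, 0, 0, 2), (-401, 0, 1, 0), (-5875, 0, 1, 1), (3389, 0, 2, 0),
    (-4542, 1, 0, 0), (8180, 1, 0, 1), (-14061, 1, 1, 0), (1087, 2, 0, 0)]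
  D0 := [(-104, 0, 0, 0), (5431, 0, 0, 1), (-10433, 0, 0, 2), (6482, 0, 0, 3), (-4639, 0, 1, 0), (29999, 0, 1, 1),
    (6448, 0, 1, 2), (-6634, 0, 2, 0), (-18241, 0, 2, 1), (-4152, 0, 3, 0), (-8036, 1, 0, 0), (15000, 1, 0, 1),
    (-952, 1, 0, 2), (7595, 1, 1, 0), (6802, 1, 1, 1), (526, 1, 2, 0), (3104, 2, 0, 0), (-9264, 2, 0, 1),
    (10196, 2, 1, 0), (4325, 3, 0, 0)]
  D1 := [(4187, 0, 0, 0), (-2315, 0, 0, 1), (-4401, 0, 0, 2), (364, 0, 1, 0), (12829, 0, 1, 1), (-10486, 0, 2, 0),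
    (-5774, 1, 0, 0), (3605, 1, 0, 1), (9449, 1, 1, 0), (3984, 2, 0, 0)]
  A1 := [(1008, 0, 0, 0), (-4085, 0, 0, 1), (-15000, 0, 0, 2), (9631, 0, 0, 3), (10563, 0, 1, 0), (17407, 0, 1, 1),
    (11754, 0, 1, 2), (1068, 0, 2, 0), (-4171, 0, 2, 1), (-3991, 0, 3, 0), (967, 1, 0, 0), (15000, 1, 0, 1),
    (8123, 1, 0, 2), (2344, 1, 1, 0), (30000, 1, 1, 1), (-2042, 1, 2, 0), (3198, 2, 0, 0), (15000, 2, 0, 1),
    (-11609, 2, 1, 0), (-4964, 3, 0, 0)]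
  A2 := [(3711, 0, 0, 0), (1783, 0, 0, 1), (-12831, 0, 0, 2), (-4723, 0, 1, 0), (60000, 0, 1, 1), (-29826, 0, 2, 0),
    (-12914, 1, 0, 0), (30000, 1, 0, 1), (20104, 1, 1, 0), (15461, 2, 0, 0)]
  B0 := [(-8618, 0, 0, 1), (3890, 0, 0, 2), (-15000, 0, 0, 3), (7826, 0, 0, 4)]
  B1 := [(602, 0, 0, 0), (4394, 0, 0, 1), (15000, 0, 0, 2), (-2200, 0, 0, 3), (19135, 0, 1, 0), (-30000, 0, 1, 1),
    (22073, 0, 1, 2), (34353, 0, 2, 0), (-60000, 0, 2, 1), (36386, 0, 3, 0), (-5896, 1, 0, 0), (-15000, 1, 0, 1),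
    (-15000, 1, 0, 2), (30000, 1, 1, 0), (-30000, 1, 1, 1), (49107, 1, 2, 0), (15000, 2, 0, 0), (-15000, 2, 0, 1),
    (16630, 2, 1, 0), (-12576, 3, 0, 0)]
  B2 := [(1043, 0, 0, 0), (-4334, 0, 0, 1), (10324, 0, 0, 2), (-18900, 0, 1, 0), (-36208, 0, 1, 1), (13132, 0, 2, 0),
    (-14435, 1, 0, 0), (-30000, 1, 0, 1), (47799, 1, 1, 0), (19027, 2, 0, 0)]
  C0 := [(-811, 0, 0, 0), (4688, 0, 0, 1), (11763, 0, 0, 2), (-12482, 0, 0, 3), (11330, 0, 1, 0), (30000, 0, 1, 1),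
    (-18382, 0, 1, 2), (-39653, 0, 2, 0), (31211, 0, 2, 1), (18100, 0, 3, 0), (10586, 1, 0, 0), (-15000, 1, 0, 1),
    (-15000, 1, 0, 2), (-30000, 1, 1, 0), (30000, 1, 1, 1), (57156, 1, 2, 0), (-15000, 2, 0, 0), (14904, 2, 0, 1),
    (23082, 2, 1, 0), (5663, 3, 0, 0)]
  C1 := [(-1275, 0, 0, 0), (629, 0, 0, 1), (12563, 0, 0, 2), (-25360, 0, 1, 0), (-54376, 0, 1, 1), (54672, 0, 2, 0),
    (23515, 1, 0, 0), (23927, 1, 0, 1), (-60000, 1, 1, 0), (-24084, 2, 0, 0)]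

theorem W1_sh : W1.tab.Sh := IT.sh_s (by decide)

end Crest.Agent.R97
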