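import Crest.Agent.R97.CertP5
import Crest.Agent.R97.TabW1

/-! CertTW1 (helper26, generated from `coef_W1.txt`): the concrete table of class F and its values. -/

set_option autoImplicit false
set_option linter.unusedVariables false
set_option linter.unusedSimpArgs false
set_option linter.unusedTactic false
set_option linter.unreachableTactic false

namespace Crest.Agent.R97
namespace CW1

/-- value of a polynomial in `(r, z, p)` with integer coefficients -/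
def ev3 : List (ℤ × ℕ × ℕ × ℕ) → ℝ → ℝ → ℝ → ℝ
  | [], _, _, _ => 0
  | q :: L, r, z, p => (q.1 : ℝ) * r ^ q.2.1 * z ^ q.2.2.1 * p ^ q.2.2.2 + ev3 L r z p

noncomputable def F_000 (r z p : ℝ) : ℝ :=
    1 + (-1071 / 5000) * p + (-289 / 1250) * p ^ 2 + (179 / 250) * p ^ 3 + (3829 / 10000) * z +
    (4881 / 2500) * z * p + (-6081 / 2500) * z * p ^ 2 + (-10513 / 10000) * z ^ 2 + (-12347 / 10000) * z ^ 2 * p +
    (5879 / 2500) * z ^ 3 + (107 / 1250) * r + (3 / 2) * r * p + (-943 / 1250) * r * p ^ 2 +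
    (-5487 / 10000) * r * z + (-2763 / 1250) * r * z * p + (-3 / 625) * r * z ^ 2 + (-2767 / 2500) * r ^ 2 +
    (4253 / 5000) * r ^ 2 * p + (9 / 16) * r ^ 2 * z + (5063 / 5000) * r ^ 3
def IF_000 : List (ℤ × ℕ × ℕ × ℕ) := [
    (10000000, 0, 0, 0), (-2142000, 0, 0, 1), (-2312000, 0, 0, 2), (7160000, 0, 0, 3), (3829000, 0, 1, 0),
    (19524000, 0, 1, 1), (-24324000, 0, 1, 2), (-10513000, 0, 2, 0), (-12347000, 0, 2, 1), (23516000, 0, 3, 0),
    (856000, 1, 0, 0), (15000000, 1, 0, 1), (-7544000, 1, 0, 2), (-5487000, 1, 1, 0), (-22104000, 1, 1, 1),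
    (-48000, 1, 2, 0), (-11068000, 2, 0, 0), (8506000, 2, 0, 1), (5625000, 2, 1, 0), (10126000, 3, 0, 0)]
theorem F_000_ev (r z p : ℝ) : F_000 r z p = ev3 IF_000 r z p / 10000000 := by
  simp only [F_000, IF_000, ev3]; push_cast; ring
noncomputable def F_310 (r z p : ℝ) : ℝ :=
    (-6641 / 10000) + (1269 / 2000) * p + (-244 / 625) * p ^ 2 + (211 / 2500) * z + (15693 / 10000) * z * p +
    (-17821 / 10000) * z ^ 2 + (-2321 / 1250) * r + (5691 / 2500) * r * p + (609 / 2500) * r * z +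
    (3299 / 5000) * r ^ 2
def IF_310 : List (ℤ × ℕ × ℕ × ℕ) := [
    (-6641000, 0, 0, 0), (6345000, 0, 0, 1), (-3904000, 0, 0, 2), (844000, 0, 1, 0), (15693000, 0, 1, 1),
    (-17821000, 0, 2, 0), (-18568000, 1, 0, 0), (22764000, 1, 0, 1), (2436000, 1, 1, 0), (6598000, 2, 0, 0)]
theorem F_310_ev (r z p : ℝ) : F_310 r z p = ev3 IF_310 r z p / 10000000 := by
  simp only [F_310, IF_310, ev3]; push_cast; ring
theorem F_eq (s z p θ r : ℝ) (hr : r = 1 - s ^ 2) : W1.tab.F.h s z p θ =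
    F_000 r z p + F_310 r z p * s ^ 3 * θ := by
  simp only [Tb.v, Tb.vo, Tb.vt, Tb.vz, Tb.vp, Tb.h, Tb.hz, Tb.hp, Tb.g, Tb.go, Tb.gr, Tb.gz, Tb.gp, Tb.gt, Tb.gh, Tb.ghz, Tb.ghp, IT.tab]
  simp only [← hr, W1, toMon, List.cons_append, List.nil_append, pe, pr, pz, pp, pt, F_000, F_310]
  push_cast
  ring

noncomputable def K_000 (r z p : ℝ) : ℝ :=
    (5099 / 10000) + (-41 / 1000) * p + (403 / 1250) * p ^ 2 + (471 / 625) * p ^ 3 + (2721 / 5000) * z +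
    (133 / 200) * z * p + (-24279 / 10000) * z * p ^ 2 + (-3677 / 5000) * z ^ 2 + (21853 / 10000) * z ^ 2 * p +
    (20953 / 10000) * z ^ 3 + (329 / 400) * r + (7633 / 10000) * r * p + (-519 / 500) * r * p ^ 2 +
    (-4119 / 10000) * r * z + 3 * r * z * p + (553 / 2000) * r * z ^ 2 + (-3 / 2) * r ^ 2 + (3 / 2) * r ^ 2 * p +
    (2231 / 5000) * r ^ 2 * z + (9593 / 10000) * r ^ 3
def IK_000 : List (ℤ × ℕ × ℕ × ℕ) := [
    (5099000, 0, 0, 0), (-410000, 0, 0, 1), (3224000, 0, 0, 2), (7536000, 0, 0, 3), (5442000, 0, 1, 0),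
    (6650000, 0, 1, 1), (-24279000, 0, 1, 2), (-7354000, 0, 2, 0), (21853000, 0, 2, 1), (20953000, 0, 3, 0),
    (8225000, 1, 0, 0), (7633000, 1, 0, 1), (-10380000, 1, 0, 2), (-4119000, 1, 1, 0), (30000000, 1, 1, 1),
    (2765000, 1, 2, 0), (-15000000, 2, 0, 0), (15000000, 2, 0, 1), (4462000, 2, 1, 0), (9593000, 3, 0, 0)]
theorem K_000_ev (r z p : ℝ) : K_000 r z p = ev3 IK_000 r z p / 10000000 := by
  simp only [K_000, IK_000, ev3]; push_cast; ring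
noncomputable def K_310 (r z p : ℝ) : ℝ :=
    (-471 / 1000) + (2111 / 10000) * p + (497 / 5000) * p ^ 2 + (-401 / 10000) * z + (-47 / 80) * z * p +
    (3389 / 10000) * z ^ 2 + (-2271 / 5000) * r + (409 / 500) * r * p + (-14061 / 10000) * r * z +
    (1087 / 10000) * r ^ 2
def IK_310 : List (ℤ × ℕ × ℕ × ℕ) := [
    (-4710000, 0, 0, 0), (2111000, 0, 0, 1), (994000, 0, 0, 2), (-401000, 0, 1, 0), (-5875000, 0, 1, 1),
    (3389000, 0, 2, 0), (-4542000, 1, 0, 0), (8180000, 1, 0, 1), (-14061000, 1, 1, 0), (1087000, 2, 0, 0)]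
theorem K_310_ev (r z p : ℝ) : K_310 r z p = ev3 IK_310 r z p / 10000000 := by
  simp only [K_310, IK_310, ev3]; push_cast; ring
theorem K_eq (s z p θ r : ℝ) (hr : r = 1 - s ^ 2) : W1.tab.K.v s z p θ =
    K_000 r z p + K_310 r z p * s ^ 3 * θ := by
  simp only [Tb.v, Tb.vo, Tb.vt, Tb.vz, Tb.vp, Tb.h, Tb.hz, Tb.hp, Tb.g, Tb.go, Tb.gr, Tb.gz, Tb.gp, Tb.gt, Tb.gh, Tb.ghz, Tb.ghp, IT.tab]
  simp only [← hr, W1, toMon, List.cons_append, List.nil_append, pe, pr, pz, pp, pt, K_000, K_310]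
  push_cast
  ring

noncomputable def D_000 (r z p : ℝ) : ℝ :=
    (-13 / 1250) + (5431 / 10000) * p + (-10433 / 10000) * p ^ 2 + (3241 / 5000) * p ^ 3 + (-4639 / 10000) * z +
    (29999 / 10000) * z * p + (403 / 625) * z * p ^ 2 + (-3317 / 5000) * z ^ 2 + (-18241 / 10000) * z ^ 2 * p +
    (-519 / 1250) * z ^ 3 + (-2009 / 2500) * r + (3 / 2) * r * p + (-119 / 1250) * r * p ^ 2 +
    (1519 / 2000) * r * z + (3401 / 5000) * r * z * p + (263 / 5000) * r * z ^ 2 + (194 / 625) * r ^ 2 +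
    (-579 / 625) * r ^ 2 * p + (2549 / 2500) * r ^ 2 * z + (173 / 400) * r ^ 3
def ID_000 : List (ℤ × ℕ × ℕ × ℕ) := [
    (-104000, 0, 0, 0), (5431000, 0, 0, 1), (-10433000, 0, 0, 2), (6482000, 0, 0, 3), (-4639000, 0, 1, 0),
    (29999000, 0, 1, 1), (6448000, 0, 1, 2), (-6634000, 0, 2, 0), (-18241000, 0, 2, 1), (-4152000, 0, 3, 0),
    (-8036000, 1, 0, 0), (15000000, 1, 0, 1), (-952000, 1, 0, 2), (7595000, 1, 1, 0), (6802000, 1, 1, 1),
    (526000, 1, 2, 0), (3104000, 2, 0, 0), (-9264000, 2, 0, 1), (10196000, 2, 1, 0), (4325000, 3, 0, 0)]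
theorem D_000_ev (r z p : ℝ) : D_000 r z p = ev3 ID_000 r z p / 10000000 := by
  simp only [D_000, ID_000, ev3]; push_cast; ring
noncomputable def D_310 (r z p : ℝ) : ℝ :=
    (4187 / 10000) + (-463 / 2000) * p + (-4401 / 10000) * p ^ 2 + (91 / 2500) * z + (12829 / 10000) * z * p +
    (-5243 / 5000) * z ^ 2 + (-2887 / 5000) * r + (721 / 2000) * r * p + (9449 / 10000) * r * z + (249 / 625) * r ^ 2
def ID_310 : List (ℤ × ℕ × ℕ × ℕ) := [
    (4187000, 0, 0, 0), (-2315000, 0, 0, 1), (-4401000, 0, 0, 2), (364000, 0, 1, 0), (12829000, 0, 1, 1),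
    (-10486000, 0, 2, 0), (-5774000, 1, 0, 0), (3605000, 1, 0, 1), (9449000, 1, 1, 0), (3984000, 2, 0, 0)]
theorem D_310_ev (r z p : ℝ) : D_310 r z p = ev3 ID_310 r z p / 10000000 := by
  simp only [D_310, ID_310, ev3]; push_cast; ring
theorem D_eq (s z p θ r : ℝ) (hr : r = 1 - s ^ 2) : W1.tab.D.v s z p θ =
    D_000 r z p + D_310 r z p * s ^ 3 * θ := by
  simp only [Tb.v, Tb.vo, Tb.vt, Tb.vz, Tb.vp, Tb.h, Tb.hz, Tb.hp, Tb.g, Tb.go, Tb.gr, Tb.gz, Tb.gp, Tb.gt, Tb.gh, Tb.ghz, Tb.ghp, IT.tab]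
  simp only [← hr, W1, toMon, List.cons_append, List.nil_append, pe, pr, pz, pp, pt, D_000, D_310]
  push_cast
  ring

noncomputable def g1_000 (r z p : ℝ) : ℝ :=
    (1 / 2) + (-1071 / 10000) * p + (-289 / 2500) * p ^ 2 + (179 / 500) * p ^ 3 + (3829 / 10000) * z +
    (4881 / 2500) * z * p + (-6081 / 2500) * z * p ^ 2 + (-31539 / 20000) * z ^ 2 + (-37041 / 20000) * z ^ 2 * p +
    (5879 / 1250) * z ^ 3 + (1143 / 2500) * r + (-8571 / 10000) * r * p + (327 / 1250) * r * p ^ 2 +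
    (179 / 500) * r * p ^ 3 + (2093 / 4000) * r * z ^ 2 + (12347 / 20000) * r * z ^ 2 * p +
    (-5879 / 2500) * r * z ^ 3 + (8943 / 5000) * r ^ 2 + (9741 / 10000) * r ^ 2 * p +
    (-2829 / 2500) * r ^ 2 * p ^ 2 + (-1389 / 1250) * r ^ 2 * z + (-2763 / 1250) * r ^ 2 * z * p +
    (-3 / 1250) * r ^ 2 * z ^ 2 + (-10597 / 2000) * r ^ 3 + (4253 / 2000) * r ^ 3 * p + (9 / 8) * r ^ 3 * z +
    (35441 / 10000) * r ^ 4
def Ig1_000 : List (ℤ × ℕ × ℕ × ℕ) := [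
    (5000000, 0, 0, 0), (-1071000, 0, 0, 1), (-1156000, 0, 0, 2), (3580000, 0, 0, 3), (3829000, 0, 1, 0),
    (19524000, 0, 1, 1), (-24324000, 0, 1, 2), (-15769500, 0, 2, 0), (-18520500, 0, 2, 1), (47032000, 0, 3, 0),
    (4572000, 1, 0, 0), (-8571000, 1, 0, 1), (2616000, 1, 0, 2), (3580000, 1, 0, 3), (5232500, 1, 2, 0),
    (6173500, 1, 2, 1), (-23516000, 1, 3, 0), (17886000, 2, 0, 0), (9741000, 2, 0, 1), (-11316000, 2, 0, 2),
    (-11112000, 2, 1, 0), (-22104000, 2, 1, 1), (-24000, 2, 2, 0), (-52985000, 3, 0, 0), (21265000, 3, 0, 1),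
    (11250000, 3, 1, 0), (35441000, 4, 0, 0)]
theorem g1_000_ev (r z p : ℝ) : g1_000 r z p = ev3 Ig1_000 r z p / 10000000 := by
  simp only [g1_000, Ig1_000, ev3]; push_cast; ring
noncomputable def g1_310 (r z p : ℝ) : ℝ :=
    (6641 / 10000) + (-1269 / 2000) * p + (244 / 625) * p ^ 2 + (-211 / 5000) * z + (-15693 / 20000) * z * p +
    (11927 / 5000) * r + (-16419 / 5000) * r * p + (-488 / 625) * r * p ^ 2 + (-597 / 2500) * r * z +
    (47079 / 20000) * r * z * p + (-17821 / 10000) * r * z ^ 2 + (-37749 / 5000) * r ^ 2 +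
    (17073 / 2500) * r ^ 2 * p + (609 / 1000) * r ^ 2 * z + (3299 / 1250) * r ^ 3
def Ig1_310 : List (ℤ × ℕ × ℕ × ℕ) := [
    (6641000, 0, 0, 0), (-6345000, 0, 0, 1), (3904000, 0, 0, 2), (-422000, 0, 1, 0), (-7846500, 0, 1, 1),
    (23854000, 1, 0, 0), (-32838000, 1, 0, 1), (-7808000, 1, 0, 2), (-2388000, 1, 1, 0), (23539500, 1, 1, 1),
    (-17821000, 1, 2, 0), (-75498000, 2, 0, 0), (68292000, 2, 0, 1), (6090000, 2, 1, 0), (26392000, 3, 0, 0)]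
theorem g1_310_ev (r z p : ℝ) : g1_310 r z p = ev3 Ig1_310 r z p / 10000000 := by
  simp only [g1_310, Ig1_310, ev3]; push_cast; ring
theorem g1_eq (s z p θ r : ℝ) (hr : r = 1 - s ^ 2) : W1.tab.pg1 s z p θ =
    g1_000 r z p + g1_310 r z p * s ^ 3 * θ := by
  simp only [Tab.pg1, Tb.v, Tb.vo, Tb.vt, Tb.vz, Tb.vp, Tb.h, Tb.hz, Tb.hp, Tb.g, Tb.go, Tb.gr, Tb.gz, Tb.gp, Tb.gt, Tb.gh, Tb.ghz, Tb.ghp, IT.tab]
  simp only [← hr, W1, toMon, List.cons_append, List.nil_append, pe, pr, pz, pp, pt, g1_000, g1_310]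
  push_cast
  ring

noncomputable def g2_100 (r z p : ℝ) : ℝ :=
    (-19923 / 20000) + (3807 / 4000) * p + (-366 / 625) * p ^ 2 + (633 / 5000) * z + (47079 / 20000) * z * p +
    (-53463 / 20000) * z ^ 2 + (-35781 / 20000) * r + (49257 / 20000) * r * p + (366 / 625) * r * p ^ 2 +
    (597 / 2500) * r * z + (-47079 / 20000) * r * z * p + (53463 / 20000) * r * z ^ 2 + (37749 / 10000) * r ^ 2 +
    (-17073 / 5000) * r ^ 2 * p + (-1827 / 5000) * r ^ 2 * z + (-9897 / 10000) * r ^ 3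
def Ig2_100 : List (ℤ × ℕ × ℕ × ℕ) := [
    (-9961500, 0, 0, 0), (9517500, 0, 0, 1), (-5856000, 0, 0, 2), (1266000, 0, 1, 0), (23539500, 0, 1, 1),
    (-26731500, 0, 2, 0), (-17890500, 1, 0, 0), (24628500, 1, 0, 1), (5856000, 1, 0, 2), (2388000, 1, 1, 0),
    (-23539500, 1, 1, 1), (26731500, 1, 2, 0), (37749000, 2, 0, 0), (-34146000, 2, 0, 1), (-3654000, 2, 1, 0),
    (-9897000, 3, 0, 0)]
theorem g2_100_ev (r z p : ℝ) : g2_100 r z p = ev3 Ig2_100 r z p / 10000000 := by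
  simp only [g2_100, Ig2_100, ev3]; push_cast; ring
theorem g2_eq (s z p θ r : ℝ) (hr : r = 1 - s ^ 2) : W1.tab.pg2 s z p θ =
    g2_100 r z p * s := by
  simp only [Tab.pg2, Tb.v, Tb.vo, Tb.vt, Tb.vz, Tb.vp, Tb.h, Tb.hz, Tb.hp, Tb.g, Tb.go, Tb.gr, Tb.gz, Tb.gp, Tb.gt, Tb.gh, Tb.ghz, Tb.ghp, IT.tab]
  simp only [← hr, W1, toMon, List.cons_append, List.nil_append, pe, pr, pz, pp, pt, g2_100]
  push_cast
  ring

noncomputable def g3_000 (r z p : ℝ) : ℝ :=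
    (3829 / 20000) + (4881 / 5000) * p + (-6081 / 5000) * p ^ 2 + (-10513 / 10000) * z + (-12347 / 10000) * z * p +
    (17637 / 5000) * z ^ 2 + (-5487 / 20000) * r + (-2763 / 2500) * r * p + (-3 / 625) * r * z + (9 / 32) * r ^ 2
def Ig3_000 : List (ℤ × ℕ × ℕ × ℕ) := [
    (1914500, 0, 0, 0), (9762000, 0, 0, 1), (-12162000, 0, 0, 2), (-10513000, 0, 1, 0), (-12347000, 0, 1, 1),
    (35274000, 0, 2, 0), (-2743500, 1, 0, 0), (-11052000, 1, 0, 1), (-48000, 1, 1, 0), (2812500, 2, 0, 0)]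
theorem g3_000_ev (r z p : ℝ) : g3_000 r z p = ev3 Ig3_000 r z p / 10000000 := by
  simp only [g3_000, Ig3_000, ev3]; push_cast; ring
noncomputable def g3_101 (r z p : ℝ) : ℝ :=
    (1071 / 5000) + (289 / 625) * p + (-537 / 250) * p ^ 2 + (-4881 / 2500) * z + (6081 / 1250) * z * p +
    (12347 / 10000) * z ^ 2 + (-3 / 2) * r + (943 / 625) * r * p + (2763 / 1250) * r * z + (-4253 / 5000) * r ^ 2
def Ig3_101 : List (ℤ × ℕ × ℕ × ℕ) := [
    (2142000, 0, 0, 0), (4624000, 0, 0, 1), (-21480000, 0, 0, 2), (-19524000, 0, 1, 0), (48648000, 0, 1, 1),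
    (12347000, 0, 2, 0), (-15000000, 1, 0, 0), (15088000, 1, 0, 1), (22104000, 1, 1, 0), (-8506000, 2, 0, 0)]
theorem g3_101_ev (r z p : ℝ) : g3_101 r z p = ev3 Ig3_101 r z p / 10000000 := by
  simp only [g3_101, Ig3_101, ev3]; push_cast; ring
noncomputable def g3_310 (r z p : ℝ) : ℝ :=
    (211 / 5000) + (15693 / 20000) * p + (-17821 / 10000) * z + (609 / 5000) * r
def Ig3_310 : List (ℤ × ℕ × ℕ × ℕ) := [
    (422000, 0, 0, 0), (7846500, 0, 0, 1), (-17821000, 0, 1, 0), (1218000, 1, 0, 0)]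
theorem g3_310_ev (r z p : ℝ) : g3_310 r z p = ev3 Ig3_310 r z p / 10000000 := by
  simp only [g3_310, Ig3_310, ev3]; push_cast; ring
noncomputable def g3_411 (r z p : ℝ) : ℝ :=
    (-1269 / 2000) + (488 / 625) * p + (-15693 / 10000) * z + (-5691 / 2500) * r
def Ig3_411 : List (ℤ × ℕ × ℕ × ℕ) := [
    (-6345000, 0, 0, 0), (7808000, 0, 0, 1), (-15693000, 0, 1, 0), (-22764000, 1, 0, 0)]
theorem g3_411_ev (r z p : ℝ) : g3_411 r z p = ev3 Ig3_411 r z p / 10000000 := by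
  simp only [g3_411, Ig3_411, ev3]; push_cast; ring
theorem g3_eq (s z p θ l r : ℝ) (hr : r = 1 - s ^ 2) : W1.tab.pg3 s z p θ l =
    g3_000 r z p + g3_101 r z p * s * l + g3_310 r z p * s ^ 3 * θ + g3_411 r z p * s ^ 4 * θ * l := by
  simp only [Tab.pg3, Tb.v, Tb.vo, Tb.vt, Tb.vz, Tb.vp, Tb.h, Tb.hz, Tb.hp, Tb.g, Tb.go, Tb.gr, Tb.gz, Tb.gp, Tb.gt, Tb.gh, Tb.ghz, Tb.ghp, IT.tab]
  simp only [← hr, W1, toMon, List.cons_append, List.nil_append, pe, pr, pz, pp, pt, g3_000, g3_101, g3_310, g3_411]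
  push_cast
  ring

noncomputable def m1_200 (r z p : ℝ) : ℝ :=
    (-5099 / 10000) + (41 / 1000) * p + (-403 / 1250) * p ^ 2 + (-471 / 625) * p ^ 3 + (-3677 / 5000) * z ^ 2 +
    (21853 / 10000) * z ^ 2 * p + (20953 / 5000) * z ^ 3 + (-987 / 400) * r + (-22899 / 10000) * r * p +
    (1557 / 500) * r * p ^ 2 + (4119 / 5000) * r * z + (-6) * r * z * p + (-553 / 2000) * r * z ^ 2 +
    (15 / 2) * r ^ 2 + (-15 / 2) * r ^ 2 * p + (-2231 / 1250) * r ^ 2 * z + (-67151 / 10000) * r ^ 3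
def Im1_200 : List (ℤ × ℕ × ℕ × ℕ) := [
    (-5099000, 0, 0, 0), (410000, 0, 0, 1), (-3224000, 0, 0, 2), (-7536000, 0, 0, 3), (-7354000, 0, 2, 0),
    (21853000, 0, 2, 1), (41906000, 0, 3, 0), (-24675000, 1, 0, 0), (-22899000, 1, 0, 1), (31140000, 1, 0, 2),
    (8238000, 1, 1, 0), (-60000000, 1, 1, 1), (-2765000, 1, 2, 0), (75000000, 2, 0, 0), (-75000000, 2, 0, 1),
    (-17848000, 2, 1, 0), (-67151000, 3, 0, 0)]
theorem m1_200_ev (r z p : ℝ) : m1_200 r z p = ev3 Im1_200 r z p / 10000000 := by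
  simp only [m1_200, Im1_200, ev3]; push_cast; ring
noncomputable def m1_510 (r z p : ℝ) : ℝ :=
    (471 / 250) + (-2111 / 2500) * p + (-497 / 1250) * p ^ 2 + (1203 / 10000) * z + (141 / 80) * z * p +
    (-3389 / 5000) * z ^ 2 + (6813 / 2500) * r + (-1227 / 250) * r * p + (14061 / 2000) * r * z +
    (-1087 / 1250) * r ^ 2
def Im1_510 : List (ℤ × ℕ × ℕ × ℕ) := [
    (18840000, 0, 0, 0), (-8444000, 0, 0, 1), (-3976000, 0, 0, 2), (1203000, 0, 1, 0), (17625000, 0, 1, 1),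
    (-6778000, 0, 2, 0), (27252000, 1, 0, 0), (-49080000, 1, 0, 1), (70305000, 1, 1, 0), (-8696000, 2, 0, 0)]
theorem m1_510_ev (r z p : ℝ) : m1_510 r z p = ev3 Im1_510 r z p / 10000000 := by
  simp only [m1_510, Im1_510, ev3]; push_cast; ring
theorem m1_eq (s z p θ r : ℝ) (hr : r = 1 - s ^ 2) : W1.tab.pm1 s z p θ =
    m1_200 r z p * s ^ 2 + m1_510 r z p * s ^ 5 * θ := by
  simp only [Tab.pm1, Tb.v, Tb.vo, Tb.vt, Tb.vz, Tb.vp, Tb.h, Tb.hz, Tb.hp, Tb.g, Tb.go, Tb.gr, Tb.gz, Tb.gp, Tb.gt, Tb.gh, Tb.ghz, Tb.ghp, IT.tab]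
  simp only [← hr, W1, toMon, List.cons_append, List.nil_append, pe, pr, pz, pp, pt, m1_200, m1_510]
  push_cast
  ring

noncomputable def m2_300 (r z p : ℝ) : ℝ :=
    (-6961 / 10000) + (-4529 / 20000) * p + (2981 / 2500) * p ^ 2 + (-3241 / 5000) * p ^ 3 + (859 / 5000) * z +
    (-5953 / 2500) * z * p + (-403 / 1250) * z * p ^ 2 + (10167 / 20000) * z ^ 2 + (-519 / 2500) * z ^ 3 +
    (9259 / 10000) * r + (-1773 / 1000) * r * p + (119 / 625) * r * p ^ 2 + (-8121 / 2500) * r * z +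
    (-10203 / 10000) * r * z * p + (-263 / 5000) * r * z ^ 2 + (-15363 / 20000) * r ^ 2 + (1737 / 625) * r ^ 2 * p +
    (-2549 / 1000) * r ^ 2 * z + (-173 / 100) * r ^ 3
def Im2_300 : List (ℤ × ℕ × ℕ × ℕ) := [
    (-6961000, 0, 0, 0), (-2264500, 0, 0, 1), (11924000, 0, 0, 2), (-6482000, 0, 0, 3), (1718000, 0, 1, 0),
    (-23812000, 0, 1, 1), (-3224000, 0, 1, 2), (5083500, 0, 2, 0), (-2076000, 0, 3, 0), (9259000, 1, 0, 0),
    (-17730000, 1, 0, 1), (1904000, 1, 0, 2), (-32484000, 1, 1, 0), (-10203000, 1, 1, 1), (-526000, 1, 2, 0),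
    (-7681500, 2, 0, 0), (27792000, 2, 0, 1), (-25490000, 2, 1, 0), (-17300000, 3, 0, 0)]
theorem m2_300_ev (r z p : ℝ) : m2_300 r z p = ev3 Im2_300 r z p / 10000000 := by
  simp only [m2_300, Im2_300, ev3]; push_cast; ring
noncomputable def m2_610 (r z p : ℝ) : ℝ :=
    (-4187 / 4000) + (463 / 800) * p + (4401 / 4000) * p ^ 2 + (-91 / 1250) * z + (-12829 / 5000) * z * p +
    (15729 / 10000) * z ^ 2 + (20209 / 10000) * r + (-5047 / 4000) * r * p + (-28347 / 10000) * r * z +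
    (-2241 / 1250) * r ^ 2
def Im2_610 : List (ℤ × ℕ × ℕ × ℕ) := [
    (-10467500, 0, 0, 0), (5787500, 0, 0, 1), (11002500, 0, 0, 2), (-728000, 0, 1, 0), (-25658000, 0, 1, 1),
    (15729000, 0, 2, 0), (20209000, 1, 0, 0), (-12617500, 1, 0, 1), (-28347000, 1, 1, 0), (-17928000, 2, 0, 0)]
theorem m2_610_ev (r z p : ℝ) : m2_610 r z p = ev3 Im2_610 r z p / 10000000 := by
  simp only [m2_610, Im2_610, ev3]; push_cast; ring
theorem m2_eq (s z p θ r : ℝ) (hr : r = 1 - s ^ 2) : W1.tab.pm2 s z p θ =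
    m2_300 r z p * s ^ 3 + m2_610 r z p * s ^ 6 * θ := by
  simp only [Tab.pm2, Tb.v, Tb.vo, Tb.vt, Tb.vz, Tb.vp, Tb.h, Tb.hz, Tb.hp, Tb.g, Tb.go, Tb.gr, Tb.gz, Tb.gp, Tb.gt, Tb.gh, Tb.ghz, Tb.ghp, IT.tab]
  simp only [← hr, W1, toMon, List.cons_append, List.nil_append, pe, pr, pz, pp, pt, m2_300, m2_610]
  push_cast
  ring

noncomputable def m3_400 (r z p : ℝ) : ℝ :=
    (12561 / 10000) + (-1389 / 2000) * p + (-13203 / 10000) * p ^ 2 + (273 / 2500) * z + (38487 / 10000) * z * p +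
    (-15729 / 5000) * z ^ 2 + (-8661 / 5000) * r + (2163 / 2000) * r * p + (28347 / 10000) * r * z +
    (747 / 625) * r ^ 2
def Im3_400 : List (ℤ × ℕ × ℕ × ℕ) := [
    (12561000, 0, 0, 0), (-6945000, 0, 0, 1), (-13203000, 0, 0, 2), (1092000, 0, 1, 0), (38487000, 0, 1, 1),
    (-31458000, 0, 2, 0), (-17322000, 1, 0, 0), (10815000, 1, 0, 1), (28347000, 1, 1, 0), (11952000, 2, 0, 0)]
theorem m3_400_ev (r z p : ℝ) : m3_400 r z p = ev3 Im3_400 r z p / 10000000 := by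
  simp only [m3_400, Im3_400, ev3]; push_cast; ring
theorem m3_eq (s z p θ r : ℝ) (hr : r = 1 - s ^ 2) : W1.tab.pm3 s z p θ =
    m3_400 r z p * s ^ 4 := by
  simp only [Tab.pm3, Tb.v, Tb.vo, Tb.vt, Tb.vz, Tb.vp, Tb.h, Tb.hz, Tb.hp, Tb.g, Tb.go, Tb.gr, Tb.gz, Tb.gp, Tb.gt, Tb.gh, Tb.ghz, Tb.ghp, IT.tab]
  simp only [← hr, W1, toMon, List.cons_append, List.nil_append, pe, pr, pz, pp, pt, m3_400]
  push_cast
  ring

noncomputable def c1_000 (r z p : ℝ) : ℝ :=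
    (6647 / 20000) + (99 / 625) * p + (-10629 / 5000) * p ^ 2 + (339 / 1000) * p ^ 3 + (28311 / 20000) * z +
    (125927 / 20000) * z * p + (211 / 250) * z * p ^ 2 + (13739 / 10000) * z ^ 2 + (14527 / 20000) * z ^ 2 * p +
    (-371 / 4000) * z ^ 3 + (6467 / 20000) * r + (3 / 4) * r * p + (-3 / 4) * r * p ^ 2 + (-32689 / 20000) * r * z +
    (42593 / 20000) * r * z * p + (-5877 / 10000) * r * z * p ^ 2 + (6367 / 2500) * r * z ^ 2 +
    (4171 / 10000) * r * z ^ 2 * p + (11973 / 20000) * r * z ^ 3 + (-3 / 4) * r ^ 2 + (1863 / 2500) * r ^ 2 * p +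
    (8123 / 10000) * r ^ 2 * p ^ 2 + (7407 / 4000) * r ^ 2 * z + (3 / 2) * r ^ 2 * z * p + (38311 / 20000) * r ^ 3 +
    3 * r ^ 3 * p + (-34827 / 20000) * r ^ 3 * z + (-3723 / 2500) * r ^ 4
def Ic1_000 : List (ℤ × ℕ × ℕ × ℕ) := [
    (3323500, 0, 0, 0), (1584000, 0, 0, 1), (-21258000, 0, 0, 2), (3390000, 0, 0, 3), (14155500, 0, 1, 0),
    (62963500, 0, 1, 1), (8440000, 0, 1, 2), (13739000, 0, 2, 0), (7263500, 0, 2, 1), (-927500, 0, 3, 0),
    (3233500, 1, 0, 0), (7500000, 1, 0, 1), (-7500000, 1, 0, 2), (-16344500, 1, 1, 0), (21296500, 1, 1, 1),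
    (-5877000, 1, 1, 2), (25468000, 1, 2, 0), (4171000, 1, 2, 1), (5986500, 1, 3, 0), (-7500000, 2, 0, 0),
    (7452000, 2, 0, 1), (8123000, 2, 0, 2), (18517500, 2, 1, 0), (15000000, 2, 1, 1), (19155500, 3, 0, 0),
    (30000000, 3, 0, 1), (-17413500, 3, 1, 0), (-14892000, 4, 0, 0)]
theorem c1_000_ev (r z p : ℝ) : c1_000 r z p = ev3 Ic1_000 r z p / 10000000 := by
  simp only [c1_000, Ic1_000, ev3]; push_cast; ring
noncomputable def c1_101 (r z p : ℝ) : ℝ :=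
    (711 / 10000) + (-107 / 125) * p + (-13163 / 10000) * p ^ 2 + (-43 / 50) * p ^ 3 + (3913 / 10000) * p ^ 4 +
    (2497 / 2000) * z + (9279 / 5000) * z * p + (22073 / 10000) * z * p ^ 2 + (59353 / 20000) * z ^ 2 +
    (-9) * z ^ 2 * p + (18193 / 2500) * z ^ 3 + (-274 / 625) * r + (30457 / 10000) * r * p + (3 / 2) * r * p ^ 2 +
    (-11 / 100) * r * p ^ 3 + (-3) * r * z + (7377 / 10000) * r * z ^ 2 + 3 * r * z ^ 2 * p +
    (-18193 / 5000) * r * z ^ 3 + (-5793 / 1250) * r ^ 2 + (-9 / 4) * r ^ 2 * p ^ 2 + (1337 / 1000) * r ^ 2 * z +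
    (-3) * r ^ 2 * z * p + (49107 / 20000) * r ^ 2 * z ^ 2 + (3447 / 500) * r ^ 3 + (-15 / 4) * r ^ 3 * p +
    (1663 / 500) * r ^ 3 * z + (-2751 / 625) * r ^ 4
def Ic1_101 : List (ℤ × ℕ × ℕ × ℕ) := [
    (711000, 0, 0, 0), (-8560000, 0, 0, 1), (-13163000, 0, 0, 2), (-8600000, 0, 0, 3), (3913000, 0, 0, 4),
    (12485000, 0, 1, 0), (18558000, 0, 1, 1), (22073000, 0, 1, 2), (29676500, 0, 2, 0), (-90000000, 0, 2, 1),
    (72772000, 0, 3, 0), (-4384000, 1, 0, 0), (30457000, 1, 0, 1), (15000000, 1, 0, 2), (-1100000, 1, 0, 3),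
    (-30000000, 1, 1, 0), (7377000, 1, 2, 0), (30000000, 1, 2, 1), (-36386000, 1, 3, 0), (-46344000, 2, 0, 0),
    (-22500000, 2, 0, 2), (13370000, 2, 1, 0), (-30000000, 2, 1, 1), (24553500, 2, 2, 0), (68940000, 3, 0, 0),
    (-37500000, 3, 0, 1), (33260000, 3, 1, 0), (-44016000, 4, 0, 0)]
theorem c1_101_ev (r z p : ℝ) : c1_101 r z p = ev3 Ic1_101 r z p / 10000000 := by
  simp only [c1_101, Ic1_101, ev3]; push_cast; ring
noncomputable def c1_202 (r z p : ℝ) : ℝ :=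
    (1133 / 2000) * z + (3 / 2) * z * p + (-9191 / 10000) * z * p ^ 2 + (-39653 / 10000) * z ^ 2 +
    (31211 / 10000) * z ^ 2 * p + (543 / 200) * z ^ 3 + (-5293 / 5000) * r + (3 / 2) * r * p + (3 / 2) * r * p ^ 2 +
    (3 / 2) * r * z + (-3 / 2) * r * z * p + 3 * r ^ 2 + (-1863 / 625) * r ^ 2 * p + (-34623 / 10000) * r ^ 2 * z +
    (-16989 / 10000) * r ^ 3
def Ic1_202 : List (ℤ × ℕ × ℕ × ℕ) := [
    (5665000, 0, 1, 0), (15000000, 0, 1, 1), (-9191000, 0, 1, 2), (-39653000, 0, 2, 0), (31211000, 0, 2, 1),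
    (27150000, 0, 3, 0), (-10586000, 1, 0, 0), (15000000, 1, 0, 1), (15000000, 1, 0, 2), (15000000, 1, 1, 0),
    (-15000000, 1, 1, 1), (30000000, 2, 0, 0), (-29808000, 2, 0, 1), (-34623000, 2, 1, 0), (-16989000, 3, 0, 0)]
theorem c1_202_ev (r z p : ℝ) : c1_202 r z p = ev3 Ic1_202 r z p / 10000000 := by
  simp only [c1_202, Ic1_202, ev3]; push_cast; ring
noncomputable def c1_310 (r z p : ℝ) : ℝ :=
    (-5387 / 20000) + (-7029 / 20000) * p + (12697 / 10000) * p ^ 2 + (-9291 / 10000) * z + (-6797 / 2500) * z * p +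
    (12423 / 10000) * z ^ 2 + (12049 / 5000) * r + (-66073 / 20000) * r * p + (-6263 / 1250) * r * z +
    (-101389 / 20000) * r ^ 2
def Ic1_310 : List (ℤ × ℕ × ℕ × ℕ) := [
    (-2693500, 0, 0, 0), (-3514500, 0, 0, 1), (12697000, 0, 0, 2), (-9291000, 0, 1, 0), (-27188000, 0, 1, 1),
    (12423000, 0, 2, 0), (24098000, 1, 0, 0), (-33036500, 1, 0, 1), (-50104000, 1, 1, 0), (-50694500, 2, 0, 0)]
theorem c1_310_ev (r z p : ℝ) : c1_310 r z p = ev3 Ic1_310 r z p / 10000000 := by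
  simp only [c1_310, Ic1_310, ev3]; push_cast; ring
noncomputable def c1_411 (r z p : ℝ) : ℝ :=
    (-1577 / 5000) + (1173 / 5000) * p + (-2581 / 2500) * p ^ 2 + (613 / 400) * z + (2263 / 1250) * z * p +
    (2069 / 1000) * r + 6 * r * p + (-143397 / 20000) * r * z + (-57081 / 10000) * r ^ 2
def Ic1_411 : List (ℤ × ℕ × ℕ × ℕ) := [
    (-3154000, 0, 0, 0), (2346000, 0, 0, 1), (-10324000, 0, 0, 2), (15325000, 0, 1, 0), (18104000, 0, 1, 1),
    (20690000, 1, 0, 0), (60000000, 1, 0, 1), (-71698500, 1, 1, 0), (-57081000, 2, 0, 0)]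
theorem c1_411_ev (r z p : ℝ) : c1_411 r z p = ev3 Ic1_411 r z p / 10000000 := by
  simp only [c1_411, Ic1_411, ev3]; push_cast; ring
noncomputable def c1_512 (r z p : ℝ) : ℝ :=
    (153 / 800) + (-1887 / 20000) * p + (-37689 / 20000) * p ^ 2 + (317 / 125) * z + (6797 / 1250) * z * p +
    (-3417 / 1250) * z ^ 2 + (-4703 / 800) * r + (-23927 / 4000) * r * p + 12 * r * z + (42147 / 5000) * r ^ 2
def Ic1_512 : List (ℤ × ℕ × ℕ × ℕ) := [
    (1912500, 0, 0, 0), (-943500, 0, 0, 1), (-18844500, 0, 0, 2), (25360000, 0, 1, 0), (54376000, 0, 1, 1),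
    (-27336000, 0, 2, 0), (-58787500, 1, 0, 0), (-59817500, 1, 0, 1), (120000000, 1, 1, 0), (84294000, 2, 0, 0)]
theorem c1_512_ev (r z p : ℝ) : c1_512 r z p = ev3 Ic1_512 r z p / 10000000 := by
  simp only [c1_512, Ic1_512, ev3]; push_cast; ring
theorem c1_eq (s z p θ l r : ℝ) (hr : r = 1 - s ^ 2) : W1.tab.pc1 s z p θ l =
    c1_000 r z p + c1_101 r z p * s * l + c1_202 r z p * s ^ 2 * l ^ 2 + c1_310 r z p * s ^ 3 * θ +
    c1_411 r z p * s ^ 4 * θ * l + c1_512 r z p * s ^ 5 * θ * l ^ 2 := by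
  simp only [Tab.pc1, Tb.v, Tb.vo, Tb.vt, Tb.vz, Tb.vp, Tb.h, Tb.hz, Tb.hp, Tb.g, Tb.go, Tb.gr, Tb.gz, Tb.gp, Tb.gt, Tb.gh, Tb.ghz, Tb.ghp, IT.tab]
  simp only [← hr, W1, toMon, List.cons_append, List.nil_append, pe, pr, pz, pp, pt, c1_000, c1_101, c1_202, c1_310, c1_411, c1_512]
  push_cast
  ring

noncomputable def c2_100 (r z p : ℝ) : ℝ :=
    (3247 / 10000) + (8837 / 5000) * p + (-6409 / 4000) * p ^ 2 + (-27437 / 20000) * z + (71759 / 10000) * z * p +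
    (-50967 / 10000) * z ^ 2 + (-31147 / 20000) * r + (48401 / 10000) * r * p + (15341 / 5000) * r * z +
    (56579 / 20000) * r ^ 2
def Ic2_100 : List (ℤ × ℕ × ℕ × ℕ) := [
    (3247000, 0, 0, 0), (17674000, 0, 0, 1), (-16022500, 0, 0, 2), (-13718500, 0, 1, 0), (71759000, 0, 1, 1),
    (-50967000, 0, 2, 0), (-15573500, 1, 0, 0), (48401000, 1, 0, 1), (30682000, 1, 1, 0), (28289500, 2, 0, 0)]
theorem c2_100_ev (r z p : ℝ) : c2_100 r z p = ev3 Ic2_100 r z p / 10000000 := by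
  simp only [c2_100, Ic2_100, ev3]; push_cast; ring
noncomputable def c2_201 (r z p : ℝ) : ℝ :=
    (-7733 / 20000) + (2873 / 2000) * p + (-99 / 250) * p ^ 2 + (-58349 / 10000) * z + (-8401 / 1250) * z * p +
    (37939 / 10000) * z ^ 2 + (-14661 / 4000) * r + (-5387 / 1250) * r * p + (129793 / 20000) * r * z +
    (75609 / 20000) * r ^ 2
def Ic2_201 : List (ℤ × ℕ × ℕ × ℕ) := [
    (-3866500, 0, 0, 0), (14365000, 0, 0, 1), (-3960000, 0, 0, 2), (-58349000, 0, 1, 0), (-67208000, 0, 1, 1),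
    (37939000, 0, 2, 0), (-36652500, 1, 0, 0), (-43096000, 1, 0, 1), (64896500, 1, 1, 0), (37804500, 2, 0, 0)]
theorem c2_201_ev (r z p : ℝ) : c2_201 r z p = ev3 Ic2_201 r z p / 10000000 := by
  simp only [c2_201, Ic2_201, ev3]; push_cast; ring
noncomputable def c2_302 (r z p : ℝ) : ℝ :=
    (-153 / 800) + (1887 / 20000) * p + (37689 / 20000) * p ^ 2 + (-951 / 250) * z + (-20391 / 2500) * z * p +
    (10251 / 1250) * z ^ 2 + (14109 / 4000) * r + (71781 / 20000) * r * p + (-9) * r * z + (-18063 / 5000) * r ^ 2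
def Ic2_302 : List (ℤ × ℕ × ℕ × ℕ) := [
    (-1912500, 0, 0, 0), (943500, 0, 0, 1), (18844500, 0, 0, 2), (-38040000, 0, 1, 0), (-81564000, 0, 1, 1),
    (82008000, 0, 2, 0), (35272500, 1, 0, 0), (35890500, 1, 0, 1), (-90000000, 1, 1, 0), (-36126000, 2, 0, 0)]
theorem c2_302_ev (r z p : ℝ) : c2_302 r z p = ev3 Ic2_302 r z p / 10000000 := by
  simp only [c2_302, Ic2_302, ev3]; push_cast; ring
noncomputable def c2_410 (r z p : ℝ) : ℝ :=
    (91 / 5000) + (12829 / 20000) * p + (-5243 / 5000) * z + (9449 / 20000) * r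
def Ic2_410 : List (ℤ × ℕ × ℕ × ℕ) := [
    (182000, 0, 0, 0), (6414500, 0, 0, 1), (-10486000, 0, 1, 0), (4724500, 1, 0, 0)]
theorem c2_410_ev (r z p : ℝ) : c2_410 r z p = ev3 Ic2_410 r z p / 10000000 := by
  simp only [c2_410, Ic2_410, ev3]; push_cast; ring
noncomputable def c2_511 (r z p : ℝ) : ℝ :=
    (463 / 2000) + (4401 / 5000) * p + (-12829 / 10000) * z + (-721 / 2000) * r
def Ic2_511 : List (ℤ × ℕ × ℕ × ℕ) := [
    (2315000, 0, 0, 0), (8802000, 0, 0, 1), (-12829000, 0, 1, 0), (-3605000, 1, 0, 0)]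
theorem c2_511_ev (r z p : ℝ) : c2_511 r z p = ev3 Ic2_511 r z p / 10000000 := by
  simp only [c2_511, Ic2_511, ev3]; push_cast; ring
theorem c2_eq (s z p θ l r : ℝ) (hr : r = 1 - s ^ 2) : W1.tab.pc2 s z p θ l =
    c2_100 r z p * s + c2_201 r z p * s ^ 2 * l + c2_302 r z p * s ^ 3 * l ^ 2 + c2_410 r z p * s ^ 4 * θ +
    c2_511 r z p * s ^ 5 * θ * l := by
  simp only [Tab.pc2, Tb.v, Tb.vo, Tb.vt, Tb.vz, Tb.vp, Tb.h, Tb.hz, Tb.hp, Tb.g, Tb.go, Tb.gr, Tb.gz, Tb.gp, Tb.gt, Tb.gh, Tb.ghz, Tb.ghp, IT.tab]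
  simp only [← hr, W1, toMon, List.cons_append, List.nil_append, pe, pr, pz, pp, pt, c2_100, c2_201, c2_302, c2_410, c2_511]
  push_cast
  ring

noncomputable def c0_000 (r z p : ℝ) : ℝ :=
    (10563 / 10000) + (17407 / 10000) * p + (5877 / 5000) * p ^ 2 + (267 / 1250) * z + (-4171 / 5000) * z * p +
    (-11973 / 10000) * z ^ 2 + (293 / 1250) * r + 3 * r * p + (-1021 / 2500) * r * z + (-11609 / 10000) * r ^ 2
def Ic0_000 : List (ℤ × ℕ × ℕ × ℕ) := [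
    (10563000, 0, 0, 0), (17407000, 0, 0, 1), (11754000, 0, 0, 2), (2136000, 0, 1, 0), (-8342000, 0, 1, 1),
    (-11973000, 0, 2, 0), (2344000, 1, 0, 0), (30000000, 1, 0, 1), (-4084000, 1, 1, 0), (-11609000, 2, 0, 0)]
theorem c0_000_ev (r z p : ℝ) : c0_000 r z p = ev3 Ic0_000 r z p / 10000000 := by
  simp only [c0_000, Ic0_000, ev3]; push_cast; ring
noncomputable def c0_002 (r z p : ℝ) : ℝ :=
    (9889 / 5000) + (-1139 / 250) * p + (42409 / 5000) * p ^ 2 + (-3913 / 625) * p ^ 3 + (-9653 / 5000) * z +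
    (-2587 / 1000) * z * p + (1743 / 100) * z ^ 2 + (2197 / 2500) * r + 15 * r * p + (-33 / 25) * r * p ^ 2 +
    (14289 / 1250) * r * z + (22073 / 2500) * r * z * p + (-12) * r * z ^ 2 + (11541 / 5000) * r ^ 2 +
    (-6) * r ^ 2 * p + (-6) * r ^ 2 * z + (-3) * r ^ 3
def Ic0_002 : List (ℤ × ℕ × ℕ × ℕ) := [
    (19778000, 0, 0, 0), (-45560000, 0, 0, 1), (84818000, 0, 0, 2), (-62608000, 0, 0, 3), (-19306000, 0, 1, 0),
    (-25870000, 0, 1, 1), (174300000, 0, 2, 0), (8788000, 1, 0, 0), (150000000, 1, 0, 1), (-13200000, 1, 0, 2),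
    (114312000, 1, 1, 0), (88292000, 1, 1, 1), (-120000000, 1, 2, 0), (23082000, 2, 0, 0), (-60000000, 2, 0, 1),
    (-60000000, 2, 1, 0), (-30000000, 3, 0, 0)]
theorem c0_002_ev (r z p : ℝ) : c0_002 r z p = ev3 Ic0_002 r z p / 10000000 := by
  simp only [c0_002, Ic0_002, ev3]; push_cast; ring
noncomputable def c0_101 (r z p : ℝ) : ℝ :=
    (5461 / 2000) + 3 * p + (-35713 / 10000) * p ^ 2 + (8473 / 2500) * z + (-20877 / 1250) * z * p +
    (47 / 4) * z ^ 2 + (-15623 / 2500) * r * p + (19107 / 5000) * r * z + (-1337 / 1000) * r ^ 2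
def Ic0_101 : List (ℤ × ℕ × ℕ × ℕ) := [
    (27305000, 0, 0, 0), (30000000, 0, 0, 1), (-35713000, 0, 0, 2), (33892000, 0, 1, 0), (-167016000, 0, 1, 1),
    (117500000, 0, 2, 0), (-62492000, 1, 0, 1), (38214000, 1, 1, 0), (-13370000, 2, 0, 0)]
theorem c0_101_ev (r z p : ℝ) : c0_101 r z p = ev3 Ic0_101 r z p / 10000000 := by
  simp only [c0_101, Ic0_101, ev3]; push_cast; ring
noncomputable def c0_103 (r z p : ℝ) : ℝ :=
    (-586 / 625) + (-11763 / 2500) * p + (18723 / 2500) * p ^ 2 + (-6) * z + (9191 / 1250) * z * p +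
    (-31211 / 5000) * z ^ 2 + 3 * r + 6 * r * p + (-6) * r * z + (-1863 / 625) * r ^ 2
def Ic0_103 : List (ℤ × ℕ × ℕ × ℕ) := [
    (-9376000, 0, 0, 0), (-47052000, 0, 0, 1), (74892000, 0, 0, 2), (-60000000, 0, 1, 0), (73528000, 0, 1, 1),
    (-62422000, 0, 2, 0), (30000000, 1, 0, 0), (60000000, 1, 0, 1), (-60000000, 1, 1, 0), (-29808000, 2, 0, 0)]
theorem c0_103_ev (r z p : ℝ) : c0_103 r z p = ev3 Ic0_103 r z p / 10000000 := by
  simp only [c0_103, Ic0_103, ev3]; push_cast; ring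
noncomputable def c0_110 (r z p : ℝ) : ℝ :=
    (-4723 / 10000) + 6 * p + (-14913 / 2500) * z + (2513 / 1250) * r
def Ic0_110 : List (ℤ × ℕ × ℕ × ℕ) := [
    (-4723000, 0, 0, 0), (60000000, 0, 0, 1), (-59652000, 0, 1, 0), (20104000, 1, 0, 0)]
theorem c0_110_ev (r z p : ℝ) : c0_110 r z p = ev3 Ic0_110 r z p / 10000000 := by
  simp only [c0_110, Ic0_110, ev3]; push_cast; ring
noncomputable def c0_211 (r z p : ℝ) : ℝ :=
    (-11233 / 5000) + (3779 / 2500) * p + (-11717 / 1250) * z + (-12201 / 10000) * r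
def Ic0_211 : List (ℤ × ℕ × ℕ × ℕ) := [
    (-22466000, 0, 0, 0), (15116000, 0, 0, 1), (-93736000, 0, 1, 0), (-12201000, 1, 0, 0)]
theorem c0_211_ev (r z p : ℝ) : c0_211 r z p = ev3 Ic0_211 r z p / 10000000 := by
  simp only [c0_211, Ic0_211, ev3]; push_cast; ring
noncomputable def c0_312 (r z p : ℝ) : ℝ :=
    (-4173 / 2500) + (-11959 / 1250) * p + (2272 / 125) * z
def Ic0_312 : List (ℤ × ℕ × ℕ × ℕ) := [
    (-16692000, 0, 0, 0), (-95672000, 0, 0, 1), (181760000, 0, 1, 0)]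
theorem c0_312_ev (r z p : ℝ) : c0_312 r z p = ev3 Ic0_312 r z p / 10000000 := by
  simp only [c0_312, Ic0_312, ev3]; push_cast; ring
noncomputable def c0_413 (r z p : ℝ) : ℝ :=
    (-629 / 5000) + (-12563 / 2500) * p + (6797 / 625) * z + (-23927 / 5000) * r
def Ic0_413 : List (ℤ × ℕ × ℕ × ℕ) := [
    (-1258000, 0, 0, 0), (-50252000, 0, 0, 1), (108752000, 0, 1, 0), (-47854000, 1, 0, 0)]
theorem c0_413_ev (r z p : ℝ) : c0_413 r z p = ev3 Ic0_413 r z p / 10000000 := by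
  simp only [c0_413, Ic0_413, ev3]; push_cast; ring
theorem c0_eq (s z p θ l r : ℝ) (hr : r = 1 - s ^ 2) : W1.tab.pc0 s z p θ l =
    c0_000 r z p + c0_002 r z p * l ^ 2 + c0_101 r z p * s * l + c0_103 r z p * s * l ^ 3 + c0_110 r z p * s * θ +
    c0_211 r z p * s ^ 2 * θ * l + c0_312 r z p * s ^ 3 * θ * l ^ 2 + c0_413 r z p * s ^ 4 * θ * l ^ 3 := by
  simp only [Tab.pc0, Tb.v, Tb.vo, Tb.vt, Tb.vz, Tb.vp, Tb.h, Tb.hz, Tb.hp, Tb.g, Tb.go, Tb.gr, Tb.gz, Tb.gp, Tb.gt, Tb.gh, Tb.ghz, Tb.ghp, IT.tab]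
  simp only [← hr, W1, toMon, List.cons_append, List.nil_append, pe, pr, pz, pp, pt, c0_000, c0_002, c0_101, c0_103, c0_110, c0_211, c0_312, c0_413]
  push_cast
  ring

noncomputable def G_000 (r z p : ℝ) : ℝ :=
    (301 / 5000) + (-264 / 625) * p + (1889 / 1000) * p ^ 2 + (-43 / 25) * p ^ 3 + (3913 / 5000) * p ^ 4 +
    (3827 / 2000) * z + (-3) * z * p + (22073 / 10000) * z * p ^ 2 + (34353 / 10000) * z ^ 2 + (-6) * z ^ 2 * p +
    (18193 / 5000) * z ^ 3 + (-21013 / 10000) * r + (-6436929 / 5000000) * r * p + (-578711 / 1250000) * r * p ^ 2 +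
    (280821 / 250000) * r * p ^ 3 + (18526171 / 10000000) * r * z + (-7282131 / 2500000) * r * z * p +
    (4272331 / 2500000) * r * z * p ^ 2 + (-35673 / 10000) * r * z * p ^ 3 + (-44098487 / 10000000) * r * z ^ 2 +
    (101630347 / 10000000) * r * z ^ 2 * p + (-10097 / 2500) * r * z ^ 2 * p ^ 2 + (2151121 / 2500000) * r * z ^ 3 +
    (-2589 / 2500) * r * z ^ 3 * p + (371 / 2000) * r * z ^ 4 + (3662259 / 625000) * r ^ 2 +
    (-437 / 200) * r ^ 2 * p + (-839557 / 1250000) * r ^ 2 * p ^ 2 + (-27432513 / 10000000) * r ^ 2 * z +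
    (26054763 / 1250000) * r ^ 2 * z * p + (-5123 / 2000) * r ^ 2 * z * p ^ 2 + (-525311 / 312500) * r ^ 2 * z ^ 2 +
    (-18) * r ^ 2 * z ^ 2 * p + (-23473 / 5000) * r ^ 2 * z ^ 3 + (-14573233 / 2500000) * r ^ 3 +
    (27983747 / 5000000) * r ^ 3 * p + (-5701 / 3200) * r ^ 3 * z + (-5619 / 625) * r ^ 3 * z * p +
    (34963 / 10000) * r ^ 3 * z ^ 2 + (10013437 / 5000000) * r ^ 4 + (19157 / 10000) * r ^ 4 * z
def IG_000 : List (ℤ × ℕ × ℕ × ℕ) := [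
    (602000, 0, 0, 0), (-4224000, 0, 0, 1), (18890000, 0, 0, 2), (-17200000, 0, 0, 3), (7826000, 0, 0, 4),
    (19135000, 0, 1, 0), (-30000000, 0, 1, 1), (22073000, 0, 1, 2), (34353000, 0, 2, 0), (-60000000, 0, 2, 1),
    (36386000, 0, 3, 0), (-21013000, 1, 0, 0), (-12873858, 1, 0, 1), (-4629688, 1, 0, 2), (11232840, 1, 0, 3),
    (18526171, 1, 1, 0), (-29128524, 1, 1, 1), (17089324, 1, 1, 2), (-35673000, 1, 1, 3), (-44098487, 1, 2, 0),
    (101630347, 1, 2, 1), (-40388000, 1, 2, 2), (8604484, 1, 3, 0), (-10356000, 1, 3, 1), (1855000, 1, 4, 0),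
    (58596144, 2, 0, 0), (-21850000, 2, 0, 1), (-6716456, 2, 0, 2), (-27432513, 2, 1, 0), (208438104, 2, 1, 1),
    (-25615000, 2, 1, 2), (-16809952, 2, 2, 0), (-180000000, 2, 2, 1), (-46946000, 2, 3, 0), (-58292932, 3, 0, 0),
    (55967494, 3, 0, 1), (-17815625, 3, 1, 0), (-89904000, 3, 1, 1), (34963000, 3, 2, 0), (20026874, 4, 0, 0),
    (19157000, 4, 1, 0)]
theorem G_000_ev (r z p : ℝ) : G_000 r z p = ev3 IG_000 r z p / 10000000 := by
  simp only [G_000, IG_000, ev3]; push_cast; ring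
noncomputable def G_110 (r z p : ℝ) : ℝ :=
    (-811 / 10000) + (293 / 625) * p + (11763 / 10000) * p ^ 2 + (-6241 / 5000) * p ^ 3 + (1133 / 1000) * z +
    3 * z * p + (-9191 / 5000) * z * p ^ 2 + (-39653 / 10000) * z ^ 2 + (31211 / 10000) * z ^ 2 * p +
    (181 / 100) * z ^ 3 + (5033 / 5000) * r + (2431 / 2000) * r * p + (-13433 / 2000) * r * p ^ 2 +
    (3241 / 1000) * r * p ^ 3 + (-287 / 40) * r * z + (4277 / 250) * r * z * p + (19279 / 2000) * r * z * p ^ 2 +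
    (47601 / 10000) * r * z ^ 2 + (-78241 / 2000) * r * z ^ 2 * p + (12837 / 1000) * r * z ^ 3 +
    (-2759 / 500) * r ^ 2 + (5619 / 625) * r ^ 2 * p + (-119 / 250) * r ^ 2 * p ^ 2 + (125627 / 10000) * r ^ 2 * z +
    (-11599 / 1000) * r ^ 2 * z * p + (-9789 / 1000) * r ^ 2 * z ^ 2 + (21183 / 10000) * r ^ 3 +
    (-579 / 125) * r ^ 3 * p + (-1053 / 400) * r ^ 3 * z + (173 / 80) * r ^ 4
def IG_110 : List (ℤ × ℕ × ℕ × ℕ) := [
    (-811000, 0, 0, 0), (4688000, 0, 0, 1), (11763000, 0, 0, 2), (-12482000, 0, 0, 3), (11330000, 0, 1, 0),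
    (30000000, 0, 1, 1), (-18382000, 0, 1, 2), (-39653000, 0, 2, 0), (31211000, 0, 2, 1), (18100000, 0, 3, 0),
    (10066000, 1, 0, 0), (12155000, 1, 0, 1), (-67165000, 1, 0, 2), (32410000, 1, 0, 3), (-71750000, 1, 1, 0),
    (171080000, 1, 1, 1), (96395000, 1, 1, 2), (47601000, 1, 2, 0), (-391205000, 1, 2, 1), (128370000, 1, 3, 0),
    (-55180000, 2, 0, 0), (89904000, 2, 0, 1), (-4760000, 2, 0, 2), (125627000, 2, 1, 0), (-115990000, 2, 1, 1),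
    (-97890000, 2, 2, 0), (21183000, 3, 0, 0), (-46320000, 3, 0, 1), (-26325000, 3, 1, 0), (21625000, 4, 0, 0)]
theorem G_110_ev (r z p : ℝ) : G_110 r z p = ev3 IG_110 r z p / 10000000 := by
  simp only [G_110, IG_110, ev3]; push_cast; ring
noncomputable def G_310 (r z p : ℝ) : ℝ :=
    (1043 / 10000) + (-2167 / 5000) * p + (2581 / 2500) * p ^ 2 + (-189 / 100) * z + (-2263 / 625) * z * p +
    (3283 / 2500) * z ^ 2 + (-11414359 / 10000000) * r + (-8966269 / 2000000) * r * p +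
    (1286869 / 625000) * r * p ^ 2 + (10923039 / 2500000) * r * z + (-92791693 / 10000000) * r * z * p +
    (-12563 / 10000) * r * z * p ^ 2 + (113606821 / 10000000) * r * z ^ 2 + (6797 / 1250) * r * z ^ 2 * p +
    (-3417 / 625) * r * z ^ 3 + (4412973 / 625000) * r ^ 2 + (-12544691 / 2500000) * r ^ 2 * p +
    (-25891609 / 2500000) * r ^ 2 * z + (-23927 / 10000) * r ^ 2 * z * p + 6 * r ^ 2 * z ^ 2 +
    (-10481799 / 5000000) * r ^ 3 + (6021 / 2500) * r ^ 3 * z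
def IG_310 : List (ℤ × ℕ × ℕ × ℕ) := [
    (1043000, 0, 0, 0), (-4334000, 0, 0, 1), (10324000, 0, 0, 2), (-18900000, 0, 1, 0), (-36208000, 0, 1, 1),
    (13132000, 0, 2, 0), (-11414359, 1, 0, 0), (-44831345, 1, 0, 1), (20589904, 1, 0, 2), (43692156, 1, 1, 0),
    (-92791693, 1, 1, 1), (-12563000, 1, 1, 2), (113606821, 1, 2, 0), (54376000, 1, 2, 1), (-54672000, 1, 3, 0),
    (70607568, 2, 0, 0), (-50178764, 2, 0, 1), (-103566436, 2, 1, 0), (-23927000, 2, 1, 1), (60000000, 2, 2, 0),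
    (-20963598, 3, 0, 0), (24084000, 3, 1, 0)]
theorem G_310_ev (r z p : ℝ) : G_310 r z p = ev3 IG_310 r z p / 10000000 := by
  simp only [G_310, IG_310, ev3]; push_cast; ring
noncomputable def G_420 (r z p : ℝ) : ℝ :=
    (-51 / 400) + (629 / 10000) * p + (12563 / 10000) * p ^ 2 + (-317 / 125) * z + (-6797 / 1250) * z * p +
    (3417 / 625) * z ^ 2 + (889 / 200) * r + (772 / 625) * r * p + (-4401 / 2000) * r * p ^ 2 +
    (-2909 / 500) * r * z + (12829 / 2000) * r * z * p + (-5243 / 1000) * r * z ^ 2 + (-26477 / 5000) * r ^ 2 +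
    (721 / 400) * r ^ 2 * p + (9449 / 2000) * r ^ 2 * z + (249 / 125) * r ^ 3
def IG_420 : List (ℤ × ℕ × ℕ × ℕ) := [
    (-1275000, 0, 0, 0), (629000, 0, 0, 1), (12563000, 0, 0, 2), (-25360000, 0, 1, 0), (-54376000, 0, 1, 1),
    (54672000, 0, 2, 0), (44450000, 1, 0, 0), (12352000, 1, 0, 1), (-22005000, 1, 0, 2), (-58180000, 1, 1, 0),
    (64145000, 1, 1, 1), (-52430000, 1, 2, 0), (-52954000, 2, 0, 0), (18025000, 2, 0, 1), (47245000, 2, 1, 0),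
    (19920000, 3, 0, 0)]
theorem G_420_ev (r z p : ℝ) : G_420 r z p = ev3 IG_420 r z p / 10000000 := by
  simp only [G_420, IG_420, ev3]; push_cast; ring
theorem G_eq (s z p θ r : ℝ) (hr : r = 1 - s ^ 2) : W1.tab.G0 s z p θ 5 =
    G_000 r z p + G_110 r z p * s * θ + G_310 r z p * s ^ 3 * θ + G_420 r z p * s ^ 4 * θ ^ 2 := by
  simp only [Tab.G0, Tb.v, Tb.vo, Tb.vt, Tb.vz, Tb.vp, Tb.h, Tb.hz, Tb.hp, Tb.g, Tb.go, Tb.gr, Tb.gz, Tb.gp, Tb.gt, Tb.gh, Tb.ghz, Tb.ghp, IT.tab]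
  simp only [← hr, W1, toMon, List.cons_append, List.nil_append, pe, pr, pz, pp, pt, G_000, G_110, G_310, G_420]
  push_cast
  ring

noncomputable def Ah_000 (r z p : ℝ) : ℝ :=
    (63 / 625) + (-817 / 2000) * p + (-3 / 2) * p ^ 2 + (9631 / 10000) * p ^ 3 + (10563 / 10000) * z +
    (17407 / 10000) * z * p + (5877 / 5000) * z * p ^ 2 + (267 / 2500) * z ^ 2 + (-4171 / 10000) * z ^ 2 * p +
    (-3991 / 10000) * z ^ 3 + (967 / 10000) * r + (3 / 2) * r * p + (8123 / 10000) * r * p ^ 2 +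
    (293 / 1250) * r * z + 3 * r * z * p + (-1021 / 5000) * r * z ^ 2 + (1599 / 5000) * r ^ 2 + (3 / 2) * r ^ 2 * p +
    (-11609 / 10000) * r ^ 2 * z + (-1241 / 2500) * r ^ 3
def IAh_000 : List (ℤ × ℕ × ℕ × ℕ) := [
    (1008000, 0, 0, 0), (-4085000, 0, 0, 1), (-15000000, 0, 0, 2), (9631000, 0, 0, 3), (10563000, 0, 1, 0),
    (17407000, 0, 1, 1), (11754000, 0, 1, 2), (1068000, 0, 2, 0), (-4171000, 0, 2, 1), (-3991000, 0, 3, 0),
    (967000, 1, 0, 0), (15000000, 1, 0, 1), (8123000, 1, 0, 2), (2344000, 1, 1, 0), (30000000, 1, 1, 1),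
    (-2042000, 1, 2, 0), (3198000, 2, 0, 0), (15000000, 2, 0, 1), (-11609000, 2, 1, 0), (-4964000, 3, 0, 0)]
theorem Ah_000_ev (r z p : ℝ) : Ah_000 r z p = ev3 IAh_000 r z p / 10000000 := by
  simp only [Ah_000, IAh_000, ev3]; push_cast; ring
noncomputable def Ah_110 (r z p : ℝ) : ℝ :=
    (3711 / 10000) + (1783 / 10000) * p + (-12831 / 10000) * p ^ 2 + (-4723 / 10000) * z + 6 * z * p +
    (-14913 / 5000) * z ^ 2 + (-6457 / 5000) * r + 3 * r * p + (2513 / 1250) * r * z + (15461 / 10000) * r ^ 2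
def IAh_110 : List (ℤ × ℕ × ℕ × ℕ) := [
    (3711000, 0, 0, 0), (1783000, 0, 0, 1), (-12831000, 0, 0, 2), (-4723000, 0, 1, 0), (60000000, 0, 1, 1),
    (-29826000, 0, 2, 0), (-12914000, 1, 0, 0), (30000000, 1, 0, 1), (20104000, 1, 1, 0), (15461000, 2, 0, 0)]
theorem Ah_110_ev (r z p : ℝ) : Ah_110 r z p = ev3 IAh_110 r z p / 10000000 := by
  simp only [Ah_110, IAh_110, ev3]; push_cast; ring
theorem Ah_eq (s z p θ r : ℝ) (hr : r = 1 - s ^ 2) : W1.tab.A.h s z p θ =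
    Ah_000 r z p + Ah_110 r z p * s * θ := by
  simp only [Tb.v, Tb.vo, Tb.vt, Tb.vz, Tb.vp, Tb.h, Tb.hz, Tb.hp, Tb.g, Tb.go, Tb.gr, Tb.gz, Tb.gp, Tb.gt, Tb.gh, Tb.ghz, Tb.ghp, IT.tab]
  simp only [← hr, W1, toMon, List.cons_append, List.nil_append, pe, pr, pz, pp, pt, Ah_000, Ah_110]
  push_cast
  ring

noncomputable def Bh_000 (r z p : ℝ) : ℝ :=
    (301 / 5000) + (2197 / 5000) * p + (3 / 2) * p ^ 2 + (-11 / 50) * p ^ 3 + (3827 / 2000) * z + (-3) * z * p +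
    (22073 / 10000) * z * p ^ 2 + (34353 / 10000) * z ^ 2 + (-6) * z ^ 2 * p + (18193 / 5000) * z ^ 3 +
    (-737 / 1250) * r + (-3 / 2) * r * p + (-3 / 2) * r * p ^ 2 + 3 * r * z + (-3) * r * z * p +
    (49107 / 10000) * r * z ^ 2 + (3 / 2) * r ^ 2 + (-3 / 2) * r ^ 2 * p + (1663 / 1000) * r ^ 2 * z +
    (-786 / 625) * r ^ 3
def IBh_000 : List (ℤ × ℕ × ℕ × ℕ) := [
    (602000, 0, 0, 0), (4394000, 0, 0, 1), (15000000, 0, 0, 2), (-2200000, 0, 0, 3), (19135000, 0, 1, 0),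
    (-30000000, 0, 1, 1), (22073000, 0, 1, 2), (34353000, 0, 2, 0), (-60000000, 0, 2, 1), (36386000, 0, 3, 0),
    (-5896000, 1, 0, 0), (-15000000, 1, 0, 1), (-15000000, 1, 0, 2), (30000000, 1, 1, 0), (-30000000, 1, 1, 1),
    (49107000, 1, 2, 0), (15000000, 2, 0, 0), (-15000000, 2, 0, 1), (16630000, 2, 1, 0), (-12576000, 3, 0, 0)]
theorem Bh_000_ev (r z p : ℝ) : Bh_000 r z p = ev3 IBh_000 r z p / 10000000 := by
  simp only [Bh_000, IBh_000, ev3]; push_cast; ring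
noncomputable def Bh_110 (r z p : ℝ) : ℝ :=
    (1043 / 10000) + (-2167 / 5000) * p + (2581 / 2500) * p ^ 2 + (-189 / 100) * z + (-2263 / 625) * z * p +
    (3283 / 2500) * z ^ 2 + (-2887 / 2000) * r + (-3) * r * p + (47799 / 10000) * r * z + (19027 / 10000) * r ^ 2
def IBh_110 : List (ℤ × ℕ × ℕ × ℕ) := [
    (1043000, 0, 0, 0), (-4334000, 0, 0, 1), (10324000, 0, 0, 2), (-18900000, 0, 1, 0), (-36208000, 0, 1, 1),
    (13132000, 0, 2, 0), (-14435000, 1, 0, 0), (-30000000, 1, 0, 1), (47799000, 1, 1, 0), (19027000, 2, 0, 0)]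
theorem Bh_110_ev (r z p : ℝ) : Bh_110 r z p = ev3 IBh_110 r z p / 10000000 := by
  simp only [Bh_110, IBh_110, ev3]; push_cast; ring
theorem Bh_eq (s z p θ r : ℝ) (hr : r = 1 - s ^ 2) : W1.tab.B.h s z p θ =
    Bh_000 r z p + Bh_110 r z p * s * θ := by
  simp only [Tb.v, Tb.vo, Tb.vt, Tb.vz, Tb.vp, Tb.h, Tb.hz, Tb.hp, Tb.g, Tb.go, Tb.gr, Tb.gz, Tb.gp, Tb.gt, Tb.gh, Tb.ghz, Tb.ghp, IT.tab]
  simp only [← hr, W1, toMon, List.cons_append, List.nil_append, pe, pr, pz, pp, pt, Bh_000, Bh_110]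
  push_cast
  ring

noncomputable def C_000 (r z p : ℝ) : ℝ :=
    (-811 / 10000) + (293 / 625) * p + (11763 / 10000) * p ^ 2 + (-6241 / 5000) * p ^ 3 + (1133 / 1000) * z +
    3 * z * p + (-9191 / 5000) * z * p ^ 2 + (-39653 / 10000) * z ^ 2 + (31211 / 10000) * z ^ 2 * p +
    (181 / 100) * z ^ 3 + (5293 / 5000) * r + (-3 / 2) * r * p + (-3 / 2) * r * p ^ 2 + (-3) * r * z +
    3 * r * z * p + (14289 / 2500) * r * z ^ 2 + (-3 / 2) * r ^ 2 + (1863 / 1250) * r ^ 2 * p +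
    (11541 / 5000) * r ^ 2 * z + (5663 / 10000) * r ^ 3
def IC_000 : List (ℤ × ℕ × ℕ × ℕ) := [
    (-811000, 0, 0, 0), (4688000, 0, 0, 1), (11763000, 0, 0, 2), (-12482000, 0, 0, 3), (11330000, 0, 1, 0),
    (30000000, 0, 1, 1), (-18382000, 0, 1, 2), (-39653000, 0, 2, 0), (31211000, 0, 2, 1), (18100000, 0, 3, 0),
    (10586000, 1, 0, 0), (-15000000, 1, 0, 1), (-15000000, 1, 0, 2), (-30000000, 1, 1, 0), (30000000, 1, 1, 1),
    (57156000, 1, 2, 0), (-15000000, 2, 0, 0), (14904000, 2, 0, 1), (23082000, 2, 1, 0), (5663000, 3, 0, 0)]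
theorem C_000_ev (r z p : ℝ) : C_000 r z p = ev3 IC_000 r z p / 10000000 := by
  simp only [C_000, IC_000, ev3]; push_cast; ring
noncomputable def C_310 (r z p : ℝ) : ℝ :=
    (-51 / 400) + (629 / 10000) * p + (12563 / 10000) * p ^ 2 + (-317 / 125) * z + (-6797 / 1250) * z * p +
    (3417 / 625) * z ^ 2 + (4703 / 2000) * r + (23927 / 10000) * r * p + (-6) * r * z + (-6021 / 2500) * r ^ 2
def IC_310 : List (ℤ × ℕ × ℕ × ℕ) := [
    (-1275000, 0, 0, 0), (629000, 0, 0, 1), (12563000, 0, 0, 2), (-25360000, 0, 1, 0), (-54376000, 0, 1, 1),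
    (54672000, 0, 2, 0), (23515000, 1, 0, 0), (23927000, 1, 0, 1), (-60000000, 1, 1, 0), (-24084000, 2, 0, 0)]
theorem C_310_ev (r z p : ℝ) : C_310 r z p = ev3 IC_310 r z p / 10000000 := by
  simp only [C_310, IC_310, ev3]; push_cast; ring
theorem C_eq (s z p θ r : ℝ) (hr : r = 1 - s ^ 2) : W1.tab.C.v s z p θ =
    C_000 r z p + C_310 r z p * s ^ 3 * θ := by
  simp only [Tb.v, Tb.vo, Tb.vt, Tb.vz, Tb.vp, Tb.h, Tb.hz, Tb.hp, Tb.g, Tb.go, Tb.gr, Tb.gz, Tb.gp, Tb.gt, Tb.gh, Tb.ghz, Tb.ghp, IT.tab]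
  simp only [← hr, W1, toMon, List.cons_append, List.nil_append, pe, pr, pz, pp, pt, C_000, C_310]
  push_cast
  ring

end CW1
end Crest.Agent.R97
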