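import Crest.Agent.R97.Bas
import Crest.Agent.R97.Har_R
import Crest.Agent.R97.Har_T
import Crest.Agent.R97.Har_H
import Crest.Agent.R97.Har_D
import Crest.Agent.R97.Har_L
import Crest.Agent.R97.Har_E

/-! Har: harmonic functions in dimension `d`.  Re-exports Har_A (calculus of `pd`, `lap`, `Harm`), Har_R (rotations, jets),
Har_I (integration by parts, kernels), Har_S (mean values), Har_G, Har_T, Har_H, Har_M, Har_D, Har_W, Har_L, Har_E. -/
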