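import Crest.Agent.R97.Sob
import Crest.Agent.R97.Jet
import Crest.Agent.R97.Cert

set_option autoImplicit false
open MeasureTheory Metric Set Filter Topology
open scoped RealInnerProductSpace NNReal

namespace Crest.Agent.R97

variable {d : ℕ}

theorem flat_all : ∀ d : ℕ, 1 ≤ d → d ≤ 6 → Flat d := by
  intro d hd1
  induction d, hd1 using Nat.le_induction with
  | base => intro _; exact flat_one
  | succ d hd ih =>
    intro h6 L u hu hh hp
    have hF := ih (by omega)
    have hj := jets_near hd hF hu hh
    have h1 := hu.mono (lip_one (by omega) hu hh hj)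
    exact flat_of_hess hd hF hu hh hp (cert (by omega) h6 h1 hh hj)

end Crest.Agent.R97
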