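import Crest.Agent.R97.SideW1
import Crest.Agent.R97.CertPW2

/-! SideW2 (helper67): the certificate for `W1` from the matrix condition on the unit box. -/

set_option autoImplicit false

namespace Crest.Agent.R97

theorem cert_of_U1 {η : ℝ} (η0 : 0 < η) (hM : W1.tab.MatU η) {d : ℕ} (hd : 2 ≤ d) (hd6 : d ≤ 6) {u : E d → ℝ}
    (hu : Mn 1 u) (hh : Hom u) (hj : JetsNear u) : ∀ x, 0 < u x → ∀ a b, pd a (pd b u) x = 0 :=
  cert_of_NW1 (Tab.NW_of_matU' W1_c1 η0 W1_rows hM) hd hd6 hu hh hj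

end Crest.Agent.R97
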