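import Crest.Agent.R97.MatW1
import Crest.Agent.R97.SideW2
import Crest.Agent.Lib.BSp.ChkM

/-! MatZ (helper96): the certificate from the positivity of the separated form `MW1` on the unit box. -/

set_option autoImplicit false

namespace Crest.Agent.R97
open Crest.Agent.BSp

/-- five numbers as a sequence -/
def vec5 (x0 x1 x2 x3 x4 : ℝ) : ℕ → ℝ
  | 0 => x0
  | 1 => x1
  | 2 => x2
  | 3 => x3
  | _ => x4

theorem xi_vec5 (x0 x1 x2 x3 x4 : ℝ) : Xi (xi (vec5 x0 x1 x2 x3 x4)) x0 x1 x2 x3 x4 := by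
  constructor <;> simp only [xi, vec5] <;> ring

theorem W1_matU_of_G0 (h : G0 MW1) : W1.tab.MatU (1 / 1000) :=
  W1_matU xi_vec5 fun s y q v w s0 s1 y0 y1 q0 q1 v0 v1 w0 w1 _ _ _ _ _ =>
    h s y q v w s0 s1 y0 y1 q0 q1 v0 v1 w0 w1 _

theorem cert_of_G0 (h : BSp.G0 MW1) {d : ℕ} (hd : 2 ≤ d) (hd6 : d ≤ 6) {u : E d → ℝ}
    (hu : Mn 1 u) (hh : Hom u) (hj : JetsNear u) : ∀ x, 0 < u x → ∀ a b, pd a (pd b u) x = 0 :=
  cert_of_U1 (by norm_num) (W1_matU_of_G0 h) hd hd6 hu hh hj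

end Crest.Agent.R97
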