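import Crest.Agent.R97.CertBw
import Crest.Agent.R97.CertBz
import Crest.Agent.R97.NRw
import Crest.Agent.R97.NBwB
import Crest.Agent.R97.NBwR

/-! generated (helper64): the boundary row and the scalar rows for the table -/

set_option autoImplicit false
set_option maxRecDepth 100000
set_option linter.all false

namespace Crest.Agent.R97.NBw

open Crest.Agent.Bern

noncomputable def Fq (r t : ℝ) : ℝ := (((((((3299 / 5000 : ℝ) * r) + (-2321 / 1250 : ℝ)) * r) + (-6641 / 10000 : ℝ)) * t) + (((((((5063 / 5000 : ℝ) * r) + (-2767 / 2500 : ℝ)) * r) + (107 / 1250 : ℝ)) * r) + (1 : ℝ)))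

noncomputable def Kq (r t : ℝ) : ℝ := (((((((1087 / 10000 : ℝ) * r) + (-2271 / 5000 : ℝ)) * r) + (-471 / 1000 : ℝ)) * t) + (((((((9593 / 10000 : ℝ) * r) + (-3 / 2 : ℝ)) * r) + (329 / 400 : ℝ)) * r) + (5099 / 10000 : ℝ)))

noncomputable def A1q (r t : ℝ) : ℝ := (((((((-1241 / 2500 : ℝ) * r) + (1599 / 5000 : ℝ)) * r) + (967 / 10000 : ℝ)) * r) + (63 / 625 : ℝ))

noncomputable def A2q (r t : ℝ) : ℝ := (((((15461 / 10000 : ℝ) * r) + (-6457 / 5000 : ℝ)) * r) + (3711 / 10000 : ℝ))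

noncomputable def B1q (r t : ℝ) : ℝ := (((((((-786 / 625 : ℝ) * r) + (3 / 2 : ℝ)) * r) + (-737 / 1250 : ℝ)) * r) + (301 / 5000 : ℝ))

noncomputable def B2q (r t : ℝ) : ℝ := (((((19027 / 10000 : ℝ) * r) + (-2887 / 2000 : ℝ)) * r) + (1043 / 10000 : ℝ))

noncomputable def Cq (r t : ℝ) : ℝ := (((((((-6021 / 2500 : ℝ) * r) + (4703 / 2000 : ℝ)) * r) + (-51 / 400 : ℝ)) * t) + (((((((5663 / 10000 : ℝ) * r) + (-3 / 2 : ℝ)) * r) + (5293 / 5000 : ℝ)) * r) + (-811 / 10000 : ℝ)))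

noncomputable def Dq (r t : ℝ) : ℝ := (((((((249 / 625 : ℝ) * r) + (-2887 / 5000 : ℝ)) * r) + (4187 / 10000 : ℝ)) * t) + (((((((173 / 400 : ℝ) * r) + (194 / 625 : ℝ)) * r) + (-2009 / 2500 : ℝ)) * r) + (-13 / 1250 : ℝ)))

/-- the table values on the boundary -/
structure Is (N : Tab) : Prop where
  F : ∀ s θ, N.F.h s 0 0 θ = Fq (1 - s ^ 2) (s ^ 3 * θ)
  K : ∀ s θ, N.K.v s 0 0 θ = Kq (1 - s ^ 2) (s ^ 3 * θ)
  A : ∀ s θ, N.A.h s 0 0 θ = A1q (1 - s ^ 2) (s ^ 3 * θ) + s * θ * A2q (1 - s ^ 2) (s ^ 3 * θ)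
  B : ∀ s θ, N.B.h s 0 0 θ = B1q (1 - s ^ 2) (s ^ 3 * θ) + s * θ * B2q (1 - s ^ 2) (s ^ 3 * θ)
  C : ∀ s θ, N.C.v s 0 0 θ = Cq (1 - s ^ 2) (s ^ 3 * θ)
  D : ∀ s θ, N.D.v s 0 0 θ = Dq (1 - s ^ 2) (s ^ 3 * θ)

noncomputable def LF : List Mon := [((1 : ℝ), 0, 0, 0, 0), ((-6641 / 10000 : ℝ), 0, 0, 0, 1), ((107 / 1250 : ℝ), 1, 0, 0, 0), ((-2321 / 1250 : ℝ), 1, 0, 0, 1), ((-2767 / 2500 : ℝ), 2, 0, 0, 0), ((3299 / 5000 : ℝ), 2, 0, 0, 1), ((5063 / 5000 : ℝ), 3, 0, 0, 0)]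

theorem eF (r t : ℝ) : pe LF r 0 0 t = Fq r t := by
  simp only [LF, pe, Fq]
  ring

noncomputable def LK : List Mon := [((5099 / 10000 : ℝ), 0, 0, 0, 0), ((-471 / 1000 : ℝ), 0, 0, 0, 1), ((329 / 400 : ℝ), 1, 0, 0, 0), ((-2271 / 5000 : ℝ), 1, 0, 0, 1), ((-3 / 2 : ℝ), 2, 0, 0, 0), ((1087 / 10000 : ℝ), 2, 0, 0, 1), ((9593 / 10000 : ℝ), 3, 0, 0, 0)]

theorem eK (r t : ℝ) : pe LK r 0 0 t = Kq r t := by
  simp only [LK, pe, Kq]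
  ring

noncomputable def LA1 : List Mon := [((63 / 625 : ℝ), 0, 0, 0, 0), ((967 / 10000 : ℝ), 1, 0, 0, 0), ((1599 / 5000 : ℝ), 2, 0, 0, 0), ((-1241 / 2500 : ℝ), 3, 0, 0, 0)]

theorem eA1 (r t : ℝ) : pe LA1 r 0 0 t = A1q r t := by
  simp only [LA1, pe, A1q]
  ring

noncomputable def LA2 : List Mon := [((3711 / 10000 : ℝ), 0, 0, 0, 0), ((-6457 / 5000 : ℝ), 1, 0, 0, 0), ((15461 / 10000 : ℝ), 2, 0, 0, 0)]

theorem eA2 (r t : ℝ) : pe LA2 r 0 0 t = A2q r t := by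
  simp only [LA2, pe, A2q]
  ring

noncomputable def LB1 : List Mon := [((301 / 5000 : ℝ), 0, 0, 0, 0), ((-737 / 1250 : ℝ), 1, 0, 0, 0), ((3 / 2 : ℝ), 2, 0, 0, 0), ((-786 / 625 : ℝ), 3, 0, 0, 0)]

theorem eB1 (r t : ℝ) : pe LB1 r 0 0 t = B1q r t := by
  simp only [LB1, pe, B1q]
  ring

noncomputable def LB2 : List Mon := [((1043 / 10000 : ℝ), 0, 0, 0, 0), ((-2887 / 2000 : ℝ), 1, 0, 0, 0), ((19027 / 10000 : ℝ), 2, 0, 0, 0)]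

theorem eB2 (r t : ℝ) : pe LB2 r 0 0 t = B2q r t := by
  simp only [LB2, pe, B2q]
  ring

noncomputable def LC : List Mon := [((-811 / 10000 : ℝ), 0, 0, 0, 0), ((-51 / 400 : ℝ), 0, 0, 0, 1), ((5293 / 5000 : ℝ), 1, 0, 0, 0), ((4703 / 2000 : ℝ), 1, 0, 0, 1), ((-3 / 2 : ℝ), 2, 0, 0, 0), ((-6021 / 2500 : ℝ), 2, 0, 0, 1), ((5663 / 10000 : ℝ), 3, 0, 0, 0)]

theorem eC (r t : ℝ) : pe LC r 0 0 t = Cq r t := by
  simp only [LC, pe, Cq]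
  ring

noncomputable def LD : List Mon := [((-13 / 1250 : ℝ), 0, 0, 0, 0), ((4187 / 10000 : ℝ), 0, 0, 0, 1), ((-2009 / 2500 : ℝ), 1, 0, 0, 0), ((-2887 / 5000 : ℝ), 1, 0, 0, 1), ((194 / 625 : ℝ), 2, 0, 0, 0), ((249 / 625 : ℝ), 2, 0, 0, 1), ((173 / 400 : ℝ), 3, 0, 0, 0)]

theorem eD (r t : ℝ) : pe LD r 0 0 t = Dq r t := by
  simp only [LD, pe, Dq]
  ring

noncomputable def T0 : Tab := ⟨0, 0, 0, ⟨[], LF, []⟩, ⟨LK, [], []⟩, ⟨LD, [], []⟩, ⟨[], LA1, LA2⟩, ⟨[], LB1, LB2⟩, ⟨LC, [], []⟩⟩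

theorem is0 : Is T0 where
  F s θ := by simp only [T0, Tb.h, Tb.gh, pe, eF, mul_zero, add_zero]
  K s θ := by simp only [T0, Tb.v, Tb.g, pe, eK, mul_zero, add_zero]
  A s θ := by simp only [T0, Tb.h, Tb.gh, eA1, eA2]
  B s θ := by simp only [T0, Tb.h, Tb.gh, eB1, eB2]
  C s θ := by simp only [T0, Tb.v, Tb.g, pe, eC, mul_zero, add_zero]
  D s θ := by simp only [T0, Tb.v, Tb.g, pe, eD, mul_zero, add_zero]

theorem nb0 : T0.NB 4 := by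
  refine T0.NB_of_box fun y0 y1 y2 y3 t m1 m2 m3 m4 n θ q a0 b0 a1 b1 a2 b2 a3 b3 ht h1 h2 h3 h4 hn hθ hq hh => ?_
  obtain ⟨x, hx, x0, x1, x2, x3⟩ := NRw.in01 a0 b0 a1 b1 a2 b2 a3 b3
  have et : NBwB.t_r x = t := by rw [NBwB.t_r, x0, ht]
  have e1 : NBwB.m1_r x = m1 := by rw [NBwB.m1_r, x1, h1]
  have e2 : NBwB.m2_r x = m2 := by rw [NBwB.m2_r, e1, x1, x2, h2]
  have e3 : NBwB.m3_r x = m3 := by rw [NBwB.m3_r, e2, x1, x2, x3, h3]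
  have e4 : NBwB.m4_r x = m4 := by rw [NBwB.m4_r, e1, e2, e3, h4]
  have en : NBwB.n_r x = n := by rw [NBwB.n_r, e1, e2, e3, e4, hn]
  have eh : NBwB.th_r x = θ := by rw [NBwB.th_r, e1, e2, e3, e4, hθ]
  have eq : NBwB.q_r x = q := by rw [NBwB.q_r, e1, e2, e3, e4, hq]
  have er : NBwB.r_r x = 1 - t ^ 2 * n := by rw [NBwB.r_r, et, en]
  have eu : NBwB.tau_r x = t ^ 3 * θ := by rw [NBwB.tau_r, et, eh]
  have k := NBwB.final x hx (by rw [NBwB.top1_r, et, en]; linarith)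
  have fF : NBwB.F_r x = Fq (1 - t ^ 2 * n) (t ^ 3 * θ) := by rw [← er, ← eu]; rfl
  have fK : NBwB.K_r x = Kq (1 - t ^ 2 * n) (t ^ 3 * θ) := by rw [← er, ← eu]; rfl
  have fA1 : NBwB.A1_r x = A1q (1 - t ^ 2 * n) (t ^ 3 * θ) := by rw [← er, ← eu]; rfl
  have fA2 : NBwB.A2_r x = A2q (1 - t ^ 2 * n) (t ^ 3 * θ) := by rw [← er, ← eu]; rfl
  have fB1 : NBwB.B1_r x = B1q (1 - t ^ 2 * n) (t ^ 3 * θ) := by rw [← er, ← eu]; rfl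
  have fB2 : NBwB.B2_r x = B2q (1 - t ^ 2 * n) (t ^ 3 * θ) := by rw [← er, ← eu]; rfl
  have fC : NBwB.C_r x = Cq (1 - t ^ 2 * n) (t ^ 3 * θ) := by rw [← er, ← eu]; rfl
  have fD : NBwB.D_r x = Dq (1 - t ^ 2 * n) (t ^ 3 * θ) := by rw [← er, ← eu]; rfl
  rw [NBwB.top0_r, fF, fK, fA1, fA2, fB1, fB2, fC, fD, et, en, eh, eq] at k
  simp only [Tab.nbP, T0, Tb.g, pe, eF, eK, eA1, eA2, eB1, eB2, eC, eD, mul_zero, add_zero]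
  exact k

theorem nb {N : Tab} (h : Is N) : N.NB 4 := by
  intro s H θ q ν a1 a2 a3 a4 a5 a6 a7 a8 a9
  have k := nb0 s H θ q ν a1 a2 a3 a4 a5 a6 a7 a8 a9
  rw [is0.F, is0.K, is0.A, is0.B, is0.C, is0.D] at k
  rw [h.F, h.K, h.A, h.B, h.C, h.D]
  exact k

theorem in5 {a b c d e : ℝ} (a0 : 0 ≤ a) (a1 : a ≤ 1) (b0 : 0 ≤ b) (b1 : b ≤ 1) (c0 : 0 ≤ c) (c1 : c ≤ 1) (d0 : 0 ≤ d)
    (d1 : d ≤ 1) (e0 : 0 ≤ e) (e1 : e ≤ 1) : ∃ x : ℕ → ℝ, In01 x ∧ x 0 = a ∧ x 1 = b ∧ x 2 = c ∧ x 3 = d ∧ x 4 = e :=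
  ⟨fun i => match i with | 0 => a | 1 => b | 2 => c | 3 => d | _ => e, fun j => by
    match j with
    | 0 => exact ⟨a0, a1⟩
    | 1 => exact ⟨b0, b1⟩
    | 2 => exact ⟨c0, c1⟩
    | 3 => exact ⟨d0, d1⟩
    | _ + 4 => exact ⟨e0, e1⟩, rfl, rfl, rfl, rfl, rfl⟩

theorem rows {N : Tab} (h : NRw.Is N) : N.Rows (1 : ℝ) := by
  refine N.Rows_of_box (by rw [h.c]; norm_num) _ ?_
  intro s z p w θ s0 s1 z0 z1 p0 p1 w0 w1 t0 t1 hw hR hS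
  rw [h.c] at hS
  obtain ⟨x, hx, x0, x1, x2, x3, x4⟩ := in5 (b := z * (1 : ℝ)) (d := (w + 9 / 10) * (5 / 9)) (e := (θ + 671 / 1000) * (500 / 671))
    s0 s1 (by positivity) (by linarith) p0 p1 (by linarith) (by linarith) (by linarith) (by linarith)
  have ez : NBwR.z_r x = z := by rw [NBwR.z_r, x1]; ring
  have ew : NBwR.w_r x = w := by rw [NBwR.w_r, x3]; ring
  have et : NBwR.th_r x = θ := by rw [NBwR.th_r, x4]; ring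
  have er : NBwR.r_r x = 1 - s ^ 2 := by rw [NBwR.r_r, x0]
  have eu : NBwR.tau_r x = s ^ 3 * θ := by rw [NBwR.tau_r, x0, et]
  have eX : NBwR.X_r x = z * s := by rw [NBwR.X_r, x0, ez]
  have eN : NBwR.Nn_r x = (1 - 5 / 4 * w ^ 2) / 4 := by rw [NBwR.Nn_r, ew]; ring
  have k := NBwR.final x hx (by rw [NBwR.top1_r, et, ew, eN]; linarith) (by rw [NBwR.top2_r, eX, x2]; linarith)
    (by rw [NBwR.top3_r, ez, er, x2]; linarith)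
  have eK : NBwR.K_r x = NRw.Kp (1 - s ^ 2) z p (s ^ 3 * θ) := by rw [← er, ← eu, ← ez, ← x2]; rfl
  have eD : NBwR.D_r x = NRw.Dp (1 - s ^ 2) z p (s ^ 3 * θ) := by rw [← er, ← eu, ← ez, ← x2]; rfl
  rw [NBwR.top0_r, eK, eD, ew, x0] at k
  rw [h.K, h.D]
  linarith

end Crest.Agent.R97.NBw
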