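import Crest.Agent.R97.NBwBD

set_option autoImplicit false
set_option maxRecDepth 100000
set_option Elab.async false
set_option linter.all false

namespace Crest.Agent.R97.NBwB

open Crest.Agent.Bern

theorem c0 : Good 64 44 [9, 11, 11, 11] 2 (sub 64 [9, 11, 11, 11] 2 R [(0, false), (0, false)]) :=
  good_of_go (wb := 17) (by decide) (by decide) (by decide) 8 _
    0x7c00000001f000000007c00000001f000000007c00000001f321000000007c0400000001f01 (by decide +kernel)

theorem c1 : Good 64 44 [9, 11, 11, 11] 2 (sub 64 [9, 11, 11, 11] 2 R [(1, false), (0, true), (0, false)]) :=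
  good_of_go (wb := 17) (by decide) (by decide) (by decide) 8 _
    0x7c00000001f0000000007c000000001f000000007c00000001f23000000007c00000001f000000007c4c400000001f000000007c00000001f2000000007c0c00000001f000000007c00000001f000000007c0800000001f000000007c00000001f3203102 (by decide +kernel)

theorem c2 : Good 64 44 [9, 11, 11, 11] 2 (sub 64 [9, 11, 11, 11] 2 R [(1, true), (0, true), (0, false)]) :=
  good_of_go (wb := 17) (by decide) (by decide) (by decide) 6 _
    0x7c00000001f000000007c00000001f32000000007c0400000001f0 (by decide +kernel)

theorem c3 : Good 64 44 [9, 11, 11, 11] 2 (sub 64 [9, 11, 11, 11] 2 R [(1, false), (0, true)]) :=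
  good_of_go (wb := 17) (by decide) (by decide) (by decide) 9 _
    0x80003c00000001f000000007c00020000f32000080003c4000000001f000000007c000000001f000000007c0000000001f000000007c00000001f000080003cc8c00000001f000000007c800000001f30000000007c00020000f000000007c00020000f000000007c00020000f10203120 (by decide +kernel)

theorem c4 : Good 64 44 [9, 11, 11, 11] 2 (sub 64 [9, 11, 11, 11] 2 R [(0, false), (1, true), (0, true)]) :=
  good_of_go (wb := 17) (by decide) (by decide) (by decide) 7 _
    0x7c00000001f000000007c8400000001f000000007c000000001f000000007cc00000001f000000007c000000001f31000000007c00000001f1000000007c00000001f03021 (by decide +kernel)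

theorem c5 : Good 64 44 [9, 11, 11, 11] 2 (sub 64 [9, 11, 11, 11] 2 R [(0, true), (1, true), (0, true)]) :=
  good_of_go (wb := 17) (by decide) (by decide) (by decide) 8 _
    0x1f0000fffffc00000001f00000fffffc00000001f02000000007c00000001f2010000fffffc00020000f10000fffffc00000001f000080003c4000000001f0000000007c00020000f120000000007c00000001f1000000007c00000001f1000000007c00000001f000080003c0003fffff0321201 (by decide +kernel)

end Crest.Agent.R97.NBwB
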