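import Crest.Agent.Lib.TM.PsdC
set_option autoImplicit false
set_option linter.unusedVariables false
set_option linter.unusedTactic false
set_option linter.unreachableTactic false
set_option maxRecDepth 100000
namespace Crest.Agent.R97.PB
open Crest.Agent.R307 Crest.Agent.R307.IA Crest.Agent.TM.T53
open Crest.Agent.R307.IA5 (Ev Snd Cov cov_of join1 join2 join3 join4 join5)

theorem pw11 {a : ℝ} : a * a = a ^ 2 := (sq a).symm
theorem pwn1 {a : ℝ} {i n : ℕ} (h : i + 1 = n) : a ^ i * a = a ^ n := by rw [← h, pow_succ]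
theorem pwnn {a : ℝ} {i j n : ℕ} (h : i + j = n) : a ^ i * a ^ j = a ^ n := by rw [← h, pow_add]
theorem Nrm_re {e1 e2 e3 e4 e5 v w : ℝ} {X XM r t0 t1 t2 t3 : ℕ} (h : Nrm e1 e2 e3 e4 e5 XM r t0 t1 t2 t3 v) (h1 : In e1 e2 e3 e4 e5 X v) (h2 : In e1 e2 e3 e4 e5 X w) (e : v = w) :
    Nrm e1 e2 e3 e4 e5 XM r t0 t1 t2 t3 w := e ▸ h

noncomputable def f_iy (s t q u th : ℝ) : ℝ := ((1:ℝ) / ((1:ℝ) + (t ^ 2)))
noncomputable def f_w (s t q u th : ℝ) : ℝ := (((2:ℝ) * (f_iy s t q u th)) - (1:ℝ))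
noncomputable def f_P (s t q u th : ℝ) : ℝ := (q * (f_w s t q u th))
noncomputable def f_PP (s t q u th : ℝ) : ℝ := ((f_P s t q u th) ^ 2)
noncomputable def f_z (s t q u th : ℝ) : ℝ := ((2:ℝ) * (t * (f_iy s t q u th)))
noncomputable def f_s2 (s t q u th : ℝ) : ℝ := (s ^ 2)
noncomputable def f_r (s t q u th : ℝ) : ℝ := ((1:ℝ) - (f_s2 s t q u th))
noncomputable def f_p (s t q u th : ℝ) : ℝ := (((1:ℝ) - (f_PP s t q u th)) - (((f_z s t q u th) ^ 2) * (f_r s t q u th)))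
noncomputable def f_TF_000 (s t q u th : ℝ) : ℝ := ((((((((((((((((((((78125/131072:ℝ) + ((-133875/1048576:ℝ) * (f_p s t q u th))) + ((-36125/262144:ℝ) * ((f_p s t q u th) ^ 2))) + ((111875/262144:ℝ) * ((f_p s t q u th) ^ 3))) + ((478625/2097152:ℝ) * (f_z s t q u th))) + ((610125/524288:ℝ) * ((f_z s t q u th) * (f_p s t q u th)))) + ((-760125/524288:ℝ) * ((f_z s t q u th) * ((f_p s t q u th) ^ 2)))) + ((-1314125/2097152:ℝ) * ((f_z s t q u th) ^ 2))) + ((-1543375/2097152:ℝ) * (((f_z s t q u th) ^ 2) * (f_p s t q u th)))) + ((734875/524288:ℝ) * ((f_z s t q u th) ^ 3))) + ((13375/262144:ℝ) * (f_r s t q u th))) + ((234375/262144:ℝ) * ((f_r s t q u th) * (f_p s t q u th)))) + ((-117875/262144:ℝ) * ((f_r s t q u th) * ((f_p s t q u th) ^ 2)))) + ((-685875/2097152:ℝ) * ((f_r s t q u th) * (f_z s t q u th)))) + ((-345375/262144:ℝ) * (((f_r s t q u th) * (f_z s t q u th)) * (f_p s t q u th))))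 + ((-375/131072:ℝ) * ((f_r s t q u th) * ((f_z s t q u th) ^ 2)))) + ((-345875/524288:ℝ) * ((f_r s t q u th) ^ 2))) + ((531625/1048576:ℝ) * (((f_r s t q u th) ^ 2) * (f_p s t q u th)))) + ((703125/2097152:ℝ) * (((f_r s t q u th) ^ 2) * (f_z s t q u th)))) + ((632875/1048576:ℝ) * ((f_r s t q u th) ^ 3)))
noncomputable def f_TF_310 (s t q u th : ℝ) : ℝ := ((((((((((-830125/2097152:ℝ) + ((793125/2097152:ℝ) * (f_p s t q u th))) + ((-7625/32768:ℝ) * ((f_p s t q u th) ^ 2))) + ((26375/524288:ℝ) * (f_z s t q u th))) + ((1961625/2097152:ℝ) * ((f_z s t q u th) * (f_p s t q u th)))) + ((-2227625/2097152:ℝ) * ((f_z s t q u th) ^ 2))) + ((-290125/262144:ℝ) * (f_r s t q u th))) + ((711375/524288:ℝ) * ((f_r s t q u th) * (f_p s t q u th)))) + ((76125/524288:ℝ) * ((f_r s t q u th) * (f_z s t q u th)))) + ((412375/1048576:ℝ) * ((f_r s t q u th) ^ 2)))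
noncomputable def f_s3 (s t q u th : ℝ) : ℝ := (s * (f_s2 s t q u th))
noncomputable def f_XF_310 (s t q u th : ℝ) : ℝ := ((f_TF_310 s t q u th) * (f_s3 s t q u th))
noncomputable def f_idn (s t q u th : ℝ) : ℝ := ((1:ℝ) / ((1:ℝ) + ((5:ℝ) * (u ^ 2))))
noncomputable def f_l (s t q u th : ℝ) : ℝ := ((4:ℝ) * (u * (f_idn s t q u th)))
noncomputable def f_l2 (s t q u th : ℝ) : ℝ := ((f_l s t q u th) ^ 2)
noncomputable def f_n (s t q u th : ℝ) : ℝ := ((f_idn s t q u th) - (1/2:ℝ))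
noncomputable def f_tt (s t q u th : ℝ) : ℝ := ((f_n s t q u th) * th)
noncomputable def f_d2 (s t q u th : ℝ) : ℝ := ((2:ℝ) - ((2:ℝ) * (th ^ 2)))
noncomputable def f_nd (s t q u th : ℝ) : ℝ := ((f_n s t q u th) * (f_d2 s t q u th))
noncomputable def f_R2 (s t q u th : ℝ) : ℝ := ((f_n s t q u th) * (f_nd s t q u th))
noncomputable def f_tht (s t q u th : ℝ) : ℝ := (((f_l s t q u th) * (((15/16:ℝ) * (f_l2 s t q u th)) - ((3:ℝ) * ((f_n s t q u th) ^ 2)))) - ((6:ℝ) * ((f_tt s t q u th) * (f_R2 s t q u th))))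
noncomputable def f_F (s t q u th : ℝ) : ℝ := ((f_TF_000 s t q u th) + ((f_XF_310 s t q u th) * (f_tht s t q u th)))
noncomputable def f_E11 (s t q u th : ℝ) : ℝ := ((f_F s t q u th) - (1/65536:ℝ))
noncomputable def f_Tg1_000 (s t q u th : ℝ) : ℝ := (((((((((((((((((((((((((((78125/262144:ℝ) + ((-133875/2097152:ℝ) * (f_p s t q u th))) + ((-36125/524288:ℝ) * ((f_p s t q u th) ^ 2))) + ((111875/524288:ℝ) * ((f_p s t q u th) ^ 3))) + ((478625/2097152:ℝ) * (f_z s t q u th))) + ((610125/524288:ℝ) * ((f_z s t q u th) * (f_p s t q u th)))) + ((-760125/524288:ℝ) * ((f_z s t q u th) * ((f_p s t q u th) ^ 2)))) + ((-3942375/4194304:ℝ) * ((f_z s t q u th) ^ 2))) + ((-4630125/4194304:ℝ) * (((f_z s t q u th) ^ 2) * (f_p s t q u th)))) + ((734875/262144:ℝ) * ((f_z s t q u th) ^ 3))) + ((142875/524288:ℝ) * (f_r s t q u th))) + ((-1071375/2097152:ℝ) * ((f_r s t q u th) * (f_p s t q u th)))) + ((40875/262144:ℝ)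 * ((f_r s t q u th) * ((f_p s t q u th) ^ 2)))) + ((111875/524288:ℝ) * ((f_r s t q u th) * ((f_p s t q u th) ^ 3)))) + ((1308125/4194304:ℝ) * ((f_r s t q u th) * ((f_z s t q u th) ^ 2)))) + ((1543375/4194304:ℝ) * (((f_r s t q u th) * ((f_z s t q u th) ^ 2)) * (f_p s t q u th)))) + ((-734875/524288:ℝ) * ((f_r s t q u th) * ((f_z s t q u th) ^ 3)))) + ((1117875/1048576:ℝ) * ((f_r s t q u th) ^ 2))) + ((1217625/2097152:ℝ) * (((f_r s t q u th) ^ 2) * (f_p s t q u th)))) + ((-353625/524288:ℝ) * (((f_r s t q u th) ^ 2) * ((f_p s t q u th) ^ 2)))) + ((-173625/262144:ℝ) * (((f_r s t q u th) ^ 2) * (f_z s t q u th)))) + ((-345375/262144:ℝ) * ((((f_r s t q u th) ^ 2) * (f_z s t q u th)) * (f_p s t q u th)))) + ((-375/262144:ℝ) * (((f_r s t q u th) ^ 2) * ((f_z s t q u th) ^ 2)))) + ((-6623125/2097152:ℝ) * ((f_r s t q u th) ^ 3))) + ((2658125/2097152:ℝ) * (((f_r s t q u th) ^ 3) * (f_p s t q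 u th)))) + ((703125/1048576:ℝ) * (((f_r s t q u th) ^ 3) * (f_z s t q u th)))) + ((4430125/2097152:ℝ) * ((f_r s t q u th) ^ 4)))
noncomputable def f_Tg1_310 (s t q u th : ℝ) : ℝ := (((((((((((((((830125/2097152:ℝ) + ((-793125/2097152:ℝ) * (f_p s t q u th))) + ((7625/32768:ℝ) * ((f_p s t q u th) ^ 2))) + ((-26375/1048576:ℝ) * (f_z s t q u th))) + ((-1961625/4194304:ℝ) * ((f_z s t q u th) * (f_p s t q u th)))) + ((1490875/1048576:ℝ) * (f_r s t q u th))) + ((-2052375/1048576:ℝ) * ((f_r s t q u th) * (f_p s t q u th)))) + ((-7625/16384:ℝ) * ((f_r s t q u th) * ((f_p s t q u th) ^ 2)))) + ((-74625/524288:ℝ) * ((f_r s t q u th) * (f_z s t q u th)))) + ((5884875/4194304:ℝ) * (((f_r s t q u th) * (f_z s t q u th)) * (f_p s t q u th)))) + ((-2227625/2097152:ℝ) * ((f_r s t q u th) * ((f_z s t q u th) ^ 2)))) + ((-4718625/1048576:ℝ) * ((f_r s t q u th) ^ 2))) + ((2134125/524288:ℝ) * (((f_r s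 t q u th) ^ 2) * (f_p s t q u th)))) + ((380625/1048576:ℝ) * (((f_r s t q u th) ^ 2) * (f_z s t q u th)))) + ((412375/262144:ℝ) * ((f_r s t q u th) ^ 3)))
noncomputable def f_Xg1_310 (s t q u th : ℝ) : ℝ := ((f_Tg1_310 s t q u th) * (f_s3 s t q u th))
noncomputable def f_g1 (s t q u th : ℝ) : ℝ := ((f_Tg1_000 s t q u th) + ((f_Xg1_310 s t q u th) * (f_tht s t q u th)))
noncomputable def f_a1 (s t q u th : ℝ) : ℝ := (((2:ℝ) * (f_tt s t q u th)) - ((5/2:ℝ) * (f_l s t q u th)))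
noncomputable def f_Tg2_100 (s t q u th : ℝ) : ℝ := ((((((((((((((((-2490375/4194304:ℝ) + ((2379375/4194304:ℝ) * (f_p s t q u th))) + ((-22875/65536:ℝ) * ((f_p s t q u th) ^ 2))) + ((79125/1048576:ℝ) * (f_z s t q u th))) + ((5884875/4194304:ℝ) * ((f_z s t q u th) * (f_p s t q u th)))) + ((-6682875/4194304:ℝ) * ((f_z s t q u th) ^ 2))) + ((-4472625/4194304:ℝ) * (f_r s t q u th))) + ((6157125/4194304:ℝ) * ((f_r s t q u th) * (f_p s t q u th)))) + ((22875/65536:ℝ) * ((f_r s t q u th) * ((f_p s t q u th) ^ 2)))) + ((74625/524288:ℝ) * ((f_r s t q u th) * (f_z s t q u th)))) + ((-5884875/4194304:ℝ) * (((f_r s t q u th) * (f_z s t q u th)) * (f_p s t q u th)))) + ((6682875/4194304:ℝ) * ((f_r s t q u th) * ((f_z s t q u th) ^ 2)))) + ((4718625/2097152:ℝ) * ((f_r s t q u th) ^ 2))) + ((-2134125/1048576:ℝ) * (((f_r s t q u th) ^ 2) * (f_p s t q u th)))) + ((-228375/1048576:ℝ) * (((f_r s t q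 u th) ^ 2) * (f_z s t q u th)))) + ((-1237125/2097152:ℝ) * ((f_r s t q u th) ^ 3)))
noncomputable def f_Xg2_100 (s t q u th : ℝ) : ℝ := ((f_Tg2_100 s t q u th) * s)
noncomputable def f_g2 (s t q u th : ℝ) : ℝ := (f_Xg2_100 s t q u th)
noncomputable def f_b1 (s t q u th : ℝ) : ℝ := (((2:ℝ) * (((f_tt s t q u th) - ((f_l s t q u th) / (4:ℝ))) ^ 2)) - ((2:ℝ) * (f_l2 s t q u th)))
noncomputable def f_E21 (s t q u th : ℝ) : ℝ := (((f_g1 s t q u th) * (f_a1 s t q u th)) + ((f_g2 s t q u th) * (f_b1 s t q u th)))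
noncomputable def f_Tm1_200 (s t q u th : ℝ) : ℝ := (((((((((((((((((-637375/2097152:ℝ) + ((25625/1048576:ℝ) * (f_p s t q u th))) + ((-50375/262144:ℝ) * ((f_p s t q u th) ^ 2))) + ((-58875/131072:ℝ) * ((f_p s t q u th) ^ 3))) + ((-459625/1048576:ℝ) * ((f_z s t q u th) ^ 2))) + ((2731625/2097152:ℝ) * (((f_z s t q u th) ^ 2) * (f_p s t q u th)))) + ((2619125/1048576:ℝ) * ((f_z s t q u th) ^ 3))) + ((-3084375/2097152:ℝ) * (f_r s t q u th))) + ((-2862375/2097152:ℝ) * ((f_r s t q u th) * (f_p s t q u th)))) + ((973125/524288:ℝ) * ((f_r s t q u th) * ((f_p s t q u th) ^ 2)))) + ((514875/1048576:ℝ) * ((f_r s t q u th) * (f_z s t q u th)))) + ((-234375/65536:ℝ) * (((f_r s t q u th) * (f_z s t q u th)) * (f_p s t q u th)))) + ((-345625/2097152:ℝ) * ((f_r s t q u th) * ((f_z s t q u th) ^ 2)))) + ((1171875/262144:ℝ) * ((f_r s t q u th) ^ 2))) + ((-1171875/262144:ℝ) * (((f_r s t q u th) ^ 2)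 * (f_p s t q u th)))) + ((-278875/262144:ℝ) * (((f_r s t q u th) ^ 2) * (f_z s t q u th)))) + ((-8393875/2097152:ℝ) * ((f_r s t q u th) ^ 3)))
noncomputable def f_Xm1_200 (s t q u th : ℝ) : ℝ := ((f_Tm1_200 s t q u th) * (f_s2 s t q u th))
noncomputable def f_Tm1_510 (s t q u th : ℝ) : ℝ := ((((((((((294375/262144:ℝ) + ((-263875/524288:ℝ) * (f_p s t q u th))) + ((-62125/262144:ℝ) * ((f_p s t q u th) ^ 2))) + ((150375/2097152:ℝ) * (f_z s t q u th))) + ((2203125/2097152:ℝ) * ((f_z s t q u th) * (f_p s t q u th)))) + ((-423625/1048576:ℝ) * ((f_z s t q u th) ^ 2))) + ((851625/524288:ℝ) * (f_r s t q u th))) + ((-766875/262144:ℝ) * ((f_r s t q u th) * (f_p s t q u th)))) + ((8788125/2097152:ℝ) * ((f_r s t q u th) * (f_z s t q u th)))) + ((-135875/262144:ℝ) * ((f_r s t q u th) ^ 2)))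
noncomputable def f_s5 (s t q u th : ℝ) : ℝ := ((f_s2 s t q u th) * (f_s3 s t q u th))
noncomputable def f_Xm1_510 (s t q u th : ℝ) : ℝ := ((f_Tm1_510 s t q u th) * (f_s5 s t q u th))
noncomputable def f_m1 (s t q u th : ℝ) : ℝ := ((f_Xm1_200 s t q u th) + ((f_Xm1_510 s t q u th) * (f_tht s t q u th)))
noncomputable def f_aa11 (s t q u th : ℝ) : ℝ := ((f_a1 s t q u th) * (f_a1 s t q u th))
noncomputable def f_Tm2_300 (s t q u th : ℝ) : ℝ := (((((((((((((((((((-870125/2097152:ℝ) + ((-566125/4194304:ℝ) * (f_p s t q u th))) + ((372625/524288:ℝ) * ((f_p s t q u th) ^ 2))) + ((-405125/1048576:ℝ) * ((f_p s t q u th) ^ 3))) + ((107375/1048576:ℝ) * (f_z s t q u th))) + ((-744125/524288:ℝ) * ((f_z s t q u th) * (f_p s t q u th)))) + ((-50375/262144:ℝ) * ((f_z s t q u th) * ((f_p s t q u th) ^ 2)))) + ((1270875/4194304:ℝ) * ((f_z s t q u th) ^ 2))) + ((-64875/524288:ℝ) * ((f_z s t q u th) ^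 3))) + ((1157375/2097152:ℝ) * (f_r s t q u th))) + ((-1108125/1048576:ℝ) * ((f_r s t q u th) * (f_p s t q u th)))) + ((14875/131072:ℝ) * ((f_r s t q u th) * ((f_p s t q u th) ^ 2)))) + ((-1015125/524288:ℝ) * ((f_r s t q u th) * (f_z s t q u th)))) + ((-1275375/2097152:ℝ) * (((f_r s t q u th) * (f_z s t q u th)) * (f_p s t q u th)))) + ((-32875/1048576:ℝ) * ((f_r s t q u th) * ((f_z s t q u th) ^ 2)))) + ((-1920375/4194304:ℝ) * ((f_r s t q u th) ^ 2))) + ((217125/131072:ℝ) * (((f_r s t q u th) ^ 2) * (f_p s t q u th)))) + ((-1593125/1048576:ℝ) * (((f_r s t q u th) ^ 2) * (f_z s t q u th)))) + ((-540625/524288:ℝ) * ((f_r s t q u th) ^ 3)))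
noncomputable def f_Xm2_300 (s t q u th : ℝ) : ℝ := ((f_Tm2_300 s t q u th) * (f_s3 s t q u th))
noncomputable def f_Tm2_610 (s t q u th : ℝ) : ℝ := ((((((((((-2616875/4194304:ℝ) + ((1446875/4194304:ℝ) * (f_p s t q u th))) + ((2750625/4194304:ℝ) * ((f_p s t q u th) ^ 2))) + ((-11375/262144:ℝ) * (f_z s t q u th))) + ((-1603625/1048576:ℝ) * ((f_z s t q u th) * (f_p s t q u th)))) + ((1966125/2097152:ℝ) * ((f_z s t q u th) ^ 2))) + ((2526125/2097152:ℝ) * (f_r s t q u th))) + ((-3154375/4194304:ℝ) * ((f_r s t q u th) * (f_p s t q u th)))) + ((-3543375/2097152:ℝ) * ((f_r s t q u th) * (f_z s t q u th)))) + ((-280125/262144:ℝ) * ((f_r s t q u th) ^ 2)))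
noncomputable def f_s6 (s t q u th : ℝ) : ℝ := ((f_s3 s t q u th) * (f_s3 s t q u th))
noncomputable def f_Xm2_610 (s t q u th : ℝ) : ℝ := ((f_Tm2_610 s t q u th) * (f_s6 s t q u th))
noncomputable def f_m2 (s t q u th : ℝ) : ℝ := ((f_Xm2_300 s t q u th) + ((f_Xm2_610 s t q u th) * (f_tht s t q u th)))
noncomputable def f_ab11 (s t q u th : ℝ) : ℝ := ((2:ℝ) * ((f_a1 s t q u th) * (f_b1 s t q u th)))
noncomputable def f_Tm3_400 (s t q u th : ℝ) : ℝ := ((((((((((1570125/2097152:ℝ) + ((-868125/2097152:ℝ) * (f_p s t q u th))) + ((-1650375/2097152:ℝ) * ((f_p s t q u th) ^ 2))) + ((34125/524288:ℝ) * (f_z s t q u th))) + ((4810875/2097152:ℝ) * ((f_z s t q u th) * (f_p s t q u th)))) + ((-1966125/1048576:ℝ) * ((f_z s t q u th) ^ 2))) + ((-1082625/1048576:ℝ) * (f_r s t q u th))) + ((1351875/2097152:ℝ) * ((f_r s t q u th) * (f_p s t q u th)))) + ((3543375/2097152:ℝ) * ((f_r s t q u th) * (f_z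 s t q u th)))) + ((93375/131072:ℝ) * ((f_r s t q u th) ^ 2)))
noncomputable def f_s4 (s t q u th : ℝ) : ℝ := ((f_s2 s t q u th) * (f_s2 s t q u th))
noncomputable def f_Xm3_400 (s t q u th : ℝ) : ℝ := ((f_Tm3_400 s t q u th) * (f_s4 s t q u th))
noncomputable def f_m3 (s t q u th : ℝ) : ℝ := (f_Xm3_400 s t q u th)
noncomputable def f_bb11 (s t q u th : ℝ) : ℝ := ((f_b1 s t q u th) * (f_b1 s t q u th))
noncomputable def f_TK_000 (s t q u th : ℝ) : ℝ := ((((((((((((((((((((637375/2097152:ℝ) + ((-25625/1048576:ℝ) * (f_p s t q u th))) + ((50375/262144:ℝ) * ((f_p s t q u th) ^ 2))) + ((58875/131072:ℝ) * ((f_p s t q u th) ^ 3))) + ((340125/1048576:ℝ) * (f_z s t q u th))) + ((415625/1048576:ℝ) * ((f_z s t q u th) * (f_p s t q u th)))) + ((-3034875/2097152:ℝ) * ((f_z s t q u th) * ((f_p s t q u th) ^ 2)))) + ((-459625/1048576:ℝ) * ((f_z s t q u th) ^ 2))) + ((2731625/2097152:ℝ) * (((f_z s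 t q u th) ^ 2) * (f_p s t q u th)))) + ((2619125/2097152:ℝ) * ((f_z s t q u th) ^ 3))) + ((1028125/2097152:ℝ) * (f_r s t q u th))) + ((954125/2097152:ℝ) * ((f_r s t q u th) * (f_p s t q u th)))) + ((-324375/524288:ℝ) * ((f_r s t q u th) * ((f_p s t q u th) ^ 2)))) + ((-514875/2097152:ℝ) * ((f_r s t q u th) * (f_z s t q u th)))) + ((234375/131072:ℝ) * (((f_r s t q u th) * (f_z s t q u th)) * (f_p s t q u th)))) + ((345625/2097152:ℝ) * ((f_r s t q u th) * ((f_z s t q u th) ^ 2)))) + ((-234375/262144:ℝ) * ((f_r s t q u th) ^ 2))) + ((234375/262144:ℝ) * (((f_r s t q u th) ^ 2) * (f_p s t q u th)))) + ((278875/1048576:ℝ) * (((f_r s t q u th) ^ 2) * (f_z s t q u th)))) + ((1199125/2097152:ℝ) * ((f_r s t q u th) ^ 3)))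
noncomputable def f_TK_310 (s t q u th : ℝ) : ℝ := ((((((((((-294375/1048576:ℝ) + ((263875/2097152:ℝ) * (f_p s t q u th))) + ((62125/1048576:ℝ) * ((f_p s t q u th) ^ 2))) + ((-50125/2097152:ℝ) * (f_z s t q u th))) + ((-734375/2097152:ℝ) * ((f_z s t q u th) * (f_p s t q u th)))) + ((423625/2097152:ℝ) * ((f_z s t q u th) ^ 2))) + ((-283875/1048576:ℝ) * (f_r s t q u th))) + ((255625/524288:ℝ) * ((f_r s t q u th) * (f_p s t q u th)))) + ((-1757625/2097152:ℝ) * ((f_r s t q u th) * (f_z s t q u th)))) + ((135875/2097152:ℝ) * ((f_r s t q u th) ^ 2)))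
noncomputable def f_XK_310 (s t q u th : ℝ) : ℝ := ((f_TK_310 s t q u th) * (f_s3 s t q u th))
noncomputable def f_K (s t q u th : ℝ) : ℝ := ((f_TK_000 s t q u th) + ((f_XK_310 s t q u th) * (f_tht s t q u th)))
noncomputable def f_TD_000 (s t q u th : ℝ) : ℝ := ((((((((((((((((((((-1625/262144:ℝ) + ((678875/2097152:ℝ) * (f_p s t q u th))) + ((-1304125/2097152:ℝ) * ((f_p s t q u th) ^ 2))) + ((405125/1048576:ℝ) * ((f_p s t q u th) ^ 3))) + ((-579875/2097152:ℝ) * (f_z s t q u th))) + ((3749875/2097152:ℝ) * ((f_z s t q u th) * (f_p s t q u th)))) + ((50375/131072:ℝ) * ((f_z s t q u th) * ((f_p s t q u th) ^ 2)))) + ((-414625/1048576:ℝ) * ((f_z s t q u th) ^ 2))) + ((-2280125/2097152:ℝ) * (((f_z s t q u th) ^ 2) * (f_p s t q u th)))) + ((-64875/262144:ℝ) * ((f_z s t q u th) ^ 3))) + ((-251125/524288:ℝ) * (f_r s t q u th))) + ((234375/262144:ℝ) * ((f_r s t q u th) * (f_p s t q u th))))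 + ((-14875/262144:ℝ) * ((f_r s t q u th) * ((f_p s t q u th) ^ 2)))) + ((949375/2097152:ℝ) * ((f_r s t q u th) * (f_z s t q u th)))) + ((425125/1048576:ℝ) * (((f_r s t q u th) * (f_z s t q u th)) * (f_p s t q u th)))) + ((32875/1048576:ℝ) * ((f_r s t q u th) * ((f_z s t q u th) ^ 2)))) + ((12125/65536:ℝ) * ((f_r s t q u th) ^ 2))) + ((-72375/131072:ℝ) * (((f_r s t q u th) ^ 2) * (f_p s t q u th)))) + ((318625/524288:ℝ) * (((f_r s t q u th) ^ 2) * (f_z s t q u th)))) + ((540625/2097152:ℝ) * ((f_r s t q u th) ^ 3)))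
noncomputable def f_XD_000 (s t q u th : ℝ) : ℝ := ((f_TD_000 s t q u th) * s)
noncomputable def f_TD_310 (s t q u th : ℝ) : ℝ := ((((((((((523375/2097152:ℝ) + ((-289375/2097152:ℝ) * (f_p s t q u th))) + ((-550125/2097152:ℝ) * ((f_p s t q u th) ^ 2))) + ((11375/524288:ℝ) * (f_z s t q u th))) + ((1603625/2097152:ℝ) * ((f_z s t q u th) * (f_p s t q u th)))) + ((-655375/1048576:ℝ) * ((f_z s t q u th) ^ 2))) + ((-360875/1048576:ℝ) * (f_r s t q u th))) + ((450625/2097152:ℝ) * ((f_r s t q u th) * (f_p s t q u th)))) + ((1181125/2097152:ℝ) * ((f_r s t q u th) * (f_z s t q u th)))) + ((31125/131072:ℝ) * ((f_r s t q u th) ^ 2)))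
noncomputable def f_XD_310 (s t q u th : ℝ) : ℝ := ((f_TD_310 s t q u th) * (f_s4 s t q u th))
noncomputable def f_D (s t q u th : ℝ) : ℝ := ((f_XD_000 s t q u th) + ((f_XD_310 s t q u th) * (f_tht s t q u th)))
noncomputable def f_w11 (s t q u th : ℝ) : ℝ := (((10:ℝ) * (f_l s t q u th)) + ((8:ℝ) * (f_tt s t q u th)))
noncomputable def f_E22 (s t q u th : ℝ) : ℝ := (((((((f_m1 s t q u th) * (f_aa11 s t q u th)) + ((f_m2 s t q u th) * (f_ab11 s t q u th))) + ((f_m3 s t q u th) * (f_bb11 s t q u th))) + ((10:ℝ) * (f_K s t q u th))) + ((f_D s t q u th) * (f_w11 s t q u th))) + (-1/65536:ℝ))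
noncomputable def f_a2 (s t q u th : ℝ) : ℝ := ((-((2:ℝ) * (f_tt s t q u th))) - ((5/2:ℝ) * (f_l s t q u th)))
noncomputable def f_tp (s t q u th : ℝ) : ℝ := ((f_tt s t q u th) + ((f_l s t q u th) / (4:ℝ)))
noncomputable def f_b2 (s t q u th : ℝ) : ℝ := ((((2:ℝ) * ((f_tp s t q u th) ^ 2)) + ((2:ℝ) * (f_R2 s t q u th))) - ((2:ℝ) * (f_l2 s t q u th)))
noncomputable def f_E31 (s t q u th : ℝ) : ℝ := (((f_g1 s t q u th) * (f_a2 s t q u th)) + ((f_g2 s t q u th) * (f_b2 s t q u th)))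
noncomputable def f_aa21 (s t q u th : ℝ) : ℝ := ((f_a1 s t q u th) * (f_a2 s t q u th))
noncomputable def f_ab21 (s t q u th : ℝ) : ℝ := (((f_a1 s t q u th) * (f_b2 s t q u th)) + ((f_a2 s t q u th) * (f_b1 s t q u th)))
noncomputable def f_bb21 (s t q u th : ℝ) : ℝ := ((f_b1 s t q u th) * (f_b2 s t q u th))
noncomputable def f_E32 (s t q u th : ℝ) : ℝ := ((((((f_m1 s t q u th) * (f_aa21 s t q u th)) + ((f_m2 s t q u th) * (f_ab21 s t q u th))) + ((f_m3 s t q u th) * (f_bb21 s t q u th))) + ((4:ℝ) * (f_K s t q u th))) + ((8:ℝ) * ((f_D s t q u th) * (f_l s t q u th))))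
noncomputable def f_aa22 (s t q u th : ℝ) : ℝ := ((f_a2 s t q u th) * (f_a2 s t q u th))
noncomputable def f_ab22 (s t q u th : ℝ) : ℝ := ((2:ℝ) * ((f_a2 s t q u th) * (f_b2 s t q u th)))
noncomputable def f_bb22 (s t q u th : ℝ) : ℝ := ((f_b2 s t q u th) * (f_b2 s t q u th))
noncomputable def f_w22 (s t q u th : ℝ) : ℝ := (((10:ℝ) * (f_l s t q u th)) - ((8:ℝ) * (f_tt s t q u th)))
noncomputable def f_E33 (s t q u th : ℝ) : ℝ := (((((((f_m1 s t q u th) * (f_aa22 s t q u th)) + ((f_m2 s t q u th) * (f_ab22 s t q u th))) + ((f_m3 s t q u th) * (f_bb22 s t q u th))) + ((10:ℝ) * (f_K s t q u th))) + ((f_D s t q u th) * (f_w22 s t q u th))) + (-1/65536:ℝ))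
noncomputable def f_a3 (s t q u th : ℝ) : ℝ := ((2:ℝ) * (f_nd s t q u th))
noncomputable def f_b3 (s t q u th : ℝ) : ℝ := (-((4:ℝ) * ((f_nd s t q u th) * (f_tp s t q u th))))
noncomputable def f_E41 (s t q u th : ℝ) : ℝ := (((f_g1 s t q u th) * (f_a3 s t q u th)) + ((f_g2 s t q u th) * (f_b3 s t q u th)))
noncomputable def f_aa31 (s t q u th : ℝ) : ℝ := ((f_a1 s t q u th) * (f_a3 s t q u th))
noncomputable def f_ab31 (s t q u th : ℝ) : ℝ := (((f_a1 s t q u th) * (f_b3 s t q u th)) + ((f_a3 s t q u th) * (f_b1 s t q u th)))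
noncomputable def f_bb31 (s t q u th : ℝ) : ℝ := ((f_b1 s t q u th) * (f_b3 s t q u th))
noncomputable def f_E42 (s t q u th : ℝ) : ℝ := ((((f_m1 s t q u th) * (f_aa31 s t q u th)) + ((f_m2 s t q u th) * (f_ab31 s t q u th))) + ((f_m3 s t q u th) * (f_bb31 s t q u th)))
noncomputable def f_aa32 (s t q u th : ℝ) : ℝ := ((f_a2 s t q u th) * (f_a3 s t q u th))
noncomputable def f_ab32 (s t q u th : ℝ) : ℝ := (((f_a2 s t q u th) * (f_b3 s t q u th)) + ((f_a3 s t q u th) * (f_b2 s t q u th)))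
noncomputable def f_bb32 (s t q u th : ℝ) : ℝ := ((f_b2 s t q u th) * (f_b3 s t q u th))
noncomputable def f_E43 (s t q u th : ℝ) : ℝ := (((((f_m1 s t q u th) * (f_aa32 s t q u th)) + ((f_m2 s t q u th) * (f_ab32 s t q u th))) + ((f_m3 s t q u th) * (f_bb32 s t q u th))) + ((8:ℝ) * ((f_D s t q u th) * (f_nd s t q u th))))
noncomputable def f_aa33 (s t q u th : ℝ) : ℝ := ((f_a3 s t q u th) * (f_a3 s t q u th))
noncomputable def f_ab33 (s t q u th : ℝ) : ℝ := ((2:ℝ) * ((f_a3 s t q u th) * (f_b3 s t q u th)))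
noncomputable def f_bb33 (s t q u th : ℝ) : ℝ := ((f_b3 s t q u th) * (f_b3 s t q u th))
noncomputable def f_w33 (s t q u th : ℝ) : ℝ := ((((2:ℝ) * (f_l s t q u th)) - ((8:ℝ) * (f_tt s t q u th))) * (f_d2 s t q u th))
noncomputable def f_E44 (s t q u th : ℝ) : ℝ := (((((((f_m1 s t q u th) * (f_aa33 s t q u th)) + ((f_m2 s t q u th) * (f_ab33 s t q u th))) + ((f_m3 s t q u th) * (f_bb33 s t q u th))) + ((6:ℝ) * ((f_K s t q u th) * (f_d2 s t q u th)))) + ((f_D s t q u th) * (f_w33 s t q u th))) + (-1/65536:ℝ))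
noncomputable def f_Tg3_000 (s t q u th : ℝ) : ℝ := ((((((((((478625/4194304:ℝ) + ((610125/1048576:ℝ) * (f_p s t q u th))) + ((-760125/1048576:ℝ) * ((f_p s t q u th) ^ 2))) + ((-1314125/2097152:ℝ) * (f_z s t q u th))) + ((-1543375/2097152:ℝ) * ((f_z s t q u th) * (f_p s t q u th)))) + ((2204625/1048576:ℝ) * ((f_z s t q u th) ^ 2))) + ((-685875/4194304:ℝ) * (f_r s t q u th))) + ((-345375/524288:ℝ) * ((f_r s t q u th) * (f_p s t q u th)))) + ((-375/131072:ℝ) * ((f_r s t q u th) * (f_z s t q u th)))) + ((703125/4194304:ℝ) * ((f_r s t q u th) ^ 2)))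
noncomputable def f_Xg3_000 (s t q u th : ℝ) : ℝ := ((f_Tg3_000 s t q u th) * (f_P s t q u th))
noncomputable def f_Tg3_101 (s t q u th : ℝ) : ℝ := ((((((((((133875/1048576:ℝ) + ((36125/131072:ℝ) * (f_p s t q u th))) + ((-335625/262144:ℝ) * ((f_p s t q u th) ^ 2))) + ((-610125/524288:ℝ) * (f_z s t q u th))) + ((760125/262144:ℝ) * ((f_z s t q u th) * (f_p s t q u th)))) + ((1543375/2097152:ℝ) * ((f_z s t q u th) ^ 2))) + ((-234375/262144:ℝ) * (f_r s t q u th))) + ((117875/131072:ℝ) * ((f_r s t q u th) * (f_p s t q u th)))) + ((345375/262144:ℝ) * ((f_r s t q u th) * (f_z s t q u th)))) + ((-531625/1048576:ℝ) * ((f_r s t q u th) ^ 2)))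
noncomputable def f_Ps1 (s t q u th : ℝ) : ℝ := ((f_P s t q u th) * s)
noncomputable def f_Xg3_101 (s t q u th : ℝ) : ℝ := ((f_Tg3_101 s t q u th) * (f_Ps1 s t q u th))
noncomputable def f_Tg3_310 (s t q u th : ℝ) : ℝ := ((((26375/1048576:ℝ) + ((1961625/4194304:ℝ) * (f_p s t q u th))) + ((-2227625/2097152:ℝ) * (f_z s t q u th))) + ((76125/1048576:ℝ) * (f_r s t q u th)))
noncomputable def f_Ps3 (s t q u th : ℝ) : ℝ := ((f_P s t q u th) * (f_s3 s t q u th))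
noncomputable def f_Xg3_310 (s t q u th : ℝ) : ℝ := ((f_Tg3_310 s t q u th) * (f_Ps3 s t q u th))
noncomputable def f_Tg3_411 (s t q u th : ℝ) : ℝ := ((((-793125/2097152:ℝ) + ((7625/16384:ℝ) * (f_p s t q u th))) + ((-1961625/2097152:ℝ) * (f_z s t q u th))) + ((-711375/524288:ℝ) * (f_r s t q u th)))
noncomputable def f_Ps4 (s t q u th : ℝ) : ℝ := ((f_P s t q u th) * (f_s4 s t q u th))
noncomputable def f_Xg3_411 (s t q u th : ℝ) : ℝ := ((f_Tg3_411 s t q u th) * (f_Ps4 s t q u th))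
noncomputable def f_tl (s t q u th : ℝ) : ℝ := ((f_tht s t q u th) * (f_l s t q u th))
noncomputable def f_E51 (s t q u th : ℝ) : ℝ := ((((f_Xg3_000 s t q u th) + ((f_Xg3_101 s t q u th) * (f_l s t q u th))) + ((f_Xg3_310 s t q u th) * (f_tht s t q u th))) + ((f_Xg3_411 s t q u th) * (f_tl s t q u th)))
noncomputable def f_Tc1_000 (s t q u th : ℝ) : ℝ := ((((((((((((((((((((((((((((830875/4194304:ℝ) + ((12375/131072:ℝ) * (f_p s t q u th))) + ((-1328625/1048576:ℝ) * ((f_p s t q u th) ^ 2))) + ((211875/1048576:ℝ) * ((f_p s t q u th) ^ 3))) + ((3538875/4194304:ℝ) * (f_z s t q u th))) + ((15740875/4194304:ℝ) * ((f_z s t q u th) * (f_p s t q u th)))) + ((131875/262144:ℝ) * ((f_z s t q u th) * ((f_p s t q u th) ^ 2)))) + ((1717375/2097152:ℝ) * ((f_z s t q u th) ^ 2))) + ((1815875/4194304:ℝ) * (((f_z s t q u th) ^ 2) * (f_p s t q u th)))) + ((-231875/4194304:ℝ) * ((f_z s t q u th) ^ 3)))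 + ((808375/4194304:ℝ) * (f_r s t q u th))) + ((234375/524288:ℝ) * ((f_r s t q u th) * (f_p s t q u th)))) + ((-234375/524288:ℝ) * ((f_r s t q u th) * ((f_p s t q u th) ^ 2)))) + ((-4086125/4194304:ℝ) * ((f_r s t q u th) * (f_z s t q u th)))) + ((5324125/4194304:ℝ) * (((f_r s t q u th) * (f_z s t q u th)) * (f_p s t q u th)))) + ((-734625/2097152:ℝ) * (((f_r s t q u th) * (f_z s t q u th)) * ((f_p s t q u th) ^ 2)))) + ((795875/524288:ℝ) * ((f_r s t q u th) * ((f_z s t q u th) ^ 2)))) + ((521375/2097152:ℝ) * (((f_r s t q u th) * ((f_z s t q u th) ^ 2)) * (f_p s t q u th)))) + ((1496625/4194304:ℝ) * ((f_r s t q u th) * ((f_z s t q u th) ^ 3)))) + ((-234375/524288:ℝ) * ((f_r s t q u th) ^ 2))) + ((232875/524288:ℝ) * (((f_r s t q u th) ^ 2) * (f_p s t q u th)))) + ((1015375/2097152:ℝ) * (((f_r s t q u th) ^ 2) * ((f_p s t q u th) ^ 2)))) + ((4629375/4194304:ℝ) * (((f_r s t q u th) ^ 2)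 * (f_z s t q u th)))) + ((234375/262144:ℝ) * ((((f_r s t q u th) ^ 2) * (f_z s t q u th)) * (f_p s t q u th)))) + ((4788875/4194304:ℝ) * ((f_r s t q u th) ^ 3))) + ((234375/131072:ℝ) * (((f_r s t q u th) ^ 3) * (f_p s t q u th)))) + ((-4353375/4194304:ℝ) * (((f_r s t q u th) ^ 3) * (f_z s t q u th)))) + ((-465375/524288:ℝ) * ((f_r s t q u th) ^ 4)))
noncomputable def f_Xc1_000 (s t q u th : ℝ) : ℝ := ((f_Tc1_000 s t q u th) * (f_P s t q u th))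
noncomputable def f_Tc1_101 (s t q u th : ℝ) : ℝ := ((((((((((((((((((((((((((((88875/2097152:ℝ) + ((-66875/131072:ℝ) * (f_p s t q u th))) + ((-1645375/2097152:ℝ) * ((f_p s t q u th) ^ 2))) + ((-134375/262144:ℝ) * ((f_p s t q u th) ^ 3))) + ((489125/2097152:ℝ) * ((f_p s t q u th) ^ 4))) + ((1560625/2097152:ℝ) * (f_z s t q u th))) + ((1159875/1048576:ℝ) * ((f_z s t q u th) * (f_p s t q u th)))) + ((2759125/2097152:ℝ) * ((f_z s t q u th) * ((f_p s t q u th) ^ 2)))) + ((7419125/4194304:ℝ) * ((f_z s t q u th) ^ 2))) + ((-703125/131072:ℝ) * (((f_z s t q u th) ^ 2) * (f_p s t q u th)))) + ((2274125/524288:ℝ) * ((f_z s t q u th) ^ 3))) + ((-17125/65536:ℝ) * (f_r s t q u th))) + ((3807125/2097152:ℝ) * ((f_r s t q u th) * (f_p s t q u th)))) + ((234375/262144:ℝ) * ((f_r s t q u th) * ((f_p s t q u th) ^ 2)))) + ((-34375/524288:ℝ) * ((f_r s t q u th) * ((f_p s t q u th) ^ 3)))) + ((-234375/131072:ℝ)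 * ((f_r s t q u th) * (f_z s t q u th)))) + ((922125/2097152:ℝ) * ((f_r s t q u th) * ((f_z s t q u th) ^ 2)))) + ((234375/131072:ℝ) * (((f_r s t q u th) * ((f_z s t q u th) ^ 2)) * (f_p s t q u th)))) + ((-2274125/1048576:ℝ) * ((f_r s t q u th) * ((f_z s t q u th) ^ 3)))) + ((-724125/262144:ℝ) * ((f_r s t q u th) ^ 2))) + ((-703125/524288:ℝ) * (((f_r s t q u th) ^ 2) * ((f_p s t q u th) ^ 2)))) + ((835625/1048576:ℝ) * (((f_r s t q u th) ^ 2) * (f_z s t q u th)))) + ((-234375/131072:ℝ) * ((((f_r s t q u th) ^ 2) * (f_z s t q u th)) * (f_p s t q u th)))) + ((6138375/4194304:ℝ) * (((f_r s t q u th) ^ 2) * ((f_z s t q u th) ^ 2)))) + ((2154375/524288:ℝ) * ((f_r s t q u th) ^ 3))) + ((-1171875/524288:ℝ) * (((f_r s t q u th) ^ 3) * (f_p s t q u th)))) + ((1039375/524288:ℝ) * (((f_r s t q u th) ^ 3) * (f_z s t q u th)))) + ((-343875/131072:ℝ) * ((f_r s t q u th) ^ 4)))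
noncomputable def f_Xc1_101 (s t q u th : ℝ) : ℝ := ((f_Tc1_101 s t q u th) * (f_Ps1 s t q u th))
noncomputable def f_Tc1_202 (s t q u th : ℝ) : ℝ := ((((((((((((((((708125/2097152:ℝ) * (f_z s t q u th)) + ((234375/262144:ℝ) * ((f_z s t q u th) * (f_p s t q u th)))) + ((-1148875/2097152:ℝ) * ((f_z s t q u th) * ((f_p s t q u th) ^ 2)))) + ((-4956625/2097152:ℝ) * ((f_z s t q u th) ^ 2))) + ((3901375/2097152:ℝ) * (((f_z s t q u th) ^ 2) * (f_p s t q u th)))) + ((1696875/1048576:ℝ) * ((f_z s t q u th) ^ 3))) + ((-661625/1048576:ℝ) * (f_r s t q u th))) + ((234375/262144:ℝ) * ((f_r s t q u th) * (f_p s t q u th)))) + ((234375/262144:ℝ) * ((f_r s t q u th) * ((f_p s t q u th) ^ 2)))) + ((234375/262144:ℝ) * ((f_r s t q u th) * (f_z s t q u th)))) + ((-234375/262144:ℝ) * (((f_r s t q u th) * (f_z s t q u th)) * (f_p s t q u th)))) + ((234375/131072:ℝ) * ((f_r s t q u th) ^ 2))) + ((-232875/131072:ℝ)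 * (((f_r s t q u th) ^ 2) * (f_p s t q u th)))) + ((-4327875/2097152:ℝ) * (((f_r s t q u th) ^ 2) * (f_z s t q u th)))) + ((-2123625/2097152:ℝ) * ((f_r s t q u th) ^ 3)))
noncomputable def f_Ps2 (s t q u th : ℝ) : ℝ := ((f_P s t q u th) * (f_s2 s t q u th))
noncomputable def f_Xc1_202 (s t q u th : ℝ) : ℝ := ((f_Tc1_202 s t q u th) * (f_Ps2 s t q u th))
noncomputable def f_Tc1_310 (s t q u th : ℝ) : ℝ := ((((((((((-673375/4194304:ℝ) + ((-878625/4194304:ℝ) * (f_p s t q u th))) + ((1587125/2097152:ℝ) * ((f_p s t q u th) ^ 2))) + ((-1161375/2097152:ℝ) * (f_z s t q u th))) + ((-849625/524288:ℝ) * ((f_z s t q u th) * (f_p s t q u th)))) + ((1552875/2097152:ℝ) * ((f_z s t q u th) ^ 2))) + ((1506125/1048576:ℝ) * (f_r s t q u th))) + ((-8259125/4194304:ℝ) * ((f_r s t q u th) * (f_p s t q u th)))) + ((-782875/262144:ℝ) * ((f_r s t q u th) * (f_z s t q u th)))) + ((-12673625/4194304:ℝ) * ((f_r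 s t q u th) ^ 2)))
noncomputable def f_Xc1_310 (s t q u th : ℝ) : ℝ := ((f_Tc1_310 s t q u th) * (f_Ps3 s t q u th))
noncomputable def f_Tc1_411 (s t q u th : ℝ) : ℝ := (((((((((-197125/1048576:ℝ) + ((146625/1048576:ℝ) * (f_p s t q u th))) + ((-322625/524288:ℝ) * ((f_p s t q u th) ^ 2))) + ((1915625/2097152:ℝ) * (f_z s t q u th))) + ((282875/262144:ℝ) * ((f_z s t q u th) * (f_p s t q u th)))) + ((1293125/1048576:ℝ) * (f_r s t q u th))) + ((234375/65536:ℝ) * ((f_r s t q u th) * (f_p s t q u th)))) + ((-17924625/4194304:ℝ) * ((f_r s t q u th) * (f_z s t q u th)))) + ((-7135125/2097152:ℝ) * ((f_r s t q u th) ^ 2)))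
noncomputable def f_Xc1_411 (s t q u th : ℝ) : ℝ := ((f_Tc1_411 s t q u th) * (f_Ps4 s t q u th))
noncomputable def f_Tc1_512 (s t q u th : ℝ) : ℝ := ((((((((((478125/4194304:ℝ) + ((-235875/4194304:ℝ) * (f_p s t q u th))) + ((-4711125/4194304:ℝ) * ((f_p s t q u th) ^ 2))) + ((198125/131072:ℝ) * (f_z s t q u th))) + ((849625/262144:ℝ) * ((f_z s t q u th) * (f_p s t q u th)))) + ((-427125/262144:ℝ) * ((f_z s t q u th) ^ 2))) + ((-14696875/4194304:ℝ) * (f_r s t q u th))) + ((-14954375/4194304:ℝ) * ((f_r s t q u th) * (f_p s t q u th)))) + ((234375/32768:ℝ) * ((f_r s t q u th) * (f_z s t q u th)))) + ((5268375/1048576:ℝ) * ((f_r s t q u th) ^ 2)))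
noncomputable def f_Ps5 (s t q u th : ℝ) : ℝ := ((f_P s t q u th) * (f_s5 s t q u th))
noncomputable def f_Xc1_512 (s t q u th : ℝ) : ℝ := ((f_Tc1_512 s t q u th) * (f_Ps5 s t q u th))
noncomputable def f_tl2 (s t q u th : ℝ) : ℝ := ((f_tht s t q u th) * (f_l2 s t q u th))
noncomputable def f_c1 (s t q u th : ℝ) : ℝ := ((((((f_Xc1_000 s t q u th) + ((f_Xc1_101 s t q u th) * (f_l s t q u th))) + ((f_Xc1_202 s t q u th) * (f_l2 s t q u th))) + ((f_Xc1_310 s t q u th) * (f_tht s t q u th))) + ((f_Xc1_411 s t q u th) * (f_tl s t q u th))) + ((f_Xc1_512 s t q u th) * (f_tl2 s t q u th)))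
noncomputable def f_Tc2_100 (s t q u th : ℝ) : ℝ := ((((((((((405875/2097152:ℝ) + ((1104625/1048576:ℝ) * (f_p s t q u th))) + ((-4005625/4194304:ℝ) * ((f_p s t q u th) ^ 2))) + ((-3429625/4194304:ℝ) * (f_z s t q u th))) + ((8969875/2097152:ℝ) * ((f_z s t q u th) * (f_p s t q u th)))) + ((-6370875/2097152:ℝ) * ((f_z s t q u th) ^ 2))) + ((-3893375/4194304:ℝ) * (f_r s t q u th))) + ((6050125/2097152:ℝ) * ((f_r s t q u th) * (f_p s t q u th)))) + ((1917625/1048576:ℝ) * ((f_r s t q u th) * (f_z s t q u th)))) + ((7072375/4194304:ℝ) * ((f_r s t q u th) ^ 2)))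
noncomputable def f_Xc2_100 (s t q u th : ℝ) : ℝ := ((f_Tc2_100 s t q u th) * (f_Ps1 s t q u th))
noncomputable def f_Tc2_201 (s t q u th : ℝ) : ℝ := ((((((((((-966625/4194304:ℝ) + ((1795625/2097152:ℝ) * (f_p s t q u th))) + ((-61875/262144:ℝ) * ((f_p s t q u th) ^ 2))) + ((-7293625/2097152:ℝ) * (f_z s t q u th))) + ((-1050125/262144:ℝ) * ((f_z s t q u th) * (f_p s t q u th)))) + ((4742375/2097152:ℝ) * ((f_z s t q u th) ^ 2))) + ((-9163125/4194304:ℝ) * (f_r s t q u th))) + ((-673375/262144:ℝ) * ((f_r s t q u th) * (f_p s t q u th)))) + ((16224125/4194304:ℝ) * ((f_r s t q u th) * (f_z s t q u th)))) + ((9451125/4194304:ℝ) * ((f_r s t q u th) ^ 2)))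
noncomputable def f_Xc2_201 (s t q u th : ℝ) : ℝ := ((f_Tc2_201 s t q u th) * (f_Ps2 s t q u th))
noncomputable def f_Tc2_302 (s t q u th : ℝ) : ℝ := ((((((((((-478125/4194304:ℝ) + ((235875/4194304:ℝ) * (f_p s t q u th))) + ((4711125/4194304:ℝ) * ((f_p s t q u th) ^ 2))) + ((-594375/262144:ℝ) * (f_z s t q u th))) + ((-2548875/524288:ℝ) * ((f_z s t q u th) * (f_p s t q u th)))) + ((1281375/262144:ℝ) * ((f_z s t q u th) ^ 2))) + ((8818125/4194304:ℝ) * (f_r s t q u th))) + ((8972625/4194304:ℝ) * ((f_r s t q u th) * (f_p s t q u th)))) + ((-703125/131072:ℝ) * ((f_r s t q u th) * (f_z s t q u th)))) + ((-2257875/1048576:ℝ) * ((f_r s t q u th) ^ 2)))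
noncomputable def f_Xc2_302 (s t q u th : ℝ) : ℝ := ((f_Tc2_302 s t q u th) * (f_Ps3 s t q u th))
noncomputable def f_Tc2_410 (s t q u th : ℝ) : ℝ := ((((11375/1048576:ℝ) + ((1603625/4194304:ℝ) * (f_p s t q u th))) + ((-655375/1048576:ℝ) * (f_z s t q u th))) + ((1181125/4194304:ℝ) * (f_r s t q u th)))
noncomputable def f_Xc2_410 (s t q u th : ℝ) : ℝ := ((f_Tc2_410 s t q u th) * (f_Ps4 s t q u th))
noncomputable def f_Tc2_511 (s t q u th : ℝ) : ℝ := ((((289375/2097152:ℝ) + ((550125/1048576:ℝ) * (f_p s t q u th))) + ((-1603625/2097152:ℝ) * (f_z s t q u th))) + ((-450625/2097152:ℝ) * (f_r s t q u th)))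
noncomputable def f_Xc2_511 (s t q u th : ℝ) : ℝ := ((f_Tc2_511 s t q u th) * (f_Ps5 s t q u th))
noncomputable def f_c2 (s t q u th : ℝ) : ℝ := (((((f_Xc2_100 s t q u th) + ((f_Xc2_201 s t q u th) * (f_l s t q u th))) + ((f_Xc2_302 s t q u th) * (f_l2 s t q u th))) + ((f_Xc2_410 s t q u th) * (f_tht s t q u th))) + ((f_Xc2_511 s t q u th) * (f_tl s t q u th)))
noncomputable def f_E52 (s t q u th : ℝ) : ℝ := (((f_c1 s t q u th) * (f_a1 s t q u th)) + ((f_c2 s t q u th) * (f_b1 s t q u th)))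
noncomputable def f_E53 (s t q u th : ℝ) : ℝ := (((f_c1 s t q u th) * (f_a2 s t q u th)) + ((f_c2 s t q u th) * (f_b2 s t q u th)))
noncomputable def f_E54 (s t q u th : ℝ) : ℝ := (((f_c1 s t q u th) * (f_a3 s t q u th)) + ((f_c2 s t q u th) * (f_b3 s t q u th)))
noncomputable def f_TG_000 (s t q u th : ℝ) : ℝ := (((((((((((((((((((((((((((((((((((((((((37625/1048576:ℝ) + ((-4125/16384:ℝ) * (f_p s t q u th))) + ((1180625/1048576:ℝ) * ((f_p s t q u th) ^ 2))) + ((-134375/131072:ℝ) * ((f_p s t q u th) ^ 3))) + ((489125/1048576:ℝ) * ((f_p s t q u th) ^ 4))) + ((2391875/2097152:ℝ) * (f_z s t q u th))) + ((-234375/131072:ℝ) * ((f_z s t q u th) * (f_p s t q u th)))) + ((2759125/2097152:ℝ) * ((f_z s t q u th) * ((f_p s t q u th) ^ 2)))) + ((4294125/2097152:ℝ) * ((f_z s t q u th) ^ 2))) + ((-234375/65536:ℝ) * (((f_z s t q u th) ^ 2) * (f_p s t q u th)))) + ((2274125/1048576:ℝ) * ((f_z s t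 q u th) ^ 3))) + ((-2626625/2097152:ℝ) * (f_r s t q u th))) + ((-6436929/8388608:ℝ) * ((f_r s t q u th) * (f_p s t q u th)))) + ((-578711/2097152:ℝ) * ((f_r s t q u th) * ((f_p s t q u th) ^ 2)))) + ((1404105/2097152:ℝ) * ((f_r s t q u th) * ((f_p s t q u th) ^ 3)))) + ((18526171/16777216:ℝ) * ((f_r s t q u th) * (f_z s t q u th)))) + ((-7282131/4194304:ℝ) * (((f_r s t q u th) * (f_z s t q u th)) * (f_p s t q u th)))) + ((4272331/4194304:ℝ) * (((f_r s t q u th) * (f_z s t q u th)) * ((f_p s t q u th) ^ 2)))) + ((-4459125/2097152:ℝ) * (((f_r s t q u th) * (f_z s t q u th)) * ((f_p s t q u th) ^ 3)))) + ((-44098487/16777216:ℝ) * ((f_r s t q u th) * ((f_z s t q u th) ^ 2)))) + ((101630347/16777216:ℝ) * (((f_r s t q u th) * ((f_z s t q u th) ^ 2)) * (f_p s t q u th)))) + ((-1262125/524288:ℝ) * (((f_r s t q u th) * ((f_z s t q u th) ^ 2)) * ((f_p s t q u th) ^ 2)))) + ((2151121/4194304:ℝ)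 * ((f_r s t q u th) * ((f_z s t q u th) ^ 3)))) + ((-323625/524288:ℝ) * (((f_r s t q u th) * ((f_z s t q u th) ^ 3)) * (f_p s t q u th)))) + ((231875/2097152:ℝ) * ((f_r s t q u th) * ((f_z s t q u th) ^ 4)))) + ((3662259/1048576:ℝ) * ((f_r s t q u th) ^ 2))) + ((-1365625/1048576:ℝ) * (((f_r s t q u th) ^ 2) * (f_p s t q u th)))) + ((-839557/2097152:ℝ) * (((f_r s t q u th) ^ 2) * ((f_p s t q u th) ^ 2)))) + ((-27432513/16777216:ℝ) * (((f_r s t q u th) ^ 2) * (f_z s t q u th)))) + ((26054763/2097152:ℝ) * ((((f_r s t q u th) ^ 2) * (f_z s t q u th)) * (f_p s t q u th)))) + ((-3201875/2097152:ℝ) * ((((f_r s t q u th) ^ 2) * (f_z s t q u th)) * ((f_p s t q u th) ^ 2)))) + ((-525311/524288:ℝ) * (((f_r s t q u th) ^ 2) * ((f_z s t q u th) ^ 2)))) + ((-703125/65536:ℝ) * ((((f_r s t q u th) ^ 2) * ((f_z s t q u th) ^ 2)) * (f_p s t q u th)))) + ((-2934125/1048576:ℝ) * (((f_r s t q u th) ^ 2)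 * ((f_z s t q u th) ^ 3)))) + ((-14573233/4194304:ℝ) * ((f_r s t q u th) ^ 3))) + ((27983747/8388608:ℝ) * (((f_r s t q u th) ^ 3) * (f_p s t q u th)))) + ((-17815625/16777216:ℝ) * (((f_r s t q u th) ^ 3) * (f_z s t q u th)))) + ((-702375/131072:ℝ) * ((((f_r s t q u th) ^ 3) * (f_z s t q u th)) * (f_p s t q u th)))) + ((4370375/2097152:ℝ) * (((f_r s t q u th) ^ 3) * ((f_z s t q u th) ^ 2)))) + ((10013437/8388608:ℝ) * ((f_r s t q u th) ^ 4))) + ((2394625/2097152:ℝ) * (((f_r s t q u th) ^ 4) * (f_z s t q u th))))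
noncomputable def f_Tc0_000 (s t q u th : ℝ) : ℝ := ((((((((((1320375/2097152:ℝ) + ((2175875/2097152:ℝ) * (f_p s t q u th))) + ((734625/1048576:ℝ) * ((f_p s t q u th) ^ 2))) + ((33375/262144:ℝ) * (f_z s t q u th))) + ((-521375/1048576:ℝ) * ((f_z s t q u th) * (f_p s t q u th)))) + ((-1496625/2097152:ℝ) * ((f_z s t q u th) ^ 2))) + ((36625/262144:ℝ) * (f_r s t q u th))) + ((234375/131072:ℝ) * ((f_r s t q u th) * (f_p s t q u th)))) + ((-127625/524288:ℝ) * ((f_r s t q u th) * (f_z s t q u th)))) + ((-1451125/2097152:ℝ) * ((f_r s t q u th) ^ 2)))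
noncomputable def f_Xc0_000 (s t q u th : ℝ) : ℝ := ((f_Tc0_000 s t q u th) * (f_PP s t q u th))
noncomputable def f_TG_110 (s t q u th : ℝ) : ℝ := ((((((((((((((((((((((((((((((-101375/2097152:ℝ) + ((36625/131072:ℝ) * (f_p s t q u th))) + ((1470375/2097152:ℝ) * ((f_p s t q u th) ^ 2))) + ((-780125/1048576:ℝ) * ((f_p s t q u th) ^ 3))) + ((708125/1048576:ℝ) * (f_z s t q u th))) + ((234375/131072:ℝ) * ((f_z s t q u th) * (f_p s t q u th)))) + ((-1148875/1048576:ℝ) * ((f_z s t q u th) * ((f_p s t q u th) ^ 2)))) + ((-4956625/2097152:ℝ) * ((f_z s t q u th) ^ 2))) + ((3901375/2097152:ℝ) * (((f_z s t q u th) ^ 2) * (f_p s t q u th)))) + ((565625/524288:ℝ) * ((f_z s t q u th) ^ 3))) + ((629125/1048576:ℝ) * (f_r s t q u th))) + ((1519375/2097152:ℝ) * ((f_r s t q u th) * (f_p s t q u th)))) + ((-8395625/2097152:ℝ) * ((f_r s t q u th) * ((f_p s t q u th) ^ 2)))) + ((2025625/1048576:ℝ) * ((f_r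 s t q u th) * ((f_p s t q u th) ^ 3)))) + ((-4484375/1048576:ℝ) * ((f_r s t q u th) * (f_z s t q u th)))) + ((2673125/262144:ℝ) * (((f_r s t q u th) * (f_z s t q u th)) * (f_p s t q u th)))) + ((12049375/2097152:ℝ) * (((f_r s t q u th) * (f_z s t q u th)) * ((f_p s t q u th) ^ 2)))) + ((5950125/2097152:ℝ) * ((f_r s t q u th) * ((f_z s t q u th) ^ 2)))) + ((-48900625/2097152:ℝ) * (((f_r s t q u th) * ((f_z s t q u th) ^ 2)) * (f_p s t q u th)))) + ((8023125/1048576:ℝ) * ((f_r s t q u th) * ((f_z s t q u th) ^ 3)))) + ((-1724375/524288:ℝ) * ((f_r s t q u th) ^ 2))) + ((702375/131072:ℝ) * (((f_r s t q u th) ^ 2) * (f_p s t q u th)))) + ((-74375/262144:ℝ) * (((f_r s t q u th) ^ 2) * ((f_p s t q u th) ^ 2)))) + ((15703375/2097152:ℝ) * (((f_r s t q u th) ^ 2) * (f_z s t q u th)))) + ((-7249375/1048576:ℝ) * ((((f_r s t q u th) ^ 2) * (f_z s t q u th)) * (f_p s t q u th)))) + ((-6118125/1048576:ℝ)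 * (((f_r s t q u th) ^ 2) * ((f_z s t q u th) ^ 2)))) + ((2647875/2097152:ℝ) * ((f_r s t q u th) ^ 3))) + ((-361875/131072:ℝ) * (((f_r s t q u th) ^ 3) * (f_p s t q u th)))) + ((-3290625/2097152:ℝ) * (((f_r s t q u th) ^ 3) * (f_z s t q u th)))) + ((2703125/2097152:ℝ) * ((f_r s t q u th) ^ 4)))
noncomputable def f_XG_110 (s t q u th : ℝ) : ℝ := ((f_TG_110 s t q u th) * s)
noncomputable def f_TG_310 (s t q u th : ℝ) : ℝ := ((((((((((((((((((((((130375/2097152:ℝ) + ((-270875/1048576:ℝ) * (f_p s t q u th))) + ((322625/524288:ℝ) * ((f_p s t q u th) ^ 2))) + ((-590625/524288:ℝ) * (f_z s t q u th))) + ((-282875/131072:ℝ) * ((f_z s t q u th) * (f_p s t q u th)))) + ((410375/524288:ℝ) * ((f_z s t q u th) ^ 2))) + ((-11414359/16777216:ℝ) * (f_r s t q u th))) + ((-44831345/16777216:ℝ) * ((f_r s t q u th) * (f_p s t q u th)))) + ((1286869/1048576:ℝ) * ((f_r s t q u th) * ((f_p s t q u th) ^ 2))))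 + ((10923039/4194304:ℝ) * ((f_r s t q u th) * (f_z s t q u th)))) + ((-92791693/16777216:ℝ) * (((f_r s t q u th) * (f_z s t q u th)) * (f_p s t q u th)))) + ((-1570375/2097152:ℝ) * (((f_r s t q u th) * (f_z s t q u th)) * ((f_p s t q u th) ^ 2)))) + ((113606821/16777216:ℝ) * ((f_r s t q u th) * ((f_z s t q u th) ^ 2)))) + ((849625/262144:ℝ) * (((f_r s t q u th) * ((f_z s t q u th) ^ 2)) * (f_p s t q u th)))) + ((-427125/131072:ℝ) * ((f_r s t q u th) * ((f_z s t q u th) ^ 3)))) + ((4412973/1048576:ℝ) * ((f_r s t q u th) ^ 2))) + ((-12544691/4194304:ℝ) * (((f_r s t q u th) ^ 2) * (f_p s t q u th)))) + ((-25891609/4194304:ℝ) * (((f_r s t q u th) ^ 2) * (f_z s t q u th)))) + ((-2990875/2097152:ℝ) * ((((f_r s t q u th) ^ 2) * (f_z s t q u th)) * (f_p s t q u th)))) + ((234375/65536:ℝ) * (((f_r s t q u th) ^ 2) * ((f_z s t q u th) ^ 2)))) + ((-10481799/8388608:ℝ) * ((f_r s t q u th) ^ 3)))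 + ((752625/524288:ℝ) * (((f_r s t q u th) ^ 3) * (f_z s t q u th))))
noncomputable def f_XG_310 (s t q u th : ℝ) : ℝ := ((f_TG_310 s t q u th) * (f_s3 s t q u th))
noncomputable def f_Tc0_110 (s t q u th : ℝ) : ℝ := ((((-590375/2097152:ℝ) + ((234375/65536:ℝ) * (f_p s t q u th))) + ((-1864125/524288:ℝ) * (f_z s t q u th))) + ((314125/262144:ℝ) * (f_r s t q u th)))
noncomputable def f_PPs1 (s t q u th : ℝ) : ℝ := ((f_PP s t q u th) * s)
noncomputable def f_Xc0_110 (s t q u th : ℝ) : ℝ := ((f_Tc0_110 s t q u th) * (f_PPs1 s t q u th))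
noncomputable def f_Z10 (s t q u th : ℝ) : ℝ := (((f_XG_110 s t q u th) + (f_XG_310 s t q u th)) + (f_Xc0_110 s t q u th))
noncomputable def f_TG_420 (s t q u th : ℝ) : ℝ := ((((((((((((((((-159375/2097152:ℝ) + ((78625/2097152:ℝ) * (f_p s t q u th))) + ((1570375/2097152:ℝ) * ((f_p s t q u th) ^ 2))) + ((-198125/131072:ℝ) * (f_z s t q u th))) + ((-849625/262144:ℝ) * ((f_z s t q u th) * (f_p s t q u th)))) + ((427125/131072:ℝ) * ((f_z s t q u th) ^ 2))) + ((2778125/1048576:ℝ) * (f_r s t q u th))) + ((24125/32768:ℝ) * ((f_r s t q u th) * (f_p s t q u th)))) + ((-2750625/2097152:ℝ) * ((f_r s t q u th) * ((f_p s t q u th) ^ 2)))) + ((-1818125/524288:ℝ) * ((f_r s t q u th) * (f_z s t q u th)))) + ((8018125/2097152:ℝ) * (((f_r s t q u th) * (f_z s t q u th)) * (f_p s t q u th)))) + ((-3276875/1048576:ℝ) * ((f_r s t q u th) * ((f_z s t q u th) ^ 2)))) + ((-3309625/1048576:ℝ) * ((f_r s t q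 u th) ^ 2))) + ((2253125/2097152:ℝ) * (((f_r s t q u th) ^ 2) * (f_p s t q u th)))) + ((5905625/2097152:ℝ) * (((f_r s t q u th) ^ 2) * (f_z s t q u th)))) + ((155625/131072:ℝ) * ((f_r s t q u th) ^ 3)))
noncomputable def f_XG_420 (s t q u th : ℝ) : ℝ := ((f_TG_420 s t q u th) * (f_s4 s t q u th))
noncomputable def f_th2 (s t q u th : ℝ) : ℝ := ((f_tht s t q u th) ^ 2)
noncomputable def f_Tc0_002 (s t q u th : ℝ) : ℝ := (((((((((((((((((1236125/1048576:ℝ) + ((-711875/262144:ℝ) * (f_p s t q u th))) + ((5301125/1048576:ℝ) * ((f_p s t q u th) ^ 2))) + ((-489125/131072:ℝ) * ((f_p s t q u th) ^ 3))) + ((-1206625/1048576:ℝ) * (f_z s t q u th))) + ((-1616875/1048576:ℝ) * ((f_z s t q u th) * (f_p s t q u th)))) + ((5446875/524288:ℝ) * ((f_z s t q u th) ^ 2))) + ((274625/524288:ℝ) * (f_r s t q u th))) + ((1171875/131072:ℝ) * ((f_r s t q u th) * (f_p s t q u th)))) + ((-103125/131072:ℝ) * ((f_r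 s t q u th) * ((f_p s t q u th) ^ 2)))) + ((1786125/262144:ℝ) * ((f_r s t q u th) * (f_z s t q u th)))) + ((2759125/524288:ℝ) * (((f_r s t q u th) * (f_z s t q u th)) * (f_p s t q u th)))) + ((-234375/32768:ℝ) * ((f_r s t q u th) * ((f_z s t q u th) ^ 2)))) + ((1442625/1048576:ℝ) * ((f_r s t q u th) ^ 2))) + ((-234375/65536:ℝ) * (((f_r s t q u th) ^ 2) * (f_p s t q u th)))) + ((-234375/65536:ℝ) * (((f_r s t q u th) ^ 2) * (f_z s t q u th)))) + ((-234375/131072:ℝ) * ((f_r s t q u th) ^ 3)))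
noncomputable def f_Xc0_002 (s t q u th : ℝ) : ℝ := ((f_Tc0_002 s t q u th) * (f_PP s t q u th))
noncomputable def f_Tc0_101 (s t q u th : ℝ) : ℝ := (((((((((3413125/2097152:ℝ) + ((234375/131072:ℝ) * (f_p s t q u th))) + ((-4464125/2097152:ℝ) * ((f_p s t q u th) ^ 2))) + ((1059125/524288:ℝ) * (f_z s t q u th))) + ((-2609625/262144:ℝ) * ((f_z s t q u th) * (f_p s t q u th)))) + ((3671875/524288:ℝ) * ((f_z s t q u th) ^ 2))) + ((-1952875/524288:ℝ) * ((f_r s t q u th) * (f_p s t q u th)))) + ((2388375/1048576:ℝ) * ((f_r s t q u th) * (f_z s t q u th)))) + ((-835625/1048576:ℝ) * ((f_r s t q u th) ^ 2)))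
noncomputable def f_Xc0_101 (s t q u th : ℝ) : ℝ := ((f_Tc0_101 s t q u th) * (f_PPs1 s t q u th))
noncomputable def f_Tc0_103 (s t q u th : ℝ) : ℝ := ((((((((((-36625/65536:ℝ) + ((-1470375/524288:ℝ) * (f_p s t q u th))) + ((2340375/524288:ℝ) * ((f_p s t q u th) ^ 2))) + ((-234375/65536:ℝ) * (f_z s t q u th))) + ((1148875/262144:ℝ) * ((f_z s t q u th) * (f_p s t q u th)))) + ((-3901375/1048576:ℝ) * ((f_z s t q u th) ^ 2))) + ((234375/131072:ℝ) * (f_r s t q u th))) + ((234375/65536:ℝ) * ((f_r s t q u th) * (f_p s t q u th)))) + ((-234375/65536:ℝ) * ((f_r s t q u th) * (f_z s t q u th)))) + ((-232875/131072:ℝ) * ((f_r s t q u th) ^ 2)))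
noncomputable def f_Xc0_103 (s t q u th : ℝ) : ℝ := ((f_Tc0_103 s t q u th) * (f_PPs1 s t q u th))
noncomputable def f_l3 (s t q u th : ℝ) : ℝ := ((f_l2 s t q u th) * (f_l s t q u th))
noncomputable def f_Tc0_211 (s t q u th : ℝ) : ℝ := ((((-1404125/1048576:ℝ) + ((472375/524288:ℝ) * (f_p s t q u th))) + ((-1464625/262144:ℝ) * (f_z s t q u th))) + ((-1525125/2097152:ℝ) * (f_r s t q u th)))
noncomputable def f_PPs2 (s t q u th : ℝ) : ℝ := ((f_PP s t q u th) * (f_s2 s t q u th))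
noncomputable def f_Xc0_211 (s t q u th : ℝ) : ℝ := ((f_Tc0_211 s t q u th) * (f_PPs2 s t q u th))
noncomputable def f_Tc0_312 (s t q u th : ℝ) : ℝ := (((-521625/524288:ℝ) + ((-1494875/262144:ℝ) * (f_p s t q u th))) + ((44375/4096:ℝ) * (f_z s t q u th)))
noncomputable def f_PPs3 (s t q u th : ℝ) : ℝ := ((f_PP s t q u th) * (f_s3 s t q u th))
noncomputable def f_Xc0_312 (s t q u th : ℝ) : ℝ := ((f_Tc0_312 s t q u th) * (f_PPs3 s t q u th))
noncomputable def f_Tc0_413 (s t q u th : ℝ) : ℝ := ((((-78625/1048576:ℝ) + ((-1570375/524288:ℝ) * (f_p s t q u th))) + ((849625/131072:ℝ) * (f_z s t q u th))) + ((-2990875/1048576:ℝ) * (f_r s t q u th)))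
noncomputable def f_PPs4 (s t q u th : ℝ) : ℝ := ((f_PP s t q u th) * (f_s4 s t q u th))
noncomputable def f_Xc0_413 (s t q u th : ℝ) : ℝ := ((f_Tc0_413 s t q u th) * (f_PPs4 s t q u th))
noncomputable def f_tl3 (s t q u th : ℝ) : ℝ := ((f_tht s t q u th) * (f_l3 s t q u th))
noncomputable def f_E55 (s t q u th : ℝ) : ℝ := ((((((((((f_TG_000 s t q u th) + (f_Xc0_000 s t q u th)) + ((f_Z10 s t q u th) * (f_tht s t q u th))) + ((f_XG_420 s t q u th) * (f_th2 s t q u th))) + ((f_Xc0_002 s t q u th) * (f_l2 s t q u th))) + ((f_Xc0_101 s t q u th) * (f_l s t q u th))) + ((f_Xc0_103 s t q u th) * (f_l3 s t q u th))) + ((f_Xc0_211 s t q u th) * (f_tl s t q u th))) + ((f_Xc0_312 s t q u th) * (f_tl2 s t q u th))) + ((f_Xc0_413 s t q u th) * (f_tl3 s t q u th)))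

theorem l0 (y1 : ℝ) : (y1 + 1) / (2:ℝ) ^ 0 = ((1:ℝ) + y1) := by
  push_cast; ring

theorem l1 (y1 : ℝ) : y1⁻¹ = ((1:ℝ) / y1) := by
  push_cast; ring

theorem l2 (y1 : ℝ) : (((2:ℕ):ℝ) * y1 + -1) / (2:ℝ) ^ 0 = (((2:ℝ) * y1) - (1:ℝ)) := by
  push_cast; ring

theorem l3 (y1 : ℝ) : (((2:ℕ):ℝ) * y1) / (2:ℝ) ^ 0 = ((2:ℝ) * y1) := by
  push_cast; ring

theorem l4 (y1 : ℝ) : (1 + -y1) / (2:ℝ) ^ 0 = ((1:ℝ) - y1) := by
  push_cast; ring

theorem l5 (y1 y2 : ℝ) : (1 + -(y1 + y2)) / (2:ℝ) ^ 0 = (((1:ℝ) - y1) - y2) := by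
  push_cast; ring

theorem l6 (y1 y2 y3 y4 y5 y6 y7 y8 y9 y10 y11 y12 y13 y14 y15 y16 y17 y18 y19 : ℝ) : (((895000:ℕ):ℝ) * y3 + ((478625:ℕ):ℝ) * y4 + ((2440500:ℕ):ℝ) * y5 + ((2939500:ℕ):ℝ) * y9 + ((107000:ℕ):ℝ) * y10 + ((1875000:ℕ):ℝ) * y11 + ((1063250:ℕ):ℝ) * y17 + ((703125:ℕ):ℝ) * y18 + ((1265750:ℕ):ℝ) * y19 + ((1250000:ℕ):ℝ) * 1 + -(((267750:ℕ):ℝ) * y1 + ((289000:ℕ):ℝ) * y2 + ((3040500:ℕ):ℝ) * y6 + ((1314125:ℕ):ℝ) * y7 + ((1543375:ℕ):ℝ) * y8 + ((943000:ℕ):ℝ) * y12 + ((685875:ℕ):ℝ) * y13 + ((2763000:ℕ):ℝ) * y14 + ((6000:ℕ):ℝ) * y15 + ((1383500:ℕ):ℝ) * y16)) / (2:ℝ) ^ 21 = ((((((((((((((((((((78125/131072:ℝ) + ((-133875/1048576:ℝ) * y1)) + ((-36125/262144:ℝ) * y2)) + ((111875/262144:ℝ) * y3)) + ((478625/2097152:ℝ) * y4)) + ((610125/524288:ℝ) * y5)) + ((-760125/524288:ℝ) * y6)) + ((-1314125/2097152:ℝ) * y7)) + ((-1543375/2097152:ℝ) * y8)) + ((734875/524288:ℝ) * y9)) + ((13375/262144:ℝ)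 * y10)) + ((234375/262144:ℝ) * y11)) + ((-117875/262144:ℝ) * y12)) + ((-685875/2097152:ℝ) * y13)) + ((-345375/262144:ℝ) * y14)) + ((-375/131072:ℝ) * y15)) + ((-345875/524288:ℝ) * y16)) + ((531625/1048576:ℝ) * y17)) + ((703125/2097152:ℝ) * y18)) + ((632875/1048576:ℝ) * y19)) := by
  push_cast; ring

theorem l7 (y1 y2 y3 y4 y5 y6 y7 y8 y9 : ℝ) : (((793125:ℕ):ℝ) * y1 + ((105500:ℕ):ℝ) * y3 + ((1961625:ℕ):ℝ) * y4 + ((2845500:ℕ):ℝ) * y7 + ((304500:ℕ):ℝ) * y8 + ((824750:ℕ):ℝ) * y9 + -(((488000:ℕ):ℝ) * y2 + ((2227625:ℕ):ℝ) * y5 + ((2321000:ℕ):ℝ) * y6 + ((830125:ℕ):ℝ) * 1)) / (2:ℝ) ^ 21 = ((((((((((-830125/2097152:ℝ) + ((793125/2097152:ℝ) * y1)) + ((-7625/32768:ℝ) * y2)) + ((26375/524288:ℝ) * y3)) + ((1961625/2097152:ℝ) * y4)) + ((-2227625/2097152:ℝ) * y5)) + ((-290125/262144:ℝ) * y6)) + ((711375/524288:ℝ) * y7)) + ((76125/524288:ℝ) * y8)) + ((412375/1048576:ℝ) * y9)) := by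
  push_cast; ring

theorem l8 (y1 : ℝ) : (((5:ℕ):ℝ) * y1 + 1) / (2:ℝ) ^ 0 = ((1:ℝ) + ((5:ℝ) * y1)) := by
  push_cast; ring

theorem l9 (y1 : ℝ) : (((4:ℕ):ℝ) * y1) / (2:ℝ) ^ 0 = ((4:ℝ) * y1) := by
  push_cast; ring

theorem l10 (y1 : ℝ) : (((2:ℕ):ℝ) * y1 + -1) / (2:ℝ) ^ 1 = (y1 - (1/2:ℝ)) := by
  push_cast; ring

theorem l11 (y1 y2 : ℝ) : (((15:ℕ):ℝ) * y1 + -(((48:ℕ):ℝ) * y2)) / (2:ℝ) ^ 4 = (((15/16:ℝ) * y1) - ((3:ℝ) * y2)) := by
  push_cast; ring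

theorem l12 (y1 : ℝ) : (((2:ℕ):ℝ) * 1 + -(((2:ℕ):ℝ) * y1)) / (2:ℝ) ^ 0 = ((2:ℝ) - ((2:ℝ) * y1)) := by
  push_cast; ring

theorem l13 (y1 y2 : ℝ) : (y1 + -(((6:ℕ):ℝ) * y2)) / (2:ℝ) ^ 0 = (y1 - ((6:ℝ) * y2)) := by
  push_cast; ring

theorem l14 (y1 y2 : ℝ) : (y1 + y2) / (2:ℝ) ^ 0 = (y1 + y2) := by
  push_cast; ring

theorem l15 (y1 : ℝ) : (((65536:ℕ):ℝ) * y1 + -1) / (2:ℝ) ^ 16 = (y1 - (1/65536:ℝ)) := by
  push_cast; ring

theorem l16 (y1 y2 y3 y4 y5 y6 y7 y8 y9 y10 y11 y12 y13 y14 y15 y16 y17 y18 y19 y20 y21 y22 y23 y24 y25 y26 : ℝ) : (((895000:ℕ):ℝ) * y3 + ((957250:ℕ):ℝ) * y4 + ((4881000:ℕ):ℝ) * y5 + ((11758000:ℕ):ℝ) * y9 + ((1143000:ℕ):ℝ) * y10 + ((654000:ℕ):ℝ) * y12 + ((895000:ℕ):ℝ) * y13 + ((1308125:ℕ):ℝ) * y14 + ((1543375:ℕ):ℝ) * y15 + ((4471500:ℕ):ℝ) * y17 + ((2435250:ℕ):ℝ) * y18 + ((5316250:ℕ):ℝ) * y24 + ((2812500:ℕ):ℝ) * y25 + ((8860250:ℕ):ℝ) * y26 + ((1250000:ℕ):ℝ) * 1 + -(((267750:ℕ):ℝ)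 * y1 + ((289000:ℕ):ℝ) * y2 + ((6081000:ℕ):ℝ) * y6 + ((3942375:ℕ):ℝ) * y7 + ((4630125:ℕ):ℝ) * y8 + ((2142750:ℕ):ℝ) * y11 + ((5879000:ℕ):ℝ) * y16 + ((2829000:ℕ):ℝ) * y19 + ((2778000:ℕ):ℝ) * y20 + ((5526000:ℕ):ℝ) * y21 + ((6000:ℕ):ℝ) * y22 + ((13246250:ℕ):ℝ) * y23)) / (2:ℝ) ^ 22 = (((((((((((((((((((((((((((78125/262144:ℝ) + ((-133875/2097152:ℝ) * y1)) + ((-36125/524288:ℝ) * y2)) + ((111875/524288:ℝ) * y3)) + ((478625/2097152:ℝ) * y4)) + ((610125/524288:ℝ) * y5)) + ((-760125/524288:ℝ) * y6)) + ((-3942375/4194304:ℝ) * y7)) + ((-4630125/4194304:ℝ) * y8)) + ((734875/262144:ℝ) * y9)) + ((142875/524288:ℝ) * y10)) + ((-1071375/2097152:ℝ) * y11)) + ((40875/262144:ℝ) * y12)) + ((111875/524288:ℝ) * y13)) + ((1308125/4194304:ℝ) * y14)) + ((1543375/4194304:ℝ) * y15)) + ((-734875/524288:ℝ) * y16)) + ((1117875/1048576:ℝ) * y17)) + ((1217625/2097152:ℝ) * y18)) + ((-353625/524288:ℝ) * y19)) + ((-173625/262144:ℝ)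 * y20)) + ((-345375/262144:ℝ) * y21)) + ((-375/262144:ℝ) * y22)) + ((-6623125/2097152:ℝ) * y23)) + ((2658125/2097152:ℝ) * y24)) + ((703125/1048576:ℝ) * y25)) + ((4430125/2097152:ℝ) * y26)) := by
  push_cast; ring

theorem l17 (y1 y2 y3 y4 y5 y6 y7 y8 y9 y10 y11 y12 y13 y14 : ℝ) : (((976000:ℕ):ℝ) * y2 + ((5963500:ℕ):ℝ) * y5 + ((5884875:ℕ):ℝ) * y9 + ((17073000:ℕ):ℝ) * y12 + ((1522500:ℕ):ℝ) * y13 + ((6598000:ℕ):ℝ) * y14 + ((1660250:ℕ):ℝ) * 1 + -(((1586250:ℕ):ℝ) * y1 + ((105500:ℕ):ℝ) * y3 + ((1961625:ℕ):ℝ) * y4 + ((8209500:ℕ):ℝ) * y6 + ((1952000:ℕ):ℝ) * y7 + ((597000:ℕ):ℝ) * y8 + ((4455250:ℕ):ℝ) * y10 + ((18874500:ℕ):ℝ) * y11)) / (2:ℝ) ^ 22 = (((((((((((((((830125/2097152:ℝ) + ((-793125/2097152:ℝ) * y1)) + ((7625/32768:ℝ) * y2)) + ((-26375/1048576:ℝ) * y3)) + ((-1961625/4194304:ℝ) * y4)) + ((1490875/1048576:ℝ) * y5)) + ((-2052375/1048576:ℝ) * y6)) + ((-7625/16384:ℝ) * y7)) + ((-74625/524288:ℝ)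 * y8)) + ((5884875/4194304:ℝ) * y9)) + ((-2227625/2097152:ℝ) * y10)) + ((-4718625/1048576:ℝ) * y11)) + ((2134125/524288:ℝ) * y12)) + ((380625/1048576:ℝ) * y13)) + ((412375/262144:ℝ) * y14)) := by
  push_cast; ring

theorem l18 (y1 y2 : ℝ) : (((4:ℕ):ℝ) * y1 + -(((5:ℕ):ℝ) * y2)) / (2:ℝ) ^ 1 = (((2:ℝ) * y1) - ((5/2:ℝ) * y2)) := by
  push_cast; ring

theorem l19 (y1 y2 y3 y4 y5 y6 y7 y8 y9 y10 y11 y12 y13 y14 y15 : ℝ) : (((2379375:ℕ):ℝ) * y1 + ((316500:ℕ):ℝ) * y3 + ((5884875:ℕ):ℝ) * y4 + ((6157125:ℕ):ℝ) * y7 + ((1464000:ℕ):ℝ) * y8 + ((597000:ℕ):ℝ) * y9 + ((6682875:ℕ):ℝ) * y11 + ((9437250:ℕ):ℝ) * y12 + -(((1464000:ℕ):ℝ) * y2 + ((6682875:ℕ):ℝ) * y5 + ((4472625:ℕ):ℝ) * y6 + ((5884875:ℕ):ℝ) * y10 + ((8536500:ℕ):ℝ) * y13 + ((913500:ℕ):ℝ) * y14 + ((2474250:ℕ):ℝ) * y15 + ((2490375:ℕ):ℝ) * 1)) / (2:ℝ) ^ 22 = ((((((((((((((((-2490375/4194304:ℝ) + ((2379375/4194304:ℝ) * y1)) + ((-22875/65536:ℝ)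 * y2)) + ((79125/1048576:ℝ) * y3)) + ((5884875/4194304:ℝ) * y4)) + ((-6682875/4194304:ℝ) * y5)) + ((-4472625/4194304:ℝ) * y6)) + ((6157125/4194304:ℝ) * y7)) + ((22875/65536:ℝ) * y8)) + ((74625/524288:ℝ) * y9)) + ((-5884875/4194304:ℝ) * y10)) + ((6682875/4194304:ℝ) * y11)) + ((4718625/2097152:ℝ) * y12)) + ((-2134125/1048576:ℝ) * y13)) + ((-228375/1048576:ℝ) * y14)) + ((-1237125/2097152:ℝ) * y15)) := by
  push_cast; ring

theorem l20 (y1 y2 : ℝ) : (((4:ℕ):ℝ) * y1 + -y2) / (2:ℝ) ^ 2 = (y1 - (y2 / (4:ℝ))) := by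
  push_cast; ring

theorem l21 (y1 y2 : ℝ) : (((2:ℕ):ℝ) * y1 + -(((2:ℕ):ℝ) * y2)) / (2:ℝ) ^ 0 = (((2:ℝ) * y1) - ((2:ℝ) * y2)) := by
  push_cast; ring

theorem l22 (y1 y2 y3 y4 y5 y6 y7 y8 y9 y10 y11 y12 y13 y14 y15 y16 : ℝ) : (((51250:ℕ):ℝ) * y1 + ((2731625:ℕ):ℝ) * y5 + ((5238250:ℕ):ℝ) * y6 + ((3892500:ℕ):ℝ) * y9 + ((1029750:ℕ):ℝ) * y10 + ((9375000:ℕ):ℝ) * y13 + -(((403000:ℕ):ℝ) * y2 + ((942000:ℕ):ℝ) * y3 + ((919250:ℕ):ℝ) * y4 + ((3084375:ℕ):ℝ) * y7 + ((2862375:ℕ):ℝ) * y8 + ((7500000:ℕ):ℝ) * y11 + ((345625:ℕ):ℝ) * y12 + ((9375000:ℕ):ℝ) * y14 + ((2231000:ℕ):ℝ) * y15 + ((8393875:ℕ):ℝ) * y16 + ((637375:ℕ):ℝ) * 1)) / (2:ℝ) ^ 21 = (((((((((((((((((-637375/2097152:ℝ) + ((25625/1048576:ℝ) * y1)) + ((-50375/262144:ℝ) * y2)) + ((-58875/131072:ℝ) * y3)) + ((-459625/1048576:ℝ) * y4)) + ((2731625/2097152:ℝ) * y5)) + ((2619125/1048576:ℝ) * y6)) + ((-3084375/2097152:ℝ) * y7)) + ((-2862375/2097152:ℝ)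 * y8)) + ((973125/524288:ℝ) * y9)) + ((514875/1048576:ℝ) * y10)) + ((-234375/65536:ℝ) * y11)) + ((-345625/2097152:ℝ) * y12)) + ((1171875/262144:ℝ) * y13)) + ((-1171875/262144:ℝ) * y14)) + ((-278875/262144:ℝ) * y15)) + ((-8393875/2097152:ℝ) * y16)) := by
  push_cast; ring

theorem l23 (y1 y2 y3 y4 y5 y6 y7 y8 y9 : ℝ) : (((150375:ℕ):ℝ) * y3 + ((2203125:ℕ):ℝ) * y4 + ((3406500:ℕ):ℝ) * y6 + ((8788125:ℕ):ℝ) * y8 + ((2355000:ℕ):ℝ) * 1 + -(((1055500:ℕ):ℝ) * y1 + ((497000:ℕ):ℝ) * y2 + ((847250:ℕ):ℝ) * y5 + ((6135000:ℕ):ℝ) * y7 + ((1087000:ℕ):ℝ) * y9)) / (2:ℝ) ^ 21 = ((((((((((294375/262144:ℝ) + ((-263875/524288:ℝ) * y1)) + ((-62125/262144:ℝ) * y2)) + ((150375/2097152:ℝ) * y3)) + ((2203125/2097152:ℝ) * y4)) + ((-423625/1048576:ℝ) * y5)) + ((851625/524288:ℝ) * y6)) + ((-766875/262144:ℝ) * y7)) + ((8788125/2097152:ℝ) * y8)) + ((-135875/262144:ℝ) * y9)) := by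
  push_cast; ring

theorem l24 (y1 y2 y3 y4 y5 y6 y7 y8 y9 y10 y11 y12 y13 y14 y15 y16 y17 y18 : ℝ) : (((2981000:ℕ):ℝ) * y2 + ((429500:ℕ):ℝ) * y4 + ((1270875:ℕ):ℝ) * y7 + ((2314750:ℕ):ℝ) * y9 + ((476000:ℕ):ℝ) * y11 + ((6948000:ℕ):ℝ) * y16 + -(((566125:ℕ):ℝ) * y1 + ((1620500:ℕ):ℝ) * y3 + ((5953000:ℕ):ℝ) * y5 + ((806000:ℕ):ℝ) * y6 + ((519000:ℕ):ℝ) * y8 + ((4432500:ℕ):ℝ) * y10 + ((8121000:ℕ):ℝ) * y12 + ((2550750:ℕ):ℝ) * y13 + ((131500:ℕ):ℝ) * y14 + ((1920375:ℕ):ℝ) * y15 + ((6372500:ℕ):ℝ) * y17 + ((4325000:ℕ):ℝ) * y18 + ((1740250:ℕ):ℝ) * 1)) / (2:ℝ) ^ 22 = (((((((((((((((((((-870125/2097152:ℝ) + ((-566125/4194304:ℝ) * y1)) + ((372625/524288:ℝ) * y2)) + ((-405125/1048576:ℝ) * y3)) + ((107375/1048576:ℝ) * y4)) + ((-744125/524288:ℝ) * y5)) + ((-50375/262144:ℝ) * y6)) + ((1270875/4194304:ℝ) * y7)) + ((-64875/524288:ℝ) * y8)) + ((1157375/2097152:ℝ) * y9)) + ((-1108125/1048576:ℝ) * y10)) + ((14875/131072:ℝ)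 * y11)) + ((-1015125/524288:ℝ) * y12)) + ((-1275375/2097152:ℝ) * y13)) + ((-32875/1048576:ℝ) * y14)) + ((-1920375/4194304:ℝ) * y15)) + ((217125/131072:ℝ) * y16)) + ((-1593125/1048576:ℝ) * y17)) + ((-540625/524288:ℝ) * y18)) := by
  push_cast; ring

theorem l25 (y1 y2 y3 y4 y5 y6 y7 y8 y9 : ℝ) : (((1446875:ℕ):ℝ) * y1 + ((2750625:ℕ):ℝ) * y2 + ((3932250:ℕ):ℝ) * y5 + ((5052250:ℕ):ℝ) * y6 + -(((182000:ℕ):ℝ) * y3 + ((6414500:ℕ):ℝ) * y4 + ((3154375:ℕ):ℝ) * y7 + ((7086750:ℕ):ℝ) * y8 + ((4482000:ℕ):ℝ) * y9 + ((2616875:ℕ):ℝ) * 1)) / (2:ℝ) ^ 22 = ((((((((((-2616875/4194304:ℝ) + ((1446875/4194304:ℝ) * y1)) + ((2750625/4194304:ℝ) * y2)) + ((-11375/262144:ℝ) * y3)) + ((-1603625/1048576:ℝ) * y4)) + ((1966125/2097152:ℝ) * y5)) + ((2526125/2097152:ℝ) * y6)) + ((-3154375/4194304:ℝ) * y7)) + ((-3543375/2097152:ℝ) * y8)) + ((-280125/262144:ℝ) * y9)) := by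
  push_cast; ring

theorem l26 (y1 y2 y3 y4 y5 y6 y7 y8 y9 : ℝ) : (((136500:ℕ):ℝ) * y3 + ((4810875:ℕ):ℝ) * y4 + ((1351875:ℕ):ℝ) * y7 + ((3543375:ℕ):ℝ) * y8 + ((1494000:ℕ):ℝ) * y9 + ((1570125:ℕ):ℝ) * 1 + -(((868125:ℕ):ℝ) * y1 + ((1650375:ℕ):ℝ) * y2 + ((3932250:ℕ):ℝ) * y5 + ((2165250:ℕ):ℝ) * y6)) / (2:ℝ) ^ 21 = ((((((((((1570125/2097152:ℝ) + ((-868125/2097152:ℝ) * y1)) + ((-1650375/2097152:ℝ) * y2)) + ((34125/524288:ℝ) * y3)) + ((4810875/2097152:ℝ) * y4)) + ((-1966125/1048576:ℝ) * y5)) + ((-1082625/1048576:ℝ) * y6)) + ((1351875/2097152:ℝ) * y7)) + ((3543375/2097152:ℝ) * y8)) + ((93375/131072:ℝ) * y9)) := by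
  push_cast; ring

theorem l27 (y1 y2 y3 y4 y5 y6 y7 y8 y9 y10 y11 y12 y13 y14 y15 y16 y17 y18 y19 : ℝ) : (((403000:ℕ):ℝ) * y2 + ((942000:ℕ):ℝ) * y3 + ((680250:ℕ):ℝ) * y4 + ((831250:ℕ):ℝ) * y5 + ((2731625:ℕ):ℝ) * y8 + ((2619125:ℕ):ℝ) * y9 + ((1028125:ℕ):ℝ) * y10 + ((954125:ℕ):ℝ) * y11 + ((3750000:ℕ):ℝ) * y14 + ((345625:ℕ):ℝ) * y15 + ((1875000:ℕ):ℝ) * y17 + ((557750:ℕ):ℝ) * y18 + ((1199125:ℕ):ℝ) * y19 + ((637375:ℕ):ℝ) * 1 + -(((51250:ℕ):ℝ) * y1 + ((3034875:ℕ):ℝ) * y6 + ((919250:ℕ):ℝ) * y7 + ((1297500:ℕ):ℝ) * y12 + ((514875:ℕ):ℝ) * y13 + ((1875000:ℕ):ℝ) * y16)) / (2:ℝ) ^ 21 = ((((((((((((((((((((637375/2097152:ℝ) + ((-25625/1048576:ℝ) * y1)) + ((50375/262144:ℝ) * y2)) + ((58875/131072:ℝ) * y3)) + ((340125/1048576:ℝ) * y4)) + ((415625/1048576:ℝ) * y5)) + ((-3034875/2097152:ℝ) * y6)) + ((-459625/1048576:ℝ) * y7)) + ((2731625/2097152:ℝ) * y8)) + ((2619125/2097152:ℝ) * y9)) + ((1028125/2097152:ℝ)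 * y10)) + ((954125/2097152:ℝ) * y11)) + ((-324375/524288:ℝ) * y12)) + ((-514875/2097152:ℝ) * y13)) + ((234375/131072:ℝ) * y14)) + ((345625/2097152:ℝ) * y15)) + ((-234375/262144:ℝ) * y16)) + ((234375/262144:ℝ) * y17)) + ((278875/1048576:ℝ) * y18)) + ((1199125/2097152:ℝ) * y19)) := by
  push_cast; ring

theorem l28 (y1 y2 y3 y4 y5 y6 y7 y8 y9 : ℝ) : (((263875:ℕ):ℝ) * y1 + ((124250:ℕ):ℝ) * y2 + ((423625:ℕ):ℝ) * y5 + ((1022500:ℕ):ℝ) * y7 + ((135875:ℕ):ℝ) * y9 + -(((50125:ℕ):ℝ) * y3 + ((734375:ℕ):ℝ) * y4 + ((567750:ℕ):ℝ) * y6 + ((1757625:ℕ):ℝ) * y8 + ((588750:ℕ):ℝ) * 1)) / (2:ℝ) ^ 21 = ((((((((((-294375/1048576:ℝ) + ((263875/2097152:ℝ) * y1)) + ((62125/1048576:ℝ) * y2)) + ((-50125/2097152:ℝ) * y3)) + ((-734375/2097152:ℝ) * y4)) + ((423625/2097152:ℝ) * y5)) + ((-283875/1048576:ℝ) * y6)) + ((255625/524288:ℝ) * y7)) + ((-1757625/2097152:ℝ) * y8)) + ((135875/2097152:ℝ) * y9)) := by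
  push_cast; ring

theorem l29 (y1 y2 y3 y4 y5 y6 y7 y8 y9 y10 y11 y12 y13 y14 y15 y16 y17 y18 y19 : ℝ) : (((678875:ℕ):ℝ) * y1 + ((810250:ℕ):ℝ) * y3 + ((3749875:ℕ):ℝ) * y5 + ((806000:ℕ):ℝ) * y6 + ((1875000:ℕ):ℝ) * y11 + ((949375:ℕ):ℝ) * y13 + ((850250:ℕ):ℝ) * y14 + ((65750:ℕ):ℝ) * y15 + ((388000:ℕ):ℝ) * y16 + ((1274500:ℕ):ℝ) * y18 + ((540625:ℕ):ℝ) * y19 + -(((1304125:ℕ):ℝ) * y2 + ((579875:ℕ):ℝ) * y4 + ((829250:ℕ):ℝ) * y7 + ((2280125:ℕ):ℝ) * y8 + ((519000:ℕ):ℝ) * y9 + ((1004500:ℕ):ℝ) * y10 + ((119000:ℕ):ℝ) * y12 + ((1158000:ℕ):ℝ) * y17 + ((13000:ℕ):ℝ) * 1)) / (2:ℝ) ^ 21 = ((((((((((((((((((((-1625/262144:ℝ) + ((678875/2097152:ℝ) * y1)) + ((-1304125/2097152:ℝ) * y2)) + ((405125/1048576:ℝ) * y3)) + ((-579875/2097152:ℝ) * y4)) + ((3749875/2097152:ℝ) * y5)) + ((50375/131072:ℝ) * y6)) + ((-414625/1048576:ℝ) * y7)) + ((-2280125/2097152:ℝ) * y8)) + ((-64875/262144:ℝ) * y9)) + ((-251125/524288:ℝ)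 * y10)) + ((234375/262144:ℝ) * y11)) + ((-14875/262144:ℝ) * y12)) + ((949375/2097152:ℝ) * y13)) + ((425125/1048576:ℝ) * y14)) + ((32875/1048576:ℝ) * y15)) + ((12125/65536:ℝ) * y16)) + ((-72375/131072:ℝ) * y17)) + ((318625/524288:ℝ) * y18)) + ((540625/2097152:ℝ) * y19)) := by
  push_cast; ring

theorem l30 (y1 y2 y3 y4 y5 y6 y7 y8 y9 : ℝ) : (((45500:ℕ):ℝ) * y3 + ((1603625:ℕ):ℝ) * y4 + ((450625:ℕ):ℝ) * y7 + ((1181125:ℕ):ℝ) * y8 + ((498000:ℕ):ℝ) * y9 + ((523375:ℕ):ℝ) * 1 + -(((289375:ℕ):ℝ) * y1 + ((550125:ℕ):ℝ) * y2 + ((1310750:ℕ):ℝ) * y5 + ((721750:ℕ):ℝ) * y6)) / (2:ℝ) ^ 21 = ((((((((((523375/2097152:ℝ) + ((-289375/2097152:ℝ) * y1)) + ((-550125/2097152:ℝ) * y2)) + ((11375/524288:ℝ) * y3)) + ((1603625/2097152:ℝ) * y4)) + ((-655375/1048576:ℝ) * y5)) + ((-360875/1048576:ℝ) * y6)) + ((450625/2097152:ℝ) * y7)) + ((1181125/2097152:ℝ) * y8)) + ((31125/131072:ℝ) * y9)) := by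
  push_cast; ring

theorem l31 (y1 y2 : ℝ) : (((10:ℕ):ℝ) * y1 + ((8:ℕ):ℝ) * y2) / (2:ℝ) ^ 0 = (((10:ℝ) * y1) + ((8:ℝ) * y2)) := by
  push_cast; ring

theorem l32 (y1 y2 y3 y4 y5 : ℝ) : (((65536:ℕ):ℝ) * y1 + ((65536:ℕ):ℝ) * y2 + ((65536:ℕ):ℝ) * y3 + ((655360:ℕ):ℝ) * y4 + ((65536:ℕ):ℝ) * y5 + -1) / (2:ℝ) ^ 16 = (((((y1 + y2) + y3) + ((10:ℝ) * y4)) + y5) + (-1/65536:ℝ)) := by
  push_cast; ring

theorem l33 (y1 y2 : ℝ) : (-(((4:ℕ):ℝ) * y1 + ((5:ℕ):ℝ) * y2)) / (2:ℝ) ^ 1 = ((-((2:ℝ) * y1)) - ((5/2:ℝ) * y2)) := by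
  push_cast; ring

theorem l34 (y1 y2 : ℝ) : (((4:ℕ):ℝ) * y1 + y2) / (2:ℝ) ^ 2 = (y1 + (y2 / (4:ℝ))) := by
  push_cast; ring

theorem l35 (y1 y2 y3 : ℝ) : (((2:ℕ):ℝ) * y1 + ((2:ℕ):ℝ) * y2 + -(((2:ℕ):ℝ) * y3)) / (2:ℝ) ^ 0 = ((((2:ℝ) * y1) + ((2:ℝ) * y2)) - ((2:ℝ) * y3)) := by
  push_cast; ring

theorem l36 (y1 y2 y3 y4 y5 : ℝ) : (y1 + y2 + y3 + ((4:ℕ):ℝ) * y4 + ((8:ℕ):ℝ) * y5) / (2:ℝ) ^ 0 = ((((y1 + y2) + y3) + ((4:ℝ) * y4)) + ((8:ℝ) * y5)) := by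
  push_cast; ring

theorem l37 (y1 y2 : ℝ) : (((10:ℕ):ℝ) * y1 + -(((8:ℕ):ℝ) * y2)) / (2:ℝ) ^ 0 = (((10:ℝ) * y1) - ((8:ℝ) * y2)) := by
  push_cast; ring

theorem l38 (y1 : ℝ) : (-(((4:ℕ):ℝ) * y1)) / (2:ℝ) ^ 0 = (-((4:ℝ) * y1)) := by
  push_cast; ring

theorem l39 (y1 y2 y3 : ℝ) : (y1 + y2 + y3) / (2:ℝ) ^ 0 = ((y1 + y2) + y3) := by
  push_cast; ring

theorem l40 (y1 y2 y3 y4 : ℝ) : (y1 + y2 + y3 + ((8:ℕ):ℝ) * y4) / (2:ℝ) ^ 0 = (((y1 + y2) + y3) + ((8:ℝ) * y4)) := by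
  push_cast; ring

theorem l41 (y1 y2 : ℝ) : (((2:ℕ):ℝ) * y1 + -(((8:ℕ):ℝ) * y2)) / (2:ℝ) ^ 0 = (((2:ℝ) * y1) - ((8:ℝ) * y2)) := by
  push_cast; ring

theorem l42 (y1 y2 y3 y4 y5 : ℝ) : (((65536:ℕ):ℝ) * y1 + ((65536:ℕ):ℝ) * y2 + ((65536:ℕ):ℝ) * y3 + ((393216:ℕ):ℝ) * y4 + ((65536:ℕ):ℝ) * y5 + -1) / (2:ℝ) ^ 16 = (((((y1 + y2) + y3) + ((6:ℝ) * y4)) + y5) + (-1/65536:ℝ)) := by
  push_cast; ring

theorem l43 (y1 y2 y3 y4 y5 y6 y7 y8 y9 : ℝ) : (((2440500:ℕ):ℝ) * y1 + ((8818500:ℕ):ℝ) * y5 + ((703125:ℕ):ℝ) * y9 + ((478625:ℕ):ℝ) * 1 + -(((3040500:ℕ):ℝ) * y2 + ((2628250:ℕ):ℝ) * y3 + ((3086750:ℕ):ℝ) * y4 + ((685875:ℕ):ℝ) * y6 + ((2763000:ℕ):ℝ) * y7 + ((12000:ℕ):ℝ) * y8)) / (2:ℝ) ^ 22 = ((((((((((478625/4194304:ℝ) + ((610125/1048576:ℝ) * y1)) + ((-760125/1048576:ℝ) * y2)) + ((-1314125/2097152:ℝ) * y3)) + ((-1543375/2097152:ℝ) * y4)) + ((2204625/1048576:ℝ) * y5)) + ((-685875/4194304:ℝ) * y6)) +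 ((-345375/524288:ℝ) * y7)) + ((-375/131072:ℝ) * y8)) + ((703125/4194304:ℝ) * y9)) := by
  push_cast; ring

theorem l44 (y1 y2 y3 y4 y5 y6 y7 y8 y9 : ℝ) : (((578000:ℕ):ℝ) * y1 + ((6081000:ℕ):ℝ) * y4 + ((1543375:ℕ):ℝ) * y5 + ((1886000:ℕ):ℝ) * y7 + ((2763000:ℕ):ℝ) * y8 + ((267750:ℕ):ℝ) * 1 + -(((2685000:ℕ):ℝ) * y2 + ((2440500:ℕ):ℝ) * y3 + ((1875000:ℕ):ℝ) * y6 + ((1063250:ℕ):ℝ) * y9)) / (2:ℝ) ^ 21 = ((((((((((133875/1048576:ℝ) + ((36125/131072:ℝ) * y1)) + ((-335625/262144:ℝ) * y2)) + ((-610125/524288:ℝ) * y3)) + ((760125/262144:ℝ) * y4)) + ((1543375/2097152:ℝ) * y5)) + ((-234375/262144:ℝ) * y6)) + ((117875/131072:ℝ) * y7)) + ((345375/262144:ℝ) * y8)) + ((-531625/1048576:ℝ) * y9)) := by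
  push_cast; ring

theorem l45 (y1 y2 y3 : ℝ) : (((1961625:ℕ):ℝ) * y1 + ((304500:ℕ):ℝ) * y3 + ((105500:ℕ):ℝ) * 1 + -(((4455250:ℕ):ℝ) * y2)) / (2:ℝ) ^ 22 = ((((26375/1048576:ℝ) + ((1961625/4194304:ℝ) * y1)) + ((-2227625/2097152:ℝ) * y2)) + ((76125/1048576:ℝ) * y3)) := by
  push_cast; ring

theorem l46 (y1 y2 y3 : ℝ) : (((976000:ℕ):ℝ) * y1 + -(((1961625:ℕ):ℝ) * y2 + ((2845500:ℕ):ℝ) * y3 + ((793125:ℕ):ℝ) * 1)) / (2:ℝ) ^ 21 = ((((-793125/2097152:ℝ) + ((7625/16384:ℝ) * y1)) + ((-1961625/2097152:ℝ) * y2)) + ((-711375/524288:ℝ) * y3)) := by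
  push_cast; ring

theorem l47 (y1 y2 y3 y4 : ℝ) : (y1 + y2 + y3 + y4) / (2:ℝ) ^ 0 = (((y1 + y2) + y3) + y4) := by
  push_cast; ring

theorem l48 (y1 y2 y3 y4 y5 y6 y7 y8 y9 y10 y11 y12 y13 y14 y15 y16 y17 y18 y19 y20 y21 y22 y23 y24 y25 y26 y27 : ℝ) : (((396000:ℕ):ℝ) * y1 + ((847500:ℕ):ℝ) * y3 + ((3538875:ℕ):ℝ) * y4 + ((15740875:ℕ):ℝ) * y5 + ((2110000:ℕ):ℝ) * y6 + ((3434750:ℕ):ℝ) * y7 + ((1815875:ℕ):ℝ) * y8 + ((808375:ℕ):ℝ) * y10 + ((1875000:ℕ):ℝ) * y11 + ((5324125:ℕ):ℝ) * y14 + ((6367000:ℕ):ℝ) * y16 + ((1042750:ℕ):ℝ) * y17 + ((1496625:ℕ):ℝ) * y18 + ((1863000:ℕ):ℝ) * y20 + ((2030750:ℕ):ℝ) * y21 + ((4629375:ℕ):ℝ) * y22 + ((3750000:ℕ):ℝ) * y23 + ((4788875:ℕ):ℝ) * y24 + ((7500000:ℕ):ℝ) * y25 + ((830875:ℕ):ℝ) * 1 + -(((5314500:ℕ):ℝ) * y2 + ((231875:ℕ):ℝ) * y9 + ((1875000:ℕ):ℝ) * y12 + ((4086125:ℕ):ℝ) * y13 + ((1469250:ℕ):ℝ) * y15 + ((1875000:ℕ):ℝ) * y19 + ((4353375:ℕ):ℝ) * y26 + ((3723000:ℕ):ℝ)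 * y27)) / (2:ℝ) ^ 22 = ((((((((((((((((((((((((((((830875/4194304:ℝ) + ((12375/131072:ℝ) * y1)) + ((-1328625/1048576:ℝ) * y2)) + ((211875/1048576:ℝ) * y3)) + ((3538875/4194304:ℝ) * y4)) + ((15740875/4194304:ℝ) * y5)) + ((131875/262144:ℝ) * y6)) + ((1717375/2097152:ℝ) * y7)) + ((1815875/4194304:ℝ) * y8)) + ((-231875/4194304:ℝ) * y9)) + ((808375/4194304:ℝ) * y10)) + ((234375/524288:ℝ) * y11)) + ((-234375/524288:ℝ) * y12)) + ((-4086125/4194304:ℝ) * y13)) + ((5324125/4194304:ℝ) * y14)) + ((-734625/2097152:ℝ) * y15)) + ((795875/524288:ℝ) * y16)) + ((521375/2097152:ℝ) * y17)) + ((1496625/4194304:ℝ) * y18)) + ((-234375/524288:ℝ) * y19)) + ((232875/524288:ℝ) * y20)) + ((1015375/2097152:ℝ) * y21)) + ((4629375/4194304:ℝ) * y22)) + ((234375/262144:ℝ) * y23)) + ((4788875/4194304:ℝ) * y24)) + ((234375/131072:ℝ) * y25)) + ((-4353375/4194304:ℝ) * y26)) + ((-465375/524288:ℝ) * y27)) := by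
  push_cast; ring

theorem l49 (y1 y2 y3 y4 y5 y6 y7 y8 y9 y10 y11 y12 y13 y14 y15 y16 y17 y18 y19 y20 y21 y22 y23 y24 y25 y26 y27 : ℝ) : (((978250:ℕ):ℝ) * y4 + ((3121250:ℕ):ℝ) * y5 + ((4639500:ℕ):ℝ) * y6 + ((5518250:ℕ):ℝ) * y7 + ((7419125:ℕ):ℝ) * y8 + ((18193000:ℕ):ℝ) * y10 + ((7614250:ℕ):ℝ) * y12 + ((3750000:ℕ):ℝ) * y13 + ((1844250:ℕ):ℝ) * y16 + ((7500000:ℕ):ℝ) * y17 + ((3342500:ℕ):ℝ) * y21 + ((6138375:ℕ):ℝ) * y23 + ((17235000:ℕ):ℝ) * y24 + ((8315000:ℕ):ℝ) * y26 + ((177750:ℕ):ℝ) * 1 + -(((2140000:ℕ):ℝ) * y1 + ((3290750:ℕ):ℝ) * y2 + ((2150000:ℕ):ℝ) * y3 + ((22500000:ℕ):ℝ) * y9 + ((1096000:ℕ):ℝ) * y11 + ((275000:ℕ):ℝ) * y14 + ((7500000:ℕ):ℝ) * y15 + ((9096500:ℕ):ℝ) * y18 + ((11586000:ℕ):ℝ) * y19 + ((5625000:ℕ):ℝ) * y20 + ((7500000:ℕ):ℝ) * y22 + ((9375000:ℕ):ℝ) * y25 + ((11004000:ℕ):ℝ) * y27)) / (2:ℝ) ^ 22 = ((((((((((((((((((((((((((((88875/2097152:ℝ) + ((-66875/131072:ℝ) * y1)) +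 ((-1645375/2097152:ℝ) * y2)) + ((-134375/262144:ℝ) * y3)) + ((489125/2097152:ℝ) * y4)) + ((1560625/2097152:ℝ) * y5)) + ((1159875/1048576:ℝ) * y6)) + ((2759125/2097152:ℝ) * y7)) + ((7419125/4194304:ℝ) * y8)) + ((-703125/131072:ℝ) * y9)) + ((2274125/524288:ℝ) * y10)) + ((-17125/65536:ℝ) * y11)) + ((3807125/2097152:ℝ) * y12)) + ((234375/262144:ℝ) * y13)) + ((-34375/524288:ℝ) * y14)) + ((-234375/131072:ℝ) * y15)) + ((922125/2097152:ℝ) * y16)) + ((234375/131072:ℝ) * y17)) + ((-2274125/1048576:ℝ) * y18)) + ((-724125/262144:ℝ) * y19)) + ((-703125/524288:ℝ) * y20)) + ((835625/1048576:ℝ) * y21)) + ((-234375/131072:ℝ) * y22)) + ((6138375/4194304:ℝ) * y23)) + ((2154375/524288:ℝ) * y24)) + ((-1171875/524288:ℝ) * y25)) + ((1039375/524288:ℝ) * y26)) + ((-343875/131072:ℝ) * y27)) := by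
  push_cast; ring

theorem l50 (y1 y2 y3 y4 y5 y6 y7 y8 y9 y10 y11 y12 y13 y14 y15 : ℝ) : (((708125:ℕ):ℝ) * y1 + ((1875000:ℕ):ℝ) * y2 + ((3901375:ℕ):ℝ) * y5 + ((3393750:ℕ):ℝ) * y6 + ((1875000:ℕ):ℝ) * y8 + ((1875000:ℕ):ℝ) * y9 + ((1875000:ℕ):ℝ) * y10 + ((3750000:ℕ):ℝ) * y12 + -(((1148875:ℕ):ℝ) * y3 + ((4956625:ℕ):ℝ) * y4 + ((1323250:ℕ):ℝ) * y7 + ((1875000:ℕ):ℝ) * y11 + ((3726000:ℕ):ℝ) * y13 + ((4327875:ℕ):ℝ) * y14 + ((2123625:ℕ):ℝ) * y15)) / (2:ℝ) ^ 21 = ((((((((((((((((708125/2097152:ℝ) * y1) + ((234375/262144:ℝ) * y2)) + ((-1148875/2097152:ℝ) * y3)) + ((-4956625/2097152:ℝ) * y4)) + ((3901375/2097152:ℝ) * y5)) + ((1696875/1048576:ℝ) * y6)) + ((-661625/1048576:ℝ) * y7)) + ((234375/262144:ℝ) * y8)) + ((234375/262144:ℝ) * y9)) + ((234375/262144:ℝ) * y10)) + ((-234375/262144:ℝ) * y11)) + ((234375/131072:ℝ) * y12)) + ((-232875/131072:ℝ) * y13)) + ((-4327875/2097152:ℝ) * y14)) + ((-2123625/2097152:ℝ)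 * y15)) := by
  push_cast; ring

theorem l51 (y1 y2 y3 y4 y5 y6 y7 y8 y9 : ℝ) : (((3174250:ℕ):ℝ) * y2 + ((3105750:ℕ):ℝ) * y5 + ((6024500:ℕ):ℝ) * y6 + -(((878625:ℕ):ℝ) * y1 + ((2322750:ℕ):ℝ) * y3 + ((6797000:ℕ):ℝ) * y4 + ((8259125:ℕ):ℝ) * y7 + ((12526000:ℕ):ℝ) * y8 + ((12673625:ℕ):ℝ) * y9 + ((673375:ℕ):ℝ) * 1)) / (2:ℝ) ^ 22 = ((((((((((-673375/4194304:ℝ) + ((-878625/4194304:ℝ) * y1)) + ((1587125/2097152:ℝ) * y2)) + ((-1161375/2097152:ℝ) * y3)) + ((-849625/524288:ℝ) * y4)) + ((1552875/2097152:ℝ) * y5)) + ((1506125/1048576:ℝ) * y6)) + ((-8259125/4194304:ℝ) * y7)) + ((-782875/262144:ℝ) * y8)) + ((-12673625/4194304:ℝ) * y9)) := by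
  push_cast; ring

theorem l52 (y1 y2 y3 y4 y5 y6 y7 y8 : ℝ) : (((586500:ℕ):ℝ) * y1 + ((3831250:ℕ):ℝ) * y3 + ((4526000:ℕ):ℝ) * y4 + ((5172500:ℕ):ℝ) * y5 + ((15000000:ℕ):ℝ) * y6 + -(((2581000:ℕ):ℝ) * y2 + ((17924625:ℕ):ℝ) * y7 + ((14270250:ℕ):ℝ) * y8 + ((788500:ℕ):ℝ) * 1)) / (2:ℝ) ^ 22 = (((((((((-197125/1048576:ℝ) + ((146625/1048576:ℝ) * y1)) + ((-322625/524288:ℝ) * y2)) + ((1915625/2097152:ℝ) * y3)) + ((282875/262144:ℝ) * y4)) + ((1293125/1048576:ℝ) * y5)) + ((234375/65536:ℝ) * y6)) + ((-17924625/4194304:ℝ) * y7)) + ((-7135125/2097152:ℝ) * y8)) := by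
  push_cast; ring

theorem l53 (y1 y2 y3 y4 y5 y6 y7 y8 y9 : ℝ) : (((6340000:ℕ):ℝ) * y3 + ((13594000:ℕ):ℝ) * y4 + ((30000000:ℕ):ℝ) * y8 + ((21073500:ℕ):ℝ) * y9 + ((478125:ℕ):ℝ) * 1 + -(((235875:ℕ):ℝ) * y1 + ((4711125:ℕ):ℝ) * y2 + ((6834000:ℕ):ℝ) * y5 + ((14696875:ℕ):ℝ) * y6 + ((14954375:ℕ):ℝ) * y7)) / (2:ℝ) ^ 22 = ((((((((((478125/4194304:ℝ) + ((-235875/4194304:ℝ) * y1)) + ((-4711125/4194304:ℝ) * y2)) + ((198125/131072:ℝ) * y3)) + ((849625/262144:ℝ) * y4)) + ((-427125/262144:ℝ) * y5)) + ((-14696875/4194304:ℝ) * y6)) + ((-14954375/4194304:ℝ) * y7)) + ((234375/32768:ℝ) * y8)) + ((5268375/1048576:ℝ) * y9)) := by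
  push_cast; ring

theorem l54 (y1 y2 y3 y4 y5 y6 : ℝ) : (y1 + y2 + y3 + y4 + y5 + y6) / (2:ℝ) ^ 0 = (((((y1 + y2) + y3) + y4) + y5) + y6) := by
  push_cast; ring

theorem l55 (y1 y2 y3 y4 y5 y6 y7 y8 y9 : ℝ) : (((4418500:ℕ):ℝ) * y1 + ((17939750:ℕ):ℝ) * y4 + ((12100250:ℕ):ℝ) * y7 + ((7670500:ℕ):ℝ) * y8 + ((7072375:ℕ):ℝ) * y9 + ((811750:ℕ):ℝ) * 1 + -(((4005625:ℕ):ℝ) * y2 + ((3429625:ℕ):ℝ) * y3 + ((12741750:ℕ):ℝ) * y5 + ((3893375:ℕ):ℝ) * y6)) / (2:ℝ) ^ 22 = ((((((((((405875/2097152:ℝ) + ((1104625/1048576:ℝ) * y1)) + ((-4005625/4194304:ℝ) * y2)) + ((-3429625/4194304:ℝ) * y3)) + ((8969875/2097152:ℝ) * y4)) + ((-6370875/2097152:ℝ) * y5)) + ((-3893375/4194304:ℝ) * y6)) + ((6050125/2097152:ℝ) * y7)) + ((1917625/1048576:ℝ) * y8)) + ((7072375/4194304:ℝ) * y9)) := by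
  push_cast; ring

theorem l56 (y1 y2 y3 y4 y5 y6 y7 y8 y9 : ℝ) : (((3591250:ℕ):ℝ) * y1 + ((9484750:ℕ):ℝ) * y5 + ((16224125:ℕ):ℝ) * y8 + ((9451125:ℕ):ℝ) * y9 + -(((990000:ℕ):ℝ) * y2 + ((14587250:ℕ):ℝ) * y3 + ((16802000:ℕ):ℝ) * y4 + ((9163125:ℕ):ℝ) * y6 + ((10774000:ℕ):ℝ) * y7 + ((966625:ℕ):ℝ) * 1)) / (2:ℝ) ^ 22 = ((((((((((-966625/4194304:ℝ) + ((1795625/2097152:ℝ) * y1)) + ((-61875/262144:ℝ) * y2)) + ((-7293625/2097152:ℝ) * y3)) + ((-1050125/262144:ℝ) * y4)) + ((4742375/2097152:ℝ) * y5)) + ((-9163125/4194304:ℝ) * y6)) + ((-673375/262144:ℝ) * y7)) + ((16224125/4194304:ℝ) * y8)) + ((9451125/4194304:ℝ) * y9)) := by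
  push_cast; ring

theorem l57 (y1 y2 y3 y4 y5 y6 y7 y8 y9 : ℝ) : (((235875:ℕ):ℝ) * y1 + ((4711125:ℕ):ℝ) * y2 + ((20502000:ℕ):ℝ) * y5 + ((8818125:ℕ):ℝ) * y6 + ((8972625:ℕ):ℝ) * y7 + -(((9510000:ℕ):ℝ) * y3 + ((20391000:ℕ):ℝ) * y4 + ((22500000:ℕ):ℝ) * y8 + ((9031500:ℕ):ℝ) * y9 + ((478125:ℕ):ℝ) * 1)) / (2:ℝ) ^ 22 = ((((((((((-478125/4194304:ℝ) + ((235875/4194304:ℝ) * y1)) + ((4711125/4194304:ℝ) * y2)) + ((-594375/262144:ℝ) * y3)) + ((-2548875/524288:ℝ) * y4)) + ((1281375/262144:ℝ) * y5)) + ((8818125/4194304:ℝ) * y6)) + ((8972625/4194304:ℝ) * y7)) + ((-703125/131072:ℝ) * y8)) + ((-2257875/1048576:ℝ) * y9)) := by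
  push_cast; ring

theorem l58 (y1 y2 y3 : ℝ) : (((1603625:ℕ):ℝ) * y1 + ((1181125:ℕ):ℝ) * y3 + ((45500:ℕ):ℝ) * 1 + -(((2621500:ℕ):ℝ) * y2)) / (2:ℝ) ^ 22 = ((((11375/1048576:ℝ) + ((1603625/4194304:ℝ) * y1)) + ((-655375/1048576:ℝ) * y2)) + ((1181125/4194304:ℝ) * y3)) := by
  push_cast; ring

theorem l59 (y1 y2 y3 : ℝ) : (((1100250:ℕ):ℝ) * y1 + ((289375:ℕ):ℝ) * 1 + -(((1603625:ℕ):ℝ) * y2 + ((450625:ℕ):ℝ) * y3)) / (2:ℝ) ^ 21 = ((((289375/2097152:ℝ) + ((550125/1048576:ℝ) * y1)) + ((-1603625/2097152:ℝ) * y2)) + ((-450625/2097152:ℝ) * y3)) := by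
  push_cast; ring

theorem l60 (y1 y2 y3 y4 y5 : ℝ) : (y1 + y2 + y3 + y4 + y5) / (2:ℝ) ^ 0 = ((((y1 + y2) + y3) + y4) + y5) := by
  push_cast; ring

theorem l61 (y1 y2 y3 y4 y5 y6 y7 y8 y9 y10 y11 y12 y13 y14 y15 y16 y17 y18 y19 y20 y21 y22 y23 y24 y25 y26 y27 y28 y29 y30 y31 y32 y33 y34 y35 y36 y37 y38 y39 y40 : ℝ) : (((18890000:ℕ):ℝ) * y2 + ((7826000:ℕ):ℝ) * y4 + ((19135000:ℕ):ℝ) * y5 + ((22073000:ℕ):ℝ) * y7 + ((34353000:ℕ):ℝ) * y8 + ((36386000:ℕ):ℝ) * y10 + ((11232840:ℕ):ℝ) * y14 + ((18526171:ℕ):ℝ) * y15 + ((17089324:ℕ):ℝ) * y17 + ((101630347:ℕ):ℝ) * y20 + ((8604484:ℕ):ℝ) * y22 + ((1855000:ℕ):ℝ) * y24 + ((58596144:ℕ):ℝ) * y25 + ((208438104:ℕ):ℝ) * y29 + ((55967494:ℕ):ℝ) * y35 + ((34963000:ℕ):ℝ) * y38 + ((20026874:ℕ):ℝ) * y39 + ((19157000:ℕ):ℝ) * y40 + ((602000:ℕ):ℝ) * 1 + -(((4224000:ℕ):ℝ) * y1 + ((17200000:ℕ):ℝ) * y3 + ((30000000:ℕ):ℝ) * y6 + ((60000000:ℕ):ℝ) * y9 + ((21013000:ℕ):ℝ)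 * y11 + ((12873858:ℕ):ℝ) * y12 + ((4629688:ℕ):ℝ) * y13 + ((29128524:ℕ):ℝ) * y16 + ((35673000:ℕ):ℝ) * y18 + ((44098487:ℕ):ℝ) * y19 + ((40388000:ℕ):ℝ) * y21 + ((10356000:ℕ):ℝ) * y23 + ((21850000:ℕ):ℝ) * y26 + ((6716456:ℕ):ℝ) * y27 + ((27432513:ℕ):ℝ) * y28 + ((25615000:ℕ):ℝ) * y30 + ((16809952:ℕ):ℝ) * y31 + ((180000000:ℕ):ℝ) * y32 + ((46946000:ℕ):ℝ) * y33 + ((58292932:ℕ):ℝ) * y34 + ((17815625:ℕ):ℝ) * y36 + ((89904000:ℕ):ℝ) * y37)) / (2:ℝ) ^ 24 = (((((((((((((((((((((((((((((((((((((((((37625/1048576:ℝ) + ((-4125/16384:ℝ) * y1)) + ((1180625/1048576:ℝ) * y2)) + ((-134375/131072:ℝ) * y3)) + ((489125/1048576:ℝ) * y4)) + ((2391875/2097152:ℝ) * y5)) + ((-234375/131072:ℝ) * y6)) + ((2759125/2097152:ℝ) * y7)) + ((4294125/2097152:ℝ) * y8)) + ((-234375/65536:ℝ) * y9)) + ((2274125/1048576:ℝ) * y10)) + ((-2626625/2097152:ℝ) * y11)) + ((-6436929/8388608:ℝ) * y12)) + ((-578711/2097152:ℝ) * y13)) +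 ((1404105/2097152:ℝ) * y14)) + ((18526171/16777216:ℝ) * y15)) + ((-7282131/4194304:ℝ) * y16)) + ((4272331/4194304:ℝ) * y17)) + ((-4459125/2097152:ℝ) * y18)) + ((-44098487/16777216:ℝ) * y19)) + ((101630347/16777216:ℝ) * y20)) + ((-1262125/524288:ℝ) * y21)) + ((2151121/4194304:ℝ) * y22)) + ((-323625/524288:ℝ) * y23)) + ((231875/2097152:ℝ) * y24)) + ((3662259/1048576:ℝ) * y25)) + ((-1365625/1048576:ℝ) * y26)) + ((-839557/2097152:ℝ) * y27)) + ((-27432513/16777216:ℝ) * y28)) + ((26054763/2097152:ℝ) * y29)) + ((-3201875/2097152:ℝ) * y30)) + ((-525311/524288:ℝ) * y31)) + ((-703125/65536:ℝ) * y32)) + ((-2934125/1048576:ℝ) * y33)) + ((-14573233/4194304:ℝ) * y34)) + ((27983747/8388608:ℝ) * y35)) + ((-17815625/16777216:ℝ) * y36)) + ((-702375/131072:ℝ) * y37)) + ((4370375/2097152:ℝ) * y38)) + ((10013437/8388608:ℝ) * y39)) + ((2394625/2097152:ℝ) * y40)) := by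
  push_cast; ring

theorem l62 (y1 y2 y3 y4 y5 y6 y7 y8 y9 : ℝ) : (((2175875:ℕ):ℝ) * y1 + ((1469250:ℕ):ℝ) * y2 + ((267000:ℕ):ℝ) * y3 + ((293000:ℕ):ℝ) * y6 + ((3750000:ℕ):ℝ) * y7 + ((1320375:ℕ):ℝ) * 1 + -(((1042750:ℕ):ℝ) * y4 + ((1496625:ℕ):ℝ) * y5 + ((510500:ℕ):ℝ) * y8 + ((1451125:ℕ):ℝ) * y9)) / (2:ℝ) ^ 21 = ((((((((((1320375/2097152:ℝ) + ((2175875/2097152:ℝ) * y1)) + ((734625/1048576:ℝ) * y2)) + ((33375/262144:ℝ) * y3)) + ((-521375/1048576:ℝ) * y4)) + ((-1496625/2097152:ℝ) * y5)) + ((36625/262144:ℝ) * y6)) + ((234375/131072:ℝ) * y7)) + ((-127625/524288:ℝ) * y8)) + ((-1451125/2097152:ℝ) * y9)) := by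
  push_cast; ring

theorem l63 (y1 y2 y3 y4 y5 y6 y7 y8 y9 y10 y11 y12 y13 y14 y15 y16 y17 y18 y19 y20 y21 y22 y23 y24 y25 y26 y27 y28 y29 : ℝ) : (((586000:ℕ):ℝ) * y1 + ((1470375:ℕ):ℝ) * y2 + ((1416250:ℕ):ℝ) * y4 + ((3750000:ℕ):ℝ) * y5 + ((3901375:ℕ):ℝ) * y8 + ((2262500:ℕ):ℝ) * y9 + ((1258250:ℕ):ℝ) * y10 + ((1519375:ℕ):ℝ) * y11 + ((4051250:ℕ):ℝ) * y13 + ((21385000:ℕ):ℝ) * y15 + ((12049375:ℕ):ℝ) * y16 + ((5950125:ℕ):ℝ) * y17 + ((16046250:ℕ):ℝ) * y19 + ((11238000:ℕ):ℝ) * y21 + ((15703375:ℕ):ℝ) * y23 + ((2647875:ℕ):ℝ) * y26 + ((2703125:ℕ):ℝ) * y29 + -(((1560250:ℕ):ℝ) * y3 + ((2297750:ℕ):ℝ) * y6 + ((4956625:ℕ):ℝ) * y7 + ((8395625:ℕ):ℝ) * y12 + ((8968750:ℕ):ℝ) * y14 + ((48900625:ℕ):ℝ) * y18 + ((6897500:ℕ):ℝ) * y20 + ((595000:ℕ):ℝ) * y22 + ((14498750:ℕ):ℝ) * y24 + ((12236250:ℕ):ℝ) * y25 + ((5790000:ℕ):ℝ) * y27 + ((3290625:ℕ):ℝ) * y28 + ((101375:ℕ):ℝ) * 1)) / (2:ℝ) ^ 21 = ((((((((((((((((((((((((((((((-101375/2097152:ℝ)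 + ((36625/131072:ℝ) * y1)) + ((1470375/2097152:ℝ) * y2)) + ((-780125/1048576:ℝ) * y3)) + ((708125/1048576:ℝ) * y4)) + ((234375/131072:ℝ) * y5)) + ((-1148875/1048576:ℝ) * y6)) + ((-4956625/2097152:ℝ) * y7)) + ((3901375/2097152:ℝ) * y8)) + ((565625/524288:ℝ) * y9)) + ((629125/1048576:ℝ) * y10)) + ((1519375/2097152:ℝ) * y11)) + ((-8395625/2097152:ℝ) * y12)) + ((2025625/1048576:ℝ) * y13)) + ((-4484375/1048576:ℝ) * y14)) + ((2673125/262144:ℝ) * y15)) + ((12049375/2097152:ℝ) * y16)) + ((5950125/2097152:ℝ) * y17)) + ((-48900625/2097152:ℝ) * y18)) + ((8023125/1048576:ℝ) * y19)) + ((-1724375/524288:ℝ) * y20)) + ((702375/131072:ℝ) * y21)) + ((-74375/262144:ℝ) * y22)) + ((15703375/2097152:ℝ) * y23)) + ((-7249375/1048576:ℝ) * y24)) + ((-6118125/1048576:ℝ) * y25)) + ((2647875/2097152:ℝ) * y26)) + ((-361875/131072:ℝ) * y27)) + ((-3290625/2097152:ℝ) * y28)) + ((2703125/2097152:ℝ) * y29)) := by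
  push_cast; ring

theorem l64 (y1 y2 y3 y4 y5 y6 y7 y8 y9 y10 y11 y12 y13 y14 y15 y16 y17 y18 y19 y20 y21 : ℝ) : (((10324000:ℕ):ℝ) * y2 + ((13132000:ℕ):ℝ) * y5 + ((20589904:ℕ):ℝ) * y8 + ((43692156:ℕ):ℝ) * y9 + ((113606821:ℕ):ℝ) * y12 + ((54376000:ℕ):ℝ) * y13 + ((70607568:ℕ):ℝ) * y15 + ((60000000:ℕ):ℝ) * y19 + ((24084000:ℕ):ℝ) * y21 + ((1043000:ℕ):ℝ) * 1 + -(((4334000:ℕ):ℝ) * y1 + ((18900000:ℕ):ℝ) * y3 + ((36208000:ℕ):ℝ) * y4 + ((11414359:ℕ):ℝ) * y6 + ((44831345:ℕ):ℝ) * y7 + ((92791693:ℕ):ℝ) * y10 + ((12563000:ℕ):ℝ) * y11 + ((54672000:ℕ):ℝ) * y14 + ((50178764:ℕ):ℝ) * y16 + ((103566436:ℕ):ℝ) * y17 + ((23927000:ℕ):ℝ) * y18 + ((20963598:ℕ):ℝ) * y20)) / (2:ℝ) ^ 24 = ((((((((((((((((((((((130375/2097152:ℝ) + ((-270875/1048576:ℝ) * y1)) + ((322625/524288:ℝ) * y2)) + ((-590625/524288:ℝ) * y3)) + ((-282875/131072:ℝ) * y4)) + ((410375/524288:ℝ) * y5)) + ((-11414359/16777216:ℝ) * y6)) + ((-44831345/16777216:ℝ)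 * y7)) + ((1286869/1048576:ℝ) * y8)) + ((10923039/4194304:ℝ) * y9)) + ((-92791693/16777216:ℝ) * y10)) + ((-1570375/2097152:ℝ) * y11)) + ((113606821/16777216:ℝ) * y12)) + ((849625/262144:ℝ) * y13)) + ((-427125/131072:ℝ) * y14)) + ((4412973/1048576:ℝ) * y15)) + ((-12544691/4194304:ℝ) * y16)) + ((-25891609/4194304:ℝ) * y17)) + ((-2990875/2097152:ℝ) * y18)) + ((234375/65536:ℝ) * y19)) + ((-10481799/8388608:ℝ) * y20)) + ((752625/524288:ℝ) * y21)) := by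
  push_cast; ring

theorem l65 (y1 y2 y3 : ℝ) : (((7500000:ℕ):ℝ) * y1 + ((2513000:ℕ):ℝ) * y3 + -(((7456500:ℕ):ℝ) * y2 + ((590375:ℕ):ℝ) * 1)) / (2:ℝ) ^ 21 = ((((-590375/2097152:ℝ) + ((234375/65536:ℝ) * y1)) + ((-1864125/524288:ℝ) * y2)) + ((314125/262144:ℝ) * y3)) := by
  push_cast; ring

theorem l66 (y1 y2 y3 y4 y5 y6 y7 y8 y9 y10 y11 y12 y13 y14 y15 : ℝ) : (((78625:ℕ):ℝ) * y1 + ((1570375:ℕ):ℝ) * y2 + ((6834000:ℕ):ℝ) * y5 + ((5556250:ℕ):ℝ) * y6 + ((1544000:ℕ):ℝ) * y7 + ((8018125:ℕ):ℝ) * y10 + ((2253125:ℕ):ℝ) * y13 + ((5905625:ℕ):ℝ) * y14 + ((2490000:ℕ):ℝ) * y15 + -(((3170000:ℕ):ℝ) * y3 + ((6797000:ℕ):ℝ) * y4 + ((2750625:ℕ):ℝ) * y8 + ((7272500:ℕ):ℝ) * y9 + ((6553750:ℕ):ℝ) * y11 + ((6619250:ℕ):ℝ) * y12 + ((159375:ℕ):ℝ) * 1)) / (2:ℝ) ^ 21 = ((((((((((((((((-159375/2097152:ℝ) + ((78625/2097152:ℝ) * y1)) + ((1570375/2097152:ℝ) * y2)) + ((-198125/131072:ℝ) * y3)) + ((-849625/262144:ℝ) *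 y4)) + ((427125/131072:ℝ) * y5)) + ((2778125/1048576:ℝ) * y6)) + ((24125/32768:ℝ) * y7)) + ((-2750625/2097152:ℝ) * y8)) + ((-1818125/524288:ℝ) * y9)) + ((8018125/2097152:ℝ) * y10)) + ((-3276875/1048576:ℝ) * y11)) + ((-3309625/1048576:ℝ) * y12)) + ((2253125/2097152:ℝ) * y13)) + ((5905625/2097152:ℝ) * y14)) + ((155625/131072:ℝ) * y15)) := by
  push_cast; ring

theorem l67 (y1 y2 y3 y4 y5 y6 y7 y8 y9 y10 y11 y12 y13 y14 y15 y16 : ℝ) : (((5301125:ℕ):ℝ) * y2 + ((10893750:ℕ):ℝ) * y6 + ((549250:ℕ):ℝ) * y7 + ((9375000:ℕ):ℝ) * y8 + ((7144500:ℕ):ℝ) * y10 + ((5518250:ℕ):ℝ) * y11 + ((1442625:ℕ):ℝ) * y13 + ((1236125:ℕ):ℝ) * 1 + -(((2847500:ℕ):ℝ) * y1 + ((3913000:ℕ):ℝ) * y3 + ((1206625:ℕ):ℝ) * y4 + ((1616875:ℕ):ℝ) * y5 + ((825000:ℕ):ℝ) * y9 + ((7500000:ℕ):ℝ) * y12 + ((3750000:ℕ):ℝ) * y14 + ((3750000:ℕ):ℝ) * y15 + ((1875000:ℕ):ℝ) * y16)) / (2:ℝ) ^ 20 = (((((((((((((((((1236125/1048576:ℝ) + ((-711875/262144:ℝ)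 * y1)) + ((5301125/1048576:ℝ) * y2)) + ((-489125/131072:ℝ) * y3)) + ((-1206625/1048576:ℝ) * y4)) + ((-1616875/1048576:ℝ) * y5)) + ((5446875/524288:ℝ) * y6)) + ((274625/524288:ℝ) * y7)) + ((1171875/131072:ℝ) * y8)) + ((-103125/131072:ℝ) * y9)) + ((1786125/262144:ℝ) * y10)) + ((2759125/524288:ℝ) * y11)) + ((-234375/32768:ℝ) * y12)) + ((1442625/1048576:ℝ) * y13)) + ((-234375/65536:ℝ) * y14)) + ((-234375/65536:ℝ) * y15)) + ((-234375/131072:ℝ) * y16)) := by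
  push_cast; ring

theorem l68 (y1 y2 y3 y4 y5 y6 y7 y8 : ℝ) : (((3750000:ℕ):ℝ) * y1 + ((4236500:ℕ):ℝ) * y3 + ((14687500:ℕ):ℝ) * y5 + ((4776750:ℕ):ℝ) * y7 + ((3413125:ℕ):ℝ) * 1 + -(((4464125:ℕ):ℝ) * y2 + ((20877000:ℕ):ℝ) * y4 + ((7811500:ℕ):ℝ) * y6 + ((1671250:ℕ):ℝ) * y8)) / (2:ℝ) ^ 21 = (((((((((3413125/2097152:ℝ) + ((234375/131072:ℝ) * y1)) + ((-4464125/2097152:ℝ) * y2)) + ((1059125/524288:ℝ) * y3)) + ((-2609625/262144:ℝ) * y4)) + ((3671875/524288:ℝ) * y5)) + ((-1952875/524288:ℝ) * y6)) + ((2388375/1048576:ℝ) * y7)) + ((-835625/1048576:ℝ) * y8)) := by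
  push_cast; ring

theorem l69 (y1 y2 y3 y4 y5 y6 y7 y8 y9 : ℝ) : (((4680750:ℕ):ℝ) * y2 + ((4595500:ℕ):ℝ) * y4 + ((1875000:ℕ):ℝ) * y6 + ((3750000:ℕ):ℝ) * y7 + -(((2940750:ℕ):ℝ) * y1 + ((3750000:ℕ):ℝ) * y3 + ((3901375:ℕ):ℝ) * y5 + ((3750000:ℕ):ℝ) * y8 + ((1863000:ℕ):ℝ) * y9 + ((586000:ℕ):ℝ) * 1)) / (2:ℝ) ^ 20 = ((((((((((-36625/65536:ℝ) + ((-1470375/524288:ℝ) * y1)) + ((2340375/524288:ℝ) * y2)) + ((-234375/65536:ℝ) * y3)) + ((1148875/262144:ℝ) * y4)) + ((-3901375/1048576:ℝ) * y5)) + ((234375/131072:ℝ) * y6)) + ((234375/65536:ℝ) * y7)) + ((-234375/65536:ℝ) * y8)) + ((-232875/131072:ℝ) * y9)) := by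
  push_cast; ring

theorem l70 (y1 y2 y3 : ℝ) : (((1889500:ℕ):ℝ) * y1 + -(((11717000:ℕ):ℝ) * y2 + ((1525125:ℕ):ℝ) * y3 + ((2808250:ℕ):ℝ) * 1)) / (2:ℝ) ^ 21 = ((((-1404125/1048576:ℝ) + ((472375/524288:ℝ) * y1)) + ((-1464625/262144:ℝ) * y2)) + ((-1525125/2097152:ℝ) * y3)) := by
  push_cast; ring

theorem l71 (y1 y2 : ℝ) : (((5680000:ℕ):ℝ) * y2 + -(((2989750:ℕ):ℝ) * y1 + ((521625:ℕ):ℝ) * 1)) / (2:ℝ) ^ 19 = (((-521625/524288:ℝ) + ((-1494875/262144:ℝ) * y1)) + ((44375/4096:ℝ) * y2)) := by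
  push_cast; ring

theorem l72 (y1 y2 y3 : ℝ) : (((6797000:ℕ):ℝ) * y2 + -(((3140750:ℕ):ℝ) * y1 + ((2990875:ℕ):ℝ) * y3 + ((78625:ℕ):ℝ) * 1)) / (2:ℝ) ^ 20 = ((((-78625/1048576:ℝ) + ((-1570375/524288:ℝ) * y1)) + ((849625/131072:ℝ) * y2)) + ((-2990875/1048576:ℝ) * y3)) := by
  push_cast; ring

theorem l73 (y1 y2 y3 y4 y5 y6 y7 y8 y9 y10 : ℝ) : (y1 + y2 + y3 + y4 + y5 + y6 + y7 + y8 + y9 + y10) / (2:ℝ) ^ 0 = (((((((((y1 + y2) + y3) + y4) + y5) + y6) + y7) + y8) + y9) + y10) := by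
  push_cast; ring

def Q (s t q u th : ℝ) : Prop :=
  ∀ x1 x2 x3 x4 x5 : ℝ, 0 ≤ Crest.Agent.PSD.q5 (f_E11 s t q u th) (f_E21 s t q u th) (f_E22 s t q u th) (f_E31 s t q u th) (f_E32 s t q u th) (f_E33 s t q u th) (f_E41 s t q u th) (f_E42 s t q u th) (f_E43 s t q u th) (f_E44 s t q u th) (f_E51 s t q u th) (f_E52 s t q u th) (f_E53 s t q u th) (f_E54 s t q u th) (f_E55 s t q u th) x1 x2 x3 x4 x5

noncomputable def alt0 (uu z1 z2 z3 z4 z5 : ℕ) : Bool :=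
  nrmK z2 fun m1_ r1 t1_0 t1_1 t1_2 t1_3 =>
  mulK m1_ r1 t1_0 t1_1 t1_2 t1_3 m1_ r1 t1_0 t1_1 t1_2 t1_3 fun x2 =>
  finK (Nat.add x2 cOne) 73768961896328724480 0 fun x4 =>
  nrmK x4 fun m6_ r6 t6_0 t6_1 t6_2 t6_3 =>
  invK x4 m6_ r6 t6_0 fun x7 =>
  finK (Nat.add (Nat.mul 2 x7) (ng1 cOne)) 73750947497819242496 0 fun x10 =>
  nrmK z3 fun m13_ r13 t13_0 t13_1 t13_2 t13_3 =>
  nrmK x10 fun m14_ r14 t14_0 t14_1 t14_2 t14_3 =>
  mulK m13_ r13 t13_0 t13_1 t13_2 t13_3 m14_ r14 t14_0 t14_1 t14_2 t14_3 fun x15 =>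
  nrmK x15 fun m17_ r17 t17_0 t17_1 t17_2 t17_3 =>
  mulK m17_ r17 t17_0 t17_1 t17_2 t17_3 m17_ r17 t17_0 t17_1 t17_2 t17_3 fun x18 =>
  nrmK x7 fun m21_ r21 t21_0 t21_1 t21_2 t21_3 =>
  mulK m1_ r1 t1_0 t1_1 t1_2 t1_3 m21_ r21 t21_0 t21_1 t21_2 t21_3 fun x22 =>
  finK (Nat.mul 2 x22) 73768961896328724480 0 fun x23 =>
  nrmK x23 fun m26_ r26 t26_0 t26_1 t26_2 t26_3 =>
  mulK m26_ r26 t26_0 t26_1 t26_2 t26_3 m26_ r26 t26_0 t26_1 t26_2 t26_3 fun x27 =>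
  nrmK z1 fun m29_ r29 t29_0 t29_1 t29_2 t29_3 =>
  mulK m29_ r29 t29_0 t29_1 t29_2 t29_3 m29_ r29 t29_0 t29_1 t29_2 t29_3 fun x30 =>
  finK (Nat.add cOne (ng1 x30)) 73768961896328724480 0 fun x33 =>
  nrmK x27 fun m36_ r36 t36_0 t36_1 t36_2 t36_3 =>
  nrmK x33 fun m37_ r37 t37_0 t37_1 t37_2 t37_3 =>
  mulK m36_ r36 t36_0 t36_1 t36_2 t36_3 m37_ r37 t37_0 t37_1 t37_2 t37_3 fun x38 =>
  frcK (Nat.add x18 x38) fun x39 =>
  finK (Nat.add cOne (ngC 2 x39)) 73750947497819242496 0 fun x40 =>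
  nrmK x40 fun m43_ r43 t43_0 t43_1 t43_2 t43_3 =>
  mulK m43_ r43 t43_0 t43_1 t43_2 t43_3 m43_ r43 t43_0 t43_1 t43_2 t43_3 fun x44 =>
  nrmK x44 fun m46_ r46 t46_0 t46_1 t46_2 t46_3 =>
  mulK m46_ r46 t46_0 t46_1 t46_2 t46_3 m43_ r43 t43_0 t43_1 t43_2 t43_3 fun x47 =>
  mulK m26_ r26 t26_0 t26_1 t26_2 t26_3 m43_ r43 t43_0 t43_1 t43_2 t43_3 fun x49 =>
  mulK m26_ r26 t26_0 t26_1 t26_2 t26_3 m46_ r46 t46_0 t46_1 t46_2 t46_3 fun x50 =>
  mulK m36_ r36 t36_0 t36_1 t36_2 t36_3 m43_ r43 t43_0 t43_1 t43_2 t43_3 fun x51 =>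
  mulK m36_ r36 t36_0 t36_1 t36_2 t36_3 m26_ r26 t26_0 t26_1 t26_2 t26_3 fun x52 =>
  mulK m37_ r37 t37_0 t37_1 t37_2 t37_3 m43_ r43 t43_0 t43_1 t43_2 t43_3 fun x54 =>
  mulK m37_ r37 t37_0 t37_1 t37_2 t37_3 m46_ r46 t46_0 t46_1 t46_2 t46_3 fun x55 =>
  mulK m37_ r37 t37_0 t37_1 t37_2 t37_3 m26_ r26 t26_0 t26_1 t26_2 t26_3 fun x56 =>
  nrmK x56 fun m57_ r57 t57_0 t57_1 t57_2 t57_3 =>
  mulK m57_ r57 t57_0 t57_1 t57_2 t57_3 m43_ r43 t43_0 t43_1 t43_2 t43_3 fun x58 =>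
  mulK m37_ r37 t37_0 t37_1 t37_2 t37_3 m36_ r36 t36_0 t36_1 t36_2 t36_3 fun x59 =>
  mulK m37_ r37 t37_0 t37_1 t37_2 t37_3 m37_ r37 t37_0 t37_1 t37_2 t37_3 fun x60 =>
  nrmK x60 fun m62_ r62 t62_0 t62_1 t62_2 t62_3 =>
  mulK m62_ r62 t62_0 t62_1 t62_2 t62_3 m43_ r43 t43_0 t43_1 t43_2 t43_3 fun x63 =>
  mulK m62_ r62 t62_0 t62_1 t62_2 t62_3 m26_ r26 t26_0 t26_1 t26_2 t26_3 fun x64 =>
  mulK m62_ r62 t62_0 t62_1 t62_2 t62_3 m37_ r37 t37_0 t37_1 t37_2 t37_3 fun x65 =>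
  frcK (Nat.add (Nat.add (Nat.add (Nat.add (Nat.add (Nat.add (Nat.add (Nat.add (Nat.add (Nat.mul 267750 x40) (Nat.mul 289000 x44)) (Nat.mul 3040500 x50)) (Nat.mul 1314125 x27)) (Nat.mul 1543375 x51)) (Nat.mul 943000 x55)) (Nat.mul 685875 x56)) (Nat.mul 2763000 x58)) (Nat.mul 6000 x59)) (Nat.mul 1383500 x60)) fun x67 =>
  finK (Nat.add (Nat.add (Nat.add (Nat.add (Nat.add (Nat.add (Nat.add (Nat.add (Nat.add (Nat.add (Nat.mul 895000 x47) (Nat.mul 478625 x23)) (Nat.mul 2440500 x49)) (Nat.mul 2939500 x52)) (Nat.mul 107000 x33)) (Nat.mul 1875000 x54)) (Nat.mul 1063250 x63)) (Nat.mul 703125 x64)) (Nat.mul 1265750 x65)) (Nat.mul 1250000 cOne)) (ngC 12236125 x67)) 154325350474376847185412096 21 fun x68 =>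
  frcK (Nat.add (Nat.add (Nat.add (Nat.mul 488000 x44) (Nat.mul 2227625 x27)) (Nat.mul 2321000 x33)) (Nat.mul 830125 cOne)) fun x71 =>
  finK (Nat.add (Nat.add (Nat.add (Nat.add (Nat.add (Nat.add (Nat.mul 793125 x40) (Nat.mul 105500 x23)) (Nat.mul 1961625 x49)) (Nat.mul 2845500 x54)) (Nat.mul 304500 x56)) (Nat.mul 824750 x60)) (ngC 5866750 x71)) 154551469456267678733828096 21 fun x72 =>
  nrmK x30 fun m75_ r75 t75_0 t75_1 t75_2 t75_3 =>
  mulK m29_ r29 t29_0 t29_1 t29_2 t29_3 m75_ r75 t75_0 t75_1 t75_2 t75_3 fun x76 =>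
  nrmK x72 fun m78_ r78 t78_0 t78_1 t78_2 t78_3 =>
  nrmK x76 fun m79_ r79 t79_0 t79_1 t79_2 t79_3 =>
  mulK m78_ r78 t78_0 t78_1 t78_2 t78_3 m79_ r79 t79_0 t79_1 t79_2 t79_3 fun x80 =>
  nrmK z4 fun m82_ r82 t82_0 t82_1 t82_2 t82_3 =>
  mulK m82_ r82 t82_0 t82_1 t82_2 t82_3 m82_ r82 t82_0 t82_1 t82_2 t82_3 fun x83 =>
  finK (Nat.add (Nat.mul 5 x83) cOne) 73696904302290796544 0 fun x85 =>
  nrmK x85 fun m87_ r87 t87_0 t87_1 t87_2 t87_3 =>
  invK x85 m87_ r87 t87_0 fun x88 =>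
  nrmK x88 fun m91_ r91 t91_0 t91_1 t91_2 t91_3 =>
  mulK m82_ r82 t82_0 t82_1 t82_2 t82_3 m91_ r91 t91_0 t91_1 t91_2 t91_3 fun x92 =>
  finK (Nat.mul 4 x92) 73732933099309760512 0 fun x93 =>
  nrmK x93 fun m96_ r96 t96_0 t96_1 t96_2 t96_3 =>
  mulK m96_ r96 t96_0 t96_1 t96_2 t96_3 m96_ r96 t96_0 t96_1 t96_2 t96_3 fun x97 =>
  finK (Nat.add (Nat.mul 2 x88) (ng1 cOne)) 147555938191166930944 1 fun x100 =>
  nrmK x100 fun m103_ r103 t103_0 t103_1 t103_2 t103_3 =>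
  mulK m103_ r103 t103_0 t103_1 t103_2 t103_3 m103_ r103 t103_0 t103_1 t103_2 t103_3 fun x104 =>
  frcK (Nat.mul 48 x104) fun x106 =>
  finK (Nat.add (Nat.mul 15 x97) (ngC 48 x106)) 1179744943987465650176 4 fun x107 =>
  nrmK x107 fun m109_ r109 t109_0 t109_1 t109_2 t109_3 =>
  mulK m96_ r96 t96_0 t96_1 t96_2 t96_3 m109_ r109 t109_0 t109_1 t109_2 t109_3 fun x110 =>
  nrmK z5 fun m111_ r111 t111_0 t111_1 t111_2 t111_3 =>
  mulK m103_ r103 t103_0 t103_1 t103_2 t103_3 m111_ r111 t111_0 t111_1 t111_2 t111_3 fun x112 =>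
  mulK m111_ r111 t111_0 t111_1 t111_2 t111_3 m111_ r111 t111_0 t111_1 t111_2 t111_3 fun x114 =>
  frcK (Nat.mul 2 x114) fun x116 =>
  finK (Nat.add (Nat.mul 2 cOne) (ngC 2 x116)) 73732933099309760512 0 fun x117 =>
  nrmK x117 fun m120_ r120 t120_0 t120_1 t120_2 t120_3 =>
  mulK m103_ r103 t103_0 t103_1 t103_2 t103_3 m120_ r120 t120_0 t120_1 t120_2 t120_3 fun x121 =>
  nrmK x121 fun m123_ r123 t123_0 t123_1 t123_2 t123_3 =>
  mulK m103_ r103 t103_0 t103_1 t103_2 t103_3 m123_ r123 t123_0 t123_1 t123_2 t123_3 fun x124 =>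
  nrmK x112 fun m126_ r126 t126_0 t126_1 t126_2 t126_3 =>
  nrmK x124 fun m127_ r127 t127_0 t127_1 t127_2 t127_3 =>
  mulK m126_ r126 t126_0 t126_1 t126_2 t126_3 m127_ r127 t127_0 t127_1 t127_2 t127_3 fun x128 =>
  frcK (Nat.mul 6 x128) fun x129 =>
  finK (Nat.add x110 (ngC 6 x129)) 73678889903781314560 0 fun x130 =>
  nrmK x80 fun m133_ r133 t133_0 t133_1 t133_2 t133_3 =>
  nrmK x130 fun m134_ r134 t134_0 t134_1 t134_2 t134_3 =>
  mulK m133_ r133 t133_0 t133_1 t133_2 t133_3 m134_ r134 t134_0 t134_1 t134_2 t134_3 fun x135 =>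
  finK (Nat.add x68 x135) 73768961896328724480 0 fun x136 =>
  finK (Nat.add (Nat.mul 65536 x136) (ng1 cOne)) 4835703260444118189342720 16 fun x139 =>
  nrmK x47 fun m142_ r142 t142_0 t142_1 t142_2 t142_3 =>
  mulK m37_ r37 t37_0 t37_1 t37_2 t37_3 m142_ r142 t142_0 t142_1 t142_2 t142_3 fun x143 =>
  nrmK x59 fun m144_ r144 t144_0 t144_1 t144_2 t144_3 =>
  mulK m144_ r144 t144_0 t144_1 t144_2 t144_3 m43_ r43 t43_0 t43_1 t43_2 t43_3 fun x145 =>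
  nrmK x52 fun m146_ r146 t146_0 t146_1 t146_2 t146_3 =>
  mulK m37_ r37 t37_0 t37_1 t37_2 t37_3 m146_ r146 t146_0 t146_1 t146_2 t146_3 fun x147 =>
  mulK m62_ r62 t62_0 t62_1 t62_2 t62_3 m46_ r46 t46_0 t46_1 t46_2 t46_3 fun x148 =>
  nrmK x64 fun m149_ r149 t149_0 t149_1 t149_2 t149_3 =>
  mulK m149_ r149 t149_0 t149_1 t149_2 t149_3 m43_ r43 t43_0 t43_1 t43_2 t43_3 fun x150 =>
  mulK m62_ r62 t62_0 t62_1 t62_2 t62_3 m36_ r36 t36_0 t36_1 t36_2 t36_3 fun x151 =>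
  nrmK x65 fun m152_ r152 t152_0 t152_1 t152_2 t152_3 =>
  mulK m152_ r152 t152_0 t152_1 t152_2 t152_3 m43_ r43 t43_0 t43_1 t43_2 t43_3 fun x153 =>
  mulK m152_ r152 t152_0 t152_1 t152_2 t152_3 m26_ r26 t26_0 t26_1 t26_2 t26_3 fun x154 =>
  mulK m62_ r62 t62_0 t62_1 t62_2 t62_3 m62_ r62 t62_0 t62_1 t62_2 t62_3 fun x155 =>
  frcK (Nat.add (Nat.add (Nat.add (Nat.add (Nat.add (Nat.add (Nat.add (Nat.add (Nat.add (Nat.add (Nat.add (Nat.mul 267750 x40) (Nat.mul 289000 x44)) (Nat.mul 6081000 x50)) (Nat.mul 3942375 x27)) (Nat.mul 4630125 x51)) (Nat.mul 2142750 x54)) (Nat.mul 5879000 x147)) (Nat.mul 2829000 x148)) (Nat.mul 2778000 x64)) (Nat.mul 5526000 x150)) (Nat.mul 6000 x151)) (Nat.mul 13246250 x65)) fun x157 =>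
  finK (Nat.add (Nat.add (Nat.add (Nat.add (Nat.add (Nat.add (Nat.add (Nat.add (Nat.add (Nat.add (Nat.add (Nat.add (Nat.add (Nat.add (Nat.add (Nat.mul 895000 x47) (Nat.mul 957250 x23)) (Nat.mul 4881000 x49)) (Nat.mul 11758000 x52)) (Nat.mul 1143000 x33)) (Nat.mul 654000 x55)) (Nat.mul 895000 x143)) (Nat.mul 1308125 x59)) (Nat.mul 1543375 x145)) (Nat.mul 4471500 x60)) (Nat.mul 2435250 x63)) (Nat.mul 5316250 x153)) (Nat.mul 2812500 x154)) (Nat.mul 8860250 x155)) (Nat.mul 1250000 cOne)) (ngC 47617250 x157)) 307816814441749773331464192 22 fun x158 =>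
  frcK (Nat.add (Nat.add (Nat.add (Nat.add (Nat.add (Nat.add (Nat.add (Nat.mul 1586250 x40) (Nat.mul 105500 x23)) (Nat.mul 1961625 x49)) (Nat.mul 8209500 x54)) (Nat.mul 1952000 x55)) (Nat.mul 597000 x56)) (Nat.mul 4455250 x59)) (Nat.mul 18874500 x60)) fun x161 =>
  finK (Nat.add (Nat.add (Nat.add (Nat.add (Nat.add (Nat.add (Nat.add (Nat.mul 976000 x44) (Nat.mul 5963500 x33)) (Nat.mul 5884875 x58)) (Nat.mul 17073000 x63)) (Nat.mul 1522500 x64)) (Nat.mul 6598000 x65)) (Nat.mul 1660250 cOne)) (ngC 37741625 x161)) 308165897456066515217416192 22 fun x162 =>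
  nrmK x162 fun m165_ r165 t165_0 t165_1 t165_2 t165_3 =>
  mulK m165_ r165 t165_0 t165_1 t165_2 t165_3 m79_ r79 t79_0 t79_1 t79_2 t79_3 fun x166 =>
  nrmK x166 fun m168_ r168 t168_0 t168_1 t168_2 t168_3 =>
  mulK m168_ r168 t168_0 t168_1 t168_2 t168_3 m134_ r134 t134_0 t134_1 t134_2 t134_3 fun x169 =>
  finK (Nat.add x158 x169) 73768961896328724480 0 fun x170 =>
  frcK (Nat.mul 5 x93) fun x173 =>
  finK (Nat.add (Nat.mul 4 x112) (ngC 5 x173)) 147447851800110039040 1 fun x174 =>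
  nrmK x170 fun m177_ r177 t177_0 t177_1 t177_2 t177_3 =>
  nrmK x174 fun m178_ r178 t178_0 t178_1 t178_2 t178_3 =>
  mulK m177_ r177 t177_0 t177_1 t177_2 t177_3 m178_ r178 t178_0 t178_1 t178_2 t178_3 fun x179 =>
  frcK (Nat.add (Nat.add (Nat.add (Nat.add (Nat.add (Nat.add (Nat.add (Nat.mul 1464000 x44) (Nat.mul 6682875 x27)) (Nat.mul 4472625 x33)) (Nat.mul 5884875 x58)) (Nat.mul 8536500 x63)) (Nat.mul 913500 x64)) (Nat.mul 2474250 x65)) (Nat.mul 2490375 cOne)) fun x180 =>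
  finK (Nat.add (Nat.add (Nat.add (Nat.add (Nat.add (Nat.add (Nat.add (Nat.add (Nat.mul 2379375 x40) (Nat.mul 316500 x23)) (Nat.mul 5884875 x49)) (Nat.mul 6157125 x54)) (Nat.mul 1464000 x55)) (Nat.mul 597000 x56)) (Nat.mul 6682875 x59)) (Nat.mul 9437250 x60)) (ngC 32919000 x180)) 308374535716003708185608192 22 fun x181 =>
  nrmK x181 fun m184_ r184 t184_0 t184_1 t184_2 t184_3 =>
  mulK m184_ r184 t184_0 t184_1 t184_2 t184_3 m29_ r29 t29_0 t29_1 t29_2 t29_3 fun x185 =>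
  finK (Nat.add (Nat.mul 4 x112) (ng1 x93)) 295129890780843343872 2 fun x188 =>
  nrmK x188 fun m190_ r190 t190_0 t190_1 t190_2 t190_3 =>
  mulK m190_ r190 t190_0 t190_1 t190_2 t190_3 m190_ r190 t190_0 t190_1 t190_2 t190_3 fun x191 =>
  frcK (Nat.mul 2 x97) fun x193 =>
  finK (Nat.add (Nat.mul 2 x191) (ngC 2 x193)) 73732933099309760512 0 fun x194 =>
  nrmK x185 fun m197_ r197 t197_0 t197_1 t197_2 t197_3 =>
  nrmK x194 fun m198_ r198 t198_0 t198_1 t198_2 t198_3 =>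
  mulK m197_ r197 t197_0 t197_1 t197_2 t197_3 m198_ r198 t198_0 t198_1 t198_2 t198_3 fun x199 =>
  finK (Nat.add x179 x199) 73768961896328724480 0 fun x200 =>
  frcK (Nat.add (Nat.add (Nat.add (Nat.add (Nat.add (Nat.add (Nat.add (Nat.add (Nat.add (Nat.add (Nat.mul 403000 x44) (Nat.mul 942000 x47)) (Nat.mul 919250 x27)) (Nat.mul 3084375 x33)) (Nat.mul 2862375 x54)) (Nat.mul 7500000 x58)) (Nat.mul 345625 x59)) (Nat.mul 9375000 x63)) (Nat.mul 2231000 x64)) (Nat.mul 8393875 x65)) (Nat.mul 637375 cOne)) fun x203 =>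
  finK (Nat.add (Nat.add (Nat.add (Nat.add (Nat.add (Nat.add (Nat.mul 51250 x40) (Nat.mul 2731625 x51)) (Nat.mul 5238250 x52)) (Nat.mul 3892500 x55)) (Nat.mul 1029750 x56)) (Nat.mul 9375000 x60)) (ngC 36693875 x203)) 153717213654094313313796096 21 fun x204 =>
  nrmK x204 fun m207_ r207 t207_0 t207_1 t207_2 t207_3 =>
  mulK m207_ r207 t207_0 t207_1 t207_2 t207_3 m75_ r75 t75_0 t75_1 t75_2 t75_3 fun x208 =>
  frcK (Nat.add (Nat.add (Nat.add (Nat.add (Nat.mul 1055500 x40) (Nat.mul 497000 x44)) (Nat.mul 847250 x27)) (Nat.mul 6135000 x54)) (Nat.mul 1087000 x60)) fun x210 =>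
  finK (Nat.add (Nat.add (Nat.add (Nat.add (Nat.add (Nat.mul 150375 x23) (Nat.mul 2203125 x49)) (Nat.mul 3406500 x33)) (Nat.mul 8788125 x56)) (Nat.mul 2355000 cOne)) (ngC 9621750 x210)) 154302454173871295583748096 21 fun x211 =>
  mulK m75_ r75 t75_0 t75_1 t75_2 t75_3 m79_ r79 t79_0 t79_1 t79_2 t79_3 fun x214 =>
  nrmK x211 fun m216_ r216 t216_0 t216_1 t216_2 t216_3 =>
  nrmK x214 fun m217_ r217 t217_0 t217_1 t217_2 t217_3 =>
  mulK m216_ r216 t216_0 t216_1 t216_2 t216_3 m217_ r217 t217_0 t217_1 t217_2 t217_3 fun x218 =>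
  nrmK x218 fun m220_ r220 t220_0 t220_1 t220_2 t220_3 =>
  mulK m220_ r220 t220_0 t220_1 t220_2 t220_3 m134_ r134 t134_0 t134_1 t134_2 t134_3 fun x221 =>
  finK (Nat.add x208 x221) 73768961896328724480 0 fun x222 =>
  mulK m178_ r178 t178_0 t178_1 t178_2 t178_3 m178_ r178 t178_0 t178_1 t178_2 t178_3 fun x225 =>
  nrmK x222 fun m227_ r227 t227_0 t227_1 t227_2 t227_3 =>
  nrmK x225 fun m228_ r228 t228_0 t228_1 t228_2 t228_3 =>
  mulK m227_ r227 t227_0 t227_1 t227_2 t227_3 m228_ r228 t228_0 t228_1 t228_2 t228_3 fun x229 =>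
  frcK (Nat.add (Nat.add (Nat.add (Nat.add (Nat.add (Nat.add (Nat.add (Nat.add (Nat.add (Nat.add (Nat.add (Nat.add (Nat.mul 566125 x40) (Nat.mul 1620500 x47)) (Nat.mul 5953000 x49)) (Nat.mul 806000 x50)) (Nat.mul 519000 x52)) (Nat.mul 4432500 x54)) (Nat.mul 8121000 x56)) (Nat.mul 2550750 x58)) (Nat.mul 131500 x59)) (Nat.mul 1920375 x60)) (Nat.mul 6372500 x64)) (Nat.mul 4325000 x65)) (Nat.mul 1740250 cOne)) fun x230 =>
  finK (Nat.add (Nat.add (Nat.add (Nat.add (Nat.add (Nat.add (Nat.mul 2981000 x44) (Nat.mul 429500 x23)) (Nat.mul 1270875 x27)) (Nat.mul 2314750 x33)) (Nat.mul 476000 x55)) (Nat.mul 6948000 x63)) (ngC 39058500 x230)) 308597182422581837081608192 22 fun x231 =>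
  nrmK x231 fun m234_ r234 t234_0 t234_1 t234_2 t234_3 =>
  mulK m234_ r234 t234_0 t234_1 t234_2 t234_3 m79_ r79 t79_0 t79_1 t79_2 t79_3 fun x235 =>
  frcK (Nat.add (Nat.add (Nat.add (Nat.add (Nat.add (Nat.mul 182000 x23) (Nat.mul 6414500 x49)) (Nat.mul 3154375 x54)) (Nat.mul 7086750 x56)) (Nat.mul 4482000 x60)) (Nat.mul 2616875 cOne)) fun x237 =>
  finK (Nat.add (Nat.add (Nat.add (Nat.add (Nat.mul 1446875 x40) (Nat.mul 2750625 x44)) (Nat.mul 3932250 x27)) (Nat.mul 5052250 x33)) (ngC 23936500 x237)) 308891900233996776025096192 22 fun x238 =>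
  mulK m79_ r79 t79_0 t79_1 t79_2 t79_3 m79_ r79 t79_0 t79_1 t79_2 t79_3 fun x241 =>
  nrmK x238 fun m243_ r243 t243_0 t243_1 t243_2 t243_3 =>
  nrmK x241 fun m244_ r244 t244_0 t244_1 t244_2 t244_3 =>
  mulK m243_ r243 t243_0 t243_1 t243_2 t243_3 m244_ r244 t244_0 t244_1 t244_2 t244_3 fun x245 =>
  nrmK x245 fun m247_ r247 t247_0 t247_1 t247_2 t247_3 =>
  mulK m247_ r247 t247_0 t247_1 t247_2 t247_3 m134_ r134 t134_0 t134_1 t134_2 t134_3 fun x248 =>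
  finK (Nat.add x235 x248) 73768961896328724480 0 fun x249 =>
  mulK m178_ r178 t178_0 t178_1 t178_2 t178_3 m198_ r198 t198_0 t198_1 t198_2 t198_3 fun x252 =>
  finK (Nat.mul 2 x252) 73768961896328724480 0 fun x253 =>
  nrmK x249 fun m256_ r256 t256_0 t256_1 t256_2 t256_3 =>
  nrmK x253 fun m257_ r257 t257_0 t257_1 t257_2 t257_3 =>
  mulK m256_ r256 t256_0 t256_1 t256_2 t256_3 m257_ r257 t257_0 t257_1 t257_2 t257_3 fun x258 =>
  frcK (Nat.add (Nat.add (Nat.add (Nat.mul 868125 x40) (Nat.mul 1650375 x44)) (Nat.mul 3932250 x27)) (Nat.mul 2165250 x33)) fun x259 =>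
  finK (Nat.add (Nat.add (Nat.add (Nat.add (Nat.add (Nat.add (Nat.mul 136500 x23) (Nat.mul 4810875 x49)) (Nat.mul 1351875 x54)) (Nat.mul 3543375 x56)) (Nat.mul 1494000 x60)) (Nat.mul 1570125 cOne)) (ngC 8616000 x259)) 154392564447015538152964096 21 fun x260 =>
  mulK m75_ r75 t75_0 t75_1 t75_2 t75_3 m75_ r75 t75_0 t75_1 t75_2 t75_3 fun x263 =>
  nrmK x260 fun m265_ r265 t265_0 t265_1 t265_2 t265_3 =>
  nrmK x263 fun m266_ r266 t266_0 t266_1 t266_2 t266_3 =>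
  mulK m265_ r265 t265_0 t265_1 t265_2 t265_3 m266_ r266 t266_0 t266_1 t266_2 t266_3 fun x267 =>
  mulK m198_ r198 t198_0 t198_1 t198_2 t198_3 m198_ r198 t198_0 t198_1 t198_2 t198_3 fun x270 =>
  nrmK x267 fun m272_ r272 t272_0 t272_1 t272_2 t272_3 =>
  nrmK x270 fun m273_ r273 t273_0 t273_1 t273_2 t273_3 =>
  mulK m272_ r272 t272_0 t272_1 t272_2 t272_3 m273_ r273 t273_0 t273_1 t273_2 t273_3 fun x274 =>
  frcK (Nat.add (Nat.add (Nat.add (Nat.add (Nat.add (Nat.mul 51250 x40) (Nat.mul 3034875 x50)) (Nat.mul 919250 x27)) (Nat.mul 1297500 x55)) (Nat.mul 514875 x56)) (Nat.mul 1875000 x60)) fun x275 =>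
  finK (Nat.add (Nat.add (Nat.add (Nat.add (Nat.add (Nat.add (Nat.add (Nat.add (Nat.add (Nat.add (Nat.add (Nat.add (Nat.add (Nat.add (Nat.mul 403000 x44) (Nat.mul 942000 x47)) (Nat.mul 680250 x23)) (Nat.mul 831250 x49)) (Nat.mul 2731625 x51)) (Nat.mul 2619125 x52)) (Nat.mul 1028125 x33)) (Nat.mul 954125 x54)) (Nat.mul 3750000 x58)) (Nat.mul 345625 x59)) (Nat.mul 1875000 x63)) (Nat.mul 557750 x64)) (Nat.mul 1199125 x65)) (Nat.mul 637375 cOne)) (ngC 7692750 x275)) 154307457673057304204804096 21 fun x276 =>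
  frcK (Nat.add (Nat.add (Nat.add (Nat.add (Nat.mul 50125 x23) (Nat.mul 734375 x49)) (Nat.mul 567750 x33)) (Nat.mul 1757625 x56)) (Nat.mul 588750 cOne)) fun x279 =>
  finK (Nat.add (Nat.add (Nat.add (Nat.add (Nat.add (Nat.mul 263875 x40) (Nat.mul 124250 x44)) (Nat.mul 423625 x27)) (Nat.mul 1022500 x54)) (Nat.mul 135875 x60)) (ngC 3698625 x279)) 154678164720984865527300096 21 fun x280 =>
  nrmK x280 fun m283_ r283 t283_0 t283_1 t283_2 t283_3 =>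
  mulK m283_ r283 t283_0 t283_1 t283_2 t283_3 m79_ r79 t79_0 t79_1 t79_2 t79_3 fun x284 =>
  nrmK x284 fun m286_ r286 t286_0 t286_1 t286_2 t286_3 =>
  mulK m286_ r286 t286_0 t286_1 t286_2 t286_3 m134_ r134 t134_0 t134_1 t134_2 t134_3 fun x287 =>
  finK (Nat.add x276 x287) 73768961896328724480 0 fun x288 =>
  frcK (Nat.add (Nat.add (Nat.add (Nat.add (Nat.add (Nat.add (Nat.add (Nat.add (Nat.mul 1304125 x44) (Nat.mul 579875 x23)) (Nat.mul 829250 x27)) (Nat.mul 2280125 x51)) (Nat.mul 519000 x52)) (Nat.mul 1004500 x33)) (Nat.mul 119000 x55)) (Nat.mul 1158000 x63)) (Nat.mul 13000 cOne)) fun x291 =>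
  finK (Nat.add (Nat.add (Nat.add (Nat.add (Nat.add (Nat.add (Nat.add (Nat.add (Nat.add (Nat.add (Nat.add (Nat.mul 678875 x40) (Nat.mul 810250 x47)) (Nat.mul 3749875 x49)) (Nat.mul 806000 x50)) (Nat.mul 1875000 x54)) (Nat.mul 949375 x56)) (Nat.mul 850250 x58)) (Nat.mul 65750 x59)) (Nat.mul 388000 x60)) (Nat.mul 1274500 x64)) (Nat.mul 540625 x65)) (ngC 7806875 x291)) 154423682068640854595076096 21 fun x292 =>
  nrmK x292 fun m295_ r295 t295_0 t295_1 t295_2 t295_3 =>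
  mulK m295_ r295 t295_0 t295_1 t295_2 t295_3 m29_ r29 t29_0 t29_1 t29_2 t29_3 fun x296 =>
  frcK (Nat.add (Nat.add (Nat.add (Nat.mul 289375 x40) (Nat.mul 550125 x44)) (Nat.mul 1310750 x27)) (Nat.mul 721750 x33)) fun x298 =>
  finK (Nat.add (Nat.add (Nat.add (Nat.add (Nat.add (Nat.add (Nat.mul 45500 x23) (Nat.mul 1603625 x49)) (Nat.mul 450625 x54)) (Nat.mul 1181125 x56)) (Nat.mul 498000 x60)) (Nat.mul 523375 cOne)) (ngC 2872000 x298)) 154651044044028840400388096 21 fun x299 =>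
  nrmK x299 fun m302_ r302 t302_0 t302_1 t302_2 t302_3 =>
  mulK m302_ r302 t302_0 t302_1 t302_2 t302_3 m266_ r266 t266_0 t266_1 t266_2 t266_3 fun x303 =>
  nrmK x303 fun m305_ r305 t305_0 t305_1 t305_2 t305_3 =>
  mulK m305_ r305 t305_0 t305_1 t305_2 t305_3 m134_ r134 t134_0 t134_1 t134_2 t134_3 fun x306 =>
  finK (Nat.add x296 x306) 73768961896328724480 0 fun x307 =>
  finK (Nat.add (Nat.mul 10 x93) (Nat.mul 8 x112)) 73480731520177012736 0 fun x310 =>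
  nrmK x307 fun m313_ r313 t313_0 t313_1 t313_2 t313_3 =>
  nrmK x310 fun m314_ r314 t314_0 t314_1 t314_2 t314_3 =>
  mulK m313_ r313 t313_0 t313_1 t313_2 t313_3 m314_ r314 t314_0 t314_1 t314_2 t314_3 fun x315 =>
  finK (Nat.add (Nat.add (Nat.add (Nat.add (Nat.add (Nat.mul 65536 x229) (Nat.mul 65536 x258)) (Nat.mul 65536 x274)) (Nat.mul 655360 x288)) (Nat.mul 65536 x315)) (ng1 cOne)) 4820355569374791842398208 16 fun x316 =>
  frcK (Nat.add (Nat.mul 4 x112) (Nat.mul 5 x93)) fun x319 =>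
  finK (ngC 9 x319) 147447851800110039040 1 fun x320 =>
  nrmK x320 fun m323_ r323 t323_0 t323_1 t323_2 t323_3 =>
  mulK m177_ r177 t177_0 t177_1 t177_2 t177_3 m323_ r323 t323_0 t323_1 t323_2 t323_3 fun x324 =>
  finK (Nat.add (Nat.mul 4 x112) x93) 295129890780843343872 2 fun x325 =>
  nrmK x325 fun m328_ r328 t328_0 t328_1 t328_2 t328_3 =>
  mulK m328_ r328 t328_0 t328_1 t328_2 t328_3 m328_ r328 t328_0 t328_1 t328_2 t328_3 fun x329 =>
  frcK (Nat.mul 2 x97) fun x331 =>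
  finK (Nat.add (Nat.add (Nat.mul 2 x329) (Nat.mul 2 x124)) (ngC 2 x331)) 73696904302290796544 0 fun x332 =>
  nrmK x332 fun m335_ r335 t335_0 t335_1 t335_2 t335_3 =>
  mulK m197_ r197 t197_0 t197_1 t197_2 t197_3 m335_ r335 t335_0 t335_1 t335_2 t335_3 fun x336 =>
  finK (Nat.add x324 x336) 73768961896328724480 0 fun x337 =>
  mulK m178_ r178 t178_0 t178_1 t178_2 t178_3 m323_ r323 t323_0 t323_1 t323_2 t323_3 fun x340 =>
  nrmK x340 fun m342_ r342 t342_0 t342_1 t342_2 t342_3 =>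
  mulK m227_ r227 t227_0 t227_1 t227_2 t227_3 m342_ r342 t342_0 t342_1 t342_2 t342_3 fun x343 =>
  mulK m178_ r178 t178_0 t178_1 t178_2 t178_3 m335_ r335 t335_0 t335_1 t335_2 t335_3 fun x344 =>
  mulK m323_ r323 t323_0 t323_1 t323_2 t323_3 m198_ r198 t198_0 t198_1 t198_2 t198_3 fun x345 =>
  finK (Nat.add x344 x345) 73768961896328724480 0 fun x346 =>
  nrmK x346 fun m349_ r349 t349_0 t349_1 t349_2 t349_3 =>
  mulK m256_ r256 t256_0 t256_1 t256_2 t256_3 m349_ r349 t349_0 t349_1 t349_2 t349_3 fun x350 =>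
  mulK m198_ r198 t198_0 t198_1 t198_2 t198_3 m335_ r335 t335_0 t335_1 t335_2 t335_3 fun x351 =>
  nrmK x351 fun m353_ r353 t353_0 t353_1 t353_2 t353_3 =>
  mulK m272_ r272 t272_0 t272_1 t272_2 t272_3 m353_ r353 t353_0 t353_1 t353_2 t353_3 fun x354 =>
  mulK m313_ r313 t313_0 t313_1 t313_2 t313_3 m96_ r96 t96_0 t96_1 t96_2 t96_3 fun x355 =>
  finK (Nat.add (Nat.add (Nat.add (Nat.add x343 x350) x354) (Nat.mul 4 x288)) (Nat.mul 8 x355)) 73534774715705458688 0 fun x356 =>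
  mulK m323_ r323 t323_0 t323_1 t323_2 t323_3 m323_ r323 t323_0 t323_1 t323_2 t323_3 fun x359 =>
  nrmK x359 fun m361_ r361 t361_0 t361_1 t361_2 t361_3 =>
  mulK m227_ r227 t227_0 t227_1 t227_2 t227_3 m361_ r361 t361_0 t361_1 t361_2 t361_3 fun x362 =>
  mulK m323_ r323 t323_0 t323_1 t323_2 t323_3 m335_ r335 t335_0 t335_1 t335_2 t335_3 fun x363 =>
  finK (Nat.mul 2 x363) 73768961896328724480 0 fun x364 =>
  nrmK x364 fun m367_ r367 t367_0 t367_1 t367_2 t367_3 =>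
  mulK m256_ r256 t256_0 t256_1 t256_2 t256_3 m367_ r367 t367_0 t367_1 t367_2 t367_3 fun x368 =>
  mulK m335_ r335 t335_0 t335_1 t335_2 t335_3 m335_ r335 t335_0 t335_1 t335_2 t335_3 fun x369 =>
  nrmK x369 fun m371_ r371 t371_0 t371_1 t371_2 t371_3 =>
  mulK m272_ r272 t272_0 t272_1 t272_2 t272_3 m371_ r371 t371_0 t371_1 t371_2 t371_3 fun x372 =>
  frcK (Nat.mul 8 x112) fun x373 =>
  finK (Nat.add (Nat.mul 10 x93) (ngC 8 x373)) 73480731520177012736 0 fun x374 =>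
  nrmK x374 fun m377_ r377 t377_0 t377_1 t377_2 t377_3 =>
  mulK m313_ r313 t313_0 t313_1 t313_2 t313_3 m377_ r377 t377_0 t377_1 t377_2 t377_3 fun x378 =>
  finK (Nat.add (Nat.add (Nat.add (Nat.add (Nat.add (Nat.mul 65536 x362) (Nat.mul 65536 x368)) (Nat.mul 65536 x372)) (Nat.mul 655360 x288)) (Nat.mul 65536 x378)) (ng1 cOne)) 4820355569374791842398208 16 fun x379 =>
  finK (Nat.mul 2 x121) 73768961896328724480 0 fun x382 =>
  nrmK x382 fun m385_ r385 t385_0 t385_1 t385_2 t385_3 =>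
  mulK m177_ r177 t177_0 t177_1 t177_2 t177_3 m385_ r385 t385_0 t385_1 t385_2 t385_3 fun x386 =>
  mulK m123_ r123 t123_0 t123_1 t123_2 t123_3 m328_ r328 t328_0 t328_1 t328_2 t328_3 fun x387 =>
  frcK (Nat.mul 4 x387) fun x388 =>
  finK (ngC 4 x388) 73732933099309760512 0 fun x389 =>
  nrmK x389 fun m392_ r392 t392_0 t392_1 t392_2 t392_3 =>
  mulK m197_ r197 t197_0 t197_1 t197_2 t197_3 m392_ r392 t392_0 t392_1 t392_2 t392_3 fun x393 =>
  finK (Nat.add x386 x393) 73768961896328724480 0 fun x394 =>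
  mulK m178_ r178 t178_0 t178_1 t178_2 t178_3 m385_ r385 t385_0 t385_1 t385_2 t385_3 fun x397 =>
  nrmK x397 fun m399_ r399 t399_0 t399_1 t399_2 t399_3 =>
  mulK m227_ r227 t227_0 t227_1 t227_2 t227_3 m399_ r399 t399_0 t399_1 t399_2 t399_3 fun x400 =>
  mulK m178_ r178 t178_0 t178_1 t178_2 t178_3 m392_ r392 t392_0 t392_1 t392_2 t392_3 fun x401 =>
  mulK m385_ r385 t385_0 t385_1 t385_2 t385_3 m198_ r198 t198_0 t198_1 t198_2 t198_3 fun x402 =>
  finK (Nat.add x401 x402) 73768961896328724480 0 fun x403 =>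
  nrmK x403 fun m406_ r406 t406_0 t406_1 t406_2 t406_3 =>
  mulK m256_ r256 t256_0 t256_1 t256_2 t256_3 m406_ r406 t406_0 t406_1 t406_2 t406_3 fun x407 =>
  mulK m198_ r198 t198_0 t198_1 t198_2 t198_3 m392_ r392 t392_0 t392_1 t392_2 t392_3 fun x408 =>
  nrmK x408 fun m410_ r410 t410_0 t410_1 t410_2 t410_3 =>
  mulK m272_ r272 t272_0 t272_1 t272_2 t272_3 m410_ r410 t410_0 t410_1 t410_2 t410_3 fun x411 =>
  finK (Nat.add (Nat.add x400 x407) x411) 73750947497819242496 0 fun x412 =>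
  mulK m323_ r323 t323_0 t323_1 t323_2 t323_3 m385_ r385 t385_0 t385_1 t385_2 t385_3 fun x415 =>
  nrmK x415 fun m417_ r417 t417_0 t417_1 t417_2 t417_3 =>
  mulK m227_ r227 t227_0 t227_1 t227_2 t227_3 m417_ r417 t417_0 t417_1 t417_2 t417_3 fun x418 =>
  mulK m323_ r323 t323_0 t323_1 t323_2 t323_3 m392_ r392 t392_0 t392_1 t392_2 t392_3 fun x419 =>
  mulK m385_ r385 t385_0 t385_1 t385_2 t385_3 m335_ r335 t335_0 t335_1 t335_2 t335_3 fun x420 =>
  finK (Nat.add x419 x420) 73768961896328724480 0 fun x421 =>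
  nrmK x421 fun m424_ r424 t424_0 t424_1 t424_2 t424_3 =>
  mulK m256_ r256 t256_0 t256_1 t256_2 t256_3 m424_ r424 t424_0 t424_1 t424_2 t424_3 fun x425 =>
  mulK m335_ r335 t335_0 t335_1 t335_2 t335_3 m392_ r392 t392_0 t392_1 t392_2 t392_3 fun x426 =>
  nrmK x426 fun m428_ r428 t428_0 t428_1 t428_2 t428_3 =>
  mulK m272_ r272 t272_0 t272_1 t272_2 t272_3 m428_ r428 t428_0 t428_1 t428_2 t428_3 fun x429 =>
  mulK m313_ r313 t313_0 t313_1 t313_2 t313_3 m123_ r123 t123_0 t123_1 t123_2 t123_3 fun x430 =>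
  finK (Nat.add (Nat.add (Nat.add x418 x425) x429) (Nat.mul 8 x430)) 73606832309743386624 0 fun x431 =>
  mulK m385_ r385 t385_0 t385_1 t385_2 t385_3 m385_ r385 t385_0 t385_1 t385_2 t385_3 fun x434 =>
  nrmK x434 fun m436_ r436 t436_0 t436_1 t436_2 t436_3 =>
  mulK m227_ r227 t227_0 t227_1 t227_2 t227_3 m436_ r436 t436_0 t436_1 t436_2 t436_3 fun x437 =>
  mulK m385_ r385 t385_0 t385_1 t385_2 t385_3 m392_ r392 t392_0 t392_1 t392_2 t392_3 fun x438 =>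
  finK (Nat.mul 2 x438) 73768961896328724480 0 fun x439 =>
  nrmK x439 fun m442_ r442 t442_0 t442_1 t442_2 t442_3 =>
  mulK m256_ r256 t256_0 t256_1 t256_2 t256_3 m442_ r442 t442_0 t442_1 t442_2 t442_3 fun x443 =>
  mulK m392_ r392 t392_0 t392_1 t392_2 t392_3 m392_ r392 t392_0 t392_1 t392_2 t392_3 fun x444 =>
  nrmK x444 fun m446_ r446 t446_0 t446_1 t446_2 t446_3 =>
  mulK m272_ r272 t272_0 t272_1 t272_2 t272_3 m446_ r446 t446_0 t446_1 t446_2 t446_3 fun x447 =>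
  nrmK x288 fun m448_ r448 t448_0 t448_1 t448_2 t448_3 =>
  mulK m448_ r448 t448_0 t448_1 t448_2 t448_3 m120_ r120 t120_0 t120_1 t120_2 t120_3 fun x449 =>
  frcK (Nat.mul 8 x112) fun x450 =>
  finK (Nat.add (Nat.mul 2 x93) (ngC 8 x450)) 73624846708252868608 0 fun x451 =>
  nrmK x451 fun m453_ r453 t453_0 t453_1 t453_2 t453_3 =>
  mulK m453_ r453 t453_0 t453_1 t453_2 t453_3 m120_ r120 t120_0 t120_1 t120_2 t120_3 fun x454 =>
  nrmK x454 fun m456_ r456 t456_0 t456_1 t456_2 t456_3 =>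
  mulK m313_ r313 t313_0 t313_1 t313_2 t313_3 m456_ r456 t456_0 t456_1 t456_2 t456_3 fun x457 =>
  finK (Nat.add (Nat.add (Nat.add (Nat.add (Nat.add (Nat.mul 65536 x437) (Nat.mul 65536 x443)) (Nat.mul 65536 x447)) (Nat.mul 393216 x449)) (Nat.mul 65536 x457)) (ng1 cOne)) 4825077935857661487611904 16 fun x458 =>
  frcK (Nat.add (Nat.add (Nat.add (Nat.add (Nat.add (Nat.mul 3040500 x44) (Nat.mul 2628250 x23)) (Nat.mul 3086750 x49)) (Nat.mul 685875 x33)) (Nat.mul 2763000 x54)) (Nat.mul 12000 x56)) fun x461 =>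
  finK (Nat.add (Nat.add (Nat.add (Nat.add (Nat.mul 2440500 x40) (Nat.mul 8818500 x27)) (Nat.mul 703125 x60)) (Nat.mul 478625 cOne)) (ngC 12216375 x461)) 309116384409222872083464192 22 fun x462 =>
  nrmK x462 fun m465_ r465 t465_0 t465_1 t465_2 t465_3 =>
  mulK m465_ r465 t465_0 t465_1 t465_2 t465_3 m17_ r17 t17_0 t17_1 t17_2 t17_3 fun x466 =>
  frcK (Nat.add (Nat.add (Nat.add (Nat.mul 2685000 x44) (Nat.mul 2440500 x23)) (Nat.mul 1875000 x33)) (Nat.mul 1063250 x60)) fun x468 =>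
  finK (Nat.add (Nat.add (Nat.add (Nat.add (Nat.add (Nat.add (Nat.mul 578000 x40) (Nat.mul 6081000 x49)) (Nat.mul 1543375 x27)) (Nat.mul 1886000 x54)) (Nat.mul 2763000 x56)) (Nat.mul 267750 cOne)) (ngC 8063750 x468)) 154398687090708948342276096 21 fun x469 =>
  mulK m17_ r17 t17_0 t17_1 t17_2 t17_3 m29_ r29 t29_0 t29_1 t29_2 t29_3 fun x472 =>
  nrmK x469 fun m474_ r474 t474_0 t474_1 t474_2 t474_3 =>
  nrmK x472 fun m475_ r475 t475_0 t475_1 t475_2 t475_3 =>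
  mulK m474_ r474 t474_0 t474_1 t474_2 t474_3 m475_ r475 t475_0 t475_1 t475_2 t475_3 fun x476 =>
  nrmK x476 fun m478_ r478 t478_0 t478_1 t478_2 t478_3 =>
  mulK m478_ r478 t478_0 t478_1 t478_2 t478_3 m96_ r96 t96_0 t96_1 t96_2 t96_3 fun x479 =>
  frcK (Nat.mul 4455250 x23) fun x480 =>
  finK (Nat.add (Nat.add (Nat.add (Nat.mul 1961625 x40) (Nat.mul 304500 x33)) (Nat.mul 105500 cOne)) (ngC 4455250 x480)) 309437585638246563228680192 22 fun x481 =>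
  mulK m17_ r17 t17_0 t17_1 t17_2 t17_3 m79_ r79 t79_0 t79_1 t79_2 t79_3 fun x484 =>
  nrmK x481 fun m486_ r486 t486_0 t486_1 t486_2 t486_3 =>
  nrmK x484 fun m487_ r487 t487_0 t487_1 t487_2 t487_3 =>
  mulK m486_ r486 t486_0 t486_1 t486_2 t486_3 m487_ r487 t487_0 t487_1 t487_2 t487_3 fun x488 =>
  nrmK x488 fun m490_ r490 t490_0 t490_1 t490_2 t490_3 =>
  mulK m490_ r490 t490_0 t490_1 t490_2 t490_3 m134_ r134 t134_0 t134_1 t134_2 t134_3 fun x491 =>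
  frcK (Nat.add (Nat.add (Nat.mul 1961625 x23) (Nat.mul 2845500 x33)) (Nat.mul 793125 cOne)) fun x492 =>
  finK (Nat.add (Nat.mul 976000 x40) (ngC 5600250 x492)) 154661816654337510626820096 21 fun x493 =>
  mulK m17_ r17 t17_0 t17_1 t17_2 t17_3 m266_ r266 t266_0 t266_1 t266_2 t266_3 fun x496 =>
  nrmK x493 fun m498_ r498 t498_0 t498_1 t498_2 t498_3 =>
  nrmK x496 fun m499_ r499 t499_0 t499_1 t499_2 t499_3 =>
  mulK m498_ r498 t498_0 t498_1 t498_2 t498_3 m499_ r499 t499_0 t499_1 t499_2 t499_3 fun x500 =>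
  mulK m134_ r134 t134_0 t134_1 t134_2 t134_3 m96_ r96 t96_0 t96_1 t96_2 t96_3 fun x502 =>
  nrmK x500 fun m504_ r504 t504_0 t504_1 t504_2 t504_3 =>
  nrmK x502 fun m505_ r505 t505_0 t505_1 t505_2 t505_3 =>
  mulK m504_ r504 t504_0 t504_1 t504_2 t504_3 m505_ r505 t505_0 t505_1 t505_2 t505_3 fun x506 =>
  finK (Nat.add (Nat.add (Nat.add x466 x479) x491) x506) 73732933099309760512 0 fun x507 =>
  mulK m57_ r57 t57_0 t57_1 t57_2 t57_3 m46_ r46 t46_0 t46_1 t46_2 t46_3 fun x510 =>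
  frcK (Nat.add (Nat.add (Nat.add (Nat.add (Nat.add (Nat.add (Nat.add (Nat.mul 5314500 x44) (Nat.mul 231875 x52)) (Nat.mul 1875000 x55)) (Nat.mul 4086125 x56)) (Nat.mul 1469250 x510)) (Nat.mul 1875000 x60)) (Nat.mul 4353375 x154)) (Nat.mul 3723000 x155)) fun x511 =>
  finK (Nat.add (Nat.add (Nat.add (Nat.add (Nat.add (Nat.add (Nat.add (Nat.add (Nat.add (Nat.add (Nat.add (Nat.add (Nat.add (Nat.add (Nat.add (Nat.add (Nat.add (Nat.add (Nat.add (Nat.add (Nat.mul 396000 x40) (Nat.mul 847500 x47)) (Nat.mul 3538875 x23)) (Nat.mul 15740875 x49)) (Nat.mul 2110000 x50)) (Nat.mul 3434750 x27)) (Nat.mul 1815875 x51)) (Nat.mul 808375 x33)) (Nat.mul 1875000 x54)) (Nat.mul 5324125 x58)) (Nat.mul 6367000 x59)) (Nat.mul 1042750 x145)) (Nat.mul 1496625 x147)) (Nat.mul 1863000 x63)) (Nat.mul 2030750 x148)) (Nat.mul 4629375 x64)) (Nat.mul 3750000 x150)) (Nat.mul 4788875 x65)) (Nat.mul 7500000 x153)) (Nat.mul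 830875 cOne)) (ngC 22928125 x511)) 307883089413866157550600192 22 fun x512 =>
  nrmK x512 fun m515_ r515 t515_0 t515_1 t515_2 t515_3 =>
  mulK m515_ r515 t515_0 t515_1 t515_2 t515_3 m17_ r17 t17_0 t17_1 t17_2 t17_3 fun x516 =>
  mulK m46_ r46 t46_0 t46_1 t46_2 t46_3 m46_ r46 t46_0 t46_1 t46_2 t46_3 fun x518 =>
  frcK (Nat.add (Nat.add (Nat.add (Nat.add (Nat.add (Nat.add (Nat.add (Nat.add (Nat.add (Nat.add (Nat.add (Nat.add (Nat.mul 2140000 x40) (Nat.mul 3290750 x44)) (Nat.mul 2150000 x47)) (Nat.mul 22500000 x51)) (Nat.mul 1096000 x33)) (Nat.mul 275000 x143)) (Nat.mul 7500000 x56)) (Nat.mul 9096500 x147)) (Nat.mul 11586000 x60)) (Nat.mul 5625000 x148)) (Nat.mul 7500000 x150)) (Nat.mul 9375000 x153)) (Nat.mul 11004000 x155)) fun x520 =>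
  finK (Nat.add (Nat.add (Nat.add (Nat.add (Nat.add (Nat.add (Nat.add (Nat.add (Nat.add (Nat.add (Nat.add (Nat.add (Nat.add (Nat.add (Nat.add (Nat.mul 978250 x518) (Nat.mul 3121250 x23)) (Nat.mul 4639500 x49)) (Nat.mul 5518250 x50)) (Nat.mul 7419125 x27)) (Nat.mul 18193000 x52)) (Nat.mul 7614250 x54)) (Nat.mul 3750000 x55)) (Nat.mul 1844250 x59)) (Nat.mul 7500000 x145)) (Nat.mul 3342500 x64)) (Nat.mul 6138375 x151)) (Nat.mul 17235000 x65)) (Nat.mul 8315000 x154)) (Nat.mul 177750 cOne)) (ngC 93138250 x520)) 306157201950266726591496192 22 fun x521 =>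
  nrmK x521 fun m524_ r524 t524_0 t524_1 t524_2 t524_3 =>
  mulK m524_ r524 t524_0 t524_1 t524_2 t524_3 m475_ r475 t475_0 t475_1 t475_2 t475_3 fun x525 =>
  nrmK x525 fun m527_ r527 t527_0 t527_1 t527_2 t527_3 =>
  mulK m527_ r527 t527_0 t527_1 t527_2 t527_3 m96_ r96 t96_0 t96_1 t96_2 t96_3 fun x528 =>
  frcK (Nat.add (Nat.add (Nat.add (Nat.add (Nat.add (Nat.add (Nat.mul 1148875 x50) (Nat.mul 4956625 x27)) (Nat.mul 1323250 x33)) (Nat.mul 1875000 x58)) (Nat.mul 3726000 x63)) (Nat.mul 4327875 x64)) (Nat.mul 2123625 x65)) fun x529 =>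
  finK (Nat.add (Nat.add (Nat.add (Nat.add (Nat.add (Nat.add (Nat.add (Nat.add (Nat.mul 708125 x23) (Nat.mul 1875000 x49)) (Nat.mul 3901375 x51)) (Nat.mul 3393750 x52)) (Nat.mul 1875000 x54)) (Nat.mul 1875000 x55)) (Nat.mul 1875000 x56)) (Nat.mul 3750000 x60)) (ngC 19481250 x529)) 154082505123469961614852096 21 fun x530 =>
  mulK m17_ r17 t17_0 t17_1 t17_2 t17_3 m75_ r75 t75_0 t75_1 t75_2 t75_3 fun x533 =>
  nrmK x530 fun m535_ r535 t535_0 t535_1 t535_2 t535_3 =>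
  nrmK x533 fun m536_ r536 t536_0 t536_1 t536_2 t536_3 =>
  mulK m535_ r535 t535_0 t535_1 t535_2 t535_3 m536_ r536 t536_0 t536_1 t536_2 t536_3 fun x537 =>
  nrmK x537 fun m539_ r539 t539_0 t539_1 t539_2 t539_3 =>
  nrmK x97 fun m540_ r540 t540_0 t540_1 t540_2 t540_3 =>
  mulK m539_ r539 t539_0 t539_1 t539_2 t539_3 m540_ r540 t540_0 t540_1 t540_2 t540_3 fun x541 =>
  frcK (Nat.add (Nat.add (Nat.add (Nat.add (Nat.add (Nat.add (Nat.mul 878625 x40) (Nat.mul 2322750 x23)) (Nat.mul 6797000 x49)) (Nat.mul 8259125 x54)) (Nat.mul 12526000 x56)) (Nat.mul 12673625 x60)) (Nat.mul 673375 cOne)) fun x542 =>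
  finK (Nat.add (Nat.add (Nat.add (Nat.mul 3174250 x44) (Nat.mul 3105750 x27)) (Nat.mul 6024500 x33)) (ngC 44130500 x542)) 308543925105188367281160192 22 fun x543 =>
  nrmK x543 fun m546_ r546 t546_0 t546_1 t546_2 t546_3 =>
  mulK m546_ r546 t546_0 t546_1 t546_2 t546_3 m487_ r487 t487_0 t487_1 t487_2 t487_3 fun x547 =>
  nrmK x547 fun m549_ r549 t549_0 t549_1 t549_2 t549_3 =>
  mulK m549_ r549 t549_0 t549_1 t549_2 t549_3 m134_ r134 t134_0 t134_1 t134_2 t134_3 fun x550 =>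
  frcK (Nat.add (Nat.add (Nat.add (Nat.mul 2581000 x44) (Nat.mul 17924625 x56)) (Nat.mul 14270250 x60)) (Nat.mul 788500 cOne)) fun x551 =>
  finK (Nat.add (Nat.add (Nat.add (Nat.add (Nat.add (Nat.mul 586500 x40) (Nat.mul 3831250 x23)) (Nat.mul 4526000 x49)) (Nat.mul 5172500 x33)) (Nat.mul 15000000 x54)) (ngC 35564375 x551)) 308395385130478619896840192 22 fun x552 =>
  nrmK x552 fun m555_ r555 t555_0 t555_1 t555_2 t555_3 =>
  mulK m555_ r555 t555_0 t555_1 t555_2 t555_3 m499_ r499 t499_0 t499_1 t499_2 t499_3 fun x556 =>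
  nrmK x556 fun m558_ r558 t558_0 t558_1 t558_2 t558_3 =>
  mulK m558_ r558 t558_0 t558_1 t558_2 t558_3 m505_ r505 t505_0 t505_1 t505_2 t505_3 fun x559 =>
  frcK (Nat.add (Nat.add (Nat.add (Nat.add (Nat.mul 235875 x40) (Nat.mul 4711125 x44)) (Nat.mul 6834000 x27)) (Nat.mul 14696875 x33)) (Nat.mul 14954375 x54)) fun x560 =>
  finK (Nat.add (Nat.add (Nat.add (Nat.add (Nat.add (Nat.mul 6340000 x23) (Nat.mul 13594000 x49)) (Nat.mul 30000000 x56)) (Nat.mul 21073500 x60)) (Nat.mul 478125 cOne)) (ngC 41432250 x560)) 307526420085977110064136192 22 fun x561 =>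
  mulK m17_ r17 t17_0 t17_1 t17_2 t17_3 m217_ r217 t217_0 t217_1 t217_2 t217_3 fun x564 =>
  nrmK x561 fun m566_ r566 t566_0 t566_1 t566_2 t566_3 =>
  nrmK x564 fun m567_ r567 t567_0 t567_1 t567_2 t567_3 =>
  mulK m566_ r566 t566_0 t566_1 t566_2 t566_3 m567_ r567 t567_0 t567_1 t567_2 t567_3 fun x568 =>
  mulK m134_ r134 t134_0 t134_1 t134_2 t134_3 m540_ r540 t540_0 t540_1 t540_2 t540_3 fun x570 =>
  nrmK x568 fun m572_ r572 t572_0 t572_1 t572_2 t572_3 =>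
  nrmK x570 fun m573_ r573 t573_0 t573_1 t573_2 t573_3 =>
  mulK m572_ r572 t572_0 t572_1 t572_2 t572_3 m573_ r573 t573_0 t573_1 t573_2 t573_3 fun x574 =>
  finK (Nat.add (Nat.add (Nat.add (Nat.add (Nat.add x516 x528) x541) x550) x559) x574) 73696904302290796544 0 fun x575 =>
  nrmK x575 fun m578_ r578 t578_0 t578_1 t578_2 t578_3 =>
  mulK m578_ r578 t578_0 t578_1 t578_2 t578_3 m178_ r178 t178_0 t178_1 t178_2 t178_3 fun x579 =>
  frcK (Nat.add (Nat.add (Nat.add (Nat.mul 4005625 x44) (Nat.mul 3429625 x23)) (Nat.mul 12741750 x27)) (Nat.mul 3893375 x33)) fun x580 =>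
  finK (Nat.add (Nat.add (Nat.add (Nat.add (Nat.add (Nat.add (Nat.mul 4418500 x40) (Nat.mul 17939750 x49)) (Nat.mul 12100250 x54)) (Nat.mul 7670500 x56)) (Nat.mul 7072375 x60)) (Nat.mul 811750 cOne)) (ngC 24070375 x580)) 308225997993093774486536192 22 fun x581 =>
  nrmK x581 fun m584_ r584 t584_0 t584_1 t584_2 t584_3 =>
  mulK m584_ r584 t584_0 t584_1 t584_2 t584_3 m475_ r475 t475_0 t475_1 t475_2 t475_3 fun x585 =>
  frcK (Nat.add (Nat.add (Nat.add (Nat.add (Nat.add (Nat.mul 990000 x44) (Nat.mul 14587250 x23)) (Nat.mul 16802000 x49)) (Nat.mul 9163125 x33)) (Nat.mul 10774000 x54)) (Nat.mul 966625 cOne)) fun x587 =>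
  finK (Nat.add (Nat.add (Nat.add (Nat.add (Nat.mul 3591250 x40) (Nat.mul 9484750 x27)) (Nat.mul 16224125 x56)) (Nat.mul 9451125 x60)) (ngC 53283000 x587)) 307902626029049690762248192 22 fun x588 =>
  nrmK x588 fun m591_ r591 t591_0 t591_1 t591_2 t591_3 =>
  mulK m591_ r591 t591_0 t591_1 t591_2 t591_3 m536_ r536 t536_0 t536_1 t536_2 t536_3 fun x592 =>
  nrmK x592 fun m594_ r594 t594_0 t594_1 t594_2 t594_3 =>
  mulK m594_ r594 t594_0 t594_1 t594_2 t594_3 m96_ r96 t96_0 t96_1 t96_2 t96_3 fun x595 =>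
  frcK (Nat.add (Nat.add (Nat.add (Nat.add (Nat.mul 9510000 x23) (Nat.mul 20391000 x49)) (Nat.mul 22500000 x56)) (Nat.mul 9031500 x60)) (Nat.mul 478125 cOne)) fun x596 =>
  finK (Nat.add (Nat.add (Nat.add (Nat.add (Nat.add (Nat.mul 235875 x40) (Nat.mul 4711125 x44)) (Nat.mul 20502000 x27)) (Nat.mul 8818125 x33)) (Nat.mul 8972625 x54)) (ngC 61910625 x596)) 307666346926399511374856192 22 fun x597 =>
  nrmK x597 fun m600_ r600 t600_0 t600_1 t600_2 t600_3 =>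
  mulK m600_ r600 t600_0 t600_1 t600_2 t600_3 m487_ r487 t487_0 t487_1 t487_2 t487_3 fun x601 =>
  nrmK x601 fun m603_ r603 t603_0 t603_1 t603_2 t603_3 =>
  mulK m603_ r603 t603_0 t603_1 t603_2 t603_3 m540_ r540 t540_0 t540_1 t540_2 t540_3 fun x604 =>
  frcK (Nat.mul 2621500 x23) fun x605 =>
  finK (Nat.add (Nat.add (Nat.add (Nat.mul 1603625 x40) (Nat.mul 1181125 x33)) (Nat.mul 45500 cOne)) (ngC 2621500 x605)) 309462357687996914641928192 22 fun x606 =>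
  nrmK x606 fun m609_ r609 t609_0 t609_1 t609_2 t609_3 =>
  mulK m609_ r609 t609_0 t609_1 t609_2 t609_3 m499_ r499 t499_0 t499_1 t499_2 t499_3 fun x610 =>
  nrmK x610 fun m612_ r612 t612_0 t612_1 t612_2 t612_3 =>
  mulK m612_ r612 t612_0 t612_1 t612_2 t612_3 m134_ r134 t134_0 t134_1 t134_2 t134_3 fun x613 =>
  frcK (Nat.add (Nat.mul 1603625 x23) (Nat.mul 450625 x33)) fun x614 =>
  finK (Nat.add (Nat.add (Nat.mul 1100250 x40) (Nat.mul 289375 cOne)) (ngC 2054250 x614)) 154718244505868649256452096 21 fun x615 =>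
  nrmK x615 fun m618_ r618 t618_0 t618_1 t618_2 t618_3 =>
  mulK m618_ r618 t618_0 t618_1 t618_2 t618_3 m567_ r567 t567_0 t567_1 t567_2 t567_3 fun x619 =>
  nrmK x619 fun m621_ r621 t621_0 t621_1 t621_2 t621_3 =>
  mulK m621_ r621 t621_0 t621_1 t621_2 t621_3 m505_ r505 t505_0 t505_1 t505_2 t505_3 fun x622 =>
  finK (Nat.add (Nat.add (Nat.add (Nat.add x585 x595) x604) x613) x622) 73714918700800278528 0 fun x623 =>
  nrmK x623 fun m626_ r626 t626_0 t626_1 t626_2 t626_3 =>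
  mulK m626_ r626 t626_0 t626_1 t626_2 t626_3 m198_ r198 t198_0 t198_1 t198_2 t198_3 fun x627 =>
  finK (Nat.add x579 x627) 73768961896328724480 0 fun x628 =>
  mulK m578_ r578 t578_0 t578_1 t578_2 t578_3 m323_ r323 t323_0 t323_1 t323_2 t323_3 fun x631 =>
  mulK m626_ r626 t626_0 t626_1 t626_2 t626_3 m335_ r335 t335_0 t335_1 t335_2 t335_3 fun x632 =>
  finK (Nat.add x631 x632) 73768961896328724480 0 fun x633 =>
  mulK m578_ r578 t578_0 t578_1 t578_2 t578_3 m385_ r385 t385_0 t385_1 t385_2 t385_3 fun x636 =>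
  mulK m626_ r626 t626_0 t626_1 t626_2 t626_3 m392_ r392 t392_0 t392_1 t392_2 t392_3 fun x637 =>
  finK (Nat.add x636 x637) 73768961896328724480 0 fun x638 =>
  mulK m57_ r57 t57_0 t57_1 t57_2 t57_3 m142_ r142 t142_0 t142_1 t142_2 t142_3 fun x641 =>
  mulK m144_ r144 t144_0 t144_1 t144_2 t144_3 m46_ r46 t46_0 t46_1 t46_2 t46_3 fun x642 =>
  nrmK x147 fun m643_ r643 t643_0 t643_1 t643_2 t643_3 =>
  mulK m643_ r643 t643_0 t643_1 t643_2 t643_3 m43_ r43 t43_0 t43_1 t43_2 t43_3 fun x644 =>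
  mulK m36_ r36 t36_0 t36_1 t36_2 t36_3 m36_ r36 t36_0 t36_1 t36_2 t36_3 fun x645 =>
  nrmK x645 fun m647_ r647 t647_0 t647_1 t647_2 t647_3 =>
  mulK m37_ r37 t37_0 t37_1 t37_2 t37_3 m647_ r647 t647_0 t647_1 t647_2 t647_3 fun x648 =>
  mulK m149_ r149 t149_0 t149_1 t149_2 t149_3 m46_ r46 t46_0 t46_1 t46_2 t46_3 fun x649 =>
  nrmK x151 fun m650_ r650 t650_0 t650_1 t650_2 t650_3 =>
  mulK m650_ r650 t650_0 t650_1 t650_2 t650_3 m43_ r43 t43_0 t43_1 t43_2 t43_3 fun x651 =>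
  mulK m62_ r62 t62_0 t62_1 t62_2 t62_3 m146_ r146 t146_0 t146_1 t146_2 t146_3 fun x652 =>
  nrmK x154 fun m653_ r653 t653_0 t653_1 t653_2 t653_3 =>
  mulK m653_ r653 t653_0 t653_1 t653_2 t653_3 m43_ r43 t43_0 t43_1 t43_2 t43_3 fun x654 =>
  mulK m152_ r152 t152_0 t152_1 t152_2 t152_3 m36_ r36 t36_0 t36_1 t36_2 t36_3 fun x655 =>
  nrmK x155 fun m656_ r656 t656_0 t656_1 t656_2 t656_3 =>
  mulK m656_ r656 t656_0 t656_1 t656_2 t656_3 m26_ r26 t26_0 t26_1 t26_2 t26_3 fun x657 =>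
  frcK (Nat.add (Nat.add (Nat.add (Nat.add (Nat.add (Nat.add (Nat.add (Nat.add (Nat.add (Nat.add (Nat.add (Nat.add (Nat.add (Nat.add (Nat.add (Nat.add (Nat.add (Nat.add (Nat.add (Nat.add (Nat.add (Nat.mul 4224000 x40) (Nat.mul 17200000 x47)) (Nat.mul 30000000 x49)) (Nat.mul 60000000 x51)) (Nat.mul 21013000 x33)) (Nat.mul 12873858 x54)) (Nat.mul 4629688 x55)) (Nat.mul 29128524 x58)) (Nat.mul 35673000 x641)) (Nat.mul 44098487 x59)) (Nat.mul 40388000 x642)) (Nat.mul 10356000 x644)) (Nat.mul 21850000 x63)) (Nat.mul 6716456 x148)) (Nat.mul 27432513 x64)) (Nat.mul 25615000 x649)) (Nat.mul 16809952 x151)) (Nat.mul 180000000 x651)) (Nat.mul 46946000 x652)) (Nat.mul 58292932 x65)) (Nat.mul 17815625 x154)) (Nat.mul 89904000 x654)) fun x658 =>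
  finK (Nat.add (Nat.add (Nat.add (Nat.add (Nat.add (Nat.add (Nat.add (Nat.add (Nat.add (Nat.add (Nat.add (Nat.add (Nat.add (Nat.add (Nat.add (Nat.add (Nat.add (Nat.add (Nat.add (Nat.mul 18890000 x44) (Nat.mul 7826000 x518)) (Nat.mul 19135000 x23)) (Nat.mul 22073000 x50)) (Nat.mul 34353000 x27)) (Nat.mul 36386000 x52)) (Nat.mul 11232840 x143)) (Nat.mul 18526171 x56)) (Nat.mul 17089324 x510)) (Nat.mul 101630347 x145)) (Nat.mul 8604484 x147)) (Nat.mul 1855000 x648)) (Nat.mul 58596144 x60)) (Nat.mul 208438104 x150)) (Nat.mul 55967494 x153)) (Nat.mul 34963000 x655)) (Nat.mul 20026874 x155)) (Nat.mul 19157000 x657)) (Nat.mul 602000 cOne)) (ngC 800967035 x658)) 1211286987273609286611107840 24 fun x659 =>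
  frcK (Nat.add (Nat.add (Nat.add (Nat.mul 1042750 x49) (Nat.mul 1496625 x27)) (Nat.mul 510500 x56)) (Nat.mul 1451125 x60)) fun x662 =>
  finK (Nat.add (Nat.add (Nat.add (Nat.add (Nat.add (Nat.add (Nat.mul 2175875 x40) (Nat.mul 1469250 x44)) (Nat.mul 267000 x23)) (Nat.mul 293000 x33)) (Nat.mul 3750000 x54)) (Nat.mul 1320375 cOne)) (ngC 4501000 x662)) 154532108481469612971524096 21 fun x663 =>
  nrmK x663 fun m666_ r666 t666_0 t666_1 t666_2 t666_3 =>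
  nrmK x18 fun m667_ r667 t667_0 t667_1 t667_2 t667_3 =>
  mulK m666_ r666 t666_0 t666_1 t666_2 t666_3 m667_ r667 t667_0 t667_1 t667_2 t667_3 fun x668 =>
  frcK (Nat.add (Nat.add (Nat.add (Nat.add (Nat.add (Nat.add (Nat.add (Nat.add (Nat.add (Nat.add (Nat.add (Nat.add (Nat.mul 1560250 x47) (Nat.mul 2297750 x50)) (Nat.mul 4956625 x27)) (Nat.mul 8395625 x55)) (Nat.mul 8968750 x56)) (Nat.mul 48900625 x145)) (Nat.mul 6897500 x60)) (Nat.mul 595000 x148)) (Nat.mul 14498750 x150)) (Nat.mul 12236250 x151)) (Nat.mul 5790000 x153)) (Nat.mul 3290625 x154)) (Nat.mul 101375 cOne)) fun x670 =>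
  finK (Nat.add (Nat.add (Nat.add (Nat.add (Nat.add (Nat.add (Nat.add (Nat.add (Nat.add (Nat.add (Nat.add (Nat.add (Nat.add (Nat.add (Nat.add (Nat.add (Nat.add (Nat.mul 586000 x40) (Nat.mul 1470375 x44)) (Nat.mul 1416250 x23)) (Nat.mul 3750000 x49)) (Nat.mul 3901375 x51)) (Nat.mul 2262500 x52)) (Nat.mul 1258250 x33)) (Nat.mul 1519375 x54)) (Nat.mul 4051250 x143)) (Nat.mul 21385000 x58)) (Nat.mul 12049375 x510)) (Nat.mul 5950125 x59)) (Nat.mul 16046250 x147)) (Nat.mul 11238000 x63)) (Nat.mul 15703375 x64)) (Nat.mul 2647875 x65)) (Nat.mul 2703125 x155)) (ngC 118489125 x670)) 150701326372229945906692096 21 fun x671 =>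
  nrmK x671 fun m674_ r674 t674_0 t674_1 t674_2 t674_3 =>
  mulK m674_ r674 t674_0 t674_1 t674_2 t674_3 m29_ r29 t29_0 t29_1 t29_2 t29_3 fun x675 =>
  frcK (Nat.add (Nat.add (Nat.add (Nat.add (Nat.add (Nat.add (Nat.add (Nat.add (Nat.add (Nat.add (Nat.add (Nat.mul 4334000 x40) (Nat.mul 18900000 x23)) (Nat.mul 36208000 x49)) (Nat.mul 11414359 x33)) (Nat.mul 44831345 x54)) (Nat.mul 92791693 x58)) (Nat.mul 12563000 x510)) (Nat.mul 54672000 x147)) (Nat.mul 50178764 x63)) (Nat.mul 103566436 x64)) (Nat.mul 23927000 x150)) (Nat.mul 20963598 x65)) fun x677 =>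
  finK (Nat.add (Nat.add (Nat.add (Nat.add (Nat.add (Nat.add (Nat.add (Nat.add (Nat.add (Nat.add (Nat.mul 10324000 x44) (Nat.mul 13132000 x27)) (Nat.mul 20589904 x55)) (Nat.mul 43692156 x56)) (Nat.mul 113606821 x59)) (Nat.mul 54376000 x145)) (Nat.mul 70607568 x60)) (Nat.mul 60000000 x151)) (Nat.mul 24084000 x154)) (Nat.mul 1043000 cOne)) (ngC 474350195 x677)) 1222285014867319603249283072 24 fun x678 =>
  nrmK x678 fun m681_ r681 t681_0 t681_1 t681_2 t681_3 =>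
  mulK m681_ r681 t681_0 t681_1 t681_2 t681_3 m79_ r79 t79_0 t79_1 t79_2 t79_3 fun x682 =>
  frcK (Nat.add (Nat.mul 7456500 x23) (Nat.mul 590375 cOne)) fun x684 =>
  finK (Nat.add (Nat.add (Nat.mul 7500000 x40) (Nat.mul 2513000 x33)) (ngC 8046875 x684)) 154454946057254060578308096 21 fun x685 =>
  mulK m667_ r667 t667_0 t667_1 t667_2 t667_3 m29_ r29 t29_0 t29_1 t29_2 t29_3 fun x688 =>
  nrmK x685 fun m690_ r690 t690_0 t690_1 t690_2 t690_3 =>
  nrmK x688 fun m691_ r691 t691_0 t691_1 t691_2 t691_3 =>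
  mulK m690_ r690 t690_0 t690_1 t690_2 t690_3 m691_ r691 t691_0 t691_1 t691_2 t691_3 fun x692 =>
  finK (Nat.add (Nat.add x675 x682) x692) 73750947497819242496 0 fun x694 =>
  nrmK x694 fun m697_ r697 t697_0 t697_1 t697_2 t697_3 =>
  mulK m697_ r697 t697_0 t697_1 t697_2 t697_3 m134_ r134 t134_0 t134_1 t134_2 t134_3 fun x698 =>
  frcK (Nat.add (Nat.add (Nat.add (Nat.add (Nat.add (Nat.add (Nat.mul 3170000 x23) (Nat.mul 6797000 x49)) (Nat.mul 2750625 x55)) (Nat.mul 7272500 x56)) (Nat.mul 6553750 x59)) (Nat.mul 6619250 x60)) (Nat.mul 159375 cOne)) fun x699 =>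
  finK (Nat.add (Nat.add (Nat.add (Nat.add (Nat.add (Nat.add (Nat.add (Nat.add (Nat.add (Nat.mul 78625 x40) (Nat.mul 1570375 x44)) (Nat.mul 6834000 x27)) (Nat.mul 5556250 x33)) (Nat.mul 1544000 x54)) (Nat.mul 8018125 x58)) (Nat.mul 2253125 x63)) (Nat.mul 5905625 x64)) (Nat.mul 2490000 x65)) (ngC 33322500 x699)) 153563003647453706475012096 21 fun x700 =>
  nrmK x700 fun m703_ r703 t703_0 t703_1 t703_2 t703_3 =>
  mulK m703_ r703 t703_0 t703_1 t703_2 t703_3 m266_ r266 t266_0 t266_1 t266_2 t266_3 fun x704 =>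
  mulK m134_ r134 t134_0 t134_1 t134_2 t134_3 m134_ r134 t134_0 t134_1 t134_2 t134_3 fun x706 =>
  nrmK x704 fun m709_ r709 t709_0 t709_1 t709_2 t709_3 =>
  nrmK x706 fun m710_ r710 t710_0 t710_1 t710_2 t710_3 =>
  mulK m709_ r709 t709_0 t709_1 t709_2 t709_3 m710_ r710 t710_0 t710_1 t710_2 t710_3 fun x711 =>
  frcK (Nat.add (Nat.add (Nat.add (Nat.add (Nat.add (Nat.add (Nat.add (Nat.add (Nat.mul 2847500 x40) (Nat.mul 3913000 x47)) (Nat.mul 1206625 x23)) (Nat.mul 1616875 x49)) (Nat.mul 825000 x55)) (Nat.mul 7500000 x59)) (Nat.mul 3750000 x63)) (Nat.mul 3750000 x64)) (Nat.mul 1875000 x65)) fun x712 =>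
  finK (Nat.add (Nat.add (Nat.add (Nat.add (Nat.add (Nat.add (Nat.add (Nat.add (Nat.mul 5301125 x44) (Nat.mul 10893750 x27)) (Nat.mul 549250 x33)) (Nat.mul 9375000 x54)) (Nat.mul 7144500 x56)) (Nat.mul 5518250 x58)) (Nat.mul 1442625 x60)) (Nat.mul 1236125 cOne)) (ngC 27284000 x712)) 76151748851132847827714048 20 fun x713 =>
  nrmK x713 fun m716_ r716 t716_0 t716_1 t716_2 t716_3 =>
  mulK m716_ r716 t716_0 t716_1 t716_2 t716_3 m667_ r667 t667_0 t667_1 t667_2 t667_3 fun x717 =>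
  nrmK x717 fun m719_ r719 t719_0 t719_1 t719_2 t719_3 =>
  mulK m719_ r719 t719_0 t719_1 t719_2 t719_3 m540_ r540 t540_0 t540_1 t540_2 t540_3 fun x720 =>
  frcK (Nat.add (Nat.add (Nat.add (Nat.mul 4464125 x44) (Nat.mul 20877000 x49)) (Nat.mul 7811500 x54)) (Nat.mul 1671250 x60)) fun x721 =>
  finK (Nat.add (Nat.add (Nat.add (Nat.add (Nat.add (Nat.mul 3750000 x40) (Nat.mul 4236500 x23)) (Nat.mul 14687500 x27)) (Nat.mul 4776750 x56)) (Nat.mul 3413125 cOne)) (ngC 34823875 x721)) 153596958536844266329604096 21 fun x722 =>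
  nrmK x722 fun m725_ r725 t725_0 t725_1 t725_2 t725_3 =>
  mulK m725_ r725 t725_0 t725_1 t725_2 t725_3 m691_ r691 t691_0 t691_1 t691_2 t691_3 fun x726 =>
  nrmK x726 fun m728_ r728 t728_0 t728_1 t728_2 t728_3 =>
  mulK m728_ r728 t728_0 t728_1 t728_2 t728_3 m96_ r96 t96_0 t96_1 t96_2 t96_3 fun x729 =>
  frcK (Nat.add (Nat.add (Nat.add (Nat.add (Nat.add (Nat.mul 2940750 x40) (Nat.mul 3750000 x23)) (Nat.mul 3901375 x27)) (Nat.mul 3750000 x56)) (Nat.mul 1863000 x60)) (Nat.mul 586000 cOne)) fun x730 =>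
  finK (Nat.add (Nat.add (Nat.add (Nat.add (Nat.mul 4680750 x44) (Nat.mul 4595500 x49)) (Nat.mul 1875000 x33)) (Nat.mul 3750000 x54)) (ngC 16791125 x730)) 76819222848305801669378048 20 fun x731 =>
  nrmK x731 fun m734_ r734 t734_0 t734_1 t734_2 t734_3 =>
  mulK m734_ r734 t734_0 t734_1 t734_2 t734_3 m691_ r691 t691_0 t691_1 t691_2 t691_3 fun x735 =>
  mulK m540_ r540 t540_0 t540_1 t540_2 t540_3 m96_ r96 t96_0 t96_1 t96_2 t96_3 fun x737 =>
  nrmK x735 fun m739_ r739 t739_0 t739_1 t739_2 t739_3 =>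
  nrmK x737 fun m740_ r740 t740_0 t740_1 t740_2 t740_3 =>
  mulK m739_ r739 t739_0 t739_1 t739_2 t739_3 m740_ r740 t740_0 t740_1 t740_2 t740_3 fun x741 =>
  frcK (Nat.add (Nat.add (Nat.mul 11717000 x23) (Nat.mul 1525125 x33)) (Nat.mul 2808250 cOne)) fun x742 =>
  finK (Nat.add (Nat.mul 1889500 x40) (ngC 16050375 x742)) 154457107785075198416388096 21 fun x743 =>
  mulK m667_ r667 t667_0 t667_1 t667_2 t667_3 m75_ r75 t75_0 t75_1 t75_2 t75_3 fun x746 =>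
  nrmK x743 fun m748_ r748 t748_0 t748_1 t748_2 t748_3 =>
  nrmK x746 fun m749_ r749 t749_0 t749_1 t749_2 t749_3 =>
  mulK m748_ r748 t748_0 t748_1 t748_2 t748_3 m749_ r749 t749_0 t749_1 t749_2 t749_3 fun x750 =>
  nrmK x750 fun m752_ r752 t752_0 t752_1 t752_2 t752_3 =>
  mulK m752_ r752 t752_0 t752_1 t752_2 t752_3 m505_ r505 t505_0 t505_1 t505_2 t505_3 fun x753 =>
  frcK (Nat.add (Nat.mul 2989750 x40) (Nat.mul 521625 cOne)) fun x754 =>
  finK (Nat.add (Nat.mul 5680000 x23) (ngC 3511375 x754)) 38529493868533782910337024 19 fun x755 =>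
  mulK m667_ r667 t667_0 t667_1 t667_2 t667_3 m79_ r79 t79_0 t79_1 t79_2 t79_3 fun x758 =>
  nrmK x755 fun m760_ r760 t760_0 t760_1 t760_2 t760_3 =>
  nrmK x758 fun m761_ r761 t761_0 t761_1 t761_2 t761_3 =>
  mulK m760_ r760 t760_0 t760_1 t760_2 t760_3 m761_ r761 t761_0 t761_1 t761_2 t761_3 fun x762 =>
  nrmK x762 fun m764_ r764 t764_0 t764_1 t764_2 t764_3 =>
  mulK m764_ r764 t764_0 t764_1 t764_2 t764_3 m573_ r573 t573_0 t573_1 t573_2 t573_3 fun x765 =>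
  frcK (Nat.add (Nat.add (Nat.mul 3140750 x40) (Nat.mul 2990875 x33)) (Nat.mul 78625 cOne)) fun x766 =>
  finK (Nat.add (Nat.mul 6797000 x23) (ngC 6210250 x766)) 77155824136255286225666048 20 fun x767 =>
  mulK m667_ r667 t667_0 t667_1 t667_2 t667_3 m266_ r266 t266_0 t266_1 t266_2 t266_3 fun x770 =>
  nrmK x767 fun m772_ r772 t772_0 t772_1 t772_2 t772_3 =>
  nrmK x770 fun m773_ r773 t773_0 t773_1 t773_2 t773_3 =>
  mulK m772_ r772 t772_0 t772_1 t772_2 t772_3 m773_ r773 t773_0 t773_1 t773_2 t773_3 fun x774 =>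
  mulK m134_ r134 t134_0 t134_1 t134_2 t134_3 m740_ r740 t740_0 t740_1 t740_2 t740_3 fun x776 =>
  nrmK x774 fun m778_ r778 t778_0 t778_1 t778_2 t778_3 =>
  nrmK x776 fun m779_ r779 t779_0 t779_1 t779_2 t779_3 =>
  mulK m778_ r778 t778_0 t778_1 t778_2 t778_3 m779_ r779 t779_0 t779_1 t779_2 t779_3 fun x780 =>
  finK (Nat.add (Nat.add (Nat.add (Nat.add (Nat.add (Nat.add (Nat.add (Nat.add (Nat.add x659 x668) x698) x711) x720) x729) x741) x753) x765) x780) 73624846708252868608 0 fun x781 =>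
  psdK uu x139 x200 x316 x337 x356 x379 x394 x412 x431 x458 x507 x628 x633 x638 x781

theorem alt0_s {uu z1 z2 z3 z4 z5 : ℕ} {e1 e2 e3 e4 e5 s t q u th : ℝ} (he : Ev e1 e2 e3 e4 e5)
    (hx1 : In e1 e2 e3 e4 e5 z1 s)
    (hx2 : In e1 e2 e3 e4 e5 z2 t)
    (hx3 : In e1 e2 e3 e4 e5 z3 q)
    (hx4 : In e1 e2 e3 e4 e5 z4 u)
    (hx5 : In e1 e2 e3 e4 e5 z5 th)
    (H0 : alt0 uu z1 z2 z3 z4 z5 = true) : Q s t q u th := by
  unfold alt0 at H0
  unfold Q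
  refine nrmK_s he hx2 (fun _ _ _ _ _ _ n1 H1 => ?_) H0
  refine mulK_s he n1 n1 (fun _ h2 H2 => ?_) H1
  have h3 := In_cast h2 (pw11)
  refine finK_s he (aa (a1 h3) (a1 (one_in he))) (by decide +kernel) (fun _ h4 H3 => ?_) H2
  have h5 := In_cast h4 (l0 _)
  refine nrmK_s he h5 (fun _ _ _ _ _ _ n6 H4 => ?_) H3
  refine invK_s he n6 (fun _ h7 H5 => ?_) H4
  have h8 := In_cast h7 (l1 _)
  have h9 := In_cast (w := (f_iy s t q u th)) h8 (rfl)
  refine finK_s he (aa (an 2 h9) (ng1_s he (one_in he))) (by decide +kernel) (fun _ h10 H6 => ?_) H5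
  have h11 := In_cast h10 (l2 _)
  have h12 := In_cast (w := (f_w s t q u th)) h11 (rfl)
  refine nrmK_s he hx3 (fun _ _ _ _ _ _ n13 H7 => ?_) H6
  refine nrmK_s he h12 (fun _ _ _ _ _ _ n14 H8 => ?_) H7
  refine mulK_s he n13 n14 (fun _ h15 H9 => ?_) H8
  have h16 := In_cast (w := (f_P s t q u th)) h15 (rfl)
  refine nrmK_s he h16 (fun _ _ _ _ _ _ n17 H10 => ?_) H9
  refine mulK_s he n17 n17 (fun _ h18 H11 => ?_) H10
  have h19 := In_cast h18 (pw11)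
  have h20 := In_cast (w := (f_PP s t q u th)) h19 (rfl)
  refine nrmK_s he h9 (fun _ _ _ _ _ _ n21 H12 => ?_) H11
  refine mulK_s he n1 n21 (fun _ h22 H13 => ?_) H12
  refine finK_s he (an 2 h22) (by decide +kernel) (fun _ h23 H14 => ?_) H13
  have h24 := In_cast h23 (l3 _)
  have h25 := In_cast (w := (f_z s t q u th)) h24 (rfl)
  refine nrmK_s he h25 (fun _ _ _ _ _ _ n26 H15 => ?_) H14
  refine mulK_s he n26 n26 (fun _ h27 H16 => ?_) H15
  have h28 := In_cast h27 (pw11)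
  refine nrmK_s he hx1 (fun _ _ _ _ _ _ n29 H17 => ?_) H16
  refine mulK_s he n29 n29 (fun _ h30 H18 => ?_) H17
  have h31 := In_cast h30 (pw11)
  have h32 := In_cast (w := (f_s2 s t q u th)) h31 (rfl)
  refine finK_s he (aa (a1 (one_in he)) (ng1_s he h32)) (by decide +kernel) (fun _ h33 H19 => ?_) H18
  have h34 := In_cast h33 (l4 _)
  have h35 := In_cast (w := (f_r s t q u th)) h34 (rfl)
  refine nrmK_s he h28 (fun _ _ _ _ _ _ n36 H20 => ?_) H19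
  refine nrmK_s he h35 (fun _ _ _ _ _ _ n37 H21 => ?_) H20
  refine mulK_s he n36 n37 (fun _ h38 H22 => ?_) H21
  refine frcK_s (aa (a1 h20) (a1 h38)) (fun _ h39 H23 => ?_) H22
  refine finK_s he (aa (a1 (one_in he)) (ngC_s he (C := 2) h39 (by decide +kernel) (by decide +kernel))) (by decide +kernel) (fun _ h40 H24 => ?_) H23
  have h41 := In_cast h40 (l5 _ _)
  have h42 := In_cast (w := (f_p s t q u th)) h41 (rfl)
  refine nrmK_s he h42 (fun _ _ _ _ _ _ n43 H25 => ?_) H24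
  refine mulK_s he n43 n43 (fun _ h44 H26 => ?_) H25
  have h45 := In_cast h44 (pw11)
  refine nrmK_s he h45 (fun _ _ _ _ _ _ n46 H27 => ?_) H26
  refine mulK_s he n46 n43 (fun _ h47 H28 => ?_) H27
  have h48 := In_cast h47 (pwn1 (n := 3) rfl)
  refine mulK_s he n26 n43 (fun _ h49 H29 => ?_) H28
  refine mulK_s he n26 n46 (fun _ h50 H30 => ?_) H29
  refine mulK_s he n36 n43 (fun _ h51 H31 => ?_) H30
  refine mulK_s he n36 n26 (fun _ h52 H32 => ?_) H31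
  have h53 := In_cast h52 (pwn1 (n := 3) rfl)
  refine mulK_s he n37 n43 (fun _ h54 H33 => ?_) H32
  refine mulK_s he n37 n46 (fun _ h55 H34 => ?_) H33
  refine mulK_s he n37 n26 (fun _ h56 H35 => ?_) H34
  refine nrmK_s he h56 (fun _ _ _ _ _ _ n57 H36 => ?_) H35
  refine mulK_s he n57 n43 (fun _ h58 H37 => ?_) H36
  refine mulK_s he n37 n36 (fun _ h59 H38 => ?_) H37
  refine mulK_s he n37 n37 (fun _ h60 H39 => ?_) H38
  have h61 := In_cast h60 (pw11)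
  refine nrmK_s he h61 (fun _ _ _ _ _ _ n62 H40 => ?_) H39
  refine mulK_s he n62 n43 (fun _ h63 H41 => ?_) H40
  refine mulK_s he n62 n26 (fun _ h64 H42 => ?_) H41
  refine mulK_s he n62 n37 (fun _ h65 H43 => ?_) H42
  have h66 := In_cast h65 (pwn1 (n := 3) rfl)
  refine frcK_s (aa (aa (aa (aa (aa (aa (aa (aa (aa (an 267750 h42) (an 289000 h45)) (an 3040500 h50)) (an 1314125 h28)) (an 1543375 h51)) (an 943000 h55)) (an 685875 h56)) (an 2763000 h58)) (an 6000 h59)) (an 1383500 h61)) (fun _ h67 H44 => ?_) H43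
  refine finK_s he (aa (aa (aa (aa (aa (aa (aa (aa (aa (aa (an 895000 h48) (an 478625 h25)) (an 2440500 h49)) (an 2939500 h53)) (an 107000 h35)) (an 1875000 h54)) (an 1063250 h63)) (an 703125 h64)) (an 1265750 h66)) (an 1250000 (one_in he))) (ngC_s he (C := 12236125) h67 (by decide +kernel) (by decide +kernel))) (by decide +kernel) (fun _ h68 H45 => ?_) H44
  have h69 := In_cast h68 (l6 _ _ _ _ _ _ _ _ _ _ _ _ _ _ _ _ _ _ _)
  have h70 := In_cast (w := (f_TF_000 s t q u th)) h69 (rfl)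
  refine frcK_s (aa (aa (aa (an 488000 h45) (an 2227625 h28)) (an 2321000 h35)) (an 830125 (one_in he))) (fun _ h71 H46 => ?_) H45
  refine finK_s he (aa (aa (aa (aa (aa (aa (an 793125 h42) (an 105500 h25)) (an 1961625 h49)) (an 2845500 h54)) (an 304500 h56)) (an 824750 h61)) (ngC_s he (C := 5866750) h71 (by decide +kernel) (by decide +kernel))) (by decide +kernel) (fun _ h72 H47 => ?_) H46
  have h73 := In_cast h72 (l7 _ _ _ _ _ _ _ _ _)
  have h74 := In_cast (w := (f_TF_310 s t q u th)) h73 (rfl)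
  refine nrmK_s he h32 (fun _ _ _ _ _ _ n75 H48 => ?_) H47
  refine mulK_s he n29 n75 (fun _ h76 H49 => ?_) H48
  have h77 := In_cast (w := (f_s3 s t q u th)) h76 (rfl)
  refine nrmK_s he h74 (fun _ _ _ _ _ _ n78 H50 => ?_) H49
  refine nrmK_s he h77 (fun _ _ _ _ _ _ n79 H51 => ?_) H50
  refine mulK_s he n78 n79 (fun _ h80 H52 => ?_) H51
  have h81 := In_cast (w := (f_XF_310 s t q u th)) h80 (rfl)
  refine nrmK_s he hx4 (fun _ _ _ _ _ _ n82 H53 => ?_) H52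
  refine mulK_s he n82 n82 (fun _ h83 H54 => ?_) H53
  have h84 := In_cast h83 (pw11)
  refine finK_s he (aa (an 5 h84) (a1 (one_in he))) (by decide +kernel) (fun _ h85 H55 => ?_) H54
  have h86 := In_cast h85 (l8 _)
  refine nrmK_s he h86 (fun _ _ _ _ _ _ n87 H56 => ?_) H55
  refine invK_s he n87 (fun _ h88 H57 => ?_) H56
  have h89 := In_cast h88 (l1 _)
  have h90 := In_cast (w := (f_idn s t q u th)) h89 (rfl)
  refine nrmK_s he h90 (fun _ _ _ _ _ _ n91 H58 => ?_) H57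
  refine mulK_s he n82 n91 (fun _ h92 H59 => ?_) H58
  refine finK_s he (an 4 h92) (by decide +kernel) (fun _ h93 H60 => ?_) H59
  have h94 := In_cast h93 (l9 _)
  have h95 := In_cast (w := (f_l s t q u th)) h94 (rfl)
  refine nrmK_s he h95 (fun _ _ _ _ _ _ n96 H61 => ?_) H60
  refine mulK_s he n96 n96 (fun _ h97 H62 => ?_) H61
  have h98 := In_cast h97 (pw11)
  have h99 := In_cast (w := (f_l2 s t q u th)) h98 (rfl)
  refine finK_s he (aa (an 2 h90) (ng1_s he (one_in he))) (by decide +kernel) (fun _ h100 H63 => ?_) H62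
  have h101 := In_cast h100 (l10 _)
  have h102 := In_cast (w := (f_n s t q u th)) h101 (rfl)
  refine nrmK_s he h102 (fun _ _ _ _ _ _ n103 H64 => ?_) H63
  refine mulK_s he n103 n103 (fun _ h104 H65 => ?_) H64
  have h105 := In_cast h104 (pw11)
  refine frcK_s (an 48 h105) (fun _ h106 H66 => ?_) H65
  refine finK_s he (aa (an 15 h99) (ngC_s he (C := 48) h106 (by decide +kernel) (by decide +kernel))) (by decide +kernel) (fun _ h107 H67 => ?_) H66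
  have h108 := In_cast h107 (l11 _ _)
  refine nrmK_s he h108 (fun _ _ _ _ _ _ n109 H68 => ?_) H67
  refine mulK_s he n96 n109 (fun _ h110 H69 => ?_) H68
  refine nrmK_s he hx5 (fun _ _ _ _ _ _ n111 H70 => ?_) H69
  refine mulK_s he n103 n111 (fun _ h112 H71 => ?_) H70
  have h113 := In_cast (w := (f_tt s t q u th)) h112 (rfl)
  refine mulK_s he n111 n111 (fun _ h114 H72 => ?_) H71
  have h115 := In_cast h114 (pw11)
  refine frcK_s (an 2 h115) (fun _ h116 H73 => ?_) H72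
  refine finK_s he (aa (an 2 (one_in he)) (ngC_s he (C := 2) h116 (by decide +kernel) (by decide +kernel))) (by decide +kernel) (fun _ h117 H74 => ?_) H73
  have h118 := In_cast h117 (l12 _)
  have h119 := In_cast (w := (f_d2 s t q u th)) h118 (rfl)
  refine nrmK_s he h119 (fun _ _ _ _ _ _ n120 H75 => ?_) H74
  refine mulK_s he n103 n120 (fun _ h121 H76 => ?_) H75
  have h122 := In_cast (w := (f_nd s t q u th)) h121 (rfl)
  refine nrmK_s he h122 (fun _ _ _ _ _ _ n123 H77 => ?_) H76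
  refine mulK_s he n103 n123 (fun _ h124 H78 => ?_) H77
  have h125 := In_cast (w := (f_R2 s t q u th)) h124 (rfl)
  refine nrmK_s he h113 (fun _ _ _ _ _ _ n126 H79 => ?_) H78
  refine nrmK_s he h125 (fun _ _ _ _ _ _ n127 H80 => ?_) H79
  refine mulK_s he n126 n127 (fun _ h128 H81 => ?_) H80
  refine frcK_s (an 6 h128) (fun _ h129 H82 => ?_) H81
  refine finK_s he (aa (a1 h110) (ngC_s he (C := 6) h129 (by decide +kernel) (by decide +kernel))) (by decide +kernel) (fun _ h130 H83 => ?_) H82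
  have h131 := In_cast h130 (l13 _ _)
  have h132 := In_cast (w := (f_tht s t q u th)) h131 (rfl)
  refine nrmK_s he h81 (fun _ _ _ _ _ _ n133 H84 => ?_) H83
  refine nrmK_s he h132 (fun _ _ _ _ _ _ n134 H85 => ?_) H84
  refine mulK_s he n133 n134 (fun _ h135 H86 => ?_) H85
  refine finK_s he (aa (a1 h70) (a1 h135)) (by decide +kernel) (fun _ h136 H87 => ?_) H86
  have h137 := In_cast h136 (l14 _ _)
  have h138 := In_cast (w := (f_F s t q u th)) h137 (rfl)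
  refine finK_s he (aa (an 65536 h138) (ng1_s he (one_in he))) (by decide +kernel) (fun _ h139 H88 => ?_) H87
  have h140 := In_cast h139 (l15 _)
  have h141 := In_cast (w := (f_E11 s t q u th)) h140 (rfl)
  refine nrmK_s he h48 (fun _ _ _ _ _ _ n142 H89 => ?_) H88
  refine mulK_s he n37 n142 (fun _ h143 H90 => ?_) H89
  refine nrmK_s he h59 (fun _ _ _ _ _ _ n144 H91 => ?_) H90
  refine mulK_s he n144 n43 (fun _ h145 H92 => ?_) H91
  refine nrmK_s he h53 (fun _ _ _ _ _ _ n146 H93 => ?_) H92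
  refine mulK_s he n37 n146 (fun _ h147 H94 => ?_) H93
  refine mulK_s he n62 n46 (fun _ h148 H95 => ?_) H94
  refine nrmK_s he h64 (fun _ _ _ _ _ _ n149 H96 => ?_) H95
  refine mulK_s he n149 n43 (fun _ h150 H97 => ?_) H96
  refine mulK_s he n62 n36 (fun _ h151 H98 => ?_) H97
  refine nrmK_s he h66 (fun _ _ _ _ _ _ n152 H99 => ?_) H98
  refine mulK_s he n152 n43 (fun _ h153 H100 => ?_) H99
  refine mulK_s he n152 n26 (fun _ h154 H101 => ?_) H100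
  refine mulK_s he n62 n62 (fun _ h155 H102 => ?_) H101
  have h156 := In_cast h155 (pwnn (n := 4) rfl)
  refine frcK_s (aa (aa (aa (aa (aa (aa (aa (aa (aa (aa (aa (an 267750 h42) (an 289000 h45)) (an 6081000 h50)) (an 3942375 h28)) (an 4630125 h51)) (an 2142750 h54)) (an 5879000 h147)) (an 2829000 h148)) (an 2778000 h64)) (an 5526000 h150)) (an 6000 h151)) (an 13246250 h66)) (fun _ h157 H103 => ?_) H102
  refine finK_s he (aa (aa (aa (aa (aa (aa (aa (aa (aa (aa (aa (aa (aa (aa (aa (an 895000 h48) (an 957250 h25)) (an 4881000 h49)) (an 11758000 h53)) (an 1143000 h35)) (an 654000 h55)) (an 895000 h143)) (an 1308125 h59)) (an 1543375 h145)) (an 4471500 h61)) (an 2435250 h63)) (an 5316250 h153)) (an 2812500 h154)) (an 8860250 h156)) (an 1250000 (one_in he))) (ngC_s he (C := 47617250) h157 (by decide +kernel) (by decide +kernel))) (by decide +kernel) (fun _ h158 H104 => ?_) H103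
  have h159 := In_cast h158 (l16 _ _ _ _ _ _ _ _ _ _ _ _ _ _ _ _ _ _ _ _ _ _ _ _ _ _)
  have h160 := In_cast (w := (f_Tg1_000 s t q u th)) h159 (rfl)
  refine frcK_s (aa (aa (aa (aa (aa (aa (aa (an 1586250 h42) (an 105500 h25)) (an 1961625 h49)) (an 8209500 h54)) (an 1952000 h55)) (an 597000 h56)) (an 4455250 h59)) (an 18874500 h61)) (fun _ h161 H105 => ?_) H104
  refine finK_s he (aa (aa (aa (aa (aa (aa (aa (an 976000 h45) (an 5963500 h35)) (an 5884875 h58)) (an 17073000 h63)) (an 1522500 h64)) (an 6598000 h66)) (an 1660250 (one_in he))) (ngC_s he (C := 37741625) h161 (by decide +kernel) (by decide +kernel))) (by decide +kernel) (fun _ h162 H106 => ?_) H105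
  have h163 := In_cast h162 (l17 _ _ _ _ _ _ _ _ _ _ _ _ _ _)
  have h164 := In_cast (w := (f_Tg1_310 s t q u th)) h163 (rfl)
  refine nrmK_s he h164 (fun _ _ _ _ _ _ n165 H107 => ?_) H106
  refine mulK_s he n165 n79 (fun _ h166 H108 => ?_) H107
  have h167 := In_cast (w := (f_Xg1_310 s t q u th)) h166 (rfl)
  refine nrmK_s he h167 (fun _ _ _ _ _ _ n168 H109 => ?_) H108
  refine mulK_s he n168 n134 (fun _ h169 H110 => ?_) H109
  refine finK_s he (aa (a1 h160) (a1 h169)) (by decide +kernel) (fun _ h170 H111 => ?_) H110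
  have h171 := In_cast h170 (l14 _ _)
  have h172 := In_cast (w := (f_g1 s t q u th)) h171 (rfl)
  refine frcK_s (an 5 h95) (fun _ h173 H112 => ?_) H111
  refine finK_s he (aa (an 4 h113) (ngC_s he (C := 5) h173 (by decide +kernel) (by decide +kernel))) (by decide +kernel) (fun _ h174 H113 => ?_) H112
  have h175 := In_cast h174 (l18 _ _)
  have h176 := In_cast (w := (f_a1 s t q u th)) h175 (rfl)
  refine nrmK_s he h172 (fun _ _ _ _ _ _ n177 H114 => ?_) H113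
  refine nrmK_s he h176 (fun _ _ _ _ _ _ n178 H115 => ?_) H114
  refine mulK_s he n177 n178 (fun _ h179 H116 => ?_) H115
  refine frcK_s (aa (aa (aa (aa (aa (aa (aa (an 1464000 h45) (an 6682875 h28)) (an 4472625 h35)) (an 5884875 h58)) (an 8536500 h63)) (an 913500 h64)) (an 2474250 h66)) (an 2490375 (one_in he))) (fun _ h180 H117 => ?_) H116
  refine finK_s he (aa (aa (aa (aa (aa (aa (aa (aa (an 2379375 h42) (an 316500 h25)) (an 5884875 h49)) (an 6157125 h54)) (an 1464000 h55)) (an 597000 h56)) (an 6682875 h59)) (an 9437250 h61)) (ngC_s he (C := 32919000) h180 (by decide +kernel) (by decide +kernel))) (by decide +kernel) (fun _ h181 H118 => ?_) H117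
  have h182 := In_cast h181 (l19 _ _ _ _ _ _ _ _ _ _ _ _ _ _ _)
  have h183 := In_cast (w := (f_Tg2_100 s t q u th)) h182 (rfl)
  refine nrmK_s he h183 (fun _ _ _ _ _ _ n184 H119 => ?_) H118
  refine mulK_s he n184 n29 (fun _ h185 H120 => ?_) H119
  have h186 := In_cast (w := (f_Xg2_100 s t q u th)) h185 (rfl)
  have h187 := In_cast (w := (f_g2 s t q u th)) h186 (rfl)
  refine finK_s he (aa (an 4 h113) (ng1_s he h95)) (by decide +kernel) (fun _ h188 H121 => ?_) H120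
  have h189 := In_cast h188 (l20 _ _)
  refine nrmK_s he h189 (fun _ _ _ _ _ _ n190 H122 => ?_) H121
  refine mulK_s he n190 n190 (fun _ h191 H123 => ?_) H122
  have h192 := In_cast h191 (pw11)
  refine frcK_s (an 2 h99) (fun _ h193 H124 => ?_) H123
  refine finK_s he (aa (an 2 h192) (ngC_s he (C := 2) h193 (by decide +kernel) (by decide +kernel))) (by decide +kernel) (fun _ h194 H125 => ?_) H124
  have h195 := In_cast h194 (l21 _ _)
  have h196 := In_cast (w := (f_b1 s t q u th)) h195 (rfl)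
  refine nrmK_s he h187 (fun _ _ _ _ _ _ n197 H126 => ?_) H125
  refine nrmK_s he h196 (fun _ _ _ _ _ _ n198 H127 => ?_) H126
  refine mulK_s he n197 n198 (fun _ h199 H128 => ?_) H127
  refine finK_s he (aa (a1 h179) (a1 h199)) (by decide +kernel) (fun _ h200 H129 => ?_) H128
  have h201 := In_cast h200 (l14 _ _)
  have h202 := In_cast (w := (f_E21 s t q u th)) h201 (rfl)
  refine frcK_s (aa (aa (aa (aa (aa (aa (aa (aa (aa (aa (an 403000 h45) (an 942000 h48)) (an 919250 h28)) (an 3084375 h35)) (an 2862375 h54)) (an 7500000 h58)) (an 345625 h59)) (an 9375000 h63)) (an 2231000 h64)) (an 8393875 h66)) (an 637375 (one_in he))) (fun _ h203 H130 => ?_) H129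
  refine finK_s he (aa (aa (aa (aa (aa (aa (an 51250 h42) (an 2731625 h51)) (an 5238250 h53)) (an 3892500 h55)) (an 1029750 h56)) (an 9375000 h61)) (ngC_s he (C := 36693875) h203 (by decide +kernel) (by decide +kernel))) (by decide +kernel) (fun _ h204 H131 => ?_) H130
  have h205 := In_cast h204 (l22 _ _ _ _ _ _ _ _ _ _ _ _ _ _ _ _)
  have h206 := In_cast (w := (f_Tm1_200 s t q u th)) h205 (rfl)
  refine nrmK_s he h206 (fun _ _ _ _ _ _ n207 H132 => ?_) H131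
  refine mulK_s he n207 n75 (fun _ h208 H133 => ?_) H132
  have h209 := In_cast (w := (f_Xm1_200 s t q u th)) h208 (rfl)
  refine frcK_s (aa (aa (aa (aa (an 1055500 h42) (an 497000 h45)) (an 847250 h28)) (an 6135000 h54)) (an 1087000 h61)) (fun _ h210 H134 => ?_) H133
  refine finK_s he (aa (aa (aa (aa (aa (an 150375 h25) (an 2203125 h49)) (an 3406500 h35)) (an 8788125 h56)) (an 2355000 (one_in he))) (ngC_s he (C := 9621750) h210 (by decide +kernel) (by decide +kernel))) (by decide +kernel) (fun _ h211 H135 => ?_) H134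
  have h212 := In_cast h211 (l23 _ _ _ _ _ _ _ _ _)
  have h213 := In_cast (w := (f_Tm1_510 s t q u th)) h212 (rfl)
  refine mulK_s he n75 n79 (fun _ h214 H136 => ?_) H135
  have h215 := In_cast (w := (f_s5 s t q u th)) h214 (rfl)
  refine nrmK_s he h213 (fun _ _ _ _ _ _ n216 H137 => ?_) H136
  refine nrmK_s he h215 (fun _ _ _ _ _ _ n217 H138 => ?_) H137
  refine mulK_s he n216 n217 (fun _ h218 H139 => ?_) H138
  have h219 := In_cast (w := (f_Xm1_510 s t q u th)) h218 (rfl)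
  refine nrmK_s he h219 (fun _ _ _ _ _ _ n220 H140 => ?_) H139
  refine mulK_s he n220 n134 (fun _ h221 H141 => ?_) H140
  refine finK_s he (aa (a1 h209) (a1 h221)) (by decide +kernel) (fun _ h222 H142 => ?_) H141
  have h223 := In_cast h222 (l14 _ _)
  have h224 := In_cast (w := (f_m1 s t q u th)) h223 (rfl)
  refine mulK_s he n178 n178 (fun _ h225 H143 => ?_) H142
  have h226 := In_cast (w := (f_aa11 s t q u th)) h225 (rfl)
  refine nrmK_s he h224 (fun _ _ _ _ _ _ n227 H144 => ?_) H143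
  refine nrmK_s he h226 (fun _ _ _ _ _ _ n228 H145 => ?_) H144
  refine mulK_s he n227 n228 (fun _ h229 H146 => ?_) H145
  refine frcK_s (aa (aa (aa (aa (aa (aa (aa (aa (aa (aa (aa (aa (an 566125 h42) (an 1620500 h48)) (an 5953000 h49)) (an 806000 h50)) (an 519000 h53)) (an 4432500 h54)) (an 8121000 h56)) (an 2550750 h58)) (an 131500 h59)) (an 1920375 h61)) (an 6372500 h64)) (an 4325000 h66)) (an 1740250 (one_in he))) (fun _ h230 H147 => ?_) H146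
  refine finK_s he (aa (aa (aa (aa (aa (aa (an 2981000 h45) (an 429500 h25)) (an 1270875 h28)) (an 2314750 h35)) (an 476000 h55)) (an 6948000 h63)) (ngC_s he (C := 39058500) h230 (by decide +kernel) (by decide +kernel))) (by decide +kernel) (fun _ h231 H148 => ?_) H147
  have h232 := In_cast h231 (l24 _ _ _ _ _ _ _ _ _ _ _ _ _ _ _ _ _ _)
  have h233 := In_cast (w := (f_Tm2_300 s t q u th)) h232 (rfl)
  refine nrmK_s he h233 (fun _ _ _ _ _ _ n234 H149 => ?_) H148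
  refine mulK_s he n234 n79 (fun _ h235 H150 => ?_) H149
  have h236 := In_cast (w := (f_Xm2_300 s t q u th)) h235 (rfl)
  refine frcK_s (aa (aa (aa (aa (aa (an 182000 h25) (an 6414500 h49)) (an 3154375 h54)) (an 7086750 h56)) (an 4482000 h61)) (an 2616875 (one_in he))) (fun _ h237 H151 => ?_) H150
  refine finK_s he (aa (aa (aa (aa (an 1446875 h42) (an 2750625 h45)) (an 3932250 h28)) (an 5052250 h35)) (ngC_s he (C := 23936500) h237 (by decide +kernel) (by decide +kernel))) (by decide +kernel) (fun _ h238 H152 => ?_) H151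
  have h239 := In_cast h238 (l25 _ _ _ _ _ _ _ _ _)
  have h240 := In_cast (w := (f_Tm2_610 s t q u th)) h239 (rfl)
  refine mulK_s he n79 n79 (fun _ h241 H153 => ?_) H152
  have h242 := In_cast (w := (f_s6 s t q u th)) h241 (rfl)
  refine nrmK_s he h240 (fun _ _ _ _ _ _ n243 H154 => ?_) H153
  refine nrmK_s he h242 (fun _ _ _ _ _ _ n244 H155 => ?_) H154
  refine mulK_s he n243 n244 (fun _ h245 H156 => ?_) H155
  have h246 := In_cast (w := (f_Xm2_610 s t q u th)) h245 (rfl)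
  refine nrmK_s he h246 (fun _ _ _ _ _ _ n247 H157 => ?_) H156
  refine mulK_s he n247 n134 (fun _ h248 H158 => ?_) H157
  refine finK_s he (aa (a1 h236) (a1 h248)) (by decide +kernel) (fun _ h249 H159 => ?_) H158
  have h250 := In_cast h249 (l14 _ _)
  have h251 := In_cast (w := (f_m2 s t q u th)) h250 (rfl)
  refine mulK_s he n178 n198 (fun _ h252 H160 => ?_) H159
  refine finK_s he (an 2 h252) (by decide +kernel) (fun _ h253 H161 => ?_) H160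
  have h254 := In_cast h253 (l3 _)
  have h255 := In_cast (w := (f_ab11 s t q u th)) h254 (rfl)
  refine nrmK_s he h251 (fun _ _ _ _ _ _ n256 H162 => ?_) H161
  refine nrmK_s he h255 (fun _ _ _ _ _ _ n257 H163 => ?_) H162
  refine mulK_s he n256 n257 (fun _ h258 H164 => ?_) H163
  refine frcK_s (aa (aa (aa (an 868125 h42) (an 1650375 h45)) (an 3932250 h28)) (an 2165250 h35)) (fun _ h259 H165 => ?_) H164
  refine finK_s he (aa (aa (aa (aa (aa (aa (an 136500 h25) (an 4810875 h49)) (an 1351875 h54)) (an 3543375 h56)) (an 1494000 h61)) (an 1570125 (one_in he))) (ngC_s he (C := 8616000) h259 (by decide +kernel) (by decide +kernel))) (by decide +kernel) (fun _ h260 H166 => ?_) H165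
  have h261 := In_cast h260 (l26 _ _ _ _ _ _ _ _ _)
  have h262 := In_cast (w := (f_Tm3_400 s t q u th)) h261 (rfl)
  refine mulK_s he n75 n75 (fun _ h263 H167 => ?_) H166
  have h264 := In_cast (w := (f_s4 s t q u th)) h263 (rfl)
  refine nrmK_s he h262 (fun _ _ _ _ _ _ n265 H168 => ?_) H167
  refine nrmK_s he h264 (fun _ _ _ _ _ _ n266 H169 => ?_) H168
  refine mulK_s he n265 n266 (fun _ h267 H170 => ?_) H169
  have h268 := In_cast (w := (f_Xm3_400 s t q u th)) h267 (rfl)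
  have h269 := In_cast (w := (f_m3 s t q u th)) h268 (rfl)
  refine mulK_s he n198 n198 (fun _ h270 H171 => ?_) H170
  have h271 := In_cast (w := (f_bb11 s t q u th)) h270 (rfl)
  refine nrmK_s he h269 (fun _ _ _ _ _ _ n272 H172 => ?_) H171
  refine nrmK_s he h271 (fun _ _ _ _ _ _ n273 H173 => ?_) H172
  refine mulK_s he n272 n273 (fun _ h274 H174 => ?_) H173
  refine frcK_s (aa (aa (aa (aa (aa (an 51250 h42) (an 3034875 h50)) (an 919250 h28)) (an 1297500 h55)) (an 514875 h56)) (an 1875000 h61)) (fun _ h275 H175 => ?_) H174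
  refine finK_s he (aa (aa (aa (aa (aa (aa (aa (aa (aa (aa (aa (aa (aa (aa (an 403000 h45) (an 942000 h48)) (an 680250 h25)) (an 831250 h49)) (an 2731625 h51)) (an 2619125 h53)) (an 1028125 h35)) (an 954125 h54)) (an 3750000 h58)) (an 345625 h59)) (an 1875000 h63)) (an 557750 h64)) (an 1199125 h66)) (an 637375 (one_in he))) (ngC_s he (C := 7692750) h275 (by decide +kernel) (by decide +kernel))) (by decide +kernel) (fun _ h276 H176 => ?_) H175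
  have h277 := In_cast h276 (l27 _ _ _ _ _ _ _ _ _ _ _ _ _ _ _ _ _ _ _)
  have h278 := In_cast (w := (f_TK_000 s t q u th)) h277 (rfl)
  refine frcK_s (aa (aa (aa (aa (an 50125 h25) (an 734375 h49)) (an 567750 h35)) (an 1757625 h56)) (an 588750 (one_in he))) (fun _ h279 H177 => ?_) H176
  refine finK_s he (aa (aa (aa (aa (aa (an 263875 h42) (an 124250 h45)) (an 423625 h28)) (an 1022500 h54)) (an 135875 h61)) (ngC_s he (C := 3698625) h279 (by decide +kernel) (by decide +kernel))) (by decide +kernel) (fun _ h280 H178 => ?_) H177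
  have h281 := In_cast h280 (l28 _ _ _ _ _ _ _ _ _)
  have h282 := In_cast (w := (f_TK_310 s t q u th)) h281 (rfl)
  refine nrmK_s he h282 (fun _ _ _ _ _ _ n283 H179 => ?_) H178
  refine mulK_s he n283 n79 (fun _ h284 H180 => ?_) H179
  have h285 := In_cast (w := (f_XK_310 s t q u th)) h284 (rfl)
  refine nrmK_s he h285 (fun _ _ _ _ _ _ n286 H181 => ?_) H180
  refine mulK_s he n286 n134 (fun _ h287 H182 => ?_) H181
  refine finK_s he (aa (a1 h278) (a1 h287)) (by decide +kernel) (fun _ h288 H183 => ?_) H182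
  have h289 := In_cast h288 (l14 _ _)
  have h290 := In_cast (w := (f_K s t q u th)) h289 (rfl)
  refine frcK_s (aa (aa (aa (aa (aa (aa (aa (aa (an 1304125 h45) (an 579875 h25)) (an 829250 h28)) (an 2280125 h51)) (an 519000 h53)) (an 1004500 h35)) (an 119000 h55)) (an 1158000 h63)) (an 13000 (one_in he))) (fun _ h291 H184 => ?_) H183
  refine finK_s he (aa (aa (aa (aa (aa (aa (aa (aa (aa (aa (aa (an 678875 h42) (an 810250 h48)) (an 3749875 h49)) (an 806000 h50)) (an 1875000 h54)) (an 949375 h56)) (an 850250 h58)) (an 65750 h59)) (an 388000 h61)) (an 1274500 h64)) (an 540625 h66)) (ngC_s he (C := 7806875) h291 (by decide +kernel) (by decide +kernel))) (by decide +kernel) (fun _ h292 H185 => ?_) H184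
  have h293 := In_cast h292 (l29 _ _ _ _ _ _ _ _ _ _ _ _ _ _ _ _ _ _ _)
  have h294 := In_cast (w := (f_TD_000 s t q u th)) h293 (rfl)
  refine nrmK_s he h294 (fun _ _ _ _ _ _ n295 H186 => ?_) H185
  refine mulK_s he n295 n29 (fun _ h296 H187 => ?_) H186
  have h297 := In_cast (w := (f_XD_000 s t q u th)) h296 (rfl)
  refine frcK_s (aa (aa (aa (an 289375 h42) (an 550125 h45)) (an 1310750 h28)) (an 721750 h35)) (fun _ h298 H188 => ?_) H187
  refine finK_s he (aa (aa (aa (aa (aa (aa (an 45500 h25) (an 1603625 h49)) (an 450625 h54)) (an 1181125 h56)) (an 498000 h61)) (an 523375 (one_in he))) (ngC_s he (C := 2872000) h298 (by decide +kernel) (by decide +kernel))) (by decide +kernel) (fun _ h299 H189 => ?_) H188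
  have h300 := In_cast h299 (l30 _ _ _ _ _ _ _ _ _)
  have h301 := In_cast (w := (f_TD_310 s t q u th)) h300 (rfl)
  refine nrmK_s he h301 (fun _ _ _ _ _ _ n302 H190 => ?_) H189
  refine mulK_s he n302 n266 (fun _ h303 H191 => ?_) H190
  have h304 := In_cast (w := (f_XD_310 s t q u th)) h303 (rfl)
  refine nrmK_s he h304 (fun _ _ _ _ _ _ n305 H192 => ?_) H191
  refine mulK_s he n305 n134 (fun _ h306 H193 => ?_) H192
  refine finK_s he (aa (a1 h297) (a1 h306)) (by decide +kernel) (fun _ h307 H194 => ?_) H193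
  have h308 := In_cast h307 (l14 _ _)
  have h309 := In_cast (w := (f_D s t q u th)) h308 (rfl)
  refine finK_s he (aa (an 10 h95) (an 8 h113)) (by decide +kernel) (fun _ h310 H195 => ?_) H194
  have h311 := In_cast h310 (l31 _ _)
  have h312 := In_cast (w := (f_w11 s t q u th)) h311 (rfl)
  refine nrmK_s he h309 (fun _ _ _ _ _ _ n313 H196 => ?_) H195
  refine nrmK_s he h312 (fun _ _ _ _ _ _ n314 H197 => ?_) H196
  refine mulK_s he n313 n314 (fun _ h315 H198 => ?_) H197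
  refine finK_s he (aa (aa (aa (aa (aa (an 65536 h229) (an 65536 h258)) (an 65536 h274)) (an 655360 h290)) (an 65536 h315)) (ng1_s he (one_in he))) (by decide +kernel) (fun _ h316 H199 => ?_) H198
  have h317 := In_cast h316 (l32 _ _ _ _ _)
  have h318 := In_cast (w := (f_E22 s t q u th)) h317 (rfl)
  refine frcK_s (aa (an 4 h113) (an 5 h95)) (fun _ h319 H200 => ?_) H199
  refine finK_s he (ngC_s he (C := 9) h319 (by decide +kernel) (by decide +kernel)) (by decide +kernel) (fun _ h320 H201 => ?_) H200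
  have h321 := In_cast h320 (l33 _ _)
  have h322 := In_cast (w := (f_a2 s t q u th)) h321 (rfl)
  refine nrmK_s he h322 (fun _ _ _ _ _ _ n323 H202 => ?_) H201
  refine mulK_s he n177 n323 (fun _ h324 H203 => ?_) H202
  refine finK_s he (aa (an 4 h113) (a1 h95)) (by decide +kernel) (fun _ h325 H204 => ?_) H203
  have h326 := In_cast h325 (l34 _ _)
  have h327 := In_cast (w := (f_tp s t q u th)) h326 (rfl)
  refine nrmK_s he h327 (fun _ _ _ _ _ _ n328 H205 => ?_) H204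
  refine mulK_s he n328 n328 (fun _ h329 H206 => ?_) H205
  have h330 := In_cast h329 (pw11)
  refine frcK_s (an 2 h99) (fun _ h331 H207 => ?_) H206
  refine finK_s he (aa (aa (an 2 h330) (an 2 h125)) (ngC_s he (C := 2) h331 (by decide +kernel) (by decide +kernel))) (by decide +kernel) (fun _ h332 H208 => ?_) H207
  have h333 := In_cast h332 (l35 _ _ _)
  have h334 := In_cast (w := (f_b2 s t q u th)) h333 (rfl)
  refine nrmK_s he h334 (fun _ _ _ _ _ _ n335 H209 => ?_) H208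
  refine mulK_s he n197 n335 (fun _ h336 H210 => ?_) H209
  refine finK_s he (aa (a1 h324) (a1 h336)) (by decide +kernel) (fun _ h337 H211 => ?_) H210
  have h338 := In_cast h337 (l14 _ _)
  have h339 := In_cast (w := (f_E31 s t q u th)) h338 (rfl)
  refine mulK_s he n178 n323 (fun _ h340 H212 => ?_) H211
  have h341 := In_cast (w := (f_aa21 s t q u th)) h340 (rfl)
  refine nrmK_s he h341 (fun _ _ _ _ _ _ n342 H213 => ?_) H212
  refine mulK_s he n227 n342 (fun _ h343 H214 => ?_) H213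
  refine mulK_s he n178 n335 (fun _ h344 H215 => ?_) H214
  refine mulK_s he n323 n198 (fun _ h345 H216 => ?_) H215
  refine finK_s he (aa (a1 h344) (a1 h345)) (by decide +kernel) (fun _ h346 H217 => ?_) H216
  have h347 := In_cast h346 (l14 _ _)
  have h348 := In_cast (w := (f_ab21 s t q u th)) h347 (rfl)
  refine nrmK_s he h348 (fun _ _ _ _ _ _ n349 H218 => ?_) H217
  refine mulK_s he n256 n349 (fun _ h350 H219 => ?_) H218
  refine mulK_s he n198 n335 (fun _ h351 H220 => ?_) H219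
  have h352 := In_cast (w := (f_bb21 s t q u th)) h351 (rfl)
  refine nrmK_s he h352 (fun _ _ _ _ _ _ n353 H221 => ?_) H220
  refine mulK_s he n272 n353 (fun _ h354 H222 => ?_) H221
  refine mulK_s he n313 n96 (fun _ h355 H223 => ?_) H222
  refine finK_s he (aa (aa (aa (aa (a1 h343) (a1 h350)) (a1 h354)) (an 4 h290)) (an 8 h355)) (by decide +kernel) (fun _ h356 H224 => ?_) H223
  have h357 := In_cast h356 (l36 _ _ _ _ _)
  have h358 := In_cast (w := (f_E32 s t q u th)) h357 (rfl)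
  refine mulK_s he n323 n323 (fun _ h359 H225 => ?_) H224
  have h360 := In_cast (w := (f_aa22 s t q u th)) h359 (rfl)
  refine nrmK_s he h360 (fun _ _ _ _ _ _ n361 H226 => ?_) H225
  refine mulK_s he n227 n361 (fun _ h362 H227 => ?_) H226
  refine mulK_s he n323 n335 (fun _ h363 H228 => ?_) H227
  refine finK_s he (an 2 h363) (by decide +kernel) (fun _ h364 H229 => ?_) H228
  have h365 := In_cast h364 (l3 _)
  have h366 := In_cast (w := (f_ab22 s t q u th)) h365 (rfl)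
  refine nrmK_s he h366 (fun _ _ _ _ _ _ n367 H230 => ?_) H229
  refine mulK_s he n256 n367 (fun _ h368 H231 => ?_) H230
  refine mulK_s he n335 n335 (fun _ h369 H232 => ?_) H231
  have h370 := In_cast (w := (f_bb22 s t q u th)) h369 (rfl)
  refine nrmK_s he h370 (fun _ _ _ _ _ _ n371 H233 => ?_) H232
  refine mulK_s he n272 n371 (fun _ h372 H234 => ?_) H233
  refine frcK_s (an 8 h113) (fun _ h373 H235 => ?_) H234
  refine finK_s he (aa (an 10 h95) (ngC_s he (C := 8) h373 (by decide +kernel) (by decide +kernel))) (by decide +kernel) (fun _ h374 H236 => ?_) H235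
  have h375 := In_cast h374 (l37 _ _)
  have h376 := In_cast (w := (f_w22 s t q u th)) h375 (rfl)
  refine nrmK_s he h376 (fun _ _ _ _ _ _ n377 H237 => ?_) H236
  refine mulK_s he n313 n377 (fun _ h378 H238 => ?_) H237
  refine finK_s he (aa (aa (aa (aa (aa (an 65536 h362) (an 65536 h368)) (an 65536 h372)) (an 655360 h290)) (an 65536 h378)) (ng1_s he (one_in he))) (by decide +kernel) (fun _ h379 H239 => ?_) H238
  have h380 := In_cast h379 (l32 _ _ _ _ _)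
  have h381 := In_cast (w := (f_E33 s t q u th)) h380 (rfl)
  refine finK_s he (an 2 h122) (by decide +kernel) (fun _ h382 H240 => ?_) H239
  have h383 := In_cast h382 (l3 _)
  have h384 := In_cast (w := (f_a3 s t q u th)) h383 (rfl)
  refine nrmK_s he h384 (fun _ _ _ _ _ _ n385 H241 => ?_) H240
  refine mulK_s he n177 n385 (fun _ h386 H242 => ?_) H241
  refine mulK_s he n123 n328 (fun _ h387 H243 => ?_) H242
  refine frcK_s (an 4 h387) (fun _ h388 H244 => ?_) H243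
  refine finK_s he (ngC_s he (C := 4) h388 (by decide +kernel) (by decide +kernel)) (by decide +kernel) (fun _ h389 H245 => ?_) H244
  have h390 := In_cast h389 (l38 _)
  have h391 := In_cast (w := (f_b3 s t q u th)) h390 (rfl)
  refine nrmK_s he h391 (fun _ _ _ _ _ _ n392 H246 => ?_) H245
  refine mulK_s he n197 n392 (fun _ h393 H247 => ?_) H246
  refine finK_s he (aa (a1 h386) (a1 h393)) (by decide +kernel) (fun _ h394 H248 => ?_) H247
  have h395 := In_cast h394 (l14 _ _)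
  have h396 := In_cast (w := (f_E41 s t q u th)) h395 (rfl)
  refine mulK_s he n178 n385 (fun _ h397 H249 => ?_) H248
  have h398 := In_cast (w := (f_aa31 s t q u th)) h397 (rfl)
  refine nrmK_s he h398 (fun _ _ _ _ _ _ n399 H250 => ?_) H249
  refine mulK_s he n227 n399 (fun _ h400 H251 => ?_) H250
  refine mulK_s he n178 n392 (fun _ h401 H252 => ?_) H251
  refine mulK_s he n385 n198 (fun _ h402 H253 => ?_) H252
  refine finK_s he (aa (a1 h401) (a1 h402)) (by decide +kernel) (fun _ h403 H254 => ?_) H253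
  have h404 := In_cast h403 (l14 _ _)
  have h405 := In_cast (w := (f_ab31 s t q u th)) h404 (rfl)
  refine nrmK_s he h405 (fun _ _ _ _ _ _ n406 H255 => ?_) H254
  refine mulK_s he n256 n406 (fun _ h407 H256 => ?_) H255
  refine mulK_s he n198 n392 (fun _ h408 H257 => ?_) H256
  have h409 := In_cast (w := (f_bb31 s t q u th)) h408 (rfl)
  refine nrmK_s he h409 (fun _ _ _ _ _ _ n410 H258 => ?_) H257
  refine mulK_s he n272 n410 (fun _ h411 H259 => ?_) H258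
  refine finK_s he (aa (aa (a1 h400) (a1 h407)) (a1 h411)) (by decide +kernel) (fun _ h412 H260 => ?_) H259
  have h413 := In_cast h412 (l39 _ _ _)
  have h414 := In_cast (w := (f_E42 s t q u th)) h413 (rfl)
  refine mulK_s he n323 n385 (fun _ h415 H261 => ?_) H260
  have h416 := In_cast (w := (f_aa32 s t q u th)) h415 (rfl)
  refine nrmK_s he h416 (fun _ _ _ _ _ _ n417 H262 => ?_) H261
  refine mulK_s he n227 n417 (fun _ h418 H263 => ?_) H262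
  refine mulK_s he n323 n392 (fun _ h419 H264 => ?_) H263
  refine mulK_s he n385 n335 (fun _ h420 H265 => ?_) H264
  refine finK_s he (aa (a1 h419) (a1 h420)) (by decide +kernel) (fun _ h421 H266 => ?_) H265
  have h422 := In_cast h421 (l14 _ _)
  have h423 := In_cast (w := (f_ab32 s t q u th)) h422 (rfl)
  refine nrmK_s he h423 (fun _ _ _ _ _ _ n424 H267 => ?_) H266
  refine mulK_s he n256 n424 (fun _ h425 H268 => ?_) H267
  refine mulK_s he n335 n392 (fun _ h426 H269 => ?_) H268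
  have h427 := In_cast (w := (f_bb32 s t q u th)) h426 (rfl)
  refine nrmK_s he h427 (fun _ _ _ _ _ _ n428 H270 => ?_) H269
  refine mulK_s he n272 n428 (fun _ h429 H271 => ?_) H270
  refine mulK_s he n313 n123 (fun _ h430 H272 => ?_) H271
  refine finK_s he (aa (aa (aa (a1 h418) (a1 h425)) (a1 h429)) (an 8 h430)) (by decide +kernel) (fun _ h431 H273 => ?_) H272
  have h432 := In_cast h431 (l40 _ _ _ _)
  have h433 := In_cast (w := (f_E43 s t q u th)) h432 (rfl)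
  refine mulK_s he n385 n385 (fun _ h434 H274 => ?_) H273
  have h435 := In_cast (w := (f_aa33 s t q u th)) h434 (rfl)
  refine nrmK_s he h435 (fun _ _ _ _ _ _ n436 H275 => ?_) H274
  refine mulK_s he n227 n436 (fun _ h437 H276 => ?_) H275
  refine mulK_s he n385 n392 (fun _ h438 H277 => ?_) H276
  refine finK_s he (an 2 h438) (by decide +kernel) (fun _ h439 H278 => ?_) H277
  have h440 := In_cast h439 (l3 _)
  have h441 := In_cast (w := (f_ab33 s t q u th)) h440 (rfl)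
  refine nrmK_s he h441 (fun _ _ _ _ _ _ n442 H279 => ?_) H278
  refine mulK_s he n256 n442 (fun _ h443 H280 => ?_) H279
  refine mulK_s he n392 n392 (fun _ h444 H281 => ?_) H280
  have h445 := In_cast (w := (f_bb33 s t q u th)) h444 (rfl)
  refine nrmK_s he h445 (fun _ _ _ _ _ _ n446 H282 => ?_) H281
  refine mulK_s he n272 n446 (fun _ h447 H283 => ?_) H282
  refine nrmK_s he h290 (fun _ _ _ _ _ _ n448 H284 => ?_) H283
  refine mulK_s he n448 n120 (fun _ h449 H285 => ?_) H284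
  refine frcK_s (an 8 h113) (fun _ h450 H286 => ?_) H285
  refine finK_s he (aa (an 2 h95) (ngC_s he (C := 8) h450 (by decide +kernel) (by decide +kernel))) (by decide +kernel) (fun _ h451 H287 => ?_) H286
  have h452 := In_cast h451 (l41 _ _)
  refine nrmK_s he h452 (fun _ _ _ _ _ _ n453 H288 => ?_) H287
  refine mulK_s he n453 n120 (fun _ h454 H289 => ?_) H288
  have h455 := In_cast (w := (f_w33 s t q u th)) h454 (rfl)
  refine nrmK_s he h455 (fun _ _ _ _ _ _ n456 H290 => ?_) H289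
  refine mulK_s he n313 n456 (fun _ h457 H291 => ?_) H290
  refine finK_s he (aa (aa (aa (aa (aa (an 65536 h437) (an 65536 h443)) (an 65536 h447)) (an 393216 h449)) (an 65536 h457)) (ng1_s he (one_in he))) (by decide +kernel) (fun _ h458 H292 => ?_) H291
  have h459 := In_cast h458 (l42 _ _ _ _ _)
  have h460 := In_cast (w := (f_E44 s t q u th)) h459 (rfl)
  refine frcK_s (aa (aa (aa (aa (aa (an 3040500 h45) (an 2628250 h25)) (an 3086750 h49)) (an 685875 h35)) (an 2763000 h54)) (an 12000 h56)) (fun _ h461 H293 => ?_) H292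
  refine finK_s he (aa (aa (aa (aa (an 2440500 h42) (an 8818500 h28)) (an 703125 h61)) (an 478625 (one_in he))) (ngC_s he (C := 12216375) h461 (by decide +kernel) (by decide +kernel))) (by decide +kernel) (fun _ h462 H294 => ?_) H293
  have h463 := In_cast h462 (l43 _ _ _ _ _ _ _ _ _)
  have h464 := In_cast (w := (f_Tg3_000 s t q u th)) h463 (rfl)
  refine nrmK_s he h464 (fun _ _ _ _ _ _ n465 H295 => ?_) H294
  refine mulK_s he n465 n17 (fun _ h466 H296 => ?_) H295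
  have h467 := In_cast (w := (f_Xg3_000 s t q u th)) h466 (rfl)
  refine frcK_s (aa (aa (aa (an 2685000 h45) (an 2440500 h25)) (an 1875000 h35)) (an 1063250 h61)) (fun _ h468 H297 => ?_) H296
  refine finK_s he (aa (aa (aa (aa (aa (aa (an 578000 h42) (an 6081000 h49)) (an 1543375 h28)) (an 1886000 h54)) (an 2763000 h56)) (an 267750 (one_in he))) (ngC_s he (C := 8063750) h468 (by decide +kernel) (by decide +kernel))) (by decide +kernel) (fun _ h469 H298 => ?_) H297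
  have h470 := In_cast h469 (l44 _ _ _ _ _ _ _ _ _)
  have h471 := In_cast (w := (f_Tg3_101 s t q u th)) h470 (rfl)
  refine mulK_s he n17 n29 (fun _ h472 H299 => ?_) H298
  have h473 := In_cast (w := (f_Ps1 s t q u th)) h472 (rfl)
  refine nrmK_s he h471 (fun _ _ _ _ _ _ n474 H300 => ?_) H299
  refine nrmK_s he h473 (fun _ _ _ _ _ _ n475 H301 => ?_) H300
  refine mulK_s he n474 n475 (fun _ h476 H302 => ?_) H301
  have h477 := In_cast (w := (f_Xg3_101 s t q u th)) h476 (rfl)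
  refine nrmK_s he h477 (fun _ _ _ _ _ _ n478 H303 => ?_) H302
  refine mulK_s he n478 n96 (fun _ h479 H304 => ?_) H303
  refine frcK_s (an 4455250 h25) (fun _ h480 H305 => ?_) H304
  refine finK_s he (aa (aa (aa (an 1961625 h42) (an 304500 h35)) (an 105500 (one_in he))) (ngC_s he (C := 4455250) h480 (by decide +kernel) (by decide +kernel))) (by decide +kernel) (fun _ h481 H306 => ?_) H305
  have h482 := In_cast h481 (l45 _ _ _)
  have h483 := In_cast (w := (f_Tg3_310 s t q u th)) h482 (rfl)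
  refine mulK_s he n17 n79 (fun _ h484 H307 => ?_) H306
  have h485 := In_cast (w := (f_Ps3 s t q u th)) h484 (rfl)
  refine nrmK_s he h483 (fun _ _ _ _ _ _ n486 H308 => ?_) H307
  refine nrmK_s he h485 (fun _ _ _ _ _ _ n487 H309 => ?_) H308
  refine mulK_s he n486 n487 (fun _ h488 H310 => ?_) H309
  have h489 := In_cast (w := (f_Xg3_310 s t q u th)) h488 (rfl)
  refine nrmK_s he h489 (fun _ _ _ _ _ _ n490 H311 => ?_) H310
  refine mulK_s he n490 n134 (fun _ h491 H312 => ?_) H311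
  refine frcK_s (aa (aa (an 1961625 h25) (an 2845500 h35)) (an 793125 (one_in he))) (fun _ h492 H313 => ?_) H312
  refine finK_s he (aa (an 976000 h42) (ngC_s he (C := 5600250) h492 (by decide +kernel) (by decide +kernel))) (by decide +kernel) (fun _ h493 H314 => ?_) H313
  have h494 := In_cast h493 (l46 _ _ _)
  have h495 := In_cast (w := (f_Tg3_411 s t q u th)) h494 (rfl)
  refine mulK_s he n17 n266 (fun _ h496 H315 => ?_) H314
  have h497 := In_cast (w := (f_Ps4 s t q u th)) h496 (rfl)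
  refine nrmK_s he h495 (fun _ _ _ _ _ _ n498 H316 => ?_) H315
  refine nrmK_s he h497 (fun _ _ _ _ _ _ n499 H317 => ?_) H316
  refine mulK_s he n498 n499 (fun _ h500 H318 => ?_) H317
  have h501 := In_cast (w := (f_Xg3_411 s t q u th)) h500 (rfl)
  refine mulK_s he n134 n96 (fun _ h502 H319 => ?_) H318
  have h503 := In_cast (w := (f_tl s t q u th)) h502 (rfl)
  refine nrmK_s he h501 (fun _ _ _ _ _ _ n504 H320 => ?_) H319
  refine nrmK_s he h503 (fun _ _ _ _ _ _ n505 H321 => ?_) H320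
  refine mulK_s he n504 n505 (fun _ h506 H322 => ?_) H321
  refine finK_s he (aa (aa (aa (a1 h467) (a1 h479)) (a1 h491)) (a1 h506)) (by decide +kernel) (fun _ h507 H323 => ?_) H322
  have h508 := In_cast h507 (l47 _ _ _ _)
  have h509 := In_cast (w := (f_E51 s t q u th)) h508 (rfl)
  refine mulK_s he n57 n46 (fun _ h510 H324 => ?_) H323
  refine frcK_s (aa (aa (aa (aa (aa (aa (aa (an 5314500 h45) (an 231875 h53)) (an 1875000 h55)) (an 4086125 h56)) (an 1469250 h510)) (an 1875000 h61)) (an 4353375 h154)) (an 3723000 h156)) (fun _ h511 H325 => ?_) H324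
  refine finK_s he (aa (aa (aa (aa (aa (aa (aa (aa (aa (aa (aa (aa (aa (aa (aa (aa (aa (aa (aa (aa (an 396000 h42) (an 847500 h48)) (an 3538875 h25)) (an 15740875 h49)) (an 2110000 h50)) (an 3434750 h28)) (an 1815875 h51)) (an 808375 h35)) (an 1875000 h54)) (an 5324125 h58)) (an 6367000 h59)) (an 1042750 h145)) (an 1496625 h147)) (an 1863000 h63)) (an 2030750 h148)) (an 4629375 h64)) (an 3750000 h150)) (an 4788875 h66)) (an 7500000 h153)) (an 830875 (one_in he))) (ngC_s he (C := 22928125) h511 (by decide +kernel) (by decide +kernel))) (by decide +kernel) (fun _ h512 H326 => ?_) H325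
  have h513 := In_cast h512 (l48 _ _ _ _ _ _ _ _ _ _ _ _ _ _ _ _ _ _ _ _ _ _ _ _ _ _ _)
  have h514 := In_cast (w := (f_Tc1_000 s t q u th)) h513 (rfl)
  refine nrmK_s he h514 (fun _ _ _ _ _ _ n515 H327 => ?_) H326
  refine mulK_s he n515 n17 (fun _ h516 H328 => ?_) H327
  have h517 := In_cast (w := (f_Xc1_000 s t q u th)) h516 (rfl)
  refine mulK_s he n46 n46 (fun _ h518 H329 => ?_) H328
  have h519 := In_cast h518 (pwnn (n := 4) rfl)
  refine frcK_s (aa (aa (aa (aa (aa (aa (aa (aa (aa (aa (aa (aa (an 2140000 h42) (an 3290750 h45)) (an 2150000 h48)) (an 22500000 h51)) (an 1096000 h35)) (an 275000 h143)) (an 7500000 h56)) (an 9096500 h147)) (an 11586000 h61)) (an 5625000 h148)) (an 7500000 h150)) (an 9375000 h153)) (an 11004000 h156)) (fun _ h520 H330 => ?_) H329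
  refine finK_s he (aa (aa (aa (aa (aa (aa (aa (aa (aa (aa (aa (aa (aa (aa (aa (an 978250 h519) (an 3121250 h25)) (an 4639500 h49)) (an 5518250 h50)) (an 7419125 h28)) (an 18193000 h53)) (an 7614250 h54)) (an 3750000 h55)) (an 1844250 h59)) (an 7500000 h145)) (an 3342500 h64)) (an 6138375 h151)) (an 17235000 h66)) (an 8315000 h154)) (an 177750 (one_in he))) (ngC_s he (C := 93138250) h520 (by decide +kernel) (by decide +kernel))) (by decide +kernel) (fun _ h521 H331 => ?_) H330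
  have h522 := In_cast h521 (l49 _ _ _ _ _ _ _ _ _ _ _ _ _ _ _ _ _ _ _ _ _ _ _ _ _ _ _)
  have h523 := In_cast (w := (f_Tc1_101 s t q u th)) h522 (rfl)
  refine nrmK_s he h523 (fun _ _ _ _ _ _ n524 H332 => ?_) H331
  refine mulK_s he n524 n475 (fun _ h525 H333 => ?_) H332
  have h526 := In_cast (w := (f_Xc1_101 s t q u th)) h525 (rfl)
  refine nrmK_s he h526 (fun _ _ _ _ _ _ n527 H334 => ?_) H333
  refine mulK_s he n527 n96 (fun _ h528 H335 => ?_) H334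
  refine frcK_s (aa (aa (aa (aa (aa (aa (an 1148875 h50) (an 4956625 h28)) (an 1323250 h35)) (an 1875000 h58)) (an 3726000 h63)) (an 4327875 h64)) (an 2123625 h66)) (fun _ h529 H336 => ?_) H335
  refine finK_s he (aa (aa (aa (aa (aa (aa (aa (aa (an 708125 h25) (an 1875000 h49)) (an 3901375 h51)) (an 3393750 h53)) (an 1875000 h54)) (an 1875000 h55)) (an 1875000 h56)) (an 3750000 h61)) (ngC_s he (C := 19481250) h529 (by decide +kernel) (by decide +kernel))) (by decide +kernel) (fun _ h530 H337 => ?_) H336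
  have h531 := In_cast h530 (l50 _ _ _ _ _ _ _ _ _ _ _ _ _ _ _)
  have h532 := In_cast (w := (f_Tc1_202 s t q u th)) h531 (rfl)
  refine mulK_s he n17 n75 (fun _ h533 H338 => ?_) H337
  have h534 := In_cast (w := (f_Ps2 s t q u th)) h533 (rfl)
  refine nrmK_s he h532 (fun _ _ _ _ _ _ n535 H339 => ?_) H338
  refine nrmK_s he h534 (fun _ _ _ _ _ _ n536 H340 => ?_) H339
  refine mulK_s he n535 n536 (fun _ h537 H341 => ?_) H340
  have h538 := In_cast (w := (f_Xc1_202 s t q u th)) h537 (rfl)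
  refine nrmK_s he h538 (fun _ _ _ _ _ _ n539 H342 => ?_) H341
  refine nrmK_s he h99 (fun _ _ _ _ _ _ n540 H343 => ?_) H342
  refine mulK_s he n539 n540 (fun _ h541 H344 => ?_) H343
  refine frcK_s (aa (aa (aa (aa (aa (aa (an 878625 h42) (an 2322750 h25)) (an 6797000 h49)) (an 8259125 h54)) (an 12526000 h56)) (an 12673625 h61)) (an 673375 (one_in he))) (fun _ h542 H345 => ?_) H344
  refine finK_s he (aa (aa (aa (an 3174250 h45) (an 3105750 h28)) (an 6024500 h35)) (ngC_s he (C := 44130500) h542 (by decide +kernel) (by decide +kernel))) (by decide +kernel) (fun _ h543 H346 => ?_) H345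
  have h544 := In_cast h543 (l51 _ _ _ _ _ _ _ _ _)
  have h545 := In_cast (w := (f_Tc1_310 s t q u th)) h544 (rfl)
  refine nrmK_s he h545 (fun _ _ _ _ _ _ n546 H347 => ?_) H346
  refine mulK_s he n546 n487 (fun _ h547 H348 => ?_) H347
  have h548 := In_cast (w := (f_Xc1_310 s t q u th)) h547 (rfl)
  refine nrmK_s he h548 (fun _ _ _ _ _ _ n549 H349 => ?_) H348
  refine mulK_s he n549 n134 (fun _ h550 H350 => ?_) H349
  refine frcK_s (aa (aa (aa (an 2581000 h45) (an 17924625 h56)) (an 14270250 h61)) (an 788500 (one_in he))) (fun _ h551 H351 => ?_) H350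
  refine finK_s he (aa (aa (aa (aa (aa (an 586500 h42) (an 3831250 h25)) (an 4526000 h49)) (an 5172500 h35)) (an 15000000 h54)) (ngC_s he (C := 35564375) h551 (by decide +kernel) (by decide +kernel))) (by decide +kernel) (fun _ h552 H352 => ?_) H351
  have h553 := In_cast h552 (l52 _ _ _ _ _ _ _ _)
  have h554 := In_cast (w := (f_Tc1_411 s t q u th)) h553 (rfl)
  refine nrmK_s he h554 (fun _ _ _ _ _ _ n555 H353 => ?_) H352
  refine mulK_s he n555 n499 (fun _ h556 H354 => ?_) H353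
  have h557 := In_cast (w := (f_Xc1_411 s t q u th)) h556 (rfl)
  refine nrmK_s he h557 (fun _ _ _ _ _ _ n558 H355 => ?_) H354
  refine mulK_s he n558 n505 (fun _ h559 H356 => ?_) H355
  refine frcK_s (aa (aa (aa (aa (an 235875 h42) (an 4711125 h45)) (an 6834000 h28)) (an 14696875 h35)) (an 14954375 h54)) (fun _ h560 H357 => ?_) H356
  refine finK_s he (aa (aa (aa (aa (aa (an 6340000 h25) (an 13594000 h49)) (an 30000000 h56)) (an 21073500 h61)) (an 478125 (one_in he))) (ngC_s he (C := 41432250) h560 (by decide +kernel) (by decide +kernel))) (by decide +kernel) (fun _ h561 H358 => ?_) H357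
  have h562 := In_cast h561 (l53 _ _ _ _ _ _ _ _ _)
  have h563 := In_cast (w := (f_Tc1_512 s t q u th)) h562 (rfl)
  refine mulK_s he n17 n217 (fun _ h564 H359 => ?_) H358
  have h565 := In_cast (w := (f_Ps5 s t q u th)) h564 (rfl)
  refine nrmK_s he h563 (fun _ _ _ _ _ _ n566 H360 => ?_) H359
  refine nrmK_s he h565 (fun _ _ _ _ _ _ n567 H361 => ?_) H360
  refine mulK_s he n566 n567 (fun _ h568 H362 => ?_) H361
  have h569 := In_cast (w := (f_Xc1_512 s t q u th)) h568 (rfl)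
  refine mulK_s he n134 n540 (fun _ h570 H363 => ?_) H362
  have h571 := In_cast (w := (f_tl2 s t q u th)) h570 (rfl)
  refine nrmK_s he h569 (fun _ _ _ _ _ _ n572 H364 => ?_) H363
  refine nrmK_s he h571 (fun _ _ _ _ _ _ n573 H365 => ?_) H364
  refine mulK_s he n572 n573 (fun _ h574 H366 => ?_) H365
  refine finK_s he (aa (aa (aa (aa (aa (a1 h517) (a1 h528)) (a1 h541)) (a1 h550)) (a1 h559)) (a1 h574)) (by decide +kernel) (fun _ h575 H367 => ?_) H366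
  have h576 := In_cast h575 (l54 _ _ _ _ _ _)
  have h577 := In_cast (w := (f_c1 s t q u th)) h576 (rfl)
  refine nrmK_s he h577 (fun _ _ _ _ _ _ n578 H368 => ?_) H367
  refine mulK_s he n578 n178 (fun _ h579 H369 => ?_) H368
  refine frcK_s (aa (aa (aa (an 4005625 h45) (an 3429625 h25)) (an 12741750 h28)) (an 3893375 h35)) (fun _ h580 H370 => ?_) H369
  refine finK_s he (aa (aa (aa (aa (aa (aa (an 4418500 h42) (an 17939750 h49)) (an 12100250 h54)) (an 7670500 h56)) (an 7072375 h61)) (an 811750 (one_in he))) (ngC_s he (C := 24070375) h580 (by decide +kernel) (by decide +kernel))) (by decide +kernel) (fun _ h581 H371 => ?_) H370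
  have h582 := In_cast h581 (l55 _ _ _ _ _ _ _ _ _)
  have h583 := In_cast (w := (f_Tc2_100 s t q u th)) h582 (rfl)
  refine nrmK_s he h583 (fun _ _ _ _ _ _ n584 H372 => ?_) H371
  refine mulK_s he n584 n475 (fun _ h585 H373 => ?_) H372
  have h586 := In_cast (w := (f_Xc2_100 s t q u th)) h585 (rfl)
  refine frcK_s (aa (aa (aa (aa (aa (an 990000 h45) (an 14587250 h25)) (an 16802000 h49)) (an 9163125 h35)) (an 10774000 h54)) (an 966625 (one_in he))) (fun _ h587 H374 => ?_) H373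
  refine finK_s he (aa (aa (aa (aa (an 3591250 h42) (an 9484750 h28)) (an 16224125 h56)) (an 9451125 h61)) (ngC_s he (C := 53283000) h587 (by decide +kernel) (by decide +kernel))) (by decide +kernel) (fun _ h588 H375 => ?_) H374
  have h589 := In_cast h588 (l56 _ _ _ _ _ _ _ _ _)
  have h590 := In_cast (w := (f_Tc2_201 s t q u th)) h589 (rfl)
  refine nrmK_s he h590 (fun _ _ _ _ _ _ n591 H376 => ?_) H375
  refine mulK_s he n591 n536 (fun _ h592 H377 => ?_) H376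
  have h593 := In_cast (w := (f_Xc2_201 s t q u th)) h592 (rfl)
  refine nrmK_s he h593 (fun _ _ _ _ _ _ n594 H378 => ?_) H377
  refine mulK_s he n594 n96 (fun _ h595 H379 => ?_) H378
  refine frcK_s (aa (aa (aa (aa (an 9510000 h25) (an 20391000 h49)) (an 22500000 h56)) (an 9031500 h61)) (an 478125 (one_in he))) (fun _ h596 H380 => ?_) H379
  refine finK_s he (aa (aa (aa (aa (aa (an 235875 h42) (an 4711125 h45)) (an 20502000 h28)) (an 8818125 h35)) (an 8972625 h54)) (ngC_s he (C := 61910625) h596 (by decide +kernel) (by decide +kernel))) (by decide +kernel) (fun _ h597 H381 => ?_) H380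
  have h598 := In_cast h597 (l57 _ _ _ _ _ _ _ _ _)
  have h599 := In_cast (w := (f_Tc2_302 s t q u th)) h598 (rfl)
  refine nrmK_s he h599 (fun _ _ _ _ _ _ n600 H382 => ?_) H381
  refine mulK_s he n600 n487 (fun _ h601 H383 => ?_) H382
  have h602 := In_cast (w := (f_Xc2_302 s t q u th)) h601 (rfl)
  refine nrmK_s he h602 (fun _ _ _ _ _ _ n603 H384 => ?_) H383
  refine mulK_s he n603 n540 (fun _ h604 H385 => ?_) H384
  refine frcK_s (an 2621500 h25) (fun _ h605 H386 => ?_) H385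
  refine finK_s he (aa (aa (aa (an 1603625 h42) (an 1181125 h35)) (an 45500 (one_in he))) (ngC_s he (C := 2621500) h605 (by decide +kernel) (by decide +kernel))) (by decide +kernel) (fun _ h606 H387 => ?_) H386
  have h607 := In_cast h606 (l58 _ _ _)
  have h608 := In_cast (w := (f_Tc2_410 s t q u th)) h607 (rfl)
  refine nrmK_s he h608 (fun _ _ _ _ _ _ n609 H388 => ?_) H387
  refine mulK_s he n609 n499 (fun _ h610 H389 => ?_) H388
  have h611 := In_cast (w := (f_Xc2_410 s t q u th)) h610 (rfl)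
  refine nrmK_s he h611 (fun _ _ _ _ _ _ n612 H390 => ?_) H389
  refine mulK_s he n612 n134 (fun _ h613 H391 => ?_) H390
  refine frcK_s (aa (an 1603625 h25) (an 450625 h35)) (fun _ h614 H392 => ?_) H391
  refine finK_s he (aa (aa (an 1100250 h42) (an 289375 (one_in he))) (ngC_s he (C := 2054250) h614 (by decide +kernel) (by decide +kernel))) (by decide +kernel) (fun _ h615 H393 => ?_) H392
  have h616 := In_cast h615 (l59 _ _ _)
  have h617 := In_cast (w := (f_Tc2_511 s t q u th)) h616 (rfl)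
  refine nrmK_s he h617 (fun _ _ _ _ _ _ n618 H394 => ?_) H393
  refine mulK_s he n618 n567 (fun _ h619 H395 => ?_) H394
  have h620 := In_cast (w := (f_Xc2_511 s t q u th)) h619 (rfl)
  refine nrmK_s he h620 (fun _ _ _ _ _ _ n621 H396 => ?_) H395
  refine mulK_s he n621 n505 (fun _ h622 H397 => ?_) H396
  refine finK_s he (aa (aa (aa (aa (a1 h586) (a1 h595)) (a1 h604)) (a1 h613)) (a1 h622)) (by decide +kernel) (fun _ h623 H398 => ?_) H397
  have h624 := In_cast h623 (l60 _ _ _ _ _)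
  have h625 := In_cast (w := (f_c2 s t q u th)) h624 (rfl)
  refine nrmK_s he h625 (fun _ _ _ _ _ _ n626 H399 => ?_) H398
  refine mulK_s he n626 n198 (fun _ h627 H400 => ?_) H399
  refine finK_s he (aa (a1 h579) (a1 h627)) (by decide +kernel) (fun _ h628 H401 => ?_) H400
  have h629 := In_cast h628 (l14 _ _)
  have h630 := In_cast (w := (f_E52 s t q u th)) h629 (rfl)
  refine mulK_s he n578 n323 (fun _ h631 H402 => ?_) H401
  refine mulK_s he n626 n335 (fun _ h632 H403 => ?_) H402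
  refine finK_s he (aa (a1 h631) (a1 h632)) (by decide +kernel) (fun _ h633 H404 => ?_) H403
  have h634 := In_cast h633 (l14 _ _)
  have h635 := In_cast (w := (f_E53 s t q u th)) h634 (rfl)
  refine mulK_s he n578 n385 (fun _ h636 H405 => ?_) H404
  refine mulK_s he n626 n392 (fun _ h637 H406 => ?_) H405
  refine finK_s he (aa (a1 h636) (a1 h637)) (by decide +kernel) (fun _ h638 H407 => ?_) H406
  have h639 := In_cast h638 (l14 _ _)
  have h640 := In_cast (w := (f_E54 s t q u th)) h639 (rfl)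
  refine mulK_s he n57 n142 (fun _ h641 H408 => ?_) H407
  refine mulK_s he n144 n46 (fun _ h642 H409 => ?_) H408
  refine nrmK_s he h147 (fun _ _ _ _ _ _ n643 H410 => ?_) H409
  refine mulK_s he n643 n43 (fun _ h644 H411 => ?_) H410
  refine mulK_s he n36 n36 (fun _ h645 H412 => ?_) H411
  have h646 := In_cast h645 (pwnn (n := 4) rfl)
  refine nrmK_s he h646 (fun _ _ _ _ _ _ n647 H413 => ?_) H412
  refine mulK_s he n37 n647 (fun _ h648 H414 => ?_) H413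
  refine mulK_s he n149 n46 (fun _ h649 H415 => ?_) H414
  refine nrmK_s he h151 (fun _ _ _ _ _ _ n650 H416 => ?_) H415
  refine mulK_s he n650 n43 (fun _ h651 H417 => ?_) H416
  refine mulK_s he n62 n146 (fun _ h652 H418 => ?_) H417
  refine nrmK_s he h154 (fun _ _ _ _ _ _ n653 H419 => ?_) H418
  refine mulK_s he n653 n43 (fun _ h654 H420 => ?_) H419
  refine mulK_s he n152 n36 (fun _ h655 H421 => ?_) H420
  refine nrmK_s he h156 (fun _ _ _ _ _ _ n656 H422 => ?_) H421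
  refine mulK_s he n656 n26 (fun _ h657 H423 => ?_) H422
  refine frcK_s (aa (aa (aa (aa (aa (aa (aa (aa (aa (aa (aa (aa (aa (aa (aa (aa (aa (aa (aa (aa (aa (an 4224000 h42) (an 17200000 h48)) (an 30000000 h49)) (an 60000000 h51)) (an 21013000 h35)) (an 12873858 h54)) (an 4629688 h55)) (an 29128524 h58)) (an 35673000 h641)) (an 44098487 h59)) (an 40388000 h642)) (an 10356000 h644)) (an 21850000 h63)) (an 6716456 h148)) (an 27432513 h64)) (an 25615000 h649)) (an 16809952 h151)) (an 180000000 h651)) (an 46946000 h652)) (an 58292932 h66)) (an 17815625 h154)) (an 89904000 h654)) (fun _ h658 H424 => ?_) H423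
  refine finK_s he (aa (aa (aa (aa (aa (aa (aa (aa (aa (aa (aa (aa (aa (aa (aa (aa (aa (aa (aa (an 18890000 h45) (an 7826000 h519)) (an 19135000 h25)) (an 22073000 h50)) (an 34353000 h28)) (an 36386000 h53)) (an 11232840 h143)) (an 18526171 h56)) (an 17089324 h510)) (an 101630347 h145)) (an 8604484 h147)) (an 1855000 h648)) (an 58596144 h61)) (an 208438104 h150)) (an 55967494 h153)) (an 34963000 h655)) (an 20026874 h156)) (an 19157000 h657)) (an 602000 (one_in he))) (ngC_s he (C := 800967035) h658 (by decide +kernel) (by decide +kernel))) (by decide +kernel) (fun _ h659 H425 => ?_) H424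
  have h660 := In_cast h659 (l61 _ _ _ _ _ _ _ _ _ _ _ _ _ _ _ _ _ _ _ _ _ _ _ _ _ _ _ _ _ _ _ _ _ _ _ _ _ _ _ _)
  have h661 := In_cast (w := (f_TG_000 s t q u th)) h660 (rfl)
  refine frcK_s (aa (aa (aa (an 1042750 h49) (an 1496625 h28)) (an 510500 h56)) (an 1451125 h61)) (fun _ h662 H426 => ?_) H425
  refine finK_s he (aa (aa (aa (aa (aa (aa (an 2175875 h42) (an 1469250 h45)) (an 267000 h25)) (an 293000 h35)) (an 3750000 h54)) (an 1320375 (one_in he))) (ngC_s he (C := 4501000) h662 (by decide +kernel) (by decide +kernel))) (by decide +kernel) (fun _ h663 H427 => ?_) H426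
  have h664 := In_cast h663 (l62 _ _ _ _ _ _ _ _ _)
  have h665 := In_cast (w := (f_Tc0_000 s t q u th)) h664 (rfl)
  refine nrmK_s he h665 (fun _ _ _ _ _ _ n666 H428 => ?_) H427
  refine nrmK_s he h20 (fun _ _ _ _ _ _ n667 H429 => ?_) H428
  refine mulK_s he n666 n667 (fun _ h668 H430 => ?_) H429
  have h669 := In_cast (w := (f_Xc0_000 s t q u th)) h668 (rfl)
  refine frcK_s (aa (aa (aa (aa (aa (aa (aa (aa (aa (aa (aa (aa (an 1560250 h48) (an 2297750 h50)) (an 4956625 h28)) (an 8395625 h55)) (an 8968750 h56)) (an 48900625 h145)) (an 6897500 h61)) (an 595000 h148)) (an 14498750 h150)) (an 12236250 h151)) (an 5790000 h153)) (an 3290625 h154)) (an 101375 (one_in he))) (fun _ h670 H431 => ?_) H430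
  refine finK_s he (aa (aa (aa (aa (aa (aa (aa (aa (aa (aa (aa (aa (aa (aa (aa (aa (aa (an 586000 h42) (an 1470375 h45)) (an 1416250 h25)) (an 3750000 h49)) (an 3901375 h51)) (an 2262500 h53)) (an 1258250 h35)) (an 1519375 h54)) (an 4051250 h143)) (an 21385000 h58)) (an 12049375 h510)) (an 5950125 h59)) (an 16046250 h147)) (an 11238000 h63)) (an 15703375 h64)) (an 2647875 h66)) (an 2703125 h156)) (ngC_s he (C := 118489125) h670 (by decide +kernel) (by decide +kernel))) (by decide +kernel) (fun _ h671 H432 => ?_) H431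
  have h672 := In_cast h671 (l63 _ _ _ _ _ _ _ _ _ _ _ _ _ _ _ _ _ _ _ _ _ _ _ _ _ _ _ _ _)
  have h673 := In_cast (w := (f_TG_110 s t q u th)) h672 (rfl)
  refine nrmK_s he h673 (fun _ _ _ _ _ _ n674 H433 => ?_) H432
  refine mulK_s he n674 n29 (fun _ h675 H434 => ?_) H433
  have h676 := In_cast (w := (f_XG_110 s t q u th)) h675 (rfl)
  refine frcK_s (aa (aa (aa (aa (aa (aa (aa (aa (aa (aa (aa (an 4334000 h42) (an 18900000 h25)) (an 36208000 h49)) (an 11414359 h35)) (an 44831345 h54)) (an 92791693 h58)) (an 12563000 h510)) (an 54672000 h147)) (an 50178764 h63)) (an 103566436 h64)) (an 23927000 h150)) (an 20963598 h66)) (fun _ h677 H435 => ?_) H434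
  refine finK_s he (aa (aa (aa (aa (aa (aa (aa (aa (aa (aa (an 10324000 h45) (an 13132000 h28)) (an 20589904 h55)) (an 43692156 h56)) (an 113606821 h59)) (an 54376000 h145)) (an 70607568 h61)) (an 60000000 h151)) (an 24084000 h154)) (an 1043000 (one_in he))) (ngC_s he (C := 474350195) h677 (by decide +kernel) (by decide +kernel))) (by decide +kernel) (fun _ h678 H436 => ?_) H435
  have h679 := In_cast h678 (l64 _ _ _ _ _ _ _ _ _ _ _ _ _ _ _ _ _ _ _ _ _)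
  have h680 := In_cast (w := (f_TG_310 s t q u th)) h679 (rfl)
  refine nrmK_s he h680 (fun _ _ _ _ _ _ n681 H437 => ?_) H436
  refine mulK_s he n681 n79 (fun _ h682 H438 => ?_) H437
  have h683 := In_cast (w := (f_XG_310 s t q u th)) h682 (rfl)
  refine frcK_s (aa (an 7456500 h25) (an 590375 (one_in he))) (fun _ h684 H439 => ?_) H438
  refine finK_s he (aa (aa (an 7500000 h42) (an 2513000 h35)) (ngC_s he (C := 8046875) h684 (by decide +kernel) (by decide +kernel))) (by decide +kernel) (fun _ h685 H440 => ?_) H439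
  have h686 := In_cast h685 (l65 _ _ _)
  have h687 := In_cast (w := (f_Tc0_110 s t q u th)) h686 (rfl)
  refine mulK_s he n667 n29 (fun _ h688 H441 => ?_) H440
  have h689 := In_cast (w := (f_PPs1 s t q u th)) h688 (rfl)
  refine nrmK_s he h687 (fun _ _ _ _ _ _ n690 H442 => ?_) H441
  refine nrmK_s he h689 (fun _ _ _ _ _ _ n691 H443 => ?_) H442
  refine mulK_s he n690 n691 (fun _ h692 H444 => ?_) H443
  have h693 := In_cast (w := (f_Xc0_110 s t q u th)) h692 (rfl)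
  refine finK_s he (aa (aa (a1 h676) (a1 h683)) (a1 h693)) (by decide +kernel) (fun _ h694 H445 => ?_) H444
  have h695 := In_cast h694 (l39 _ _ _)
  have h696 := In_cast (w := (f_Z10 s t q u th)) h695 (rfl)
  refine nrmK_s he h696 (fun _ _ _ _ _ _ n697 H446 => ?_) H445
  refine mulK_s he n697 n134 (fun _ h698 H447 => ?_) H446
  refine frcK_s (aa (aa (aa (aa (aa (aa (an 3170000 h25) (an 6797000 h49)) (an 2750625 h55)) (an 7272500 h56)) (an 6553750 h59)) (an 6619250 h61)) (an 159375 (one_in he))) (fun _ h699 H448 => ?_) H447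
  refine finK_s he (aa (aa (aa (aa (aa (aa (aa (aa (aa (an 78625 h42) (an 1570375 h45)) (an 6834000 h28)) (an 5556250 h35)) (an 1544000 h54)) (an 8018125 h58)) (an 2253125 h63)) (an 5905625 h64)) (an 2490000 h66)) (ngC_s he (C := 33322500) h699 (by decide +kernel) (by decide +kernel))) (by decide +kernel) (fun _ h700 H449 => ?_) H448
  have h701 := In_cast h700 (l66 _ _ _ _ _ _ _ _ _ _ _ _ _ _ _)
  have h702 := In_cast (w := (f_TG_420 s t q u th)) h701 (rfl)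
  refine nrmK_s he h702 (fun _ _ _ _ _ _ n703 H450 => ?_) H449
  refine mulK_s he n703 n266 (fun _ h704 H451 => ?_) H450
  have h705 := In_cast (w := (f_XG_420 s t q u th)) h704 (rfl)
  refine mulK_s he n134 n134 (fun _ h706 H452 => ?_) H451
  have h707 := In_cast h706 (pw11)
  have h708 := In_cast (w := (f_th2 s t q u th)) h707 (rfl)
  refine nrmK_s he h705 (fun _ _ _ _ _ _ n709 H453 => ?_) H452
  refine nrmK_s he h708 (fun _ _ _ _ _ _ n710 H454 => ?_) H453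
  refine mulK_s he n709 n710 (fun _ h711 H455 => ?_) H454
  refine frcK_s (aa (aa (aa (aa (aa (aa (aa (aa (an 2847500 h42) (an 3913000 h48)) (an 1206625 h25)) (an 1616875 h49)) (an 825000 h55)) (an 7500000 h59)) (an 3750000 h63)) (an 3750000 h64)) (an 1875000 h66)) (fun _ h712 H456 => ?_) H455
  refine finK_s he (aa (aa (aa (aa (aa (aa (aa (aa (an 5301125 h45) (an 10893750 h28)) (an 549250 h35)) (an 9375000 h54)) (an 7144500 h56)) (an 5518250 h58)) (an 1442625 h61)) (an 1236125 (one_in he))) (ngC_s he (C := 27284000) h712 (by decide +kernel) (by decide +kernel))) (by decide +kernel) (fun _ h713 H457 => ?_) H456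
  have h714 := In_cast h713 (l67 _ _ _ _ _ _ _ _ _ _ _ _ _ _ _ _)
  have h715 := In_cast (w := (f_Tc0_002 s t q u th)) h714 (rfl)
  refine nrmK_s he h715 (fun _ _ _ _ _ _ n716 H458 => ?_) H457
  refine mulK_s he n716 n667 (fun _ h717 H459 => ?_) H458
  have h718 := In_cast (w := (f_Xc0_002 s t q u th)) h717 (rfl)
  refine nrmK_s he h718 (fun _ _ _ _ _ _ n719 H460 => ?_) H459
  refine mulK_s he n719 n540 (fun _ h720 H461 => ?_) H460
  refine frcK_s (aa (aa (aa (an 4464125 h45) (an 20877000 h49)) (an 7811500 h54)) (an 1671250 h61)) (fun _ h721 H462 => ?_) H461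
  refine finK_s he (aa (aa (aa (aa (aa (an 3750000 h42) (an 4236500 h25)) (an 14687500 h28)) (an 4776750 h56)) (an 3413125 (one_in he))) (ngC_s he (C := 34823875) h721 (by decide +kernel) (by decide +kernel))) (by decide +kernel) (fun _ h722 H463 => ?_) H462
  have h723 := In_cast h722 (l68 _ _ _ _ _ _ _ _)
  have h724 := In_cast (w := (f_Tc0_101 s t q u th)) h723 (rfl)
  refine nrmK_s he h724 (fun _ _ _ _ _ _ n725 H464 => ?_) H463
  refine mulK_s he n725 n691 (fun _ h726 H465 => ?_) H464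
  have h727 := In_cast (w := (f_Xc0_101 s t q u th)) h726 (rfl)
  refine nrmK_s he h727 (fun _ _ _ _ _ _ n728 H466 => ?_) H465
  refine mulK_s he n728 n96 (fun _ h729 H467 => ?_) H466
  refine frcK_s (aa (aa (aa (aa (aa (an 2940750 h42) (an 3750000 h25)) (an 3901375 h28)) (an 3750000 h56)) (an 1863000 h61)) (an 586000 (one_in he))) (fun _ h730 H468 => ?_) H467
  refine finK_s he (aa (aa (aa (aa (an 4680750 h45) (an 4595500 h49)) (an 1875000 h35)) (an 3750000 h54)) (ngC_s he (C := 16791125) h730 (by decide +kernel) (by decide +kernel))) (by decide +kernel) (fun _ h731 H469 => ?_) H468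
  have h732 := In_cast h731 (l69 _ _ _ _ _ _ _ _ _)
  have h733 := In_cast (w := (f_Tc0_103 s t q u th)) h732 (rfl)
  refine nrmK_s he h733 (fun _ _ _ _ _ _ n734 H470 => ?_) H469
  refine mulK_s he n734 n691 (fun _ h735 H471 => ?_) H470
  have h736 := In_cast (w := (f_Xc0_103 s t q u th)) h735 (rfl)
  refine mulK_s he n540 n96 (fun _ h737 H472 => ?_) H471
  have h738 := In_cast (w := (f_l3 s t q u th)) h737 (rfl)
  refine nrmK_s he h736 (fun _ _ _ _ _ _ n739 H473 => ?_) H472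
  refine nrmK_s he h738 (fun _ _ _ _ _ _ n740 H474 => ?_) H473
  refine mulK_s he n739 n740 (fun _ h741 H475 => ?_) H474
  refine frcK_s (aa (aa (an 11717000 h25) (an 1525125 h35)) (an 2808250 (one_in he))) (fun _ h742 H476 => ?_) H475
  refine finK_s he (aa (an 1889500 h42) (ngC_s he (C := 16050375) h742 (by decide +kernel) (by decide +kernel))) (by decide +kernel) (fun _ h743 H477 => ?_) H476
  have h744 := In_cast h743 (l70 _ _ _)
  have h745 := In_cast (w := (f_Tc0_211 s t q u th)) h744 (rfl)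
  refine mulK_s he n667 n75 (fun _ h746 H478 => ?_) H477
  have h747 := In_cast (w := (f_PPs2 s t q u th)) h746 (rfl)
  refine nrmK_s he h745 (fun _ _ _ _ _ _ n748 H479 => ?_) H478
  refine nrmK_s he h747 (fun _ _ _ _ _ _ n749 H480 => ?_) H479
  refine mulK_s he n748 n749 (fun _ h750 H481 => ?_) H480
  have h751 := In_cast (w := (f_Xc0_211 s t q u th)) h750 (rfl)
  refine nrmK_s he h751 (fun _ _ _ _ _ _ n752 H482 => ?_) H481
  refine mulK_s he n752 n505 (fun _ h753 H483 => ?_) H482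
  refine frcK_s (aa (an 2989750 h42) (an 521625 (one_in he))) (fun _ h754 H484 => ?_) H483
  refine finK_s he (aa (an 5680000 h25) (ngC_s he (C := 3511375) h754 (by decide +kernel) (by decide +kernel))) (by decide +kernel) (fun _ h755 H485 => ?_) H484
  have h756 := In_cast h755 (l71 _ _)
  have h757 := In_cast (w := (f_Tc0_312 s t q u th)) h756 (rfl)
  refine mulK_s he n667 n79 (fun _ h758 H486 => ?_) H485
  have h759 := In_cast (w := (f_PPs3 s t q u th)) h758 (rfl)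
  refine nrmK_s he h757 (fun _ _ _ _ _ _ n760 H487 => ?_) H486
  refine nrmK_s he h759 (fun _ _ _ _ _ _ n761 H488 => ?_) H487
  refine mulK_s he n760 n761 (fun _ h762 H489 => ?_) H488
  have h763 := In_cast (w := (f_Xc0_312 s t q u th)) h762 (rfl)
  refine nrmK_s he h763 (fun _ _ _ _ _ _ n764 H490 => ?_) H489
  refine mulK_s he n764 n573 (fun _ h765 H491 => ?_) H490
  refine frcK_s (aa (aa (an 3140750 h42) (an 2990875 h35)) (an 78625 (one_in he))) (fun _ h766 H492 => ?_) H491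
  refine finK_s he (aa (an 6797000 h25) (ngC_s he (C := 6210250) h766 (by decide +kernel) (by decide +kernel))) (by decide +kernel) (fun _ h767 H493 => ?_) H492
  have h768 := In_cast h767 (l72 _ _ _)
  have h769 := In_cast (w := (f_Tc0_413 s t q u th)) h768 (rfl)
  refine mulK_s he n667 n266 (fun _ h770 H494 => ?_) H493
  have h771 := In_cast (w := (f_PPs4 s t q u th)) h770 (rfl)
  refine nrmK_s he h769 (fun _ _ _ _ _ _ n772 H495 => ?_) H494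
  refine nrmK_s he h771 (fun _ _ _ _ _ _ n773 H496 => ?_) H495
  refine mulK_s he n772 n773 (fun _ h774 H497 => ?_) H496
  have h775 := In_cast (w := (f_Xc0_413 s t q u th)) h774 (rfl)
  refine mulK_s he n134 n740 (fun _ h776 H498 => ?_) H497
  have h777 := In_cast (w := (f_tl3 s t q u th)) h776 (rfl)
  refine nrmK_s he h775 (fun _ _ _ _ _ _ n778 H499 => ?_) H498
  refine nrmK_s he h777 (fun _ _ _ _ _ _ n779 H500 => ?_) H499
  refine mulK_s he n778 n779 (fun _ h780 H501 => ?_) H500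
  refine finK_s he (aa (aa (aa (aa (aa (aa (aa (aa (aa (a1 h661) (a1 h669)) (a1 h698)) (a1 h711)) (a1 h720)) (a1 h729)) (a1 h741)) (a1 h753)) (a1 h765)) (a1 h780)) (by decide +kernel) (fun _ h781 H502 => ?_) H501
  have h782 := In_cast h781 (l73 _ _ _ _ _ _ _ _ _ _)
  have h783 := In_cast (w := (f_E55 s t q u th)) h782 (rfl)
  exact psdK_s he h141 h202 h318 h339 h358 h381 h396 h414 h433 h460 h509 h630 h635 h640 h783 H502

attribute [irreducible] alt0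

noncomputable def leaf (j uu c1 w1 c2 w2 c3 w3 c4 w4 c5 w5 : ℕ) : Bool :=
  varK 6650 c1 w1 fun z1 =>
  varK 6745 c2 w2 fun z2 =>
  varK 8075 c3 w3 fun z3 =>
  varK 8360 c4 w4 fun z4 =>
  varK 8835 c5 w5 fun z5 =>
  alt0 uu z1 z2 z3 z4 z5

theorem snd : Snd Q leaf := by
  intro j uu c1 w1 c2 w2 c3 w3 c4 w4 c5 w5 e1 e2 e3 e4 e5 he H
  unfold leaf at H
  refine var1_s he (fun z1 hx1 H => ?_) H
  refine var2_s he (fun z2 hx2 H => ?_) H
  refine var3_s he (fun z3 hx3 H => ?_) H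
  refine var4_s he (fun z4 hx4 H => ?_) H
  refine var5_s he (fun z5 hx5 H => ?_) H
  exact alt0_s he hx1 hx2 hx3 hx4 hx5 H

end Crest.Agent.R97.PB
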