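import Crest.Agent.R97.PB
import Crest.Agent.R97.CertTW
import Crest.Agent.R97.SideW1
import Crest.Agent.R97.CertP7

/-! R97/PBG (helper60): the Taylor-model statement `PB.Q` on the box gives the matrix condition of the table `W1`. -/

set_option autoImplicit false
set_option linter.unusedVariables false
set_option linter.unusedSimpArgs false

namespace Crest.Agent.R97.PB

section
variable (s t q u th : ℝ)

theorem hr : (f_r s t q u th) = 1 - s ^ 2 := by simp only [f_r, f_s2]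

theorem tF_000 : (f_TF_000 s t q u th) = (10000000 / 16777216 : ℝ) * CW1.F_000 (f_r s t q u th) (f_z s t q u th) (f_p s t q u th) := by
  unfold f_TF_000 CW1.F_000; ring

theorem tF_310 : (f_TF_310 s t q u th) = (10000000 / 16777216 : ℝ) * CW1.F_310 (f_r s t q u th) (f_z s t q u th) (f_p s t q u th) := by
  unfold f_TF_310 CW1.F_310; ring

theorem tg1_000 : (f_Tg1_000 s t q u th) = (10000000 / 16777216 : ℝ) * CW1.g1_000 (f_r s t q u th) (f_z s t q u th) (f_p s t q u th) := by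
  unfold f_Tg1_000 CW1.g1_000; ring

theorem tg1_310 : (f_Tg1_310 s t q u th) = (10000000 / 16777216 : ℝ) * CW1.g1_310 (f_r s t q u th) (f_z s t q u th) (f_p s t q u th) := by
  unfold f_Tg1_310 CW1.g1_310; ring

theorem tg2_100 : (f_Tg2_100 s t q u th) = (10000000 / 16777216 : ℝ) * CW1.g2_100 (f_r s t q u th) (f_z s t q u th) (f_p s t q u th) := by
  unfold f_Tg2_100 CW1.g2_100; ring

theorem tm1_200 : (f_Tm1_200 s t q u th) = (10000000 / 16777216 : ℝ) * CW1.m1_200 (f_r s t q u th) (f_z s t q u th) (f_p s t q u th) := by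
  unfold f_Tm1_200 CW1.m1_200; ring

theorem tm1_510 : (f_Tm1_510 s t q u th) = (10000000 / 16777216 : ℝ) * CW1.m1_510 (f_r s t q u th) (f_z s t q u th) (f_p s t q u th) := by
  unfold f_Tm1_510 CW1.m1_510; ring

theorem tm2_300 : (f_Tm2_300 s t q u th) = (10000000 / 16777216 : ℝ) * CW1.m2_300 (f_r s t q u th) (f_z s t q u th) (f_p s t q u th) := by
  unfold f_Tm2_300 CW1.m2_300; ring

theorem tm2_610 : (f_Tm2_610 s t q u th) = (10000000 / 16777216 : ℝ) * CW1.m2_610 (f_r s t q u th) (f_z s t q u th) (f_p s t q u th) := by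
  unfold f_Tm2_610 CW1.m2_610; ring

theorem tm3_400 : (f_Tm3_400 s t q u th) = (10000000 / 16777216 : ℝ) * CW1.m3_400 (f_r s t q u th) (f_z s t q u th) (f_p s t q u th) := by
  unfold f_Tm3_400 CW1.m3_400; ring

theorem tK_000 : (f_TK_000 s t q u th) = (10000000 / 16777216 : ℝ) * CW1.K_000 (f_r s t q u th) (f_z s t q u th) (f_p s t q u th) := by
  unfold f_TK_000 CW1.K_000; ring

theorem tK_310 : (f_TK_310 s t q u th) = (10000000 / 16777216 : ℝ) * CW1.K_310 (f_r s t q u th) (f_z s t q u th) (f_p s t q u th) := by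
  unfold f_TK_310 CW1.K_310; ring

theorem tD_000 : (f_TD_000 s t q u th) = (10000000 / 16777216 : ℝ) * CW1.D_000 (f_r s t q u th) (f_z s t q u th) (f_p s t q u th) := by
  unfold f_TD_000 CW1.D_000; ring

theorem tD_310 : (f_TD_310 s t q u th) = (10000000 / 16777216 : ℝ) * CW1.D_310 (f_r s t q u th) (f_z s t q u th) (f_p s t q u th) := by
  unfold f_TD_310 CW1.D_310; ring

theorem tg3_000 : (f_Tg3_000 s t q u th) = (10000000 / 16777216 : ℝ) * CW1.g3_000 (f_r s t q u th) (f_z s t q u th) (f_p s t q u th) := by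
  unfold f_Tg3_000 CW1.g3_000; ring

theorem tg3_101 : (f_Tg3_101 s t q u th) = (10000000 / 16777216 : ℝ) * CW1.g3_101 (f_r s t q u th) (f_z s t q u th) (f_p s t q u th) := by
  unfold f_Tg3_101 CW1.g3_101; ring

theorem tg3_310 : (f_Tg3_310 s t q u th) = (10000000 / 16777216 : ℝ) * CW1.g3_310 (f_r s t q u th) (f_z s t q u th) (f_p s t q u th) := by
  unfold f_Tg3_310 CW1.g3_310; ring

theorem tg3_411 : (f_Tg3_411 s t q u th) = (10000000 / 16777216 : ℝ) * CW1.g3_411 (f_r s t q u th) (f_z s t q u th) (f_p s t q u th) := by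
  unfold f_Tg3_411 CW1.g3_411; ring

theorem tc1_000 : (f_Tc1_000 s t q u th) = (10000000 / 16777216 : ℝ) * CW1.c1_000 (f_r s t q u th) (f_z s t q u th) (f_p s t q u th) := by
  unfold f_Tc1_000 CW1.c1_000; ring

theorem tc1_101 : (f_Tc1_101 s t q u th) = (10000000 / 16777216 : ℝ) * CW1.c1_101 (f_r s t q u th) (f_z s t q u th) (f_p s t q u th) := by
  unfold f_Tc1_101 CW1.c1_101; ring

theorem tc1_202 : (f_Tc1_202 s t q u th) = (10000000 / 16777216 : ℝ) * CW1.c1_202 (f_r s t q u th) (f_z s t q u th) (f_p s t q u th) := by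
  unfold f_Tc1_202 CW1.c1_202; ring

theorem tc1_310 : (f_Tc1_310 s t q u th) = (10000000 / 16777216 : ℝ) * CW1.c1_310 (f_r s t q u th) (f_z s t q u th) (f_p s t q u th) := by
  unfold f_Tc1_310 CW1.c1_310; ring

theorem tc1_411 : (f_Tc1_411 s t q u th) = (10000000 / 16777216 : ℝ) * CW1.c1_411 (f_r s t q u th) (f_z s t q u th) (f_p s t q u th) := by
  unfold f_Tc1_411 CW1.c1_411; ring

theorem tc1_512 : (f_Tc1_512 s t q u th) = (10000000 / 16777216 : ℝ) * CW1.c1_512 (f_r s t q u th) (f_z s t q u th) (f_p s t q u th) := by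
  unfold f_Tc1_512 CW1.c1_512; ring

theorem tc2_100 : (f_Tc2_100 s t q u th) = (10000000 / 16777216 : ℝ) * CW1.c2_100 (f_r s t q u th) (f_z s t q u th) (f_p s t q u th) := by
  unfold f_Tc2_100 CW1.c2_100; ring

theorem tc2_201 : (f_Tc2_201 s t q u th) = (10000000 / 16777216 : ℝ) * CW1.c2_201 (f_r s t q u th) (f_z s t q u th) (f_p s t q u th) := by
  unfold f_Tc2_201 CW1.c2_201; ring

theorem tc2_302 : (f_Tc2_302 s t q u th) = (10000000 / 16777216 : ℝ) * CW1.c2_302 (f_r s t q u th) (f_z s t q u th) (f_p s t q u th) := by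
  unfold f_Tc2_302 CW1.c2_302; ring

theorem tc2_410 : (f_Tc2_410 s t q u th) = (10000000 / 16777216 : ℝ) * CW1.c2_410 (f_r s t q u th) (f_z s t q u th) (f_p s t q u th) := by
  unfold f_Tc2_410 CW1.c2_410; ring

theorem tc2_511 : (f_Tc2_511 s t q u th) = (10000000 / 16777216 : ℝ) * CW1.c2_511 (f_r s t q u th) (f_z s t q u th) (f_p s t q u th) := by
  unfold f_Tc2_511 CW1.c2_511; ring

theorem tG_000 : (f_TG_000 s t q u th) = (10000000 / 16777216 : ℝ) * CW1.G_000 (f_r s t q u th) (f_z s t q u th) (f_p s t q u th) := by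
  unfold f_TG_000 CW1.G_000; ring

theorem tc0_000 : (f_Tc0_000 s t q u th) = (10000000 / 16777216 : ℝ) * CW1.c0_000 (f_r s t q u th) (f_z s t q u th) (f_p s t q u th) := by
  unfold f_Tc0_000 CW1.c0_000; ring

theorem tG_110 : (f_TG_110 s t q u th) = (10000000 / 16777216 : ℝ) * CW1.G_110 (f_r s t q u th) (f_z s t q u th) (f_p s t q u th) := by
  unfold f_TG_110 CW1.G_110; ring

theorem tG_310 : (f_TG_310 s t q u th) = (10000000 / 16777216 : ℝ) * CW1.G_310 (f_r s t q u th) (f_z s t q u th) (f_p s t q u th) := by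
  unfold f_TG_310 CW1.G_310; ring

theorem tc0_110 : (f_Tc0_110 s t q u th) = (10000000 / 16777216 : ℝ) * CW1.c0_110 (f_r s t q u th) (f_z s t q u th) (f_p s t q u th) := by
  unfold f_Tc0_110 CW1.c0_110; ring

theorem tG_420 : (f_TG_420 s t q u th) = (10000000 / 16777216 : ℝ) * CW1.G_420 (f_r s t q u th) (f_z s t q u th) (f_p s t q u th) := by
  unfold f_TG_420 CW1.G_420; ring

theorem tc0_002 : (f_Tc0_002 s t q u th) = (10000000 / 16777216 : ℝ) * CW1.c0_002 (f_r s t q u th) (f_z s t q u th) (f_p s t q u th) := by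
  unfold f_Tc0_002 CW1.c0_002; ring

theorem tc0_101 : (f_Tc0_101 s t q u th) = (10000000 / 16777216 : ℝ) * CW1.c0_101 (f_r s t q u th) (f_z s t q u th) (f_p s t q u th) := by
  unfold f_Tc0_101 CW1.c0_101; ring

theorem tc0_103 : (f_Tc0_103 s t q u th) = (10000000 / 16777216 : ℝ) * CW1.c0_103 (f_r s t q u th) (f_z s t q u th) (f_p s t q u th) := by
  unfold f_Tc0_103 CW1.c0_103; ring

theorem tc0_211 : (f_Tc0_211 s t q u th) = (10000000 / 16777216 : ℝ) * CW1.c0_211 (f_r s t q u th) (f_z s t q u th) (f_p s t q u th) := by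
  unfold f_Tc0_211 CW1.c0_211; ring

theorem tc0_312 : (f_Tc0_312 s t q u th) = (10000000 / 16777216 : ℝ) * CW1.c0_312 (f_r s t q u th) (f_z s t q u th) (f_p s t q u th) := by
  unfold f_Tc0_312 CW1.c0_312; ring

theorem tc0_413 : (f_Tc0_413 s t q u th) = (10000000 / 16777216 : ℝ) * CW1.c0_413 (f_r s t q u th) (f_z s t q u th) (f_p s t q u th) := by
  unfold f_Tc0_413 CW1.c0_413; ring

theorem vK : (f_K s t q u th) = (10000000 / 16777216 : ℝ) * W1.tab.K.v s (f_z s t q u th) (f_p s t q u th) (f_tht s t q u th) := by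
  rw [CW1.K_eq _ _ _ _ _ (hr s t q u th)]
  simp only [f_K, f_XK_310, f_s3, f_s2, tK_000, tK_310]
  ring

theorem vF : (f_F s t q u th) = (10000000 / 16777216 : ℝ) * W1.tab.F.h s (f_z s t q u th) (f_p s t q u th) (f_tht s t q u th) := by
  rw [CW1.F_eq _ _ _ _ _ (hr s t q u th)]
  simp only [f_F, f_XF_310, f_s3, f_s2, tF_000, tF_310]
  ring

theorem vD : (f_D s t q u th) = (10000000 / 16777216 : ℝ) * (s * W1.tab.D.v s (f_z s t q u th) (f_p s t q u th) (f_tht s t q u th)) := by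
  rw [CW1.D_eq _ _ _ _ _ (hr s t q u th)]
  simp only [f_D, f_XD_310, f_s4, f_s2, f_XD_000, tD_000, tD_310]
  ring

theorem vg1 : (f_g1 s t q u th) = (10000000 / 16777216 : ℝ) * W1.tab.pg1 s (f_z s t q u th) (f_p s t q u th) (f_tht s t q u th) := by
  rw [CW1.g1_eq _ _ _ _ _ (hr s t q u th)]
  simp only [f_g1, f_Xg1_310, f_s3, f_s2, tg1_000, tg1_310]
  ring

theorem vg2 : (f_g2 s t q u th) = (10000000 / 16777216 : ℝ) * W1.tab.pg2 s (f_z s t q u th) (f_p s t q u th) (f_tht s t q u th) := by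
  rw [CW1.g2_eq _ _ _ _ _ (hr s t q u th)]
  simp only [f_g2, f_Xg2_100, tg2_100]
  ring

theorem vm1 : (f_m1 s t q u th) = (10000000 / 16777216 : ℝ) * W1.tab.pm1 s (f_z s t q u th) (f_p s t q u th) (f_tht s t q u th) := by
  rw [CW1.m1_eq _ _ _ _ _ (hr s t q u th)]
  simp only [f_m1, f_Xm1_510, f_s5, f_s3, f_s2, f_Xm1_200, tm1_200, tm1_510]
  ring

theorem vm2 : (f_m2 s t q u th) = (10000000 / 16777216 : ℝ) * W1.tab.pm2 s (f_z s t q u th) (f_p s t q u th) (f_tht s t q u th) := by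
  rw [CW1.m2_eq _ _ _ _ _ (hr s t q u th)]
  simp only [f_m2, f_Xm2_610, f_s6, f_s3, f_s2, f_Xm2_300, tm2_300, tm2_610]
  ring

theorem vm3 : (f_m3 s t q u th) = (10000000 / 16777216 : ℝ) * W1.tab.pm3 s (f_z s t q u th) (f_p s t q u th) (f_tht s t q u th) := by
  rw [CW1.m3_eq _ _ _ _ _ (hr s t q u th)]
  simp only [f_m3, f_Xm3_400, f_s4, f_s2, tm3_400]
  ring

theorem vc1 : (f_c1 s t q u th) = (10000000 / 16777216 : ℝ) * ((f_P s t q u th) * W1.tab.pc1 s (f_z s t q u th) (f_p s t q u th) (f_tht s t q u th) (f_l s t q u th)) := by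
  rw [CW1.c1_eq _ _ _ _ _ _ (hr s t q u th)]
  simp only [f_c1, f_tl2, f_l2, f_Xc1_512, f_Ps5, f_s5, f_s3, f_s2, f_tl, f_Xc1_411, f_Ps4, f_s4, f_Xc1_310, f_Ps3, f_Xc1_202, f_Ps2, f_Xc1_101, f_Ps1, f_Xc1_000, tc1_000, tc1_101, tc1_202, tc1_310, tc1_411, tc1_512]
  ring

theorem vc2 : (f_c2 s t q u th) = (10000000 / 16777216 : ℝ) * ((f_P s t q u th) * W1.tab.pc2 s (f_z s t q u th) (f_p s t q u th) (f_tht s t q u th) (f_l s t q u th)) := by
  rw [CW1.c2_eq _ _ _ _ _ _ (hr s t q u th)]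
  simp only [f_c2, f_tl, f_Xc2_511, f_Ps5, f_s5, f_s3, f_s2, f_Xc2_410, f_Ps4, f_s4, f_l2, f_Xc2_302, f_Ps3, f_Xc2_201, f_Ps2, f_Xc2_100, f_Ps1, tc2_100, tc2_201, tc2_302, tc2_410, tc2_511]
  ring

theorem vE51 : (f_E51 s t q u th) = (10000000 / 16777216 : ℝ) * ((f_P s t q u th) * W1.tab.pg3 s (f_z s t q u th) (f_p s t q u th) (f_tht s t q u th) (f_l s t q u th)) := by
  rw [CW1.g3_eq _ _ _ _ _ _ (hr s t q u th)]
  simp only [f_E51, f_tl, f_Xg3_411, f_Ps4, f_s4, f_s2, f_Xg3_310, f_Ps3, f_s3, f_Xg3_101, f_Ps1, f_Xg3_000, tg3_000, tg3_101, tg3_310, tg3_411]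
  ring

theorem vE55 : (f_E55 s t q u th) = (10000000 / 16777216 : ℝ) * (W1.tab.G0 s (f_z s t q u th) (f_p s t q u th) (f_tht s t q u th) 5 + (f_PP s t q u th) * W1.tab.pc0 s (f_z s t q u th) (f_p s t q u th) (f_tht s t q u th) (f_l s t q u th)) := by
  rw [CW1.G_eq _ _ _ _ _ (hr s t q u th), CW1.c0_eq _ _ _ _ _ _ (hr s t q u th)]
  simp only [f_E55, f_tl3, f_l3, f_l2, f_Xc0_413, f_PPs4, f_s4, f_s2, f_tl2, f_Xc0_312, f_PPs3, f_s3, f_tl, f_Xc0_211, f_PPs2, f_Xc0_103, f_PPs1, f_Xc0_101, f_Xc0_002, f_th2, f_XG_420, f_Z10, f_Xc0_110, f_XG_310, f_XG_110, f_Xc0_000, tG_000, tc0_000, tG_110, tG_310, tc0_110, tG_420, tc0_002, tc0_101, tc0_103, tc0_211, tc0_312, tc0_413]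
  ring

theorem tht_eq : (f_tht s t q u th) = sTh (f_l s t q u th) (f_n s t q u th) th := by
  simp only [f_tht, f_l2, f_tt, f_R2, f_nd, f_d2, sTh, sD]; ring

theorem key (x0 x1 x2 x3 x4 : ℝ) : Crest.Agent.PSD.q5 (f_E11 s t q u th) (f_E21 s t q u th) (f_E22 s t q u th) (f_E31 s t q u th) (f_E32 s t q u th) (f_E33 s t q u th) (f_E41 s t q u th) (f_E42 s t q u th) (f_E43 s t q u th) (f_E44 s t q u th) (f_E51 s t q u th) (f_E52 s t q u th) (f_E53 s t q u th) (f_E54 s t q u th) (f_E55 s t q u th) x4 x1 x2 x3 x0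
    = (10000000 / 16777216 : ℝ) * mat5 (W1.tab.K.v s (f_z s t q u th) (f_p s t q u th) (f_tht s t q u th)) (s * W1.tab.D.v s (f_z s t q u th) (f_p s t q u th) (f_tht s t q u th)) (W1.tab.F.h s (f_z s t q u th) (f_p s t q u th) (f_tht s t q u th)) (W1.tab.pg1 s (f_z s t q u th) (f_p s t q u th) (f_tht s t q u th)) (W1.tab.pg2 s (f_z s t q u th) (f_p s t q u th) (f_tht s t q u th))
        (W1.tab.pg3 s (f_z s t q u th) (f_p s t q u th) (f_tht s t q u th) (f_l s t q u th)) (W1.tab.pm1 s (f_z s t q u th) (f_p s t q u th) (f_tht s t q u th)) (W1.tab.pm2 s (f_z s t q u th) (f_p s t q u th) (f_tht s t q u th)) (W1.tab.pm3 s (f_z s t q u th) (f_p s t q u th) (f_tht s t q u th)) (W1.tab.pc1 s (f_z s t q u th) (f_p s t q u th) (f_tht s t q u th) (f_l s t q u th)) (W1.tab.pc2 s (f_z s t q u th) (f_p s t q u th) (f_tht s t q u th) (f_l s t q u th)) 0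
        (W1.tab.G0 s (f_z s t q u th) (f_p s t q u th) (f_tht s t q u th) 5 + (f_PP s t q u th) * W1.tab.pc0 s (f_z s t q u th) (f_p s t q u th) (f_tht s t q u th) (f_l s t q u th)) (f_P s t q u th) (f_l s t q u th) (f_n s t q u th) th x0 x1 x2 x3 x4
      - 1 / 65536 * (x1 ^ 2 + x2 ^ 2 + x3 ^ 2 + x4 ^ 2) := by
  simp only [f_E11, f_E21, f_b1, f_l2, f_tt, f_a1, f_E22, f_w11, f_bb11, f_ab11, f_aa11, f_E31, f_b2, f_R2, f_nd, f_d2, f_tp, f_a2, f_E32, f_bb21, f_ab21, f_aa21, f_E33, f_w22, f_bb22, f_ab22, f_aa22, f_E41, f_b3, f_a3, f_E42, f_bb31, f_ab31, f_aa31, f_E43, f_bb32, f_ab32, f_aa32, f_E44, f_w33, f_bb33, f_ab33, f_aa33, f_E52, f_E53, f_E54, vK, vF, vD, vg1, vg2, vm1, vm2, vm3, vc1, vc2, vE51, vE55]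
  generalize W1.tab.K.v s (f_z s t q u th) (f_p s t q u th) (f_tht s t q u th) = K
  generalize W1.tab.D.v s (f_z s t q u th) (f_p s t q u th) (f_tht s t q u th) = D
  generalize W1.tab.F.h s (f_z s t q u th) (f_p s t q u th) (f_tht s t q u th) = F
  generalize W1.tab.pg1 s (f_z s t q u th) (f_p s t q u th) (f_tht s t q u th) = g1
  generalize W1.tab.pg2 s (f_z s t q u th) (f_p s t q u th) (f_tht s t q u th) = g2
  generalize W1.tab.pg3 s (f_z s t q u th) (f_p s t q u th) (f_tht s t q u th) (f_l s t q u th) = g3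
  generalize W1.tab.pm1 s (f_z s t q u th) (f_p s t q u th) (f_tht s t q u th) = m1
  generalize W1.tab.pm2 s (f_z s t q u th) (f_p s t q u th) (f_tht s t q u th) = m2
  generalize W1.tab.pm3 s (f_z s t q u th) (f_p s t q u th) (f_tht s t q u th) = m3
  generalize W1.tab.pc1 s (f_z s t q u th) (f_p s t q u th) (f_tht s t q u th) (f_l s t q u th) = c1
  generalize W1.tab.pc2 s (f_z s t q u th) (f_p s t q u th) (f_tht s t q u th) (f_l s t q u th) = c2
  generalize W1.tab.pc0 s (f_z s t q u th) (f_p s t q u th) (f_tht s t q u th) (f_l s t q u th) = c0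
  generalize W1.tab.G0 s (f_z s t q u th) (f_p s t q u th) (f_tht s t q u th) 5 = G
  generalize (f_PP s t q u th) = PP
  generalize (f_P s t q u th) = P
  generalize (f_l s t q u th) = l
  generalize (f_n s t q u th) = n
  simp only [Crest.Agent.PSD.q5, mat5, quad5, sM, sA1, sA2, sA3, sB1, sB2, sB3, sD]
  ring

end

theorem matB (hQ : ∀ s t q u th : ℝ, (0:ℝ) ≤ s → s ≤ (1:ℝ) → (0:ℝ) ≤ t → t ≤ (1:ℝ) → (0:ℝ) ≤ q → q ≤ (1:ℝ) → (-9/20:ℝ) ≤ u → u ≤ (9/20:ℝ) →
    (-29/50:ℝ) ≤ th → th ≤ (29/50:ℝ) → Q s t q u th) : W1.tab.MatB 1 := by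
  intro s y q u th z p l n θ d hθ
  obtain ⟨t, t0, t1, hy, hw⟩ := exists_tau d.y0 d.y1
  have h := hQ s t q u th d.s0 d.s1 t0 t1 d.q0 d.q1 (by linarith [d.u0]) d.u1 (by linarith [d.th0]) d.th1
  have p1 : (0:ℝ) < 1 + t ^ 2 := by positivity
  have p2 : (0:ℝ) < 1 + 5 * u ^ 2 := by positivity
  have ez : (f_z s t q u th) = z := by rw [d.hz, hy]; simp only [f_z, f_iy]; field_simp
  have ey : (f_z s t q u th) = y := by rw [ez, d.hz, one_mul]
  have ew : (f_w s t q u th) = (1 - t ^ 2) / (1 + t ^ 2) := by simp only [f_w, f_iy]; field_simp; ring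
  have eP : (f_P s t q u th) ^ 2 = q ^ 2 * (1 - y ^ 2) := by rw [hw, ← ew]; simp only [f_P]; ring
  have ePP : (f_PP s t q u th) = q ^ 2 * (1 - y ^ 2) := eP
  have ep : (f_p s t q u th) = p := by rw [d.hp]; unfold f_p; rw [ePP, ey, hr]; ring
  have el : (f_l s t q u th) = l := by rw [d.hl]; simp only [f_l, f_idn]; field_simp
  have en : (f_n s t q u th) = n := by rw [d.hn]; simp only [f_n, f_idn]; field_simp; ring
  have eθ : (f_tht s t q u th) = θ := by rw [tht_eq, el, en, hθ]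
  refine ⟨(f_P s t q u th), 1 / 65536, eP.ge, by norm_num, fun x0 x1 x2 x3 x4 => ?_⟩
  have h1 := h x4 x1 x2 x3 x0
  rw [key, ez, ep, eθ, el, en, ePP] at h1
  have h2 : 0 ≤ x1 ^ 2 + x2 ^ 2 + x3 ^ 2 + x4 ^ 2 := by positivity
  linarith

theorem mat (hQ : ∀ s t q u th : ℝ, (0:ℝ) ≤ s → s ≤ (1:ℝ) → (0:ℝ) ≤ t → t ≤ (1:ℝ) → (0:ℝ) ≤ q → q ≤ (1:ℝ) → (-9/20:ℝ) ≤ u → u ≤ (9/20:ℝ) →
    (-29/50:ℝ) ≤ th → th ≤ (29/50:ℝ) → Q s t q u th) : W1.tab.Mat 1 :=
  Tab.mat_of_B one_pos (by rw [W1_c1]; norm_num) (by norm_num) (matB hQ)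

end Crest.Agent.R97.PB
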