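import Crest.Agent.R97.CertTW
import Crest.Agent.R97.NRw

/-! TabW (helper26): constants, shape and the relaxed side rows of the frozen table `W1.tab`. -/

set_option autoImplicit false

namespace Crest.Agent.R97

theorem TW_c : W1.tab.c = 1 := by simp [IT.tab, W1]
theorem TW_al : W1.tab.al = 1 / 2 := by simp [IT.tab, W1]
theorem TW_Λ : W1.tab.Λ = 4001 / 1000 := by simp [IT.tab, W1]
theorem TW_Λ4 : 4 < W1.tab.Λ := by rw [TW_Λ]; norm_num
theorem TW_sh : W1.tab.Sh := IT.sh_s (by decide)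
theorem TW_is : NRw.Is W1.tab where
  c := TW_c
  F s z p θ := by
    rw [CW1.F_eq s z p θ _ rfl, NRw.Fp, CW1.F_000, CW1.F_310]
    generalize 1 - s ^ 2 = r
    ring
  K s z p θ := by
    rw [CW1.K_eq s z p θ _ rfl, NRw.Kp, CW1.K_000, CW1.K_310]
    generalize 1 - s ^ 2 = r
    ring
  D s z p θ := by
    rw [CW1.D_eq s z p θ _ rfl, NRw.Dp, CW1.D_000, CW1.D_310]
    generalize 1 - s ^ 2 = r
    ring
  A s z p θ := by
    rw [CW1.Ah_eq s z p θ _ rfl, NRw.A1p, NRw.A2p, CW1.Ah_000, CW1.Ah_110]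
    generalize 1 - s ^ 2 = r
    ring
theorem TW_nr3 : W1.tab.NR 3 R1 (7 / 4) := NRw.nr3 TW_is
theorem TW_nr2 : W1.tab.NR 2 R1 (3 / 2) := NRw.nr2 TW_is
theorem TW_nr1 : W1.tab.NR 1 R1 (5 / 4) := NRw.nr1 TW_is

end Crest.Agent.R97
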