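import Crest.Agent.Lib.TM.T53
import Crest.Agent.Lib.PSD.Ldl
import Crest.Agent.R97.CertTW
/-! TmA (helper90, generated): stage A of the separable Taylor-model program. -/
set_option autoImplicit false
set_option linter.unusedVariables false
set_option linter.unusedTactic false
set_option linter.unreachableTactic false
set_option linter.unusedSimpArgs false
set_option maxRecDepth 100000
namespace Crest.Agent.R97.Tm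
open Crest.Agent.R307 Crest.Agent.R307.IA Crest.Agent.TM.T53 Crest.Agent.PSD
open Crest.Agent.R307.IA5 (Ev Cov)

noncomputable def tK0 (r z p s P : ℝ) : ℝ := CW1.K_000 r z p
noncomputable def tK1 (r z p s P : ℝ) : ℝ := CW1.K_310 r z p * (s ^ 3)
noncomputable def tD0 (r z p s P : ℝ) : ℝ := CW1.D_000 r z p * (s)
noncomputable def tD1 (r z p s P : ℝ) : ℝ := CW1.D_310 r z p * (s ^ 4)
noncomputable def tF0 (r z p s P : ℝ) : ℝ := CW1.F_000 r z p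
noncomputable def tF1 (r z p s P : ℝ) : ℝ := CW1.F_310 r z p * (s ^ 3)
noncomputable def tG0 (r z p s P : ℝ) : ℝ := CW1.g1_000 r z p
noncomputable def tG1 (r z p s P : ℝ) : ℝ := CW1.g1_310 r z p * (s ^ 3)
noncomputable def tG2 (r z p s P : ℝ) : ℝ := CW1.g2_100 r z p * (s)
noncomputable def tH0 (r z p s P : ℝ) : ℝ := CW1.g3_000 r z p * (P)
noncomputable def tH1 (r z p s P : ℝ) : ℝ := CW1.g3_101 r z p * (P * s)
noncomputable def tH2 (r z p s P : ℝ) : ℝ := CW1.g3_310 r z p * (P * s ^ 3)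
noncomputable def tH3 (r z p s P : ℝ) : ℝ := CW1.g3_411 r z p * (P * s ^ 4)
noncomputable def tM0 (r z p s P : ℝ) : ℝ := CW1.m1_200 r z p * (s ^ 2)
noncomputable def tM1 (r z p s P : ℝ) : ℝ := CW1.m1_510 r z p * (s ^ 5)
noncomputable def tN0 (r z p s P : ℝ) : ℝ := CW1.m2_300 r z p * (s ^ 3)
noncomputable def tN1 (r z p s P : ℝ) : ℝ := CW1.m2_610 r z p * (s ^ 6)
noncomputable def tA0 (r z p s P : ℝ) : ℝ := CW1.c1_000 r z p * (P)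
noncomputable def tA1 (r z p s P : ℝ) : ℝ := CW1.c1_101 r z p * (P * s)
noncomputable def tA2 (r z p s P : ℝ) : ℝ := CW1.c1_202 r z p * (P * s ^ 2)
noncomputable def tA3 (r z p s P : ℝ) : ℝ := CW1.c1_310 r z p * (P * s ^ 3)
noncomputable def tA4 (r z p s P : ℝ) : ℝ := CW1.c1_411 r z p * (P * s ^ 4)
noncomputable def tA5 (r z p s P : ℝ) : ℝ := CW1.c1_512 r z p * (P * s ^ 5)
noncomputable def tB0 (r z p s P : ℝ) : ℝ := CW1.c2_100 r z p * (P * s)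
noncomputable def tB1 (r z p s P : ℝ) : ℝ := CW1.c2_201 r z p * (P * s ^ 2)
noncomputable def tB2 (r z p s P : ℝ) : ℝ := CW1.c2_302 r z p * (P * s ^ 3)
noncomputable def tB3 (r z p s P : ℝ) : ℝ := CW1.c2_410 r z p * (P * s ^ 4)
noncomputable def tB4 (r z p s P : ℝ) : ℝ := CW1.c2_511 r z p * (P * s ^ 5)
noncomputable def tE0 (r z p s P : ℝ) : ℝ := CW1.G_000 r z p + CW1.c0_000 r z p * (P ^ 2)
noncomputable def tE1 (r z p s P : ℝ) : ℝ := CW1.c0_101 r z p * (P ^ 2 * s)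
noncomputable def tE2 (r z p s P : ℝ) : ℝ := CW1.c0_002 r z p * (P ^ 2)
noncomputable def tE3 (r z p s P : ℝ) : ℝ := CW1.c0_103 r z p * (P ^ 2 * s)
noncomputable def tE4 (r z p s P : ℝ) : ℝ := CW1.G_110 r z p * (s) + CW1.G_310 r z p * (s ^ 3) + CW1.c0_110 r z p * (P ^ 2 * s)
noncomputable def tE5 (r z p s P : ℝ) : ℝ := CW1.c0_211 r z p * (P ^ 2 * s ^ 2)
noncomputable def tE6 (r z p s P : ℝ) : ℝ := CW1.c0_312 r z p * (P ^ 2 * s ^ 3)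
noncomputable def tE7 (r z p s P : ℝ) : ℝ := CW1.c0_413 r z p * (P ^ 2 * s ^ 4)
noncomputable def tE8 (r z p s P : ℝ) : ℝ := CW1.G_420 r z p * (s ^ 4)
noncomputable def gF (z p s : ℝ) : ℝ := 5 / 14 * (p * (2 - p)) - (z * s) ^ 2

noncomputable def sa0 (x1 x2 x3 : ℕ) (k : ℕ → ℕ → ℕ → ℕ → ℕ → ℕ → Bool) : Bool :=
  nrmK x1 fun m4 r4 t4a t4b t4c t4d =>
  mulK m4 r4 t4a t4b t4c t4d m4 r4 t4a t4b t4c t4d fun x5 =>
  nrmK x3 fun m7 r7 t7a t7b t7c t7d =>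
  mulK m7 r7 t7a t7b t7c t7d m7 r7 t7a t7b t7c t7d fun x8 =>
  finK (Nat.add cOne (ng1 x5)) 73768961896328724480 0 fun x10 =>
  nrmK x2 fun m11 r11 t11a t11b t11c t11d =>
  mulK m11 r11 t11a t11b t11c t11d m11 r11 t11a t11b t11c t11d fun x12 =>
  nrmK x12 fun m13 r13 t13a t13b t13c t13d =>
  nrmK x10 fun m14 r14 t14a t14b t14c t14d =>
  mulK m13 r13 t13a t13b t13c t13d m14 r14 t14a t14b t14c t14d fun x15 =>
  frcK (Nat.add x8 x15) fun x16 =>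
  finK (Nat.add cOne (ngC 2 x16)) 73750947497819242496 0 fun x17 =>
  frcK (Nat.mul 2 x5) fun x19 =>
  finK (Nat.add cOne (ngC 2 x19)) 147555938191166930944 1 fun x20 =>
  finK (Nat.add (Nat.mul 2 x2) (ng1 cOne)) 147555938191166930944 1 fun x22 =>
  finK (Nat.add (Nat.mul 2 x17) (ng1 cOne)) 147555938191166930944 1 fun x24 =>
  mulK m4 r4 t4a t4b t4c t4d m11 r11 t11a t11b t11c t11d fun x26 =>
  finK (Nat.add (Nat.mul 2 cOne) (ng1 x17)) 73750947497819242496 0 fun x27 =>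
  nrmK x17 fun m28 r28 t28a t28b t28c t28d =>
  nrmK x27 fun m29 r29 t29a t29b t29c t29d =>
  mulK m28 r28 t28a t28b t28c t28d m29 r29 t29a t29b t29c t29d fun x30 =>
  nrmK x26 fun m31 r31 t31a t31b t31c t31d =>
  mulK m31 r31 t31a t31b t31c t31d m31 r31 t31a t31b t31c t31d fun x32 =>
  frcK (Nat.mul 14 x32) fun x33 =>
  finK (Nat.add (Nat.mul 5 x30) (ngC 14 x33)) 590097651975101349888 3 fun x34 =>
  nrmK x34 fun m35 r35 t35a t35b t35c t35d =>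
  mulcK m35 r35 t35a 628292358729 1 fun x36 =>
  k x5 x8 x20 x22 x24 x36

theorem sa0_s {e1 e2 e3 e4 e5 : ℝ} (he : Ev e1 e2 e3 e4 e5) (s z P r p : ℝ) (hr : r = 1 - s ^ 2) (hp : p = 1 - P ^ 2 - z ^ 2 * (1 - s ^ 2)) {x1 x2 x3 : ℕ} {k : ℕ → ℕ → ℕ → ℕ → ℕ → ℕ → Bool} {Q : Prop}
    (h1 : In e1 e2 e3 e4 e5 x1 (s))
    (h2 : In e1 e2 e3 e4 e5 x2 (z))
    (h3 : In e1 e2 e3 e4 e5 x3 (P))
    (hk : ∀ X0 X1 X2 X3 X4 X5, In e1 e2 e3 e4 e5 X0 (s ^ 2) → In e1 e2 e3 e4 e5 X1 (P ^ 2) → In e1 e2 e3 e4 e5 X2 (r - 1/2) → In e1 e2 e3 e4 e5 X3 (z - 1/2) → In e1 e2 e3 e4 e5 X4 (p - 1/2) → In e1 e2 e3 e4 e5 X5 (gF z p s) → k X0 X1 X2 X3 X4 X5 = true → Q)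
    (HH0 : sa0 x1 x2 x3 k = true) : Q := by
  unfold sa0 at HH0
  refine nrmK_s he h1 (fun _ _ _ _ _ _ n4 HH1 => ?_) HH0
  refine mulK_s he n4 n4 (fun _ h5 HH2 => ?_) HH1
  clear HH1
  have h6 := In_cast (w := s ^ 2) h5 (by ring)
  refine nrmK_s he h3 (fun _ _ _ _ _ _ n7 HH3 => ?_) HH2
  clear HH2
  refine mulK_s he n7 n7 (fun _ h8 HH4 => ?_) HH3
  clear HH3
  have h9 := In_cast (w := P ^ 2) h8 (by ring)
  refine finK_s he (aa (a1 (one_in he)) (ng1_s he h6)) (by decide +kernel) (fun _ h10 HH5 => ?_) HH4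
  clear HH4
  refine nrmK_s he h2 (fun _ _ _ _ _ _ n11 HH6 => ?_) HH5
  clear HH5
  refine mulK_s he n11 n11 (fun _ h12 HH7 => ?_) HH6
  clear HH6
  refine nrmK_s he h12 (fun _ _ _ _ _ _ n13 HH8 => ?_) HH7
  clear HH7
  refine nrmK_s he h10 (fun _ _ _ _ _ _ n14 HH9 => ?_) HH8
  clear HH8
  refine mulK_s he n13 n14 (fun _ h15 HH10 => ?_) HH9
  clear HH9
  refine frcK_s (aa (a1 h9) (a1 h15)) (fun _ h16 HH11 => ?_) HH10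
  clear HH10
  refine finK_s he (aa (a1 (one_in he)) (ngC_s he (C := 2) h16 (by decide +kernel) (by decide +kernel))) (by decide +kernel) (fun _ h17 HH12 => ?_) HH11
  clear HH11
  have h18 := In_cast (w := p) h17 (by rw [hp]; push_cast; ring)
  refine frcK_s (an 2 h6) (fun _ h19 HH13 => ?_) HH12
  clear HH12
  refine finK_s he (aa (a1 (one_in he)) (ngC_s he (C := 2) h19 (by decide +kernel) (by decide +kernel))) (by decide +kernel) (fun _ h20 HH14 => ?_) HH13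
  clear HH13
  have h21 := In_cast (w := r - 1/2) h20 (by rw [hr]; push_cast; ring)
  refine finK_s he (aa (an 2 h2) (ng1_s he (one_in he))) (by decide +kernel) (fun _ h22 HH15 => ?_) HH14
  clear HH14
  have h23 := In_cast (w := z - 1/2) h22 (by push_cast; ring)
  refine finK_s he (aa (an 2 h18) (ng1_s he (one_in he))) (by decide +kernel) (fun _ h24 HH16 => ?_) HH15
  clear HH15
  have h25 := In_cast (w := p - 1/2) h24 (by push_cast; ring)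
  refine mulK_s he n4 n11 (fun _ h26 HH17 => ?_) HH16
  clear HH16
  refine finK_s he (aa (an 2 (one_in he)) (ng1_s he h18)) (by decide +kernel) (fun _ h27 HH18 => ?_) HH17
  clear HH17
  refine nrmK_s he h18 (fun _ _ _ _ _ _ n28 HH19 => ?_) HH18
  clear HH18
  refine nrmK_s he h27 (fun _ _ _ _ _ _ n29 HH20 => ?_) HH19
  clear HH19
  refine mulK_s he n28 n29 (fun _ h30 HH21 => ?_) HH20
  clear HH20
  refine nrmK_s he h26 (fun _ _ _ _ _ _ n31 HH22 => ?_) HH21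
  clear HH21
  refine mulK_s he n31 n31 (fun _ h32 HH23 => ?_) HH22
  clear HH22
  refine frcK_s (an 14 h32) (fun _ h33 HH24 => ?_) HH23
  clear HH23
  refine finK_s he (aa (an 5 h30) (ngC_s he (C := 14) h33 (by decide +kernel) (by decide +kernel))) (by decide +kernel) (fun _ h34 HH25 => ?_) HH24
  clear HH24
  refine nrmK_s he h34 (fun _ _ _ _ _ _ n35 HH26 => ?_) HH25
  clear HH25
  refine mulcK_s he n35 (cst_nrm he 628292358729 (4/7:ℝ) (by norm_num [abs_le])) (fun _ h36 HH27 => ?_) HH26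
  clear HH26
  have h37 := In_cast (w := gF z p s) h36 (by unfold gF; push_cast; ring)
  exact hk _ _ _ _ _ _ h6 h9 h21 h23 h25 h37 HH27

attribute [irreducible] sa0

noncomputable def sa1 (x1 x2 x3 x4 : ℕ) (k : ℕ → ℕ → ℕ → ℕ → ℕ → ℕ → ℕ → ℕ → ℕ → ℕ → ℕ → ℕ → ℕ → ℕ → ℕ → ℕ → ℕ → ℕ → ℕ → ℕ → ℕ → ℕ → ℕ → ℕ → ℕ → ℕ → ℕ → ℕ → ℕ → ℕ → ℕ → ℕ → ℕ → ℕ → ℕ → ℕ → ℕ → ℕ → ℕ → ℕ → ℕ → ℕ → ℕ → ℕ → ℕ → ℕ → ℕ → ℕ → ℕ → ℕ → ℕ → ℕ → ℕ → ℕ → ℕ → ℕ → ℕ → ℕ → ℕ → ℕ → ℕ → ℕ → ℕ → ℕ → ℕ → ℕ → ℕ → ℕ → ℕ → ℕ → ℕ → ℕ → ℕ → ℕ → ℕ → ℕ → ℕ → ℕ → ℕ → ℕ → ℕ → ℕ → ℕ → ℕ → ℕ → ℕ → ℕ → ℕ → ℕ → ℕ → ℕ → ℕ → ℕ → ℕ → ℕ → ℕ → ℕ → ℕ → ℕ → ℕ → ℕ → ℕ → Bool) : Bool :=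
  nrmK x1 fun m5 r5 t5a t5b t5c t5d =>
  nrmK x3 fun m6 r6 t6a t6b t6c t6d =>
  mulK m5 r5 t5a t5b t5c t5d m6 r6 t6a t6b t6c t6d fun x7 =>
  mulK m6 r6 t6a t6b t6c t6d m6 r6 t6a t6b t6c t6d fun x9 =>
  nrmK x7 fun m11 r11 t11a t11b t11c t11d =>
  mulK m6 r6 t6a t6b t6c t6d m11 r11 t11a t11b t11c t11d fun x12 =>
  mulK m11 r11 t11a t11b t11c t11d m11 r11 t11a t11b t11c t11d fun x14 =>
  nrmK x2 fun m16 r16 t16a t16b t16c t16d =>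
  mulK m16 r16 t16a t16b t16c t16d m5 r5 t5a t5b t5c t5d fun x17 =>
  mulK m16 r16 t16a t16b t16c t16d m6 r6 t6a t6b t6c t6d fun x18 =>
  mulK m16 r16 t16a t16b t16c t16d m11 r11 t11a t11b t11c t11d fun x19 =>
  nrmK x9 fun m20 r20 t20a t20b t20c t20d =>
  mulK m16 r16 t16a t16b t16c t16d m20 r20 t20a t20b t20c t20d fun x21 =>
  nrmK x12 fun m22 r22 t22a t22b t22c t22d =>
  mulK m16 r16 t16a t16b t16c t16d m22 r22 t22a t22b t22c t22d fun x23 =>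
  nrmK x4 fun m24 r24 t24a t24b t24c t24d =>
  mulK m24 r24 t24a t24b t24c t24d m5 r5 t5a t5b t5c t5d fun x25 =>
  mulK m24 r24 t24a t24b t24c t24d m6 r6 t6a t6b t6c t6d fun x26 =>
  mulK m24 r24 t24a t24b t24c t24d m11 r11 t11a t11b t11c t11d fun x27 =>
  mulK m24 r24 t24a t24b t24c t24d m20 r20 t20a t20b t20c t20d fun x28 =>
  nrmK x14 fun m29 r29 t29a t29b t29c t29d =>
  nrmK x17 fun m30 r30 t30a t30b t30c t30d =>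
  nrmK x18 fun m31 r31 t31a t31b t31c t31d =>
  nrmK x19 fun m32 r32 t32a t32b t32c t32d =>
  nrmK x21 fun m33 r33 t33a t33b t33c t33d =>
  nrmK x23 fun m34 r34 t34a t34b t34c t34d =>
  nrmK x25 fun m35 r35 t35a t35b t35c t35d =>
  nrmK x26 fun m36 r36 t36a t36b t36c t36d =>
  nrmK x27 fun m37 r37 t37a t37b t37c t37d =>
  nrmK x28 fun m38 r38 t38a t38b t38c t38d =>
  k m5 r5 t5a t5b t5c t5d m6 r6 t6a t6b t6c t6d m11 r11 t11a t11b t11c t11d m20 r20 t20a t20b t20c t20d m22 r22 t22a t22b t22c t22d m29 r29 t29a t29b t29c t29d m16 r16 t16a t16b t16c t16d m30 r30 t30a t30b t30c t30d m31 r31 t31a t31b t31c t31d m32 r32 t32a t32b t32c t32d m33 r33 t33a t33b t33c t33d m34 r34 t34a t34b t34c t34d m24 r24 t24a t24b t24c t24d m35 r35 t35a t35b t35c t35d m36 r36 t36a t36b t36c t36d m37 r37 t37a t37b t37c t37d m38 r38 t38a t38b t38c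 t38d

theorem sa1_s {e1 e2 e3 e4 e5 : ℝ} (he : Ev e1 e2 e3 e4 e5) (s P : ℝ)  {x1 x2 x3 x4 : ℕ} {k : ℕ → ℕ → ℕ → ℕ → ℕ → ℕ → ℕ → ℕ → ℕ → ℕ → ℕ → ℕ → ℕ → ℕ → ℕ → ℕ → ℕ → ℕ → ℕ → ℕ → ℕ → ℕ → ℕ → ℕ → ℕ → ℕ → ℕ → ℕ → ℕ → ℕ → ℕ → ℕ → ℕ → ℕ → ℕ → ℕ → ℕ → ℕ → ℕ → ℕ → ℕ → ℕ → ℕ → ℕ → ℕ → ℕ → ℕ → ℕ → ℕ → ℕ → ℕ → ℕ → ℕ → ℕ → ℕ → ℕ → ℕ → ℕ → ℕ → ℕ → ℕ → ℕ → ℕ → ℕ → ℕ → ℕ → ℕ → ℕ → ℕ → ℕ → ℕ → ℕ → ℕ → ℕ → ℕ → ℕ → ℕ → ℕ → ℕ → ℕ → ℕ → ℕ → ℕ → ℕ → ℕ → ℕ → ℕ → ℕ → ℕ → ℕ → ℕ → ℕ → ℕ → ℕ → ℕ → ℕ → ℕ → ℕ → ℕ → ℕ → ℕ → ℕ → Bool} {Q : Prop}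
    (h1 : In e1 e2 e3 e4 e5 x1 (s))
    (h2 : In e1 e2 e3 e4 e5 x2 (P))
    (h3 : In e1 e2 e3 e4 e5 x3 (s ^ 2))
    (h4 : In e1 e2 e3 e4 e5 x4 (P ^ 2))
    (hk : ∀ M0 R0 A0 B0 C0 D0 M1 R1 A1 B1 C1 D1 M2 R2 A2 B2 C2 D2 M3 R3 A3 B3 C3 D3 M4 R4 A4 B4 C4 D4 M5 R5 A5 B5 C5 D5 M6 R6 A6 B6 C6 D6 M7 R7 A7 B7 C7 D7 M8 R8 A8 B8 C8 D8 M9 R9 A9 B9 C9 D9 M10 R10 A10 B10 C10 D10 M11 R11 A11 B11 C11 D11 M12 R12 A12 B12 C12 D12 M13 R13 A13 B13 C13 D13 M14 R14 A14 B14 C14 D14 M15 R15 A15 B15 C15 D15 M16 R16 A16 B16 C16 D16, Nrm e1 e2 e3 e4 e5 M0 R0 A0 B0 C0 D0 (s) → Nrm e1 e2 e3 e4 e5 M1 R1 A1 B1 C1 D1 (s ^ 2) → Nrm e1 e2 e3 e4 e5 M2 R2 A2 B2 C2 D2 (s ^ 3) → Nrm e1 e2 e3 e4 e5 M3 R3 A3 B3 C3 D3 (s ^ 4) → Nrm e1 e2 e3 e4 e5 M4 R4 A4 B4 C4 D4 (s ^ 5) → Nrm e1 e2 e3 e4 e5 M5 R5 A5 B5 C5 D5 (s ^ 6) → Nrm e1 e2 e3 e4 e5 M6 R6 A6 B6 C6 D6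 (P) → Nrm e1 e2 e3 e4 e5 M7 R7 A7 B7 C7 D7 (P * s) → Nrm e1 e2 e3 e4 e5 M8 R8 A8 B8 C8 D8 (P * s ^ 2) → Nrm e1 e2 e3 e4 e5 M9 R9 A9 B9 C9 D9 (P * s ^ 3) → Nrm e1 e2 e3 e4 e5 M10 R10 A10 B10 C10 D10 (P * s ^ 4) → Nrm e1 e2 e3 e4 e5 M11 R11 A11 B11 C11 D11 (P * s ^ 5) → Nrm e1 e2 e3 e4 e5 M12 R12 A12 B12 C12 D12 (P ^ 2) → Nrm e1 e2 e3 e4 e5 M13 R13 A13 B13 C13 D13 (P ^ 2 * s) → Nrm e1 e2 e3 e4 e5 M14 R14 A14 B14 C14 D14 (P ^ 2 * s ^ 2) → Nrm e1 e2 e3 e4 e5 M15 R15 A15 B15 C15 D15 (P ^ 2 * s ^ 3) → Nrm e1 e2 e3 e4 e5 M16 R16 A16 B16 C16 D16 (P ^ 2 * s ^ 4) → k M0 R0 A0 B0 C0 D0 M1 R1 A1 B1 C1 D1 M2 R2 A2 B2 C2 D2 M3 R3 A3 B3 C3 D3 M4 R4 A4 B4 C4 D4 M5 R5 A5 B5 C5 D5 M6 R6 A6 B6 C6 D6 M7 R7 A7 B7 C7 D7 M8 R8 A8 B8 C8 D8 M9 R9 A9 B9 C9 D9 M10 R10 A10 B10 C10 D10 M11 R11 A11 B11 C11 D11 M12 R12 A12 B12 C12 D12 M13 R13 A13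 B13 C13 D13 M14 R14 A14 B14 C14 D14 M15 R15 A15 B15 C15 D15 M16 R16 A16 B16 C16 D16 = true → Q)
    (HH0 : sa1 x1 x2 x3 x4 k = true) : Q := by
  unfold sa1 at HH0
  refine nrmK_s he h1 (fun _ _ _ _ _ _ n5 HH1 => ?_) HH0
  refine nrmK_s he h3 (fun _ _ _ _ _ _ n6 HH2 => ?_) HH1
  clear HH1
  refine mulK_s he n5 n6 (fun _ h7 HH3 => ?_) HH2
  clear HH2
  have h8 := In_cast (w := s ^ 3) h7 (by ring)
  refine mulK_s he n6 n6 (fun _ h9 HH4 => ?_) HH3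
  clear HH3
  have h10 := In_cast (w := s ^ 4) h9 (by ring)
  refine nrmK_s he h8 (fun _ _ _ _ _ _ n11 HH5 => ?_) HH4
  clear HH4
  refine mulK_s he n6 n11 (fun _ h12 HH6 => ?_) HH5
  clear HH5
  have h13 := In_cast (w := s ^ 5) h12 (by ring)
  refine mulK_s he n11 n11 (fun _ h14 HH7 => ?_) HH6
  clear HH6
  have h15 := In_cast (w := s ^ 6) h14 (by ring)
  refine nrmK_s he h2 (fun _ _ _ _ _ _ n16 HH8 => ?_) HH7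
  clear HH7
  refine mulK_s he n16 n5 (fun _ h17 HH9 => ?_) HH8
  clear HH8
  refine mulK_s he n16 n6 (fun _ h18 HH10 => ?_) HH9
  clear HH9
  refine mulK_s he n16 n11 (fun _ h19 HH11 => ?_) HH10
  clear HH10
  refine nrmK_s he h10 (fun _ _ _ _ _ _ n20 HH12 => ?_) HH11
  clear HH11
  refine mulK_s he n16 n20 (fun _ h21 HH13 => ?_) HH12
  clear HH12
  refine nrmK_s he h13 (fun _ _ _ _ _ _ n22 HH14 => ?_) HH13
  clear HH13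
  refine mulK_s he n16 n22 (fun _ h23 HH15 => ?_) HH14
  clear HH14
  refine nrmK_s he h4 (fun _ _ _ _ _ _ n24 HH16 => ?_) HH15
  clear HH15
  refine mulK_s he n24 n5 (fun _ h25 HH17 => ?_) HH16
  clear HH16
  refine mulK_s he n24 n6 (fun _ h26 HH18 => ?_) HH17
  clear HH17
  refine mulK_s he n24 n11 (fun _ h27 HH19 => ?_) HH18
  clear HH18
  refine mulK_s he n24 n20 (fun _ h28 HH20 => ?_) HH19
  clear HH19
  refine nrmK_s he h15 (fun _ _ _ _ _ _ n29 HH21 => ?_) HH20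
  clear HH20
  refine nrmK_s he h17 (fun _ _ _ _ _ _ n30 HH22 => ?_) HH21
  clear HH21
  refine nrmK_s he h18 (fun _ _ _ _ _ _ n31 HH23 => ?_) HH22
  clear HH22
  refine nrmK_s he h19 (fun _ _ _ _ _ _ n32 HH24 => ?_) HH23
  clear HH23
  refine nrmK_s he h21 (fun _ _ _ _ _ _ n33 HH25 => ?_) HH24
  clear HH24
  refine nrmK_s he h23 (fun _ _ _ _ _ _ n34 HH26 => ?_) HH25
  clear HH25
  refine nrmK_s he h25 (fun _ _ _ _ _ _ n35 HH27 => ?_) HH26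
  clear HH26
  refine nrmK_s he h26 (fun _ _ _ _ _ _ n36 HH28 => ?_) HH27
  clear HH27
  refine nrmK_s he h27 (fun _ _ _ _ _ _ n37 HH29 => ?_) HH28
  clear HH28
  refine nrmK_s he h28 (fun _ _ _ _ _ _ n38 HH30 => ?_) HH29
  clear HH29
  exact hk _ _ _ _ _ _ _ _ _ _ _ _ _ _ _ _ _ _ _ _ _ _ _ _ _ _ _ _ _ _ _ _ _ _ _ _ _ _ _ _ _ _ _ _ _ _ _ _ _ _ _ _ _ _ _ _ _ _ _ _ _ _ _ _ _ _ _ _ _ _ _ _ _ _ _ _ _ _ _ _ _ _ _ _ _ _ _ _ _ _ _ _ _ _ _ _ _ _ _ _ _ _ n5 n6 n11 n20 n22 n29 n16 n30 n31 n32 n33 n34 n24 n35 n36 n37 n38 HH30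

attribute [irreducible] sa1

noncomputable def sa2 (x1 x2 x3 : ℕ) (k : ℕ → ℕ → ℕ → ℕ → ℕ → ℕ → ℕ → ℕ → ℕ → ℕ → ℕ → ℕ → ℕ → ℕ → ℕ → ℕ → ℕ → ℕ → ℕ → ℕ → ℕ → ℕ → ℕ → ℕ → ℕ → ℕ → ℕ → ℕ → ℕ → ℕ → ℕ → ℕ → ℕ → ℕ → ℕ → ℕ → ℕ → ℕ → ℕ → ℕ → ℕ → ℕ → ℕ → ℕ → Bool) : Bool :=
  nrmK x3 fun m4 r4 t4a t4b t4c t4d =>
  mulK m4 r4 t4a t4b t4c t4d m4 r4 t4a t4b t4c t4d fun x5 =>
  nrmK x2 fun m7 r7 t7a t7b t7c t7d =>
  mulK m7 r7 t7a t7b t7c t7d m4 r4 t4a t4b t4c t4d fun x8 =>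
  mulK m7 r7 t7a t7b t7c t7d m7 r7 t7a t7b t7c t7d fun x9 =>
  nrmK x1 fun m11 r11 t11a t11b t11c t11d =>
  mulK m11 r11 t11a t11b t11c t11d m4 r4 t4a t4b t4c t4d fun x12 =>
  mulK m11 r11 t11a t11b t11c t11d m7 r7 t7a t7b t7c t7d fun x13 =>
  mulK m11 r11 t11a t11b t11c t11d m11 r11 t11a t11b t11c t11d fun x14 =>
  nrmK x5 fun m16 r16 t16a t16b t16c t16d =>
  mulK m4 r4 t4a t4b t4c t4d m16 r16 t16a t16b t16c t16d fun x17 =>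
  mulK m7 r7 t7a t7b t7c t7d m16 r16 t16a t16b t16c t16d fun x19 =>
  nrmK x9 fun m20 r20 t20a t20b t20c t20d =>
  mulK m20 r20 t20a t20b t20c t20d m4 r4 t4a t4b t4c t4d fun x21 =>
  mulK m7 r7 t7a t7b t7c t7d m20 r20 t20a t20b t20c t20d fun x22 =>
  mulK m11 r11 t11a t11b t11c t11d m16 r16 t16a t16b t16c t16d fun x24 =>
  nrmK x8 fun m25 r25 t25a t25b t25c t25d =>
  mulK m11 r11 t11a t11b t11c t11d m25 r25 t25a t25b t25c t25d fun x26 =>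
  mulK m11 r11 t11a t11b t11c t11d m20 r20 t20a t20b t20c t20d fun x28 =>
  nrmK x14 fun m29 r29 t29a t29b t29c t29d =>
  mulK m29 r29 t29a t29b t29c t29d m4 r4 t4a t4b t4c t4d fun x30 =>
  mulK m29 r29 t29a t29b t29c t29d m7 r7 t7a t7b t7c t7d fun x31 =>
  mulK m11 r11 t11a t11b t11c t11d m29 r29 t29a t29b t29c t29d fun x32 =>
  mulK m16 r16 t16a t16b t16c t16d m16 r16 t16a t16b t16c t16d fun x34 =>
  nrmK x17 fun m36 r36 t36a t36b t36c t36d =>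
  mulK m7 r7 t7a t7b t7c t7d m36 r36 t36a t36b t36c t36d fun x37 =>
  mulK m20 r20 t20a t20b t20c t20d m16 r16 t16a t16b t16c t16d fun x38 =>
  nrmK x22 fun m39 r39 t39a t39b t39c t39d =>
  mulK m39 r39 t39a t39b t39c t39d m4 r4 t4a t4b t4c t4d fun x40 =>
  mulK m20 r20 t20a t20b t20c t20d m20 r20 t20a t20b t20c t20d fun x41 =>
  mulK m11 r11 t11a t11b t11c t11d m36 r36 t36a t36b t36c t36d fun x43 =>
  nrmK x19 fun m44 r44 t44a t44b t44c t44d =>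
  mulK m11 r11 t11a t11b t11c t11d m44 r44 t44a t44b t44c t44d fun x45 =>
  nrmK x21 fun m47 r47 t47a t47b t47c t47d =>
  mulK m11 r11 t11a t11b t11c t11d m47 r47 t47a t47b t47c t47d fun x48 =>
  mulK m11 r11 t11a t11b t11c t11d m39 r39 t39a t39b t39c t39d fun x50 =>
  mulK m29 r29 t29a t29b t29c t29d m16 r16 t16a t16b t16c t16d fun x51 =>
  mulK m29 r29 t29a t29b t29c t29d m25 r25 t25a t25b t25c t25d fun x52 =>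
  mulK m29 r29 t29a t29b t29c t29d m20 r20 t20a t20b t20c t20d fun x54 =>
  nrmK x32 fun m55 r55 t55a t55b t55c t55d =>
  mulK m55 r55 t55a t55b t55c t55d m4 r4 t4a t4b t4c t4d fun x56 =>
  mulK m55 r55 t55a t55b t55c t55d m7 r7 t7a t7b t7c t7d fun x57 =>
  mulK m29 r29 t29a t29b t29c t29d m29 r29 t29a t29b t29c t29d fun x58 =>
  nrmK x37 fun m60 r60 t60a t60b t60c t60d =>
  mulK m11 r11 t11a t11b t11c t11d m60 r60 t60a t60b t60c t60d fun x61 =>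
  nrmK x38 fun m63 r63 t63a t63b t63c t63d =>
  mulK m11 r11 t11a t11b t11c t11d m63 r63 t63a t63b t63c t63d fun x64 =>
  nrmK x40 fun m66 r66 t66a t66b t66c t66d =>
  mulK m11 r11 t11a t11b t11c t11d m66 r66 t66a t66b t66c t66d fun x67 =>
  nrmK x41 fun m69 r69 t69a t69b t69c t69d =>
  mulK m11 r11 t11a t11b t11c t11d m69 r69 t69a t69b t69c t69d fun x70 =>
  mulK m29 r29 t29a t29b t29c t29d m44 r44 t44a t44b t44c t44d fun x71 =>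
  mulK m29 r29 t29a t29b t29c t29d m47 r47 t47a t47b t47c t47d fun x73 =>
  mulK m29 r29 t29a t29b t29c t29d m39 r39 t39a t39b t39c t39d fun x75 =>
  mulK m55 r55 t55a t55b t55c t55d m25 r25 t25a t25b t25c t25d fun x76 =>
  mulK m55 r55 t55a t55b t55c t55d m20 r20 t20a t20b t20c t20d fun x78 =>
  nrmK x58 fun m79 r79 t79a t79b t79c t79d =>
  mulK m79 r79 t79a t79b t79c t79d m7 r7 t7a t7b t7c t7d fun x80 =>
  k x3 x2 x1 x5 x8 x9 x12 x13 x14 x17 x19 x21 x22 x24 x26 x28 x30 x31 x32 x34 x37 x38 x40 x41 x43 x45 x48 x50 x51 x52 x54 x56 x57 x58 x61 x64 x67 x70 x71 x73 x75 x76 x78 x80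

theorem sa2_s {e1 e2 e3 e4 e5 : ℝ} (he : Ev e1 e2 e3 e4 e5) (x y z : ℝ)  {x1 x2 x3 : ℕ} {k : ℕ → ℕ → ℕ → ℕ → ℕ → ℕ → ℕ → ℕ → ℕ → ℕ → ℕ → ℕ → ℕ → ℕ → ℕ → ℕ → ℕ → ℕ → ℕ → ℕ → ℕ → ℕ → ℕ → ℕ → ℕ → ℕ → ℕ → ℕ → ℕ → ℕ → ℕ → ℕ → ℕ → ℕ → ℕ → ℕ → ℕ → ℕ → ℕ → ℕ → ℕ → ℕ → ℕ → ℕ → Bool} {Q : Prop}
    (h1 : In e1 e2 e3 e4 e5 x1 (x))
    (h2 : In e1 e2 e3 e4 e5 x2 (y))
    (h3 : In e1 e2 e3 e4 e5 x3 (z))
    (hk : ∀ X0 X1 X2 X3 X4 X5 X6 X7 X8 X9 X10 X11 X12 X13 X14 X15 X16 X17 X18 X19 X20 X21 X22 X23 X24 X25 X26 X27 X28 X29 X30 X31 X32 X33 X34 X35 X36 X37 X38 X39 X40 X41 X42 X43, In e1 e2 e3 e4 e5 X0 (z) → In e1 e2 e3 e4 e5 X1 (y) → In e1 e2 e3 e4 e5 X2 (x) → In e1 e2 e3 e4 e5 X3 (z ^ 2) → In e1 e2 e3 e4 e5 X4 (y * z) → In e1 e2 e3 e4 e5 X5 (y ^ 2) → In e1 e2 e3 e4 e5 X6 (x * z) → In e1 e2 e3 e4 e5 X7 (x * y) → In e1 e2 e3 e4 e5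 X8 (x ^ 2) → In e1 e2 e3 e4 e5 X9 (z ^ 3) → In e1 e2 e3 e4 e5 X10 (y * z ^ 2) → In e1 e2 e3 e4 e5 X11 (y ^ 2 * z) → In e1 e2 e3 e4 e5 X12 (y ^ 3) → In e1 e2 e3 e4 e5 X13 (x * z ^ 2) → In e1 e2 e3 e4 e5 X14 (x * y * z) → In e1 e2 e3 e4 e5 X15 (x * y ^ 2) → In e1 e2 e3 e4 e5 X16 (x ^ 2 * z) → In e1 e2 e3 e4 e5 X17 (x ^ 2 * y) → In e1 e2 e3 e4 e5 X18 (x ^ 3) → In e1 e2 e3 e4 e5 X19 (z ^ 4) → In e1 e2 e3 e4 e5 X20 (y * z ^ 3) → In e1 e2 e3 e4 e5 X21 (y ^ 2 * z ^ 2) → In e1 e2 e3 e4 e5 X22 (y ^ 3 * z) → In e1 e2 e3 e4 e5 X23 (y ^ 4) → In e1 e2 e3 e4 e5 X24 (x * z ^ 3) → In e1 e2 e3 e4 e5 X25 (x * y * z ^ 2) → In e1 e2 e3 e4 e5 X26 (x * y ^ 2 * z) → In e1 e2 e3 e4 e5 X27 (x * y ^ 3) → In e1 e2 e3 e4 e5 X28 (x ^ 2 * z ^ 2) → In e1 e2 e3 e4 e5 X29 (x ^ 2 * y * z) → In e1 e2 e3 e4 e5 X30 (x ^ 2 * y ^ 2) → In e1 e2 e3 e4 e5 X31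 (x ^ 3 * z) → In e1 e2 e3 e4 e5 X32 (x ^ 3 * y) → In e1 e2 e3 e4 e5 X33 (x ^ 4) → In e1 e2 e3 e4 e5 X34 (x * y * z ^ 3) → In e1 e2 e3 e4 e5 X35 (x * y ^ 2 * z ^ 2) → In e1 e2 e3 e4 e5 X36 (x * y ^ 3 * z) → In e1 e2 e3 e4 e5 X37 (x * y ^ 4) → In e1 e2 e3 e4 e5 X38 (x ^ 2 * y * z ^ 2) → In e1 e2 e3 e4 e5 X39 (x ^ 2 * y ^ 2 * z) → In e1 e2 e3 e4 e5 X40 (x ^ 2 * y ^ 3) → In e1 e2 e3 e4 e5 X41 (x ^ 3 * y * z) → In e1 e2 e3 e4 e5 X42 (x ^ 3 * y ^ 2) → In e1 e2 e3 e4 e5 X43 (x ^ 4 * y) → k X0 X1 X2 X3 X4 X5 X6 X7 X8 X9 X10 X11 X12 X13 X14 X15 X16 X17 X18 X19 X20 X21 X22 X23 X24 X25 X26 X27 X28 X29 X30 X31 X32 X33 X34 X35 X36 X37 X38 X39 X40 X41 X42 X43 = true → Q)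
    (HH0 : sa2 x1 x2 x3 k = true) : Q := by
  unfold sa2 at HH0
  refine nrmK_s he h3 (fun _ _ _ _ _ _ n4 HH1 => ?_) HH0
  refine mulK_s he n4 n4 (fun _ h5 HH2 => ?_) HH1
  clear HH1
  have h6 := In_cast (w := z ^ 2) h5 (by ring)
  refine nrmK_s he h2 (fun _ _ _ _ _ _ n7 HH3 => ?_) HH2
  clear HH2
  refine mulK_s he n7 n4 (fun _ h8 HH4 => ?_) HH3
  clear HH3
  refine mulK_s he n7 n7 (fun _ h9 HH5 => ?_) HH4
  clear HH4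
  have h10 := In_cast (w := y ^ 2) h9 (by ring)
  refine nrmK_s he h1 (fun _ _ _ _ _ _ n11 HH6 => ?_) HH5
  clear HH5
  refine mulK_s he n11 n4 (fun _ h12 HH7 => ?_) HH6
  clear HH6
  refine mulK_s he n11 n7 (fun _ h13 HH8 => ?_) HH7
  clear HH7
  refine mulK_s he n11 n11 (fun _ h14 HH9 => ?_) HH8
  clear HH8
  have h15 := In_cast (w := x ^ 2) h14 (by ring)
  refine nrmK_s he h6 (fun _ _ _ _ _ _ n16 HH10 => ?_) HH9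
  clear HH9
  refine mulK_s he n4 n16 (fun _ h17 HH11 => ?_) HH10
  clear HH10
  have h18 := In_cast (w := z ^ 3) h17 (by ring)
  refine mulK_s he n7 n16 (fun _ h19 HH12 => ?_) HH11
  clear HH11
  refine nrmK_s he h10 (fun _ _ _ _ _ _ n20 HH13 => ?_) HH12
  clear HH12
  refine mulK_s he n20 n4 (fun _ h21 HH14 => ?_) HH13
  clear HH13
  refine mulK_s he n7 n20 (fun _ h22 HH15 => ?_) HH14
  clear HH14
  have h23 := In_cast (w := y ^ 3) h22 (by ring)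
  refine mulK_s he n11 n16 (fun _ h24 HH16 => ?_) HH15
  clear HH15
  refine nrmK_s he h8 (fun _ _ _ _ _ _ n25 HH17 => ?_) HH16
  clear HH16
  refine mulK_s he n11 n25 (fun _ h26 HH18 => ?_) HH17
  clear HH17
  have h27 := In_cast (w := x * y * z) h26 (by ring)
  refine mulK_s he n11 n20 (fun _ h28 HH19 => ?_) HH18
  clear HH18
  refine nrmK_s he h15 (fun _ _ _ _ _ _ n29 HH20 => ?_) HH19
  clear HH19
  refine mulK_s he n29 n4 (fun _ h30 HH21 => ?_) HH20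
  clear HH20
  refine mulK_s he n29 n7 (fun _ h31 HH22 => ?_) HH21
  clear HH21
  refine mulK_s he n11 n29 (fun _ h32 HH23 => ?_) HH22
  clear HH22
  have h33 := In_cast (w := x ^ 3) h32 (by ring)
  refine mulK_s he n16 n16 (fun _ h34 HH24 => ?_) HH23
  clear HH23
  have h35 := In_cast (w := z ^ 4) h34 (by ring)
  refine nrmK_s he h18 (fun _ _ _ _ _ _ n36 HH25 => ?_) HH24
  clear HH24
  refine mulK_s he n7 n36 (fun _ h37 HH26 => ?_) HH25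
  clear HH25
  refine mulK_s he n20 n16 (fun _ h38 HH27 => ?_) HH26
  clear HH26
  refine nrmK_s he h23 (fun _ _ _ _ _ _ n39 HH28 => ?_) HH27
  clear HH27
  refine mulK_s he n39 n4 (fun _ h40 HH29 => ?_) HH28
  clear HH28
  refine mulK_s he n20 n20 (fun _ h41 HH30 => ?_) HH29
  clear HH29
  have h42 := In_cast (w := y ^ 4) h41 (by ring)
  refine mulK_s he n11 n36 (fun _ h43 HH31 => ?_) HH30
  clear HH30
  refine nrmK_s he h19 (fun _ _ _ _ _ _ n44 HH32 => ?_) HH31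
  clear HH31
  refine mulK_s he n11 n44 (fun _ h45 HH33 => ?_) HH32
  clear HH32
  have h46 := In_cast (w := x * y * z ^ 2) h45 (by ring)
  refine nrmK_s he h21 (fun _ _ _ _ _ _ n47 HH34 => ?_) HH33
  clear HH33
  refine mulK_s he n11 n47 (fun _ h48 HH35 => ?_) HH34
  clear HH34
  have h49 := In_cast (w := x * y ^ 2 * z) h48 (by ring)
  refine mulK_s he n11 n39 (fun _ h50 HH36 => ?_) HH35
  clear HH35
  refine mulK_s he n29 n16 (fun _ h51 HH37 => ?_) HH36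
  clear HH36
  refine mulK_s he n29 n25 (fun _ h52 HH38 => ?_) HH37
  clear HH37
  have h53 := In_cast (w := x ^ 2 * y * z) h52 (by ring)
  refine mulK_s he n29 n20 (fun _ h54 HH39 => ?_) HH38
  clear HH38
  refine nrmK_s he h33 (fun _ _ _ _ _ _ n55 HH40 => ?_) HH39
  clear HH39
  refine mulK_s he n55 n4 (fun _ h56 HH41 => ?_) HH40
  clear HH40
  refine mulK_s he n55 n7 (fun _ h57 HH42 => ?_) HH41
  clear HH41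
  refine mulK_s he n29 n29 (fun _ h58 HH43 => ?_) HH42
  clear HH42
  have h59 := In_cast (w := x ^ 4) h58 (by ring)
  refine nrmK_s he h37 (fun _ _ _ _ _ _ n60 HH44 => ?_) HH43
  clear HH43
  refine mulK_s he n11 n60 (fun _ h61 HH45 => ?_) HH44
  clear HH44
  have h62 := In_cast (w := x * y * z ^ 3) h61 (by ring)
  refine nrmK_s he h38 (fun _ _ _ _ _ _ n63 HH46 => ?_) HH45
  clear HH45
  refine mulK_s he n11 n63 (fun _ h64 HH47 => ?_) HH46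
  clear HH46
  have h65 := In_cast (w := x * y ^ 2 * z ^ 2) h64 (by ring)
  refine nrmK_s he h40 (fun _ _ _ _ _ _ n66 HH48 => ?_) HH47
  clear HH47
  refine mulK_s he n11 n66 (fun _ h67 HH49 => ?_) HH48
  clear HH48
  have h68 := In_cast (w := x * y ^ 3 * z) h67 (by ring)
  refine nrmK_s he h42 (fun _ _ _ _ _ _ n69 HH50 => ?_) HH49
  clear HH49
  refine mulK_s he n11 n69 (fun _ h70 HH51 => ?_) HH50
  clear HH50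
  refine mulK_s he n29 n44 (fun _ h71 HH52 => ?_) HH51
  clear HH51
  have h72 := In_cast (w := x ^ 2 * y * z ^ 2) h71 (by ring)
  refine mulK_s he n29 n47 (fun _ h73 HH53 => ?_) HH52
  clear HH52
  have h74 := In_cast (w := x ^ 2 * y ^ 2 * z) h73 (by ring)
  refine mulK_s he n29 n39 (fun _ h75 HH54 => ?_) HH53
  clear HH53
  refine mulK_s he n55 n25 (fun _ h76 HH55 => ?_) HH54
  clear HH54
  have h77 := In_cast (w := x ^ 3 * y * z) h76 (by ring)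
  refine mulK_s he n55 n20 (fun _ h78 HH56 => ?_) HH55
  clear HH55
  refine nrmK_s he h59 (fun _ _ _ _ _ _ n79 HH57 => ?_) HH56
  clear HH56
  refine mulK_s he n79 n7 (fun _ h80 HH58 => ?_) HH57
  clear HH57
  exact hk _ _ _ _ _ _ _ _ _ _ _ _ _ _ _ _ _ _ _ _ _ _ _ _ _ _ _ _ _ _ _ _ _ _ _ _ _ _ _ _ _ _ _ _ h3 h2 h1 h6 h8 h10 h12 h13 h15 h18 h19 h21 h23 h24 h27 h28 h30 h31 h33 h35 h37 h38 h40 h42 h43 h46 h49 h50 h51 h53 h54 h56 h57 h59 h62 h65 h68 h70 h72 h74 h75 h77 h78 h80 HH58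

attribute [irreducible] sa2

noncomputable def tK0K (x1 x2 x3 x4 x5 x6 x7 x8 x9 x10 x11 x12 x13 x14 x15 x16 x17 x18 x19 : ℕ) (k : ℕ → ℕ → ℕ → ℕ → ℕ → ℕ → ℕ → Bool) : Bool :=
  frcK (Nat.add (Nat.add (Nat.mul 22412 x2) (Nat.mul 194232 x6)) (Nat.mul 83040 x12)) fun x20 =>
  finK (Nat.add (Nat.add (Nat.add (Nat.add (Nat.add (Nat.add (Nat.add (Nat.add (Nat.add (Nat.add (Nat.add (Nat.add (Nat.add (Nat.add (Nat.add (Nat.add (Nat.add (Nat.mul 119930 x1) (Nat.mul 60288 x3)) (Nat.mul 239384 x4)) (Nat.mul 153792 x5)) (Nat.mul 291076 x7)) (Nat.mul 174824 x8)) (Nat.mul 167624 x9)) (Nat.mul 140032 x10)) (Nat.mul 218024 x11)) (Nat.mul 144864 x13)) (Nat.mul 240000 x14)) (Nat.mul 22120 x15)) (Nat.mul 72964 x16)) (Nat.mul 120000 x17)) (Nat.mul 35696 x18)) (Nat.mul 76744 x19)) (Nat.mul 153391 cOne)) (ngC 299684 x20)) 4787696689856199650181120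 16 fun x21 =>
  nrmK x21 fun m22 r22 t22a t22b t22c t22d =>
  mulcK m22 r22 t22a 900719925474 1 fun x23 =>
  nrmK x23 fun m26 r26 t26a t26b t26c t26d =>
  k x23 m26 r26 t26a t26b t26c t26d

theorem tK0K_s {e1 e2 e3 e4 e5 : ℝ} (he : Ev e1 e2 e3 e4 e5) (r z p s P : ℝ)  {x1 x2 x3 x4 x5 x6 x7 x8 x9 x10 x11 x12 x13 x14 x15 x16 x17 x18 x19 : ℕ} {k : ℕ → ℕ → ℕ → ℕ → ℕ → ℕ → ℕ → Bool} {Q : Prop}
    (h1 : In e1 e2 e3 e4 e5 x1 ((p - 1/2)))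
    (h2 : In e1 e2 e3 e4 e5 x2 ((p - 1/2) ^ 2))
    (h3 : In e1 e2 e3 e4 e5 x3 ((p - 1/2) ^ 3))
    (h4 : In e1 e2 e3 e4 e5 x4 ((z - 1/2)))
    (h5 : In e1 e2 e3 e4 e5 x5 ((z - 1/2) * (p - 1/2)))
    (h6 : In e1 e2 e3 e4 e5 x6 ((z - 1/2) * (p - 1/2) ^ 2))
    (h7 : In e1 e2 e3 e4 e5 x7 ((z - 1/2) ^ 2))
    (h8 : In e1 e2 e3 e4 e5 x8 ((z - 1/2) ^ 2 * (p - 1/2)))
    (h9 : In e1 e2 e3 e4 e5 x9 ((z - 1/2) ^ 3))
    (h10 : In e1 e2 e3 e4 e5 x10 ((r - 1/2)))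
    (h11 : In e1 e2 e3 e4 e5 x11 ((r - 1/2) * (p - 1/2)))
    (h12 : In e1 e2 e3 e4 e5 x12 ((r - 1/2) * (p - 1/2) ^ 2))
    (h13 : In e1 e2 e3 e4 e5 x13 ((r - 1/2) * (z - 1/2)))
    (h14 : In e1 e2 e3 e4 e5 x14 ((r - 1/2) * (z - 1/2) * (p - 1/2)))
    (h15 : In e1 e2 e3 e4 e5 x15 ((r - 1/2) * (z - 1/2) ^ 2))
    (h16 : In e1 e2 e3 e4 e5 x16 ((r - 1/2) ^ 2))
    (h17 : In e1 e2 e3 e4 e5 x17 ((r - 1/2) ^ 2 * (p - 1/2)))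
    (h18 : In e1 e2 e3 e4 e5 x18 ((r - 1/2) ^ 2 * (z - 1/2)))
    (h19 : In e1 e2 e3 e4 e5 x19 ((r - 1/2) ^ 3))
    (hk : ∀ X0 M0 R0 A0 B0 C0 D0, In e1 e2 e3 e4 e5 X0 (tK0 r z p s P) → Nrm e1 e2 e3 e4 e5 M0 R0 A0 B0 C0 D0 (tK0 r z p s P) → k X0 M0 R0 A0 B0 C0 D0 = true → Q)
    (HH0 : tK0K x1 x2 x3 x4 x5 x6 x7 x8 x9 x10 x11 x12 x13 x14 x15 x16 x17 x18 x19 k = true) : Q := by
  unfold tK0K at HH0
  refine frcK_s (aa (aa (an 22412 h2) (an 194232 h6)) (an 83040 h12)) (fun _ h20 HH1 => ?_) HH0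
  refine finK_s he (aa (aa (aa (aa (aa (aa (aa (aa (aa (aa (aa (aa (aa (aa (aa (aa (aa (an 119930 h1) (an 60288 h3)) (an 239384 h4)) (an 153792 h5)) (an 291076 h7)) (an 174824 h8)) (an 167624 h9)) (an 140032 h10)) (an 218024 h11)) (an 144864 h13)) (an 240000 h14)) (an 22120 h15)) (an 72964 h16)) (an 120000 h17)) (an 35696 h18)) (an 76744 h19)) (an 153391 (one_in he))) (ngC_s he (C := 299684) h20 (by decide +kernel) (by decide +kernel))) (by decide +kernel) (fun _ h21 HH2 => ?_) HH1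
  clear HH1
  refine nrmK_s he h21 (fun _ _ _ _ _ _ n22 HH3 => ?_) HH2
  clear HH2
  refine mulcK_s he n22 (cst_nrm he 900719925474 (512/625:ℝ) (by norm_num [abs_le])) (fun _ h23 HH4 => ?_) HH3
  clear HH3
  have h24 := In_cast (w := CW1.K_000 r z p) h23 (by unfold CW1.K_000; push_cast; ring)
  have h25 := In_cast (w := tK0 r z p s P) h24 (by unfold tK0; push_cast; ring)
  refine nrmK_s he h25 (fun _ _ _ _ _ _ n26 HH5 => ?_) HH4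
  clear HH4
  exact hk _ _ _ _ _ _ _ h25 n26 HH5

attribute [irreducible] tK0K

noncomputable def tK1K (x1 x2 x3 x4 x5 x6 x7 x8 x9 m10 r10 t10a t10b t10c t10d : ℕ) (k : ℕ → ℕ → ℕ → ℕ → ℕ → ℕ → Bool) : Bool :=
  frcK (Nat.add (Nat.add (Nat.add (Nat.add (Nat.mul 13960 x3) (Nat.mul 11750 x4)) (Nat.mul 12791 x6)) (Nat.mul 28122 x8)) (Nat.mul 15395 cOne)) fun x11 =>
  finK (Nat.add (Nat.add (Nat.add (Nat.add (Nat.add (Nat.mul 8515 x1) (Nat.mul 1988 x2)) (Nat.mul 6778 x5)) (Nat.mul 16360 x7)) (Nat.mul 2174 x9)) (ngC 82018 x11)) 1207098276900240736911360 14 fun x12 =>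
  nrmK x12 fun m13 r13 t13a t13b t13c t13d =>
  mulcK m13 r13 t13a 900719925474 1 fun x14 =>
  nrmK x14 fun m16 r16 t16a t16b t16c t16d =>
  mulK m16 r16 t16a t16b t16c t16d m10 r10 t10a t10b t10c t10d fun x17 =>
  nrmK x17 fun m19 r19 t19a t19b t19c t19d =>
  k m19 r19 t19a t19b t19c t19d

theorem tK1K_s {e1 e2 e3 e4 e5 : ℝ} (he : Ev e1 e2 e3 e4 e5) (r z p s P : ℝ)  {x1 x2 x3 x4 x5 x6 x7 x8 x9 m10 r10 t10a t10b t10c t10d : ℕ} {k : ℕ → ℕ → ℕ → ℕ → ℕ → ℕ → Bool} {Q : Prop}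
    (h1 : In e1 e2 e3 e4 e5 x1 ((p - 1/2)))
    (h2 : In e1 e2 e3 e4 e5 x2 ((p - 1/2) ^ 2))
    (h3 : In e1 e2 e3 e4 e5 x3 ((z - 1/2)))
    (h4 : In e1 e2 e3 e4 e5 x4 ((z - 1/2) * (p - 1/2)))
    (h5 : In e1 e2 e3 e4 e5 x5 ((z - 1/2) ^ 2))
    (h6 : In e1 e2 e3 e4 e5 x6 ((r - 1/2)))
    (h7 : In e1 e2 e3 e4 e5 x7 ((r - 1/2) * (p - 1/2)))
    (h8 : In e1 e2 e3 e4 e5 x8 ((r - 1/2) * (z - 1/2)))
    (h9 : In e1 e2 e3 e4 e5 x9 ((r - 1/2) ^ 2))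
    (n10 : Nrm e1 e2 e3 e4 e5 m10 r10 t10a t10b t10c t10d (s ^ 3))
    (hk : ∀ M0 R0 A0 B0 C0 D0, Nrm e1 e2 e3 e4 e5 M0 R0 A0 B0 C0 D0 (tK1 r z p s P) → k M0 R0 A0 B0 C0 D0 = true → Q)
    (HH0 : tK1K x1 x2 x3 x4 x5 x6 x7 x8 x9 m10 r10 t10a t10b t10c t10d k = true) : Q := by
  unfold tK1K at HH0
  refine frcK_s (aa (aa (aa (aa (an 13960 h3) (an 11750 h4)) (an 12791 h6)) (an 28122 h8)) (an 15395 (one_in he))) (fun _ h11 HH1 => ?_) HH0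
  refine finK_s he (aa (aa (aa (aa (aa (an 8515 h1) (an 1988 h2)) (an 6778 h5)) (an 16360 h7)) (an 2174 h9)) (ngC_s he (C := 82018) h11 (by decide +kernel) (by decide +kernel))) (by decide +kernel) (fun _ h12 HH2 => ?_) HH1
  clear HH1
  refine nrmK_s he h12 (fun _ _ _ _ _ _ n13 HH3 => ?_) HH2
  clear HH2
  refine mulcK_s he n13 (cst_nrm he 900719925474 (512/625:ℝ) (by norm_num [abs_le])) (fun _ h14 HH4 => ?_) HH3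
  clear HH3
  have h15 := In_cast (w := CW1.K_310 r z p) h14 (by unfold CW1.K_310; push_cast; ring)
  refine nrmK_s he h15 (fun _ _ _ _ _ _ n16 HH5 => ?_) HH4
  clear HH4
  refine mulK_s he n16 n10 (fun _ h17 HH6 => ?_) HH5
  clear HH5
  have h18 := In_cast (w := tK1 r z p s P) h17 (by unfold tK1; push_cast; ring)
  refine nrmK_s he h18 (fun _ _ _ _ _ _ n19 HH7 => ?_) HH6
  clear HH6
  exact hk _ _ _ _ _ _ n19 HH7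

attribute [irreducible] tK1K

noncomputable def tD0K (x1 x2 x3 x4 x5 x6 x7 x8 x9 x10 x11 x12 x13 x14 x15 x16 x17 x18 x19 m20 r20 t20a t20b t20c t20d : ℕ) (k : ℕ → ℕ → ℕ → ℕ → ℕ → ℕ → Bool) : Bool :=
  frcK (Nat.add (Nat.add (Nat.add (Nat.add (Nat.mul 86878 x7) (Nat.mul 72964 x8)) (Nat.mul 16608 x9)) (Nat.mul 3808 x12)) (Nat.mul 37056 x17)) fun x21 =>
  finK (Nat.add (Nat.add (Nat.add (Nat.add (Nat.add (Nat.add (Nat.add (Nat.add (Nat.add (Nat.add (Nat.add (Nat.add (Nat.add (Nat.add (Nat.add (Nat.mul 79725 x1) (Nat.mul 8152 x2)) (Nat.mul 25928 x3)) (Nat.mul 5656 x4)) (Nat.mul 86428 x5)) (Nat.mul 25792 x6)) (Nat.mul 46677 x10)) (Nat.mul 32740 x11)) (Nat.mul 86872 x13)) (Nat.mul 27208 x14)) (Nat.mul 2104 x15)) (Nat.mul 40230 x16)) (Nat.mul 40784 x18)) (Nat.mul 17300 x19)) (Nat.mul 24812 cOne)) (ngC 217314 x21)) 2404611884987120527343616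 15 fun x22 =>
  nrmK x22 fun m23 r23 t23a t23b t23c t23d =>
  mulcK m23 r23 t23a 900719925474 1 fun x24 =>
  nrmK x24 fun m26 r26 t26a t26b t26c t26d =>
  mulK m26 r26 t26a t26b t26c t26d m20 r20 t20a t20b t20c t20d fun x27 =>
  nrmK x27 fun m29 r29 t29a t29b t29c t29d =>
  k m29 r29 t29a t29b t29c t29d

theorem tD0K_s {e1 e2 e3 e4 e5 : ℝ} (he : Ev e1 e2 e3 e4 e5) (r z p s P : ℝ)  {x1 x2 x3 x4 x5 x6 x7 x8 x9 x10 x11 x12 x13 x14 x15 x16 x17 x18 x19 m20 r20 t20a t20b t20c t20d : ℕ} {k : ℕ → ℕ → ℕ → ℕ → ℕ → ℕ → Bool} {Q : Prop}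
    (h1 : In e1 e2 e3 e4 e5 x1 ((p - 1/2)))
    (h2 : In e1 e2 e3 e4 e5 x2 ((p - 1/2) ^ 2))
    (h3 : In e1 e2 e3 e4 e5 x3 ((p - 1/2) ^ 3))
    (h4 : In e1 e2 e3 e4 e5 x4 ((z - 1/2)))
    (h5 : In e1 e2 e3 e4 e5 x5 ((z - 1/2) * (p - 1/2)))
    (h6 : In e1 e2 e3 e4 e5 x6 ((z - 1/2) * (p - 1/2) ^ 2))
    (h7 : In e1 e2 e3 e4 e5 x7 ((z - 1/2) ^ 2))
    (h8 : In e1 e2 e3 e4 e5 x8 ((z - 1/2) ^ 2 * (p - 1/2)))
    (h9 : In e1 e2 e3 e4 e5 x9 ((z - 1/2) ^ 3))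
    (h10 : In e1 e2 e3 e4 e5 x10 ((r - 1/2)))
    (h11 : In e1 e2 e3 e4 e5 x11 ((r - 1/2) * (p - 1/2)))
    (h12 : In e1 e2 e3 e4 e5 x12 ((r - 1/2) * (p - 1/2) ^ 2))
    (h13 : In e1 e2 e3 e4 e5 x13 ((r - 1/2) * (z - 1/2)))
    (h14 : In e1 e2 e3 e4 e5 x14 ((r - 1/2) * (z - 1/2) * (p - 1/2)))
    (h15 : In e1 e2 e3 e4 e5 x15 ((r - 1/2) * (z - 1/2) ^ 2))
    (h16 : In e1 e2 e3 e4 e5 x16 ((r - 1/2) ^ 2))
    (h17 : In e1 e2 e3 e4 e5 x17 ((r - 1/2) ^ 2 * (p - 1/2)))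
    (h18 : In e1 e2 e3 e4 e5 x18 ((r - 1/2) ^ 2 * (z - 1/2)))
    (h19 : In e1 e2 e3 e4 e5 x19 ((r - 1/2) ^ 3))
    (n20 : Nrm e1 e2 e3 e4 e5 m20 r20 t20a t20b t20c t20d (s))
    (hk : ∀ M0 R0 A0 B0 C0 D0, Nrm e1 e2 e3 e4 e5 M0 R0 A0 B0 C0 D0 (tD0 r z p s P) → k M0 R0 A0 B0 C0 D0 = true → Q)
    (HH0 : tD0K x1 x2 x3 x4 x5 x6 x7 x8 x9 x10 x11 x12 x13 x14 x15 x16 x17 x18 x19 m20 r20 t20a t20b t20c t20d k = true) : Q := by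
  unfold tD0K at HH0
  refine frcK_s (aa (aa (aa (aa (an 86878 h7) (an 72964 h8)) (an 16608 h9)) (an 3808 h12)) (an 37056 h17)) (fun _ h21 HH1 => ?_) HH0
  refine finK_s he (aa (aa (aa (aa (aa (aa (aa (aa (aa (aa (aa (aa (aa (aa (aa (an 79725 h1) (an 8152 h2)) (an 25928 h3)) (an 5656 h4)) (an 86428 h5)) (an 25792 h6)) (an 46677 h10)) (an 32740 h11)) (an 86872 h13)) (an 27208 h14)) (an 2104 h15)) (an 40230 h16)) (an 40784 h18)) (an 17300 h19)) (an 24812 (one_in he))) (ngC_s he (C := 217314) h21 (by decide +kernel) (by decide +kernel))) (by decide +kernel) (fun _ h22 HH2 => ?_) HH1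
  clear HH1
  refine nrmK_s he h22 (fun _ _ _ _ _ _ n23 HH3 => ?_) HH2
  clear HH2
  refine mulcK_s he n23 (cst_nrm he 900719925474 (512/625:ℝ) (by norm_num [abs_le])) (fun _ h24 HH4 => ?_) HH3
  clear HH3
  have h25 := In_cast (w := CW1.D_000 r z p) h24 (by unfold CW1.D_000; push_cast; ring)
  refine nrmK_s he h25 (fun _ _ _ _ _ _ n26 HH5 => ?_) HH4
  clear HH4
  refine mulK_s he n26 n20 (fun _ h27 HH6 => ?_) HH5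
  clear HH5
  have h28 := In_cast (w := tD0 r z p s P) h27 (by unfold tD0; push_cast; ring)
  refine nrmK_s he h28 (fun _ _ _ _ _ _ n29 HH7 => ?_) HH6
  clear HH6
  exact hk _ _ _ _ _ _ n29 HH7

attribute [irreducible] tD0K

noncomputable def tD1K (x1 x2 x3 x4 x5 x6 x7 x8 x9 m10 r10 t10a t10b t10c t10d : ℕ) (k : ℕ → ℕ → ℕ → ℕ → ℕ → ℕ → Bool) : Bool :=
  frcK (Nat.add (Nat.mul 8802 x2) (Nat.mul 20972 x5)) fun x11 =>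
  finK (Nat.add (Nat.add (Nat.add (Nat.add (Nat.add (Nat.add (Nat.add (Nat.add (Nat.mul 3002 x1) (Nat.mul 2034 x3)) (Nat.mul 25658 x4)) (Nat.mul 9474 x6)) (Nat.mul 7210 x7)) (Nat.mul 18898 x8)) (Nat.mul 7968 x9)) (Nat.mul 8139 cOne)) (ngC 29774 x11)) 1207200526626180556652544 14 fun x12 =>
  nrmK x12 fun m13 r13 t13a t13b t13c t13d =>
  mulcK m13 r13 t13a 900719925474 1 fun x14 =>
  nrmK x14 fun m16 r16 t16a t16b t16c t16d =>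
  mulK m16 r16 t16a t16b t16c t16d m10 r10 t10a t10b t10c t10d fun x17 =>
  nrmK x17 fun m19 r19 t19a t19b t19c t19d =>
  k m19 r19 t19a t19b t19c t19d

theorem tD1K_s {e1 e2 e3 e4 e5 : ℝ} (he : Ev e1 e2 e3 e4 e5) (r z p s P : ℝ)  {x1 x2 x3 x4 x5 x6 x7 x8 x9 m10 r10 t10a t10b t10c t10d : ℕ} {k : ℕ → ℕ → ℕ → ℕ → ℕ → ℕ → Bool} {Q : Prop}
    (h1 : In e1 e2 e3 e4 e5 x1 ((p - 1/2)))
    (h2 : In e1 e2 e3 e4 e5 x2 ((p - 1/2) ^ 2))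
    (h3 : In e1 e2 e3 e4 e5 x3 ((z - 1/2)))
    (h4 : In e1 e2 e3 e4 e5 x4 ((z - 1/2) * (p - 1/2)))
    (h5 : In e1 e2 e3 e4 e5 x5 ((z - 1/2) ^ 2))
    (h6 : In e1 e2 e3 e4 e5 x6 ((r - 1/2)))
    (h7 : In e1 e2 e3 e4 e5 x7 ((r - 1/2) * (p - 1/2)))
    (h8 : In e1 e2 e3 e4 e5 x8 ((r - 1/2) * (z - 1/2)))
    (h9 : In e1 e2 e3 e4 e5 x9 ((r - 1/2) ^ 2))
    (n10 : Nrm e1 e2 e3 e4 e5 m10 r10 t10a t10b t10c t10d (s ^ 4))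
    (hk : ∀ M0 R0 A0 B0 C0 D0, Nrm e1 e2 e3 e4 e5 M0 R0 A0 B0 C0 D0 (tD1 r z p s P) → k M0 R0 A0 B0 C0 D0 = true → Q)
    (HH0 : tD1K x1 x2 x3 x4 x5 x6 x7 x8 x9 m10 r10 t10a t10b t10c t10d k = true) : Q := by
  unfold tD1K at HH0
  refine frcK_s (aa (an 8802 h2) (an 20972 h5)) (fun _ h11 HH1 => ?_) HH0
  refine finK_s he (aa (aa (aa (aa (aa (aa (aa (aa (an 3002 h1) (an 2034 h3)) (an 25658 h4)) (an 9474 h6)) (an 7210 h7)) (an 18898 h8)) (an 7968 h9)) (an 8139 (one_in he))) (ngC_s he (C := 29774) h11 (by decide +kernel) (by decide +kernel))) (by decide +kernel) (fun _ h12 HH2 => ?_) HH1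
  clear HH1
  refine nrmK_s he h12 (fun _ _ _ _ _ _ n13 HH3 => ?_) HH2
  clear HH2
  refine mulcK_s he n13 (cst_nrm he 900719925474 (512/625:ℝ) (by norm_num [abs_le])) (fun _ h14 HH4 => ?_) HH3
  clear HH3
  have h15 := In_cast (w := CW1.D_310 r z p) h14 (by unfold CW1.D_310; push_cast; ring)
  refine nrmK_s he h15 (fun _ _ _ _ _ _ n16 HH5 => ?_) HH4
  clear HH4
  refine mulK_s he n16 n10 (fun _ h17 HH6 => ?_) HH5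
  clear HH5
  have h18 := In_cast (w := tD1 r z p s P) h17 (by unfold tD1; push_cast; ring)
  refine nrmK_s he h18 (fun _ _ _ _ _ _ n19 HH7 => ?_) HH6
  clear HH6
  exact hk _ _ _ _ _ _ n19 HH7

attribute [irreducible] tD1K

noncomputable def tF0K (x1 x2 x3 x4 x5 x6 x7 x8 x9 x10 x11 x12 x13 x14 x15 x16 x17 x18 x19 : ℕ) (k : ℕ → Bool) : Bool :=
  frcK (Nat.add (Nat.add (Nat.add (Nat.add (Nat.add (Nat.add (Nat.add (Nat.add (Nat.mul 16969 x1) (Nat.mul 30024 x2)) (Nat.mul 112796 x5)) (Nat.mul 97296 x6)) (Nat.mul 49388 x8)) (Nat.mul 30176 x12)) (Nat.mul 43848 x13)) (Nat.mul 88416 x14)) (Nat.mul 192 x15)) fun x20 =>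
  finK (Nat.add (Nat.add (Nat.add (Nat.add (Nat.add (Nat.add (Nat.add (Nat.add (Nat.add (Nat.add (Nat.add (Nat.mul 28640 x3) (Nat.mul 6293 x4)) (Nat.mul 74254 x7)) (Nat.mul 94064 x9)) (Nat.mul 7122 x10)) (Nat.mul 19640 x11)) (Nat.mul 44746 x16)) (Nat.mul 34024 x17)) (Nat.mul 22500 x18)) (Nat.mul 40504 x19)) (Nat.mul 44513 cOne)) (ngC 469105 x20)) 2402491896527329159020544 15 fun x21 =>
  nrmK x21 fun m22 r22 t22a t22b t22c t22d =>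
  mulcK m22 r22 t22a 900719925474 1 fun x23 =>
  k x23

theorem tF0K_s {e1 e2 e3 e4 e5 : ℝ} (he : Ev e1 e2 e3 e4 e5) (r z p s P : ℝ)  {x1 x2 x3 x4 x5 x6 x7 x8 x9 x10 x11 x12 x13 x14 x15 x16 x17 x18 x19 : ℕ} {k : ℕ → Bool} {Q : Prop}
    (h1 : In e1 e2 e3 e4 e5 x1 ((p - 1/2)))
    (h2 : In e1 e2 e3 e4 e5 x2 ((p - 1/2) ^ 2))
    (h3 : In e1 e2 e3 e4 e5 x3 ((p - 1/2) ^ 3))
    (h4 : In e1 e2 e3 e4 e5 x4 ((z - 1/2)))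
    (h5 : In e1 e2 e3 e4 e5 x5 ((z - 1/2) * (p - 1/2)))
    (h6 : In e1 e2 e3 e4 e5 x6 ((z - 1/2) * (p - 1/2) ^ 2))
    (h7 : In e1 e2 e3 e4 e5 x7 ((z - 1/2) ^ 2))
    (h8 : In e1 e2 e3 e4 e5 x8 ((z - 1/2) ^ 2 * (p - 1/2)))
    (h9 : In e1 e2 e3 e4 e5 x9 ((z - 1/2) ^ 3))
    (h10 : In e1 e2 e3 e4 e5 x10 ((r - 1/2)))
    (h11 : In e1 e2 e3 e4 e5 x11 ((r - 1/2) * (p - 1/2)))
    (h12 : In e1 e2 e3 e4 e5 x12 ((r - 1/2) * (p - 1/2) ^ 2))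
    (h13 : In e1 e2 e3 e4 e5 x13 ((r - 1/2) * (z - 1/2)))
    (h14 : In e1 e2 e3 e4 e5 x14 ((r - 1/2) * (z - 1/2) * (p - 1/2)))
    (h15 : In e1 e2 e3 e4 e5 x15 ((r - 1/2) * (z - 1/2) ^ 2))
    (h16 : In e1 e2 e3 e4 e5 x16 ((r - 1/2) ^ 2))
    (h17 : In e1 e2 e3 e4 e5 x17 ((r - 1/2) ^ 2 * (p - 1/2)))
    (h18 : In e1 e2 e3 e4 e5 x18 ((r - 1/2) ^ 2 * (z - 1/2)))
    (h19 : In e1 e2 e3 e4 e5 x19 ((r - 1/2) ^ 3))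
    (hk : ∀ X0, In e1 e2 e3 e4 e5 X0 (tF0 r z p s P) → k X0 = true → Q)
    (HH0 : tF0K x1 x2 x3 x4 x5 x6 x7 x8 x9 x10 x11 x12 x13 x14 x15 x16 x17 x18 x19 k = true) : Q := by
  unfold tF0K at HH0
  refine frcK_s (aa (aa (aa (aa (aa (aa (aa (aa (an 16969 h1) (an 30024 h2)) (an 112796 h5)) (an 97296 h6)) (an 49388 h8)) (an 30176 h12)) (an 43848 h13)) (an 88416 h14)) (an 192 h15)) (fun _ h20 HH1 => ?_) HH0
  refine finK_s he (aa (aa (aa (aa (aa (aa (aa (aa (aa (aa (aa (an 28640 h3) (an 6293 h4)) (an 74254 h7)) (an 94064 h9)) (an 7122 h10)) (an 19640 h11)) (an 44746 h16)) (an 34024 h17)) (an 22500 h18)) (an 40504 h19)) (an 44513 (one_in he))) (ngC_s he (C := 469105) h20 (by decide +kernel) (by decide +kernel))) (by decide +kernel) (fun _ h21 HH2 => ?_) HH1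
  clear HH1
  refine nrmK_s he h21 (fun _ _ _ _ _ _ n22 HH3 => ?_) HH2
  clear HH2
  refine mulcK_s he n22 (cst_nrm he 900719925474 (512/625:ℝ) (by norm_num [abs_le])) (fun _ h23 HH4 => ?_) HH3
  clear HH3
  have h24 := In_cast (w := CW1.F_000 r z p) h23 (by unfold CW1.F_000; push_cast; ring)
  have h25 := In_cast (w := tF0 r z p s P) h24 (by unfold tF0; push_cast; ring)
  exact hk _ h25 HH4

attribute [irreducible] tF0K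

noncomputable def tF1K (x1 x2 x3 x4 x5 x6 x7 x8 x9 m10 r10 t10a t10b t10c t10d : ℕ) (k : ℕ → ℕ → ℕ → ℕ → ℕ → ℕ → Bool) : Bool :=
  frcK (Nat.add (Nat.add (Nat.add (Nat.mul 7808 x2) (Nat.mul 15825 x3)) (Nat.mul 35642 x5)) (Nat.mul 11778 cOne)) fun x11 =>
  finK (Nat.add (Nat.add (Nat.add (Nat.add (Nat.add (Nat.add (Nat.mul 43339 x1) (Nat.mul 31386 x4)) (Nat.mul 1260 x6)) (Nat.mul 45528 x7)) (Nat.mul 4872 x8)) (Nat.mul 13196 x9)) (ngC 71053 x11)) 1205426522704162299314176 14 fun x12 =>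
  nrmK x12 fun m13 r13 t13a t13b t13c t13d =>
  mulcK m13 r13 t13a 900719925474 1 fun x14 =>
  nrmK x14 fun m16 r16 t16a t16b t16c t16d =>
  mulK m16 r16 t16a t16b t16c t16d m10 r10 t10a t10b t10c t10d fun x17 =>
  nrmK x17 fun m19 r19 t19a t19b t19c t19d =>
  k m19 r19 t19a t19b t19c t19d

theorem tF1K_s {e1 e2 e3 e4 e5 : ℝ} (he : Ev e1 e2 e3 e4 e5) (r z p s P : ℝ)  {x1 x2 x3 x4 x5 x6 x7 x8 x9 m10 r10 t10a t10b t10c t10d : ℕ} {k : ℕ → ℕ → ℕ → ℕ → ℕ → ℕ → Bool} {Q : Prop}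
    (h1 : In e1 e2 e3 e4 e5 x1 ((p - 1/2)))
    (h2 : In e1 e2 e3 e4 e5 x2 ((p - 1/2) ^ 2))
    (h3 : In e1 e2 e3 e4 e5 x3 ((z - 1/2)))
    (h4 : In e1 e2 e3 e4 e5 x4 ((z - 1/2) * (p - 1/2)))
    (h5 : In e1 e2 e3 e4 e5 x5 ((z - 1/2) ^ 2))
    (h6 : In e1 e2 e3 e4 e5 x6 ((r - 1/2)))
    (h7 : In e1 e2 e3 e4 e5 x7 ((r - 1/2) * (p - 1/2)))
    (h8 : In e1 e2 e3 e4 e5 x8 ((r - 1/2) * (z - 1/2)))
    (h9 : In e1 e2 e3 e4 e5 x9 ((r - 1/2) ^ 2))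
    (n10 : Nrm e1 e2 e3 e4 e5 m10 r10 t10a t10b t10c t10d (s ^ 3))
    (hk : ∀ M0 R0 A0 B0 C0 D0, Nrm e1 e2 e3 e4 e5 M0 R0 A0 B0 C0 D0 (tF1 r z p s P) → k M0 R0 A0 B0 C0 D0 = true → Q)
    (HH0 : tF1K x1 x2 x3 x4 x5 x6 x7 x8 x9 m10 r10 t10a t10b t10c t10d k = true) : Q := by
  unfold tF1K at HH0
  refine frcK_s (aa (aa (aa (an 7808 h2) (an 15825 h3)) (an 35642 h5)) (an 11778 (one_in he))) (fun _ h11 HH1 => ?_) HH0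
  refine finK_s he (aa (aa (aa (aa (aa (aa (an 43339 h1) (an 31386 h4)) (an 1260 h6)) (an 45528 h7)) (an 4872 h8)) (an 13196 h9)) (ngC_s he (C := 71053) h11 (by decide +kernel) (by decide +kernel))) (by decide +kernel) (fun _ h12 HH2 => ?_) HH1
  clear HH1
  refine nrmK_s he h12 (fun _ _ _ _ _ _ n13 HH3 => ?_) HH2
  clear HH2
  refine mulcK_s he n13 (cst_nrm he 900719925474 (512/625:ℝ) (by norm_num [abs_le])) (fun _ h14 HH4 => ?_) HH3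
  clear HH3
  have h15 := In_cast (w := CW1.F_310 r z p) h14 (by unfold CW1.F_310; push_cast; ring)
  refine nrmK_s he h15 (fun _ _ _ _ _ _ n16 HH5 => ?_) HH4
  clear HH4
  refine mulK_s he n16 n10 (fun _ h17 HH6 => ?_) HH5
  clear HH5
  have h18 := In_cast (w := tF1 r z p s P) h17 (by unfold tF1; push_cast; ring)
  refine nrmK_s he h18 (fun _ _ _ _ _ _ n19 HH7 => ?_) HH6
  clear HH6
  exact hk _ _ _ _ _ _ n19 HH7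

attribute [irreducible] tF1K

noncomputable def tG0K (x1 x2 x3 x4 x5 x6 x7 x8 x9 x10 x11 x12 x13 x14 x15 x16 x17 x18 x19 x20 x21 x22 x23 x24 x25 x26 x27 x28 : ℕ) (k : ℕ → ℕ → ℕ → ℕ → ℕ → ℕ → Bool) : Bool :=
  frcK (Nat.add (Nat.add (Nat.add (Nat.add (Nat.add (Nat.add (Nat.add (Nat.add (Nat.add (Nat.add (Nat.add (Nat.add (Nat.add (Nat.add (Nat.mul 253890 x1) (Nat.mul 217088 x2)) (Nat.mul 824312 x5)) (Nat.mul 778368 x6)) (Nat.mul 493880 x8)) (Nat.mul 14634 x10)) (Nat.mul 106560 x12)) (Nat.mul 738184 x14)) (Nat.mul 863320 x16)) (Nat.mul 509776 x15)) (Nat.mul 752512 x18)) (Nat.mul 362112 x21)) (Nat.mul 170016 x22)) (Nat.mul 707328 x23)) (Nat.mul 768 x24)) fun x29 =>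
  finK (Nat.add (Nat.add (Nat.add (Nat.add (Nat.add (Nat.add (Nat.add (Nat.add (Nat.add (Nat.add (Nat.add (Nat.add (Nat.add (Nat.add (Nat.mul 171840 x3) (Nat.mul 286548 x4)) (Nat.mul 1025116 x7)) (Nat.mul 1128768 x9)) (Nat.mul 51044 x11)) (Nat.mul 114560 x13)) (Nat.mul 197552 x17)) (Nat.mul 221112 x19)) (Nat.mul 616656 x20)) (Nat.mul 1092944 x25)) (Nat.mul 680480 x26)) (Nat.mul 360000 x27)) (Nat.mul 1134112 x28)) (Nat.mul 259127 cOne)) (ngC 6792748 x29)) 19092945065841041787060224 18 fun x30 =>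
  nrmK x30 fun m31 r31 t31a t31b t31c t31d =>
  mulcK m31 r31 t31a 900719925474 1 fun x32 =>
  nrmK x32 fun m35 r35 t35a t35b t35c t35d =>
  k m35 r35 t35a t35b t35c t35d

theorem tG0K_s {e1 e2 e3 e4 e5 : ℝ} (he : Ev e1 e2 e3 e4 e5) (r z p s P : ℝ)  {x1 x2 x3 x4 x5 x6 x7 x8 x9 x10 x11 x12 x13 x14 x15 x16 x17 x18 x19 x20 x21 x22 x23 x24 x25 x26 x27 x28 : ℕ} {k : ℕ → ℕ → ℕ → ℕ → ℕ → ℕ → Bool} {Q : Prop}
    (h1 : In e1 e2 e3 e4 e5 x1 ((p - 1/2)))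
    (h2 : In e1 e2 e3 e4 e5 x2 ((p - 1/2) ^ 2))
    (h3 : In e1 e2 e3 e4 e5 x3 ((p - 1/2) ^ 3))
    (h4 : In e1 e2 e3 e4 e5 x4 ((z - 1/2)))
    (h5 : In e1 e2 e3 e4 e5 x5 ((z - 1/2) * (p - 1/2)))
    (h6 : In e1 e2 e3 e4 e5 x6 ((z - 1/2) * (p - 1/2) ^ 2))
    (h7 : In e1 e2 e3 e4 e5 x7 ((z - 1/2) ^ 2))
    (h8 : In e1 e2 e3 e4 e5 x8 ((z - 1/2) ^ 2 * (p - 1/2)))
    (h9 : In e1 e2 e3 e4 e5 x9 ((z - 1/2) ^ 3))
    (h10 : In e1 e2 e3 e4 e5 x10 ((r - 1/2)))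
    (h11 : In e1 e2 e3 e4 e5 x11 ((r - 1/2) * (p - 1/2)))
    (h12 : In e1 e2 e3 e4 e5 x12 ((r - 1/2) * (p - 1/2) ^ 2))
    (h13 : In e1 e2 e3 e4 e5 x13 ((r - 1/2) * (p - 1/2) ^ 3))
    (h14 : In e1 e2 e3 e4 e5 x14 ((r - 1/2) * (z - 1/2)))
    (h15 : In e1 e2 e3 e4 e5 x15 ((r - 1/2) * (z - 1/2) * (p - 1/2)))
    (h16 : In e1 e2 e3 e4 e5 x16 ((r - 1/2) * (z - 1/2) ^ 2))
    (h17 : In e1 e2 e3 e4 e5 x17 ((r - 1/2) * (z - 1/2) ^ 2 * (p - 1/2)))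
    (h18 : In e1 e2 e3 e4 e5 x18 ((r - 1/2) * (z - 1/2) ^ 3))
    (h19 : In e1 e2 e3 e4 e5 x19 ((r - 1/2) ^ 2))
    (h20 : In e1 e2 e3 e4 e5 x20 ((r - 1/2) ^ 2 * (p - 1/2)))
    (h21 : In e1 e2 e3 e4 e5 x21 ((r - 1/2) ^ 2 * (p - 1/2) ^ 2))
    (h22 : In e1 e2 e3 e4 e5 x22 ((r - 1/2) ^ 2 * (z - 1/2)))
    (h23 : In e1 e2 e3 e4 e5 x23 ((r - 1/2) ^ 2 * (z - 1/2) * (p - 1/2)))
    (h24 : In e1 e2 e3 e4 e5 x24 ((r - 1/2) ^ 2 * (z - 1/2) ^ 2))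
    (h25 : In e1 e2 e3 e4 e5 x25 ((r - 1/2) ^ 3))
    (h26 : In e1 e2 e3 e4 e5 x26 ((r - 1/2) ^ 3 * (p - 1/2)))
    (h27 : In e1 e2 e3 e4 e5 x27 ((r - 1/2) ^ 3 * (z - 1/2)))
    (h28 : In e1 e2 e3 e4 e5 x28 ((r - 1/2) ^ 4))
    (hk : ∀ M0 R0 A0 B0 C0 D0, Nrm e1 e2 e3 e4 e5 M0 R0 A0 B0 C0 D0 (tG0 r z p s P) → k M0 R0 A0 B0 C0 D0 = true → Q)
    (HH0 : tG0K x1 x2 x3 x4 x5 x6 x7 x8 x9 x10 x11 x12 x13 x14 x15 x16 x17 x18 x19 x20 x21 x22 x23 x24 x25 x26 x27 x28 k = true) : Q := by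
  unfold tG0K at HH0
  refine frcK_s (aa (aa (aa (aa (aa (aa (aa (aa (aa (aa (aa (aa (aa (aa (an 253890 h1) (an 217088 h2)) (an 824312 h5)) (an 778368 h6)) (an 493880 h8)) (an 14634 h10)) (an 106560 h12)) (an 738184 h14)) (an 863320 h16)) (an 509776 h15)) (an 752512 h18)) (an 362112 h21)) (an 170016 h22)) (an 707328 h23)) (an 768 h24)) (fun _ h29 HH1 => ?_) HH0
  refine finK_s he (aa (aa (aa (aa (aa (aa (aa (aa (aa (aa (aa (aa (aa (aa (an 171840 h3) (an 286548 h4)) (an 1025116 h7)) (an 1128768 h9)) (an 51044 h11)) (an 114560 h13)) (an 197552 h17)) (an 221112 h19)) (an 616656 h20)) (an 1092944 h25)) (an 680480 h26)) (an 360000 h27)) (an 1134112 h28)) (an 259127 (one_in he))) (ngC_s he (C := 6792748) h29 (by decide +kernel) (by decide +kernel))) (by decide +kernel) (fun _ h30 HH2 => ?_) HH1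
  clear HH1
  refine nrmK_s he h30 (fun _ _ _ _ _ _ n31 HH3 => ?_) HH2
  clear HH2
  refine mulcK_s he n31 (cst_nrm he 900719925474 (512/625:ℝ) (by norm_num [abs_le])) (fun _ h32 HH4 => ?_) HH3
  clear HH3
  have h33 := In_cast (w := CW1.g1_000 r z p) h32 (by unfold CW1.g1_000; push_cast; ring)
  have h34 := In_cast (w := tG0 r z p s P) h33 (by unfold tG0; push_cast; ring)
  refine nrmK_s he h34 (fun _ _ _ _ _ _ n35 HH5 => ?_) HH4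
  clear HH4
  exact hk _ _ _ _ _ _ n35 HH5

attribute [irreducible] tG0K

noncomputable def tG1K (x1 x2 x3 x4 x5 x6 x7 x8 x9 x10 x11 x12 x13 x14 m15 r15 t15a t15b t15c t15d : ℕ) (k : ℕ → ℕ → ℕ → ℕ → ℕ → ℕ → Bool) : Bool :=
  frcK (Nat.add (Nat.add (Nat.add (Nat.add (Nat.add (Nat.add (Nat.add (Nat.mul 59670 x1) (Nat.mul 112678 x2)) (Nat.mul 204710 x5)) (Nat.mul 124928 x7)) (Nat.mul 37588 x8)) (Nat.mul 142568 x4)) (Nat.mul 285136 x10)) (Nat.mul 18345 cOne)) fun x16 =>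
  finK (Nat.add (Nat.add (Nat.add (Nat.add (Nat.add (Nat.add (Nat.add (Nat.mul 62772 x3) (Nat.mul 630652 x6)) (Nat.mul 376632 x9)) (Nat.mul 20496 x11)) (Nat.mul 1092672 x12)) (Nat.mul 97440 x13)) (Nat.mul 422272 x14)) (ngC 985623 x16)) 9607320568406731862835200 17 fun x17 =>
  nrmK x17 fun m18 r18 t18a t18b t18c t18d =>
  mulcK m18 r18 t18a 900719925474 1 fun x19 =>
  nrmK x19 fun m21 r21 t21a t21b t21c t21d =>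
  mulK m21 r21 t21a t21b t21c t21d m15 r15 t15a t15b t15c t15d fun x22 =>
  nrmK x22 fun m24 r24 t24a t24b t24c t24d =>
  k m24 r24 t24a t24b t24c t24d

theorem tG1K_s {e1 e2 e3 e4 e5 : ℝ} (he : Ev e1 e2 e3 e4 e5) (r z p s P : ℝ)  {x1 x2 x3 x4 x5 x6 x7 x8 x9 x10 x11 x12 x13 x14 m15 r15 t15a t15b t15c t15d : ℕ} {k : ℕ → ℕ → ℕ → ℕ → ℕ → ℕ → Bool} {Q : Prop}
    (h1 : In e1 e2 e3 e4 e5 x1 ((p - 1/2)))
    (h2 : In e1 e2 e3 e4 e5 x2 ((z - 1/2)))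
    (h3 : In e1 e2 e3 e4 e5 x3 ((z - 1/2) * (p - 1/2)))
    (h4 : In e1 e2 e3 e4 e5 x4 ((z - 1/2) ^ 2))
    (h5 : In e1 e2 e3 e4 e5 x5 ((r - 1/2)))
    (h6 : In e1 e2 e3 e4 e5 x6 ((r - 1/2) * (p - 1/2)))
    (h7 : In e1 e2 e3 e4 e5 x7 ((r - 1/2) * (p - 1/2) ^ 2))
    (h8 : In e1 e2 e3 e4 e5 x8 ((r - 1/2) * (z - 1/2)))
    (h9 : In e1 e2 e3 e4 e5 x9 ((r - 1/2) * (z - 1/2) * (p - 1/2)))
    (h10 : In e1 e2 e3 e4 e5 x10 ((r - 1/2) * (z - 1/2) ^ 2))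
    (h11 : In e1 e2 e3 e4 e5 x11 ((r - 1/2) ^ 2))
    (h12 : In e1 e2 e3 e4 e5 x12 ((r - 1/2) ^ 2 * (p - 1/2)))
    (h13 : In e1 e2 e3 e4 e5 x13 ((r - 1/2) ^ 2 * (z - 1/2)))
    (h14 : In e1 e2 e3 e4 e5 x14 ((r - 1/2) ^ 3))
    (n15 : Nrm e1 e2 e3 e4 e5 m15 r15 t15a t15b t15c t15d (s ^ 3))
    (hk : ∀ M0 R0 A0 B0 C0 D0, Nrm e1 e2 e3 e4 e5 M0 R0 A0 B0 C0 D0 (tG1 r z p s P) → k M0 R0 A0 B0 C0 D0 = true → Q)
    (HH0 : tG1K x1 x2 x3 x4 x5 x6 x7 x8 x9 x10 x11 x12 x13 x14 m15 r15 t15a t15b t15c t15d k = true) : Q := by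
  unfold tG1K at HH0
  refine frcK_s (aa (aa (aa (aa (aa (aa (aa (an 59670 h1) (an 112678 h2)) (an 204710 h5)) (an 124928 h7)) (an 37588 h8)) (an 142568 h4)) (an 285136 h10)) (an 18345 (one_in he))) (fun _ h16 HH1 => ?_) HH0
  refine finK_s he (aa (aa (aa (aa (aa (aa (aa (an 62772 h3) (an 630652 h6)) (an 376632 h9)) (an 20496 h11)) (an 1092672 h12)) (an 97440 h13)) (an 422272 h14)) (ngC_s he (C := 985623) h16 (by decide +kernel) (by decide +kernel))) (by decide +kernel) (fun _ h17 HH2 => ?_) HH1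
  clear HH1
  refine nrmK_s he h17 (fun _ _ _ _ _ _ n18 HH3 => ?_) HH2
  clear HH2
  refine mulcK_s he n18 (cst_nrm he 900719925474 (512/625:ℝ) (by norm_num [abs_le])) (fun _ h19 HH4 => ?_) HH3
  clear HH3
  have h20 := In_cast (w := CW1.g1_310 r z p) h19 (by unfold CW1.g1_310; push_cast; ring)
  refine nrmK_s he h20 (fun _ _ _ _ _ _ n21 HH5 => ?_) HH4
  clear HH4
  refine mulK_s he n21 n15 (fun _ h22 HH6 => ?_) HH5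
  clear HH5
  have h23 := In_cast (w := tG1 r z p s P) h22 (by unfold tG1; push_cast; ring)
  refine nrmK_s he h23 (fun _ _ _ _ _ _ n24 HH7 => ?_) HH6
  clear HH6
  exact hk _ _ _ _ _ _ n24 HH7

attribute [irreducible] tG1K

noncomputable def tG2K (x1 x2 x3 x4 x5 x6 x7 x8 x9 x10 x11 x12 x13 x14 x15 m16 r16 t16a t16b t16c t16d : ℕ) (k : ℕ → ℕ → ℕ → ℕ → ℕ → ℕ → Bool) : Bool :=
  frcK (Nat.add (Nat.add (Nat.add (Nat.add (Nat.add (Nat.add (Nat.add (Nat.add (Nat.mul 23424 x2) (Nat.mul 47475 x3)) (Nat.mul 106926 x5)) (Nat.mul 123450 x7)) (Nat.mul 188316 x10)) (Nat.mul 273168 x13)) (Nat.mul 29232 x14)) (Nat.mul 79176 x15)) (Nat.mul 35334 cOne)) fun x17 =>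
  finK (Nat.add (Nat.add (Nat.add (Nat.add (Nat.add (Nat.add (Nat.add (Nat.mul 130017 x1) (Nat.mul 94158 x4)) (Nat.mul 74448 x6)) (Nat.mul 46848 x8)) (Nat.mul 109566 x9)) (Nat.mul 213852 x11)) (Nat.mul 32028 x12)) (ngC 906501 x17)) 4807927201655919598370816 16 fun x18 =>
  nrmK x18 fun m19 r19 t19a t19b t19c t19d =>
  mulcK m19 r19 t19a 900719925474 1 fun x20 =>
  nrmK x20 fun m22 r22 t22a t22b t22c t22d =>
  mulK m22 r22 t22a t22b t22c t22d m16 r16 t16a t16b t16c t16d fun x23 =>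
  nrmK x23 fun m25 r25 t25a t25b t25c t25d =>
  k m25 r25 t25a t25b t25c t25d

theorem tG2K_s {e1 e2 e3 e4 e5 : ℝ} (he : Ev e1 e2 e3 e4 e5) (r z p s P : ℝ)  {x1 x2 x3 x4 x5 x6 x7 x8 x9 x10 x11 x12 x13 x14 x15 m16 r16 t16a t16b t16c t16d : ℕ} {k : ℕ → ℕ → ℕ → ℕ → ℕ → ℕ → Bool} {Q : Prop}
    (h1 : In e1 e2 e3 e4 e5 x1 ((p - 1/2)))
    (h2 : In e1 e2 e3 e4 e5 x2 ((p - 1/2) ^ 2))
    (h3 : In e1 e2 e3 e4 e5 x3 ((z - 1/2)))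
    (h4 : In e1 e2 e3 e4 e5 x4 ((z - 1/2) * (p - 1/2)))
    (h5 : In e1 e2 e3 e4 e5 x5 ((z - 1/2) ^ 2))
    (h6 : In e1 e2 e3 e4 e5 x6 ((r - 1/2)))
    (h7 : In e1 e2 e3 e4 e5 x7 ((r - 1/2) * (p - 1/2)))
    (h8 : In e1 e2 e3 e4 e5 x8 ((r - 1/2) * (p - 1/2) ^ 2))
    (h9 : In e1 e2 e3 e4 e5 x9 ((r - 1/2) * (z - 1/2)))
    (h10 : In e1 e2 e3 e4 e5 x10 ((r - 1/2) * (z - 1/2) * (p - 1/2)))
    (h11 : In e1 e2 e3 e4 e5 x11 ((r - 1/2) * (z - 1/2) ^ 2))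
    (h12 : In e1 e2 e3 e4 e5 x12 ((r - 1/2) ^ 2))
    (h13 : In e1 e2 e3 e4 e5 x13 ((r - 1/2) ^ 2 * (p - 1/2)))
    (h14 : In e1 e2 e3 e4 e5 x14 ((r - 1/2) ^ 2 * (z - 1/2)))
    (h15 : In e1 e2 e3 e4 e5 x15 ((r - 1/2) ^ 3))
    (n16 : Nrm e1 e2 e3 e4 e5 m16 r16 t16a t16b t16c t16d (s))
    (hk : ∀ M0 R0 A0 B0 C0 D0, Nrm e1 e2 e3 e4 e5 M0 R0 A0 B0 C0 D0 (tG2 r z p s P) → k M0 R0 A0 B0 C0 D0 = true → Q)
    (HH0 : tG2K x1 x2 x3 x4 x5 x6 x7 x8 x9 x10 x11 x12 x13 x14 x15 m16 r16 t16a t16b t16c t16d k = true) : Q := by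
  unfold tG2K at HH0
  refine frcK_s (aa (aa (aa (aa (aa (aa (aa (aa (an 23424 h2) (an 47475 h3)) (an 106926 h5)) (an 123450 h7)) (an 188316 h10)) (an 273168 h13)) (an 29232 h14)) (an 79176 h15)) (an 35334 (one_in he))) (fun _ h17 HH1 => ?_) HH0
  refine finK_s he (aa (aa (aa (aa (aa (aa (aa (an 130017 h1) (an 94158 h4)) (an 74448 h6)) (an 46848 h8)) (an 109566 h9)) (an 213852 h11)) (an 32028 h12)) (ngC_s he (C := 906501) h17 (by decide +kernel) (by decide +kernel))) (by decide +kernel) (fun _ h18 HH2 => ?_) HH1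
  clear HH1
  refine nrmK_s he h18 (fun _ _ _ _ _ _ n19 HH3 => ?_) HH2
  clear HH2
  refine mulcK_s he n19 (cst_nrm he 900719925474 (512/625:ℝ) (by norm_num [abs_le])) (fun _ h20 HH4 => ?_) HH3
  clear HH3
  have h21 := In_cast (w := CW1.g2_100 r z p) h20 (by unfold CW1.g2_100; push_cast; ring)
  refine nrmK_s he h21 (fun _ _ _ _ _ _ n22 HH5 => ?_) HH4
  clear HH4
  refine mulK_s he n22 n16 (fun _ h23 HH6 => ?_) HH5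
  clear HH5
  have h24 := In_cast (w := tG2 r z p s P) h23 (by unfold tG2; push_cast; ring)
  refine nrmK_s he h24 (fun _ _ _ _ _ _ n25 HH7 => ?_) HH6
  clear HH6
  exact hk _ _ _ _ _ _ n25 HH7

attribute [irreducible] tG2K

noncomputable def tH0K (x1 x2 x3 x4 x5 x6 x7 x8 x9 m10 r10 t10a t10b t10c t10d : ℕ) (k : ℕ → Bool) : Bool :=
  frcK (Nat.add (Nat.add (Nat.add (Nat.add (Nat.add (Nat.mul 112796 x1) (Nat.mul 97296 x2)) (Nat.mul 98776 x4)) (Nat.mul 43848 x6)) (Nat.mul 88416 x7)) (Nat.mul 384 x8)) fun x11 =>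
  finK (Nat.add (Nat.add (Nat.add (Nat.add (Nat.mul 148508 x3) (Nat.mul 282192 x5)) (Nat.mul 22500 x9)) (Nat.mul 6293 cOne)) (ngC 441516 x11)) 4820652734892604257206272 16 fun x12 =>
  nrmK x12 fun m13 r13 t13a t13b t13c t13d =>
  mulcK m13 r13 t13a 900719925474 1 fun x14 =>
  nrmK x14 fun m16 r16 t16a t16b t16c t16d =>
  mulK m16 r16 t16a t16b t16c t16d m10 r10 t10a t10b t10c t10d fun x17 =>
  k x17

theorem tH0K_s {e1 e2 e3 e4 e5 : ℝ} (he : Ev e1 e2 e3 e4 e5) (r z p s P : ℝ)  {x1 x2 x3 x4 x5 x6 x7 x8 x9 m10 r10 t10a t10b t10c t10d : ℕ} {k : ℕ → Bool} {Q : Prop}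
    (h1 : In e1 e2 e3 e4 e5 x1 ((p - 1/2)))
    (h2 : In e1 e2 e3 e4 e5 x2 ((p - 1/2) ^ 2))
    (h3 : In e1 e2 e3 e4 e5 x3 ((z - 1/2)))
    (h4 : In e1 e2 e3 e4 e5 x4 ((z - 1/2) * (p - 1/2)))
    (h5 : In e1 e2 e3 e4 e5 x5 ((z - 1/2) ^ 2))
    (h6 : In e1 e2 e3 e4 e5 x6 ((r - 1/2)))
    (h7 : In e1 e2 e3 e4 e5 x7 ((r - 1/2) * (p - 1/2)))
    (h8 : In e1 e2 e3 e4 e5 x8 ((r - 1/2) * (z - 1/2)))
    (h9 : In e1 e2 e3 e4 e5 x9 ((r - 1/2) ^ 2))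
    (n10 : Nrm e1 e2 e3 e4 e5 m10 r10 t10a t10b t10c t10d (P))
    (hk : ∀ X0, In e1 e2 e3 e4 e5 X0 (tH0 r z p s P) → k X0 = true → Q)
    (HH0 : tH0K x1 x2 x3 x4 x5 x6 x7 x8 x9 m10 r10 t10a t10b t10c t10d k = true) : Q := by
  unfold tH0K at HH0
  refine frcK_s (aa (aa (aa (aa (aa (an 112796 h1) (an 97296 h2)) (an 98776 h4)) (an 43848 h6)) (an 88416 h7)) (an 384 h8)) (fun _ h11 HH1 => ?_) HH0
  refine finK_s he (aa (aa (aa (aa (an 148508 h3) (an 282192 h5)) (an 22500 h9)) (an 6293 (one_in he))) (ngC_s he (C := 441516) h11 (by decide +kernel) (by decide +kernel))) (by decide +kernel) (fun _ h12 HH2 => ?_) HH1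
  clear HH1
  refine nrmK_s he h12 (fun _ _ _ _ _ _ n13 HH3 => ?_) HH2
  clear HH2
  refine mulcK_s he n13 (cst_nrm he 900719925474 (512/625:ℝ) (by norm_num [abs_le])) (fun _ h14 HH4 => ?_) HH3
  clear HH3
  have h15 := In_cast (w := CW1.g3_000 r z p) h14 (by unfold CW1.g3_000; push_cast; ring)
  refine nrmK_s he h15 (fun _ _ _ _ _ _ n16 HH5 => ?_) HH4
  clear HH4
  refine mulK_s he n16 n10 (fun _ h17 HH6 => ?_) HH5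
  clear HH5
  have h18 := In_cast (w := tH0 r z p s P) h17 (by unfold tH0; push_cast; ring)
  exact hk _ h18 HH6

attribute [irreducible] tH0K

noncomputable def tH1K (x1 x2 x3 x4 x5 x6 x7 x8 x9 m10 r10 t10a t10b t10c t10d : ℕ) (k : ℕ → ℕ → ℕ → ℕ → ℕ → ℕ → Bool) : Bool :=
  frcK (Nat.add (Nat.add (Nat.mul 85920 x2) (Nat.mul 19640 x6)) (Nat.mul 34024 x9)) fun x11 =>
  finK (Nat.add (Nat.add (Nat.add (Nat.add (Nat.add (Nat.add (Nat.add (Nat.mul 60048 x1) (Nat.mul 112796 x3)) (Nat.mul 194592 x4)) (Nat.mul 49388 x5)) (Nat.mul 60352 x7)) (Nat.mul 88416 x8)) (Nat.mul 16969 cOne)) (ngC 139584 x11)) 2405432927227987187728384 15 fun x12 =>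
  nrmK x12 fun m13 r13 t13a t13b t13c t13d =>
  mulcK m13 r13 t13a 900719925474 1 fun x14 =>
  nrmK x14 fun m16 r16 t16a t16b t16c t16d =>
  mulK m16 r16 t16a t16b t16c t16d m10 r10 t10a t10b t10c t10d fun x17 =>
  nrmK x17 fun m19 r19 t19a t19b t19c t19d =>
  k m19 r19 t19a t19b t19c t19d

theorem tH1K_s {e1 e2 e3 e4 e5 : ℝ} (he : Ev e1 e2 e3 e4 e5) (r z p s P : ℝ)  {x1 x2 x3 x4 x5 x6 x7 x8 x9 m10 r10 t10a t10b t10c t10d : ℕ} {k : ℕ → ℕ → ℕ → ℕ → ℕ → ℕ → Bool} {Q : Prop}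
    (h1 : In e1 e2 e3 e4 e5 x1 ((p - 1/2)))
    (h2 : In e1 e2 e3 e4 e5 x2 ((p - 1/2) ^ 2))
    (h3 : In e1 e2 e3 e4 e5 x3 ((z - 1/2)))
    (h4 : In e1 e2 e3 e4 e5 x4 ((z - 1/2) * (p - 1/2)))
    (h5 : In e1 e2 e3 e4 e5 x5 ((z - 1/2) ^ 2))
    (h6 : In e1 e2 e3 e4 e5 x6 ((r - 1/2)))
    (h7 : In e1 e2 e3 e4 e5 x7 ((r - 1/2) * (p - 1/2)))
    (h8 : In e1 e2 e3 e4 e5 x8 ((r - 1/2) * (z - 1/2)))
    (h9 : In e1 e2 e3 e4 e5 x9 ((r - 1/2) ^ 2))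
    (n10 : Nrm e1 e2 e3 e4 e5 m10 r10 t10a t10b t10c t10d (P * s))
    (hk : ∀ M0 R0 A0 B0 C0 D0, Nrm e1 e2 e3 e4 e5 M0 R0 A0 B0 C0 D0 (tH1 r z p s P) → k M0 R0 A0 B0 C0 D0 = true → Q)
    (HH0 : tH1K x1 x2 x3 x4 x5 x6 x7 x8 x9 m10 r10 t10a t10b t10c t10d k = true) : Q := by
  unfold tH1K at HH0
  refine frcK_s (aa (aa (an 85920 h2) (an 19640 h6)) (an 34024 h9)) (fun _ h11 HH1 => ?_) HH0
  refine finK_s he (aa (aa (aa (aa (aa (aa (aa (an 60048 h1) (an 112796 h3)) (an 194592 h4)) (an 49388 h5)) (an 60352 h7)) (an 88416 h8)) (an 16969 (one_in he))) (ngC_s he (C := 139584) h11 (by decide +kernel) (by decide +kernel))) (by decide +kernel) (fun _ h12 HH2 => ?_) HH1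
  clear HH1
  refine nrmK_s he h12 (fun _ _ _ _ _ _ n13 HH3 => ?_) HH2
  clear HH2
  refine mulcK_s he n13 (cst_nrm he 900719925474 (512/625:ℝ) (by norm_num [abs_le])) (fun _ h14 HH4 => ?_) HH3
  clear HH3
  have h15 := In_cast (w := CW1.g3_101 r z p) h14 (by unfold CW1.g3_101; push_cast; ring)
  refine nrmK_s he h15 (fun _ _ _ _ _ _ n16 HH5 => ?_) HH4
  clear HH4
  refine mulK_s he n16 n10 (fun _ h17 HH6 => ?_) HH5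
  clear HH5
  have h18 := In_cast (w := tH1 r z p s P) h17 (by unfold tH1; push_cast; ring)
  refine nrmK_s he h18 (fun _ _ _ _ _ _ n19 HH7 => ?_) HH6
  clear HH6
  exact hk _ _ _ _ _ _ n19 HH7

attribute [irreducible] tH1K

noncomputable def tH2K (x1 x2 x3 m4 r4 t4a t4b t4c t4d : ℕ) (k : ℕ → ℕ → ℕ → ℕ → ℕ → ℕ → Bool) : Bool :=
  frcK (Nat.add (Nat.mul 71284 x2) (Nat.mul 15825 cOne)) fun x5 =>
  finK (Nat.add (Nat.add (Nat.mul 31386 x1) (Nat.mul 4872 x3)) (ngC 87109 x5)) 2416219552738697791143936 15 fun x6 =>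
  nrmK x6 fun m7 r7 t7a t7b t7c t7d =>
  mulcK m7 r7 t7a 900719925474 1 fun x8 =>
  nrmK x8 fun m10 r10 t10a t10b t10c t10d =>
  mulK m10 r10 t10a t10b t10c t10d m4 r4 t4a t4b t4c t4d fun x11 =>
  nrmK x11 fun m13 r13 t13a t13b t13c t13d =>
  k m13 r13 t13a t13b t13c t13d

theorem tH2K_s {e1 e2 e3 e4 e5 : ℝ} (he : Ev e1 e2 e3 e4 e5) (r z p s P : ℝ)  {x1 x2 x3 m4 r4 t4a t4b t4c t4d : ℕ} {k : ℕ → ℕ → ℕ → ℕ → ℕ → ℕ → Bool} {Q : Prop}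
    (h1 : In e1 e2 e3 e4 e5 x1 ((p - 1/2)))
    (h2 : In e1 e2 e3 e4 e5 x2 ((z - 1/2)))
    (h3 : In e1 e2 e3 e4 e5 x3 ((r - 1/2)))
    (n4 : Nrm e1 e2 e3 e4 e5 m4 r4 t4a t4b t4c t4d (P * s ^ 3))
    (hk : ∀ M0 R0 A0 B0 C0 D0, Nrm e1 e2 e3 e4 e5 M0 R0 A0 B0 C0 D0 (tH2 r z p s P) → k M0 R0 A0 B0 C0 D0 = true → Q)
    (HH0 : tH2K x1 x2 x3 m4 r4 t4a t4b t4c t4d k = true) : Q := by
  unfold tH2K at HH0
  refine frcK_s (aa (an 71284 h2) (an 15825 (one_in he))) (fun _ h5 HH1 => ?_) HH0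
  refine finK_s he (aa (aa (an 31386 h1) (an 4872 h3)) (ngC_s he (C := 87109) h5 (by decide +kernel) (by decide +kernel))) (by decide +kernel) (fun _ h6 HH2 => ?_) HH1
  clear HH1
  refine nrmK_s he h6 (fun _ _ _ _ _ _ n7 HH3 => ?_) HH2
  clear HH2
  refine mulcK_s he n7 (cst_nrm he 900719925474 (512/625:ℝ) (by norm_num [abs_le])) (fun _ h8 HH4 => ?_) HH3
  clear HH3
  have h9 := In_cast (w := CW1.g3_310 r z p) h8 (by unfold CW1.g3_310; push_cast; ring)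
  refine nrmK_s he h9 (fun _ _ _ _ _ _ n10 HH5 => ?_) HH4
  clear HH4
  refine mulK_s he n10 n4 (fun _ h11 HH6 => ?_) HH5
  clear HH5
  have h12 := In_cast (w := tH2 r z p s P) h11 (by unfold tH2; push_cast; ring)
  refine nrmK_s he h12 (fun _ _ _ _ _ _ n13 HH7 => ?_) HH6
  clear HH6
  exact hk _ _ _ _ _ _ n13 HH7

attribute [irreducible] tH2K

noncomputable def tH3K (x1 x2 x3 m4 r4 t4a t4b t4c t4d : ℕ) (k : ℕ → ℕ → ℕ → ℕ → ℕ → ℕ → Bool) : Bool :=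
  frcK (Nat.add (Nat.add (Nat.mul 31386 x2) (Nat.mul 45528 x3)) (Nat.mul 43339 cOne)) fun x5 =>
  finK (Nat.add (Nat.mul 15616 x1) (ngC 120253 x5)) 1206773369208723719847936 14 fun x6 =>
  nrmK x6 fun m7 r7 t7a t7b t7c t7d =>
  mulcK m7 r7 t7a 900719925474 1 fun x8 =>
  nrmK x8 fun m10 r10 t10a t10b t10c t10d =>
  mulK m10 r10 t10a t10b t10c t10d m4 r4 t4a t4b t4c t4d fun x11 =>
  nrmK x11 fun m13 r13 t13a t13b t13c t13d =>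
  k m13 r13 t13a t13b t13c t13d

theorem tH3K_s {e1 e2 e3 e4 e5 : ℝ} (he : Ev e1 e2 e3 e4 e5) (r z p s P : ℝ)  {x1 x2 x3 m4 r4 t4a t4b t4c t4d : ℕ} {k : ℕ → ℕ → ℕ → ℕ → ℕ → ℕ → Bool} {Q : Prop}
    (h1 : In e1 e2 e3 e4 e5 x1 ((p - 1/2)))
    (h2 : In e1 e2 e3 e4 e5 x2 ((z - 1/2)))
    (h3 : In e1 e2 e3 e4 e5 x3 ((r - 1/2)))
    (n4 : Nrm e1 e2 e3 e4 e5 m4 r4 t4a t4b t4c t4d (P * s ^ 4))
    (hk : ∀ M0 R0 A0 B0 C0 D0, Nrm e1 e2 e3 e4 e5 M0 R0 A0 B0 C0 D0 (tH3 r z p s P) → k M0 R0 A0 B0 C0 D0 = true → Q)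
    (HH0 : tH3K x1 x2 x3 m4 r4 t4a t4b t4c t4d k = true) : Q := by
  unfold tH3K at HH0
  refine frcK_s (aa (aa (an 31386 h2) (an 45528 h3)) (an 43339 (one_in he))) (fun _ h5 HH1 => ?_) HH0
  refine finK_s he (aa (an 15616 h1) (ngC_s he (C := 120253) h5 (by decide +kernel) (by decide +kernel))) (by decide +kernel) (fun _ h6 HH2 => ?_) HH1
  clear HH1
  refine nrmK_s he h6 (fun _ _ _ _ _ _ n7 HH3 => ?_) HH2
  clear HH2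
  refine mulcK_s he n7 (cst_nrm he 900719925474 (512/625:ℝ) (by norm_num [abs_le])) (fun _ h8 HH4 => ?_) HH3
  clear HH3
  have h9 := In_cast (w := CW1.g3_411 r z p) h8 (by unfold CW1.g3_411; push_cast; ring)
  refine nrmK_s he h9 (fun _ _ _ _ _ _ n10 HH5 => ?_) HH4
  clear HH4
  refine mulK_s he n10 n4 (fun _ h11 HH6 => ?_) HH5
  clear HH5
  have h12 := In_cast (w := tH3 r z p s P) h11 (by unfold tH3; push_cast; ring)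
  refine nrmK_s he h12 (fun _ _ _ _ _ _ n13 HH7 => ?_) HH6
  clear HH6
  exact hk _ _ _ _ _ _ n13 HH7

attribute [irreducible] tH3K

noncomputable def tM0K (x1 x2 x3 x4 x5 x6 x7 x8 x9 x10 x11 x12 x13 x14 x15 x16 x17 x18 m19 r19 t19a t19b t19c t19d : ℕ) (k : ℕ → ℕ → ℕ → ℕ → ℕ → ℕ → Bool) : Bool :=
  frcK (Nat.add (Nat.add (Nat.add (Nat.add (Nat.add (Nat.add (Nat.add (Nat.add (Nat.add (Nat.add (Nat.add (Nat.add (Nat.mul 261058 x1) (Nat.mul 60288 x3)) (Nat.mul 65176 x5)) (Nat.mul 493592 x9)) (Nat.mul 774072 x10)) (Nat.mul 339000 x12)) (Nat.mul 480000 x13)) (Nat.mul 22120 x14)) (Nat.mul 577204 x15)) (Nat.mul 600000 x16)) (Nat.mul 142784 x17)) (Nat.mul 537208 x18)) (Nat.mul 173731 cOne)) fun x20 =>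
  finK (Nat.add (Nat.add (Nat.add (Nat.add (Nat.add (Nat.add (Nat.mul 8336 x2) (Nat.mul 146212 x4)) (Nat.mul 520392 x6)) (Nat.mul 174824 x7)) (Nat.mul 335248 x8)) (Nat.mul 249120 x11)) (ngC 4526233 x20)) 4729511479707265524563968 16 fun x21 =>
  nrmK x21 fun m22 r22 t22a t22b t22c t22d =>
  mulcK m22 r22 t22a 900719925474 1 fun x23 =>
  nrmK x23 fun m25 r25 t25a t25b t25c t25d =>
  mulK m25 r25 t25a t25b t25c t25d m19 r19 t19a t19b t19c t19d fun x26 =>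
  nrmK x26 fun m28 r28 t28a t28b t28c t28d =>
  k m28 r28 t28a t28b t28c t28d

theorem tM0K_s {e1 e2 e3 e4 e5 : ℝ} (he : Ev e1 e2 e3 e4 e5) (r z p s P : ℝ)  {x1 x2 x3 x4 x5 x6 x7 x8 x9 x10 x11 x12 x13 x14 x15 x16 x17 x18 m19 r19 t19a t19b t19c t19d : ℕ} {k : ℕ → ℕ → ℕ → ℕ → ℕ → ℕ → Bool} {Q : Prop}
    (h1 : In e1 e2 e3 e4 e5 x1 ((p - 1/2)))
    (h2 : In e1 e2 e3 e4 e5 x2 ((p - 1/2) ^ 2))
    (h3 : In e1 e2 e3 e4 e5 x3 ((p - 1/2) ^ 3))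
    (h4 : In e1 e2 e3 e4 e5 x4 ((z - 1/2)))
    (h5 : In e1 e2 e3 e4 e5 x5 ((z - 1/2) * (p - 1/2)))
    (h6 : In e1 e2 e3 e4 e5 x6 ((z - 1/2) ^ 2))
    (h7 : In e1 e2 e3 e4 e5 x7 ((z - 1/2) ^ 2 * (p - 1/2)))
    (h8 : In e1 e2 e3 e4 e5 x8 ((z - 1/2) ^ 3))
    (h9 : In e1 e2 e3 e4 e5 x9 ((r - 1/2)))
    (h10 : In e1 e2 e3 e4 e5 x10 ((r - 1/2) * (p - 1/2)))
    (h11 : In e1 e2 e3 e4 e5 x11 ((r - 1/2) * (p - 1/2) ^ 2))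
    (h12 : In e1 e2 e3 e4 e5 x12 ((r - 1/2) * (z - 1/2)))
    (h13 : In e1 e2 e3 e4 e5 x13 ((r - 1/2) * (z - 1/2) * (p - 1/2)))
    (h14 : In e1 e2 e3 e4 e5 x14 ((r - 1/2) * (z - 1/2) ^ 2))
    (h15 : In e1 e2 e3 e4 e5 x15 ((r - 1/2) ^ 2))
    (h16 : In e1 e2 e3 e4 e5 x16 ((r - 1/2) ^ 2 * (p - 1/2)))
    (h17 : In e1 e2 e3 e4 e5 x17 ((r - 1/2) ^ 2 * (z - 1/2)))
    (h18 : In e1 e2 e3 e4 e5 x18 ((r - 1/2) ^ 3))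
    (n19 : Nrm e1 e2 e3 e4 e5 m19 r19 t19a t19b t19c t19d (s ^ 2))
    (hk : ∀ M0 R0 A0 B0 C0 D0, Nrm e1 e2 e3 e4 e5 M0 R0 A0 B0 C0 D0 (tM0 r z p s P) → k M0 R0 A0 B0 C0 D0 = true → Q)
    (HH0 : tM0K x1 x2 x3 x4 x5 x6 x7 x8 x9 x10 x11 x12 x13 x14 x15 x16 x17 x18 m19 r19 t19a t19b t19c t19d k = true) : Q := by
  unfold tM0K at HH0
  refine frcK_s (aa (aa (aa (aa (aa (aa (aa (aa (aa (aa (aa (aa (an 261058 h1) (an 60288 h3)) (an 65176 h5)) (an 493592 h9)) (an 774072 h10)) (an 339000 h12)) (an 480000 h13)) (an 22120 h14)) (an 577204 h15)) (an 600000 h16)) (an 142784 h17)) (an 537208 h18)) (an 173731 (one_in he))) (fun _ h20 HH1 => ?_) HH0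
  refine finK_s he (aa (aa (aa (aa (aa (aa (an 8336 h2) (an 146212 h4)) (an 520392 h6)) (an 174824 h7)) (an 335248 h8)) (an 249120 h11)) (ngC_s he (C := 4526233) h20 (by decide +kernel) (by decide +kernel))) (by decide +kernel) (fun _ h21 HH2 => ?_) HH1
  clear HH1
  refine nrmK_s he h21 (fun _ _ _ _ _ _ n22 HH3 => ?_) HH2
  clear HH2
  refine mulcK_s he n22 (cst_nrm he 900719925474 (512/625:ℝ) (by norm_num [abs_le])) (fun _ h23 HH4 => ?_) HH3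
  clear HH3
  have h24 := In_cast (w := CW1.m1_200 r z p) h23 (by unfold CW1.m1_200; push_cast; ring)
  refine nrmK_s he h24 (fun _ _ _ _ _ _ n25 HH5 => ?_) HH4
  clear HH4
  refine mulK_s he n25 n19 (fun _ h26 HH6 => ?_) HH5
  clear HH5
  have h27 := In_cast (w := tM0 r z p s P) h26 (by unfold tM0; push_cast; ring)
  refine nrmK_s he h27 (fun _ _ _ _ _ _ n28 HH7 => ?_) HH6
  clear HH6
  exact hk _ _ _ _ _ _ n28 HH7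

attribute [irreducible] tM0K

noncomputable def tM1K (x1 x2 x3 x4 x5 x6 x7 x8 x9 m10 r10 t10a t10b t10c t10d : ℕ) (k : ℕ → ℕ → ℕ → ℕ → ℕ → ℕ → Bool) : Bool :=
  frcK (Nat.add (Nat.add (Nat.add (Nat.add (Nat.mul 56295 x1) (Nat.mul 7952 x2)) (Nat.mul 13556 x5)) (Nat.mul 98160 x7)) (Nat.mul 17392 x9)) fun x11 =>
  finK (Nat.add (Nat.add (Nat.add (Nat.add (Nat.add (Nat.mul 76780 x3) (Nat.mul 35250 x4)) (Nat.mul 58337 x6)) (Nat.mul 140610 x8)) (Nat.mul 67391 cOne)) (ngC 193355 x11)) 1198921721560771959193600 14 fun x12 =>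
  nrmK x12 fun m13 r13 t13a t13b t13c t13d =>
  mulcK m13 r13 t13a 900719925474 1 fun x14 =>
  nrmK x14 fun m16 r16 t16a t16b t16c t16d =>
  mulK m16 r16 t16a t16b t16c t16d m10 r10 t10a t10b t10c t10d fun x17 =>
  nrmK x17 fun m19 r19 t19a t19b t19c t19d =>
  k m19 r19 t19a t19b t19c t19d

theorem tM1K_s {e1 e2 e3 e4 e5 : ℝ} (he : Ev e1 e2 e3 e4 e5) (r z p s P : ℝ)  {x1 x2 x3 x4 x5 x6 x7 x8 x9 m10 r10 t10a t10b t10c t10d : ℕ} {k : ℕ → ℕ → ℕ → ℕ → ℕ → ℕ → Bool} {Q : Prop}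
    (h1 : In e1 e2 e3 e4 e5 x1 ((p - 1/2)))
    (h2 : In e1 e2 e3 e4 e5 x2 ((p - 1/2) ^ 2))
    (h3 : In e1 e2 e3 e4 e5 x3 ((z - 1/2)))
    (h4 : In e1 e2 e3 e4 e5 x4 ((z - 1/2) * (p - 1/2)))
    (h5 : In e1 e2 e3 e4 e5 x5 ((z - 1/2) ^ 2))
    (h6 : In e1 e2 e3 e4 e5 x6 ((r - 1/2)))
    (h7 : In e1 e2 e3 e4 e5 x7 ((r - 1/2) * (p - 1/2)))
    (h8 : In e1 e2 e3 e4 e5 x8 ((r - 1/2) * (z - 1/2)))
    (h9 : In e1 e2 e3 e4 e5 x9 ((r - 1/2) ^ 2))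
    (n10 : Nrm e1 e2 e3 e4 e5 m10 r10 t10a t10b t10c t10d (s ^ 5))
    (hk : ∀ M0 R0 A0 B0 C0 D0, Nrm e1 e2 e3 e4 e5 M0 R0 A0 B0 C0 D0 (tM1 r z p s P) → k M0 R0 A0 B0 C0 D0 = true → Q)
    (HH0 : tM1K x1 x2 x3 x4 x5 x6 x7 x8 x9 m10 r10 t10a t10b t10c t10d k = true) : Q := by
  unfold tM1K at HH0
  refine frcK_s (aa (aa (aa (aa (an 56295 h1) (an 7952 h2)) (an 13556 h5)) (an 98160 h7)) (an 17392 h9)) (fun _ h11 HH1 => ?_) HH0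
  refine finK_s he (aa (aa (aa (aa (aa (an 76780 h3) (an 35250 h4)) (an 58337 h6)) (an 140610 h8)) (an 67391 (one_in he))) (ngC_s he (C := 193355) h11 (by decide +kernel) (by decide +kernel))) (by decide +kernel) (fun _ h12 HH2 => ?_) HH1
  clear HH1
  refine nrmK_s he h12 (fun _ _ _ _ _ _ n13 HH3 => ?_) HH2
  clear HH2
  refine mulcK_s he n13 (cst_nrm he 900719925474 (512/625:ℝ) (by norm_num [abs_le])) (fun _ h14 HH4 => ?_) HH3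
  clear HH3
  have h15 := In_cast (w := CW1.m1_510 r z p) h14 (by unfold CW1.m1_510; push_cast; ring)
  refine nrmK_s he h15 (fun _ _ _ _ _ _ n16 HH5 => ?_) HH4
  clear HH4
  refine mulK_s he n16 n10 (fun _ h17 HH6 => ?_) HH5
  clear HH5
  have h18 := In_cast (w := tM1 r z p s P) h17 (by unfold tM1; push_cast; ring)
  refine nrmK_s he h18 (fun _ _ _ _ _ _ n19 HH7 => ?_) HH6
  clear HH6
  exact hk _ _ _ _ _ _ n19 HH7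

attribute [irreducible] tM1K

noncomputable def tN0K (x1 x2 x3 x4 x5 x6 x7 x8 x9 x10 x11 x12 x13 x14 x15 x16 x17 x18 m19 r19 t19a t19b t19c t19d : ℕ) (k : ℕ → ℕ → ℕ → ℕ → ℕ → ℕ → Bool) : Bool :=
  frcK (Nat.add (Nat.add (Nat.add (Nat.add (Nat.add (Nat.add (Nat.add (Nat.add (Nat.add (Nat.add (Nat.add (Nat.add (Nat.add (Nat.mul 97886 x1) (Nat.mul 51856 x3)) (Nat.mul 263166 x4)) (Nat.mul 257100 x5)) (Nat.mul 25792 x6)) (Nat.mul 16608 x8)) (Nat.mul 300478 x9)) (Nat.mul 508812 x12)) (Nat.mul 81624 x13)) (Nat.mul 4208 x14)) (Nat.mul 259844 x15)) (Nat.mul 203920 x17)) (Nat.mul 138400 x18)) (Nat.mul 185843 cOne)) fun x20 =>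
  finK (Nat.add (Nat.add (Nat.add (Nat.add (Nat.add (Nat.mul 12328 x2) (Nat.mul 13652 x7)) (Nat.mul 54916 x10)) (Nat.mul 15232 x11)) (Nat.mul 222336 x16)) (ngC 2395537 x20)) 4787992774510101496070144 16 fun x21 =>
  nrmK x21 fun m22 r22 t22a t22b t22c t22d =>
  mulcK m22 r22 t22a 900719925474 1 fun x23 =>
  nrmK x23 fun m25 r25 t25a t25b t25c t25d =>
  mulK m25 r25 t25a t25b t25c t25d m19 r19 t19a t19b t19c t19d fun x26 =>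
  nrmK x26 fun m28 r28 t28a t28b t28c t28d =>
  k m28 r28 t28a t28b t28c t28d

theorem tN0K_s {e1 e2 e3 e4 e5 : ℝ} (he : Ev e1 e2 e3 e4 e5) (r z p s P : ℝ)  {x1 x2 x3 x4 x5 x6 x7 x8 x9 x10 x11 x12 x13 x14 x15 x16 x17 x18 m19 r19 t19a t19b t19c t19d : ℕ} {k : ℕ → ℕ → ℕ → ℕ → ℕ → ℕ → Bool} {Q : Prop}
    (h1 : In e1 e2 e3 e4 e5 x1 ((p - 1/2)))
    (h2 : In e1 e2 e3 e4 e5 x2 ((p - 1/2) ^ 2))
    (h3 : In e1 e2 e3 e4 e5 x3 ((p - 1/2) ^ 3))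
    (h4 : In e1 e2 e3 e4 e5 x4 ((z - 1/2)))
    (h5 : In e1 e2 e3 e4 e5 x5 ((z - 1/2) * (p - 1/2)))
    (h6 : In e1 e2 e3 e4 e5 x6 ((z - 1/2) * (p - 1/2) ^ 2))
    (h7 : In e1 e2 e3 e4 e5 x7 ((z - 1/2) ^ 2))
    (h8 : In e1 e2 e3 e4 e5 x8 ((z - 1/2) ^ 3))
    (h9 : In e1 e2 e3 e4 e5 x9 ((r - 1/2)))
    (h10 : In e1 e2 e3 e4 e5 x10 ((r - 1/2) * (p - 1/2)))
    (h11 : In e1 e2 e3 e4 e5 x11 ((r - 1/2) * (p - 1/2) ^ 2))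
    (h12 : In e1 e2 e3 e4 e5 x12 ((r - 1/2) * (z - 1/2)))
    (h13 : In e1 e2 e3 e4 e5 x13 ((r - 1/2) * (z - 1/2) * (p - 1/2)))
    (h14 : In e1 e2 e3 e4 e5 x14 ((r - 1/2) * (z - 1/2) ^ 2))
    (h15 : In e1 e2 e3 e4 e5 x15 ((r - 1/2) ^ 2))
    (h16 : In e1 e2 e3 e4 e5 x16 ((r - 1/2) ^ 2 * (p - 1/2)))
    (h17 : In e1 e2 e3 e4 e5 x17 ((r - 1/2) ^ 2 * (z - 1/2)))
    (h18 : In e1 e2 e3 e4 e5 x18 ((r - 1/2) ^ 3))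
    (n19 : Nrm e1 e2 e3 e4 e5 m19 r19 t19a t19b t19c t19d (s ^ 3))
    (hk : ∀ M0 R0 A0 B0 C0 D0, Nrm e1 e2 e3 e4 e5 M0 R0 A0 B0 C0 D0 (tN0 r z p s P) → k M0 R0 A0 B0 C0 D0 = true → Q)
    (HH0 : tN0K x1 x2 x3 x4 x5 x6 x7 x8 x9 x10 x11 x12 x13 x14 x15 x16 x17 x18 m19 r19 t19a t19b t19c t19d k = true) : Q := by
  unfold tN0K at HH0
  refine frcK_s (aa (aa (aa (aa (aa (aa (aa (aa (aa (aa (aa (aa (aa (an 97886 h1) (an 51856 h3)) (an 263166 h4)) (an 257100 h5)) (an 25792 h6)) (an 16608 h8)) (an 300478 h9)) (an 508812 h12)) (an 81624 h13)) (an 4208 h14)) (an 259844 h15)) (an 203920 h17)) (an 138400 h18)) (an 185843 (one_in he))) (fun _ h20 HH1 => ?_) HH0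
  refine finK_s he (aa (aa (aa (aa (aa (an 12328 h2) (an 13652 h7)) (an 54916 h10)) (an 15232 h11)) (an 222336 h16)) (ngC_s he (C := 2395537) h20 (by decide +kernel) (by decide +kernel))) (by decide +kernel) (fun _ h21 HH2 => ?_) HH1
  clear HH1
  refine nrmK_s he h21 (fun _ _ _ _ _ _ n22 HH3 => ?_) HH2
  clear HH2
  refine mulcK_s he n22 (cst_nrm he 900719925474 (512/625:ℝ) (by norm_num [abs_le])) (fun _ h23 HH4 => ?_) HH3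
  clear HH3
  have h24 := In_cast (w := CW1.m2_300 r z p) h23 (by unfold CW1.m2_300; push_cast; ring)
  refine nrmK_s he h24 (fun _ _ _ _ _ _ n25 HH5 => ?_) HH4
  clear HH4
  refine mulK_s he n25 n19 (fun _ h26 HH6 => ?_) HH5
  clear HH5
  have h27 := In_cast (w := tN0 r z p s P) h26 (by unfold tN0; push_cast; ring)
  refine nrmK_s he h27 (fun _ _ _ _ _ _ n28 HH7 => ?_) HH6
  clear HH6
  exact hk _ _ _ _ _ _ n28 HH7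

attribute [irreducible] tN0K

noncomputable def tN1K (x1 x2 x3 x4 x5 x6 x7 x8 x9 m10 r10 t10a t10b t10c t10d : ℕ) (k : ℕ → ℕ → ℕ → ℕ → ℕ → ℕ → Bool) : Bool :=
  frcK (Nat.add (Nat.add (Nat.add (Nat.add (Nat.add (Nat.add (Nat.add (Nat.mul 9391 x1) (Nat.mul 48006 x3)) (Nat.mul 102632 x4)) (Nat.mul 72805 x6)) (Nat.mul 50470 x7)) (Nat.mul 113388 x8)) (Nat.mul 71712 x9)) (Nat.mul 49152 cOne)) fun x11 =>
  finK (Nat.add (Nat.add (Nat.mul 44010 x2) (Nat.mul 62916 x5)) (ngC 517556 x11)) 2407192267429618726731776 15 fun x12 =>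
  nrmK x12 fun m13 r13 t13a t13b t13c t13d =>
  mulcK m13 r13 t13a 900719925474 1 fun x14 =>
  nrmK x14 fun m16 r16 t16a t16b t16c t16d =>
  mulK m16 r16 t16a t16b t16c t16d m10 r10 t10a t10b t10c t10d fun x17 =>
  nrmK x17 fun m19 r19 t19a t19b t19c t19d =>
  k m19 r19 t19a t19b t19c t19d

theorem tN1K_s {e1 e2 e3 e4 e5 : ℝ} (he : Ev e1 e2 e3 e4 e5) (r z p s P : ℝ)  {x1 x2 x3 x4 x5 x6 x7 x8 x9 m10 r10 t10a t10b t10c t10d : ℕ} {k : ℕ → ℕ → ℕ → ℕ → ℕ → ℕ → Bool} {Q : Prop}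
    (h1 : In e1 e2 e3 e4 e5 x1 ((p - 1/2)))
    (h2 : In e1 e2 e3 e4 e5 x2 ((p - 1/2) ^ 2))
    (h3 : In e1 e2 e3 e4 e5 x3 ((z - 1/2)))
    (h4 : In e1 e2 e3 e4 e5 x4 ((z - 1/2) * (p - 1/2)))
    (h5 : In e1 e2 e3 e4 e5 x5 ((z - 1/2) ^ 2))
    (h6 : In e1 e2 e3 e4 e5 x6 ((r - 1/2)))
    (h7 : In e1 e2 e3 e4 e5 x7 ((r - 1/2) * (p - 1/2)))
    (h8 : In e1 e2 e3 e4 e5 x8 ((r - 1/2) * (z - 1/2)))
    (h9 : In e1 e2 e3 e4 e5 x9 ((r - 1/2) ^ 2))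
    (n10 : Nrm e1 e2 e3 e4 e5 m10 r10 t10a t10b t10c t10d (s ^ 6))
    (hk : ∀ M0 R0 A0 B0 C0 D0, Nrm e1 e2 e3 e4 e5 M0 R0 A0 B0 C0 D0 (tN1 r z p s P) → k M0 R0 A0 B0 C0 D0 = true → Q)
    (HH0 : tN1K x1 x2 x3 x4 x5 x6 x7 x8 x9 m10 r10 t10a t10b t10c t10d k = true) : Q := by
  unfold tN1K at HH0
  refine frcK_s (aa (aa (aa (aa (aa (aa (aa (an 9391 h1) (an 48006 h3)) (an 102632 h4)) (an 72805 h6)) (an 50470 h7)) (an 113388 h8)) (an 71712 h9)) (an 49152 (one_in he))) (fun _ h11 HH1 => ?_) HH0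
  refine finK_s he (aa (aa (an 44010 h2) (an 62916 h5)) (ngC_s he (C := 517556) h11 (by decide +kernel) (by decide +kernel))) (by decide +kernel) (fun _ h12 HH2 => ?_) HH1
  clear HH1
  refine nrmK_s he h12 (fun _ _ _ _ _ _ n13 HH3 => ?_) HH2
  clear HH2
  refine mulcK_s he n13 (cst_nrm he 900719925474 (512/625:ℝ) (by norm_num [abs_le])) (fun _ h14 HH4 => ?_) HH3
  clear HH3
  have h15 := In_cast (w := CW1.m2_610 r z p) h14 (by unfold CW1.m2_610; push_cast; ring)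
  refine nrmK_s he h15 (fun _ _ _ _ _ _ n16 HH5 => ?_) HH4
  clear HH4
  refine mulK_s he n16 n10 (fun _ h17 HH6 => ?_) HH5
  clear HH5
  have h18 := In_cast (w := tN1 r z p s P) h17 (by unfold tN1; push_cast; ring)
  refine nrmK_s he h18 (fun _ _ _ _ _ _ n19 HH7 => ?_) HH6
  clear HH6
  exact hk _ _ _ _ _ _ n19 HH7

attribute [irreducible] tN1K

noncomputable def tA0K (x1 x2 x3 x4 x5 x6 x7 x8 x9 x10 x11 x12 x13 x14 x15 x16 x17 x18 x19 x20 x21 x22 x23 x24 x25 x26 x27 m28 r28 t28a t28b t28c t28d : ℕ) (k : ℕ → ℕ → ℕ → ℕ → ℕ → ℕ → Bool) : Bool :=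
  frcK (Nat.add (Nat.add (Nat.add (Nat.add (Nat.add (Nat.add (Nat.mul 242264 x2) (Nat.mul 37048 x12)) (Nat.mul 94032 x15)) (Nat.mul 1644 x22)) (Nat.mul 69364 x24)) (Nat.mul 278616 x26)) (Nat.mul 238272 x27)) fun x29 =>
  finK (Nat.add (Nat.add (Nat.add (Nat.add (Nat.add (Nat.add (Nat.add (Nat.add (Nat.add (Nat.add (Nat.add (Nat.add (Nat.add (Nat.add (Nat.add (Nat.add (Nat.add (Nat.add (Nat.add (Nat.add (Nat.add (Nat.mul 548498 x1) (Nat.mul 54240 x3)) (Nat.mul 1299024 x4)) (Nat.mul 1475396 x5)) (Nat.mul 88024 x6)) (Nat.mul 547938 x7)) (Nat.mul 149584 x8)) (Nat.mul 33052 x9)) (Nat.mul 513096 x10)) (Nat.mul 869240 x11)) (Nat.mul 605364 x13)) (Nat.mul 553448 x14)) (Nat.mul 584532 x16)) (Nat.mul 66736 x17)) (Nat.mul 95784 x18)) (Nat.mul 433610 x19)) (Nat.mul 1089200 x20)) (Nat.mul 129968 x21)) (Nat.mul 240000 x23)) (Nat.mul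 480000 x25)) (Nat.mul 591569 cOne)) (ngC 961240 x29)) 9468231685745397616082944 17 fun x30 =>
  nrmK x30 fun m31 r31 t31a t31b t31c t31d =>
  mulcK m31 r31 t31a 900719925474 1 fun x32 =>
  nrmK x32 fun m34 r34 t34a t34b t34c t34d =>
  mulK m34 r34 t34a t34b t34c t34d m28 r28 t28a t28b t28c t28d fun x35 =>
  nrmK x35 fun m37 r37 t37a t37b t37c t37d =>
  k m37 r37 t37a t37b t37c t37d

theorem tA0K_s {e1 e2 e3 e4 e5 : ℝ} (he : Ev e1 e2 e3 e4 e5) (r z p s P : ℝ)  {x1 x2 x3 x4 x5 x6 x7 x8 x9 x10 x11 x12 x13 x14 x15 x16 x17 x18 x19 x20 x21 x22 x23 x24 x25 x26 x27 m28 r28 t28a t28b t28c t28d : ℕ} {k : ℕ → ℕ → ℕ → ℕ → ℕ → ℕ → Bool} {Q : Prop}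
    (h1 : In e1 e2 e3 e4 e5 x1 ((p - 1/2)))
    (h2 : In e1 e2 e3 e4 e5 x2 ((p - 1/2) ^ 2))
    (h3 : In e1 e2 e3 e4 e5 x3 ((p - 1/2) ^ 3))
    (h4 : In e1 e2 e3 e4 e5 x4 ((z - 1/2)))
    (h5 : In e1 e2 e3 e4 e5 x5 ((z - 1/2) * (p - 1/2)))
    (h6 : In e1 e2 e3 e4 e5 x6 ((z - 1/2) * (p - 1/2) ^ 2))
    (h7 : In e1 e2 e3 e4 e5 x7 ((z - 1/2) ^ 2))
    (h8 : In e1 e2 e3 e4 e5 x8 ((z - 1/2) ^ 2 * (p - 1/2)))
    (h9 : In e1 e2 e3 e4 e5 x9 ((z - 1/2) ^ 3))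
    (h10 : In e1 e2 e3 e4 e5 x10 ((r - 1/2)))
    (h11 : In e1 e2 e3 e4 e5 x11 ((r - 1/2) * (p - 1/2)))
    (h12 : In e1 e2 e3 e4 e5 x12 ((r - 1/2) * (p - 1/2) ^ 2))
    (h13 : In e1 e2 e3 e4 e5 x13 ((r - 1/2) * (z - 1/2)))
    (h14 : In e1 e2 e3 e4 e5 x14 ((r - 1/2) * (z - 1/2) * (p - 1/2)))
    (h15 : In e1 e2 e3 e4 e5 x15 ((r - 1/2) * (z - 1/2) * (p - 1/2) ^ 2))
    (h16 : In e1 e2 e3 e4 e5 x16 ((r - 1/2) * (z - 1/2) ^ 2))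
    (h17 : In e1 e2 e3 e4 e5 x17 ((r - 1/2) * (z - 1/2) ^ 2 * (p - 1/2)))
    (h18 : In e1 e2 e3 e4 e5 x18 ((r - 1/2) * (z - 1/2) ^ 3))
    (h19 : In e1 e2 e3 e4 e5 x19 ((r - 1/2) ^ 2))
    (h20 : In e1 e2 e3 e4 e5 x20 ((r - 1/2) ^ 2 * (p - 1/2)))
    (h21 : In e1 e2 e3 e4 e5 x21 ((r - 1/2) ^ 2 * (p - 1/2) ^ 2))
    (h22 : In e1 e2 e3 e4 e5 x22 ((r - 1/2) ^ 2 * (z - 1/2)))
    (h23 : In e1 e2 e3 e4 e5 x23 ((r - 1/2) ^ 2 * (z - 1/2) * (p - 1/2)))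
    (h24 : In e1 e2 e3 e4 e5 x24 ((r - 1/2) ^ 3))
    (h25 : In e1 e2 e3 e4 e5 x25 ((r - 1/2) ^ 3 * (p - 1/2)))
    (h26 : In e1 e2 e3 e4 e5 x26 ((r - 1/2) ^ 3 * (z - 1/2)))
    (h27 : In e1 e2 e3 e4 e5 x27 ((r - 1/2) ^ 4))
    (n28 : Nrm e1 e2 e3 e4 e5 m28 r28 t28a t28b t28c t28d (P))
    (hk : ∀ M0 R0 A0 B0 C0 D0, Nrm e1 e2 e3 e4 e5 M0 R0 A0 B0 C0 D0 (tA0 r z p s P) → k M0 R0 A0 B0 C0 D0 = true → Q)
    (HH0 : tA0K x1 x2 x3 x4 x5 x6 x7 x8 x9 x10 x11 x12 x13 x14 x15 x16 x17 x18 x19 x20 x21 x22 x23 x24 x25 x26 x27 m28 r28 t28a t28b t28c t28d k = true) : Q := by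
  unfold tA0K at HH0
  refine frcK_s (aa (aa (aa (aa (aa (aa (an 242264 h2) (an 37048 h12)) (an 94032 h15)) (an 1644 h22)) (an 69364 h24)) (an 278616 h26)) (an 238272 h27)) (fun _ h29 HH1 => ?_) HH0
  refine finK_s he (aa (aa (aa (aa (aa (aa (aa (aa (aa (aa (aa (aa (aa (aa (aa (aa (aa (aa (aa (aa (aa (an 548498 h1) (an 54240 h3)) (an 1299024 h4)) (an 1475396 h5)) (an 88024 h6)) (an 547938 h7)) (an 149584 h8)) (an 33052 h9)) (an 513096 h10)) (an 869240 h11)) (an 605364 h13)) (an 553448 h14)) (an 584532 h16)) (an 66736 h17)) (an 95784 h18)) (an 433610 h19)) (an 1089200 h20)) (an 129968 h21)) (an 240000 h23)) (an 480000 h25)) (an 591569 (one_in he))) (ngC_s he (C := 961240) h29 (by decide +kernel) (by decide +kernel))) (by decide +kernel) (fun _ h30 HH2 => ?_) HH1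
  clear HH1
  refine nrmK_s he h30 (fun _ _ _ _ _ _ n31 HH3 => ?_) HH2
  clear HH2
  refine mulcK_s he n31 (cst_nrm he 900719925474 (512/625:ℝ) (by norm_num [abs_le])) (fun _ h32 HH4 => ?_) HH3
  clear HH3
  have h33 := In_cast (w := CW1.c1_000 r z p) h32 (by unfold CW1.c1_000; push_cast; ring)
  refine nrmK_s he h33 (fun _ _ _ _ _ _ n34 HH5 => ?_) HH4
  clear HH4
  refine mulK_s he n34 n28 (fun _ h35 HH6 => ?_) HH5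
  clear HH5
  have h36 := In_cast (w := tA0 r z p s P) h35 (by unfold tA0; push_cast; ring)
  refine nrmK_s he h36 (fun _ _ _ _ _ _ n37 HH7 => ?_) HH6
  clear HH6
  exact hk _ _ _ _ _ _ n37 HH7

attribute [irreducible] tA0K

noncomputable def tA1K (x1 x2 x3 x4 x5 x6 x7 x8 x9 x10 x11 x12 x13 x14 x15 x16 x17 x18 x19 x20 x21 x22 x23 x24 x25 x26 x27 x28 m29 r29 t29a t29b t29c t29d : ℕ) (k : ℕ → ℕ → ℕ → ℕ → ℕ → ℕ → Bool) : Bool :=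
  frcK (Nat.add (Nat.add (Nat.add (Nat.add (Nat.add (Nat.add (Nat.add (Nat.add (Nat.add (Nat.add (Nat.add (Nat.add (Nat.add (Nat.add (Nat.add (Nat.add (Nat.add (Nat.mul 524720 x1) (Nat.mul 259424 x2)) (Nat.mul 42368 x3)) (Nat.mul 1339808 x6)) (Nat.mul 2400000 x9)) (Nat.mul 577140 x11)) (Nat.mul 431776 x12)) (Nat.mul 292800 x13)) (Nat.mul 35200 x14)) (Nat.mul 244752 x16)) (Nat.mul 1164352 x18)) (Nat.mul 398068 x19)) (Nat.mul 3000000 x20)) (Nat.mul 720000 x21)) (Nat.mul 960000 x23)) (Nat.mul 678784 x25)) (Nat.mul 1200000 x26)) (Nat.mul 1408512 x28)) fun x30 =>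
  finK (Nat.add (Nat.add (Nat.add (Nat.add (Nat.add (Nat.add (Nat.add (Nat.add (Nat.add (Nat.add (Nat.add (Nat.mul 125216 x4) (Nat.mul 1887036 x5)) (Nat.mul 706336 x7)) (Nat.mul 2683900 x8)) (Nat.mul 1746528 x10)) (Nat.mul 414592 x15)) (Nat.mul 960000 x17)) (Nat.mul 2330032 x22)) (Nat.mul 785712 x24)) (Nat.mul 1064320 x27)) (Nat.mul 173061 cOne)) (ngC 15677704 x30)) 18833144472985039225749504 18 fun x31 =>
  nrmK x31 fun m32 r32 t32a t32b t32c t32d =>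
  mulcK m32 r32 t32a 900719925474 1 fun x33 =>
  nrmK x33 fun m35 r35 t35a t35b t35c t35d =>
  mulK m35 r35 t35a t35b t35c t35d m29 r29 t29a t29b t29c t29d fun x36 =>
  nrmK x36 fun m38 r38 t38a t38b t38c t38d =>
  k m38 r38 t38a t38b t38c t38d

theorem tA1K_s {e1 e2 e3 e4 e5 : ℝ} (he : Ev e1 e2 e3 e4 e5) (r z p s P : ℝ)  {x1 x2 x3 x4 x5 x6 x7 x8 x9 x10 x11 x12 x13 x14 x15 x16 x17 x18 x19 x20 x21 x22 x23 x24 x25 x26 x27 x28 m29 r29 t29a t29b t29c t29d : ℕ} {k : ℕ → ℕ → ℕ → ℕ → ℕ → ℕ → Bool} {Q : Prop}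
    (h1 : In e1 e2 e3 e4 e5 x1 ((p - 1/2)))
    (h2 : In e1 e2 e3 e4 e5 x2 ((p - 1/2) ^ 2))
    (h3 : In e1 e2 e3 e4 e5 x3 ((p - 1/2) ^ 3))
    (h4 : In e1 e2 e3 e4 e5 x4 ((p - 1/2) ^ 4))
    (h5 : In e1 e2 e3 e4 e5 x5 ((z - 1/2)))
    (h6 : In e1 e2 e3 e4 e5 x6 ((z - 1/2) * (p - 1/2)))
    (h7 : In e1 e2 e3 e4 e5 x7 ((z - 1/2) * (p - 1/2) ^ 2))
    (h8 : In e1 e2 e3 e4 e5 x8 ((z - 1/2) ^ 2))
    (h9 : In e1 e2 e3 e4 e5 x9 ((z - 1/2) ^ 2 * (p - 1/2)))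
    (h10 : In e1 e2 e3 e4 e5 x10 ((z - 1/2) ^ 3))
    (h11 : In e1 e2 e3 e4 e5 x11 ((r - 1/2)))
    (h12 : In e1 e2 e3 e4 e5 x12 ((r - 1/2) * (p - 1/2)))
    (h13 : In e1 e2 e3 e4 e5 x13 ((r - 1/2) * (p - 1/2) ^ 2))
    (h14 : In e1 e2 e3 e4 e5 x14 ((r - 1/2) * (p - 1/2) ^ 3))
    (h15 : In e1 e2 e3 e4 e5 x15 ((r - 1/2) * (z - 1/2)))
    (h16 : In e1 e2 e3 e4 e5 x16 ((r - 1/2) * (z - 1/2) ^ 2))
    (h17 : In e1 e2 e3 e4 e5 x17 ((r - 1/2) * (z - 1/2) ^ 2 * (p - 1/2)))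
    (h18 : In e1 e2 e3 e4 e5 x18 ((r - 1/2) * (z - 1/2) ^ 3))
    (h19 : In e1 e2 e3 e4 e5 x19 ((r - 1/2) ^ 2))
    (h20 : In e1 e2 e3 e4 e5 x20 ((r - 1/2) ^ 2 * (p - 1/2)))
    (h21 : In e1 e2 e3 e4 e5 x21 ((r - 1/2) ^ 2 * (p - 1/2) ^ 2))
    (h22 : In e1 e2 e3 e4 e5 x22 ((r - 1/2) ^ 2 * (z - 1/2)))
    (h23 : In e1 e2 e3 e4 e5 x23 ((r - 1/2) ^ 2 * (z - 1/2) * (p - 1/2)))
    (h24 : In e1 e2 e3 e4 e5 x24 ((r - 1/2) ^ 2 * (z - 1/2) ^ 2))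
    (h25 : In e1 e2 e3 e4 e5 x25 ((r - 1/2) ^ 3))
    (h26 : In e1 e2 e3 e4 e5 x26 ((r - 1/2) ^ 3 * (p - 1/2)))
    (h27 : In e1 e2 e3 e4 e5 x27 ((r - 1/2) ^ 3 * (z - 1/2)))
    (h28 : In e1 e2 e3 e4 e5 x28 ((r - 1/2) ^ 4))
    (n29 : Nrm e1 e2 e3 e4 e5 m29 r29 t29a t29b t29c t29d (P * s))
    (hk : ∀ M0 R0 A0 B0 C0 D0, Nrm e1 e2 e3 e4 e5 M0 R0 A0 B0 C0 D0 (tA1 r z p s P) → k M0 R0 A0 B0 C0 D0 = true → Q)
    (HH0 : tA1K x1 x2 x3 x4 x5 x6 x7 x8 x9 x10 x11 x12 x13 x14 x15 x16 x17 x18 x19 x20 x21 x22 x23 x24 x25 x26 x27 x28 m29 r29 t29a t29b t29c t29d k = true) : Q := by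
  unfold tA1K at HH0
  refine frcK_s (aa (aa (aa (aa (aa (aa (aa (aa (aa (aa (aa (aa (aa (aa (aa (aa (aa (an 524720 h1) (an 259424 h2)) (an 42368 h3)) (an 1339808 h6)) (an 2400000 h9)) (an 577140 h11)) (an 431776 h12)) (an 292800 h13)) (an 35200 h14)) (an 244752 h16)) (an 1164352 h18)) (an 398068 h19)) (an 3000000 h20)) (an 720000 h21)) (an 960000 h23)) (an 678784 h25)) (an 1200000 h26)) (an 1408512 h28)) (fun _ h30 HH1 => ?_) HH0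
  refine finK_s he (aa (aa (aa (aa (aa (aa (aa (aa (aa (aa (aa (an 125216 h4) (an 1887036 h5)) (an 706336 h7)) (an 2683900 h8)) (an 1746528 h10)) (an 414592 h15)) (an 960000 h17)) (an 2330032 h22)) (an 785712 h24)) (an 1064320 h27)) (an 173061 (one_in he))) (ngC_s he (C := 15677704) h30 (by decide +kernel) (by decide +kernel))) (by decide +kernel) (fun _ h31 HH2 => ?_) HH1
  clear HH1
  refine nrmK_s he h31 (fun _ _ _ _ _ _ n32 HH3 => ?_) HH2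
  clear HH2
  refine mulcK_s he n32 (cst_nrm he 900719925474 (512/625:ℝ) (by norm_num [abs_le])) (fun _ h33 HH4 => ?_) HH3
  clear HH3
  have h34 := In_cast (w := CW1.c1_101 r z p) h33 (by unfold CW1.c1_101; push_cast; ring)
  refine nrmK_s he h34 (fun _ _ _ _ _ _ n35 HH5 => ?_) HH4
  clear HH4
  refine mulK_s he n35 n29 (fun _ h36 HH6 => ?_) HH5
  clear HH5
  have h37 := In_cast (w := tA1 r z p s P) h36 (by unfold tA1; push_cast; ring)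
  refine nrmK_s he h37 (fun _ _ _ _ _ _ n38 HH7 => ?_) HH6
  clear HH6
  exact hk _ _ _ _ _ _ n38 HH7

attribute [irreducible] tA1K

noncomputable def tA2K (x1 x2 x3 x4 x5 x6 x7 x8 x9 x10 x11 x12 x13 x14 x15 x16 x17 m18 r18 t18a t18b t18c t18d : ℕ) (k : ℕ → ℕ → ℕ → ℕ → ℕ → ℕ → Bool) : Bool :=
  frcK (Nat.add (Nat.add (Nat.add (Nat.add (Nat.add (Nat.add (Nat.add (Nat.add (Nat.mul 36764 x5) (Nat.mul 42173 x9)) (Nat.mul 29232 x10)) (Nat.mul 108492 x12)) (Nat.mul 60000 x13)) (Nat.mul 110796 x14)) (Nat.mul 119232 x15)) (Nat.mul 138492 x16)) (Nat.mul 67956 x17)) fun x19 =>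
  finK (Nat.add (Nat.add (Nat.add (Nat.add (Nat.add (Nat.add (Nat.add (Nat.add (Nat.add (Nat.mul 9106 x3) (Nat.mul 58021 x1)) (Nat.mul 118080 x4)) (Nat.mul 11618 x2)) (Nat.mul 66710 x6)) (Nat.mul 124844 x7)) (Nat.mul 108600 x8)) (Nat.mul 60000 x11)) (Nat.mul 9380 cOne)) (ngC 713137 x19)) 2395392584204328894464000 15 fun x20 =>
  nrmK x20 fun m21 r21 t21a t21b t21c t21d =>
  mulcK m21 r21 t21a 900719925474 1 fun x22 =>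
  nrmK x22 fun m24 r24 t24a t24b t24c t24d =>
  mulK m24 r24 t24a t24b t24c t24d m18 r18 t18a t18b t18c t18d fun x25 =>
  nrmK x25 fun m27 r27 t27a t27b t27c t27d =>
  k m27 r27 t27a t27b t27c t27d

theorem tA2K_s {e1 e2 e3 e4 e5 : ℝ} (he : Ev e1 e2 e3 e4 e5) (r z p s P : ℝ)  {x1 x2 x3 x4 x5 x6 x7 x8 x9 x10 x11 x12 x13 x14 x15 x16 x17 m18 r18 t18a t18b t18c t18d : ℕ} {k : ℕ → ℕ → ℕ → ℕ → ℕ → ℕ → Bool} {Q : Prop}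
    (h1 : In e1 e2 e3 e4 e5 x1 ((p - 1/2)))
    (h2 : In e1 e2 e3 e4 e5 x2 ((p - 1/2) ^ 2))
    (h3 : In e1 e2 e3 e4 e5 x3 ((z - 1/2)))
    (h4 : In e1 e2 e3 e4 e5 x4 ((z - 1/2) * (p - 1/2)))
    (h5 : In e1 e2 e3 e4 e5 x5 ((z - 1/2) * (p - 1/2) ^ 2))
    (h6 : In e1 e2 e3 e4 e5 x6 ((z - 1/2) ^ 2))
    (h7 : In e1 e2 e3 e4 e5 x7 ((z - 1/2) ^ 2 * (p - 1/2)))
    (h8 : In e1 e2 e3 e4 e5 x8 ((z - 1/2) ^ 3))
    (h9 : In e1 e2 e3 e4 e5 x9 ((r - 1/2)))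
    (h10 : In e1 e2 e3 e4 e5 x10 ((r - 1/2) * (p - 1/2)))
    (h11 : In e1 e2 e3 e4 e5 x11 ((r - 1/2) * (p - 1/2) ^ 2))
    (h12 : In e1 e2 e3 e4 e5 x12 ((r - 1/2) * (z - 1/2)))
    (h13 : In e1 e2 e3 e4 e5 x13 ((r - 1/2) * (z - 1/2) * (p - 1/2)))
    (h14 : In e1 e2 e3 e4 e5 x14 ((r - 1/2) ^ 2))
    (h15 : In e1 e2 e3 e4 e5 x15 ((r - 1/2) ^ 2 * (p - 1/2)))
    (h16 : In e1 e2 e3 e4 e5 x16 ((r - 1/2) ^ 2 * (z - 1/2)))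
    (h17 : In e1 e2 e3 e4 e5 x17 ((r - 1/2) ^ 3))
    (n18 : Nrm e1 e2 e3 e4 e5 m18 r18 t18a t18b t18c t18d (P * s ^ 2))
    (hk : ∀ M0 R0 A0 B0 C0 D0, Nrm e1 e2 e3 e4 e5 M0 R0 A0 B0 C0 D0 (tA2 r z p s P) → k M0 R0 A0 B0 C0 D0 = true → Q)
    (HH0 : tA2K x1 x2 x3 x4 x5 x6 x7 x8 x9 x10 x11 x12 x13 x14 x15 x16 x17 m18 r18 t18a t18b t18c t18d k = true) : Q := by
  unfold tA2K at HH0
  refine frcK_s (aa (aa (aa (aa (aa (aa (aa (aa (an 36764 h5) (an 42173 h9)) (an 29232 h10)) (an 108492 h12)) (an 60000 h13)) (an 110796 h14)) (an 119232 h15)) (an 138492 h16)) (an 67956 h17)) (fun _ h19 HH1 => ?_) HH0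
  refine finK_s he (aa (aa (aa (aa (aa (aa (aa (aa (aa (an 9106 h3) (an 58021 h1)) (an 118080 h4)) (an 11618 h2)) (an 66710 h6)) (an 124844 h7)) (an 108600 h8)) (an 60000 h11)) (an 9380 (one_in he))) (ngC_s he (C := 713137) h19 (by decide +kernel) (by decide +kernel))) (by decide +kernel) (fun _ h20 HH2 => ?_) HH1
  clear HH1
  refine nrmK_s he h20 (fun _ _ _ _ _ _ n21 HH3 => ?_) HH2
  clear HH2
  refine mulcK_s he n21 (cst_nrm he 900719925474 (512/625:ℝ) (by norm_num [abs_le])) (fun _ h22 HH4 => ?_) HH3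
  clear HH3
  have h23 := In_cast (w := CW1.c1_202 r z p) h22 (by unfold CW1.c1_202; push_cast; ring)
  refine nrmK_s he h23 (fun _ _ _ _ _ _ n24 HH5 => ?_) HH4
  clear HH4
  refine mulK_s he n24 n18 (fun _ h25 HH6 => ?_) HH5
  clear HH5
  have h26 := In_cast (w := tA2 r z p s P) h25 (by unfold tA2; push_cast; ring)
  refine nrmK_s he h26 (fun _ _ _ _ _ _ n27 HH7 => ?_) HH6
  clear HH6
  exact hk _ _ _ _ _ _ n27 HH7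

attribute [irreducible] tA2K

noncomputable def tA3K (x1 x2 x3 x4 x5 x6 x7 x8 x9 m10 r10 t10a t10b t10c t10d : ℕ) (k : ℕ → ℕ → ℕ → ℕ → ℕ → ℕ → Bool) : Bool :=
  frcK (Nat.add (Nat.add (Nat.add (Nat.add (Nat.add (Nat.add (Nat.add (Nat.mul 83719 x1) (Nat.mul 142056 x3)) (Nat.mul 108752 x4)) (Nat.mul 272667 x6)) (Nat.mul 132146 x7)) (Nat.mul 200416 x8)) (Nat.mul 202778 x9)) (Nat.mul 124092 cOne)) fun x11 =>
  finK (Nat.add (Nat.add (Nat.mul 50788 x2) (Nat.mul 49692 x5)) (ngC 1266626 x11)) 2393814342750913177845760 15 fun x12 =>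
  nrmK x12 fun m13 r13 t13a t13b t13c t13d =>
  mulcK m13 r13 t13a 900719925474 1 fun x14 =>
  nrmK x14 fun m16 r16 t16a t16b t16c t16d =>
  mulK m16 r16 t16a t16b t16c t16d m10 r10 t10a t10b t10c t10d fun x17 =>
  nrmK x17 fun m19 r19 t19a t19b t19c t19d =>
  k m19 r19 t19a t19b t19c t19d

theorem tA3K_s {e1 e2 e3 e4 e5 : ℝ} (he : Ev e1 e2 e3 e4 e5) (r z p s P : ℝ)  {x1 x2 x3 x4 x5 x6 x7 x8 x9 m10 r10 t10a t10b t10c t10d : ℕ} {k : ℕ → ℕ → ℕ → ℕ → ℕ → ℕ → Bool} {Q : Prop}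
    (h1 : In e1 e2 e3 e4 e5 x1 ((p - 1/2)))
    (h2 : In e1 e2 e3 e4 e5 x2 ((p - 1/2) ^ 2))
    (h3 : In e1 e2 e3 e4 e5 x3 ((z - 1/2)))
    (h4 : In e1 e2 e3 e4 e5 x4 ((z - 1/2) * (p - 1/2)))
    (h5 : In e1 e2 e3 e4 e5 x5 ((z - 1/2) ^ 2))
    (h6 : In e1 e2 e3 e4 e5 x6 ((r - 1/2)))
    (h7 : In e1 e2 e3 e4 e5 x7 ((r - 1/2) * (p - 1/2)))
    (h8 : In e1 e2 e3 e4 e5 x8 ((r - 1/2) * (z - 1/2)))
    (h9 : In e1 e2 e3 e4 e5 x9 ((r - 1/2) ^ 2))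
    (n10 : Nrm e1 e2 e3 e4 e5 m10 r10 t10a t10b t10c t10d (P * s ^ 3))
    (hk : ∀ M0 R0 A0 B0 C0 D0, Nrm e1 e2 e3 e4 e5 M0 R0 A0 B0 C0 D0 (tA3 r z p s P) → k M0 R0 A0 B0 C0 D0 = true → Q)
    (HH0 : tA3K x1 x2 x3 x4 x5 x6 x7 x8 x9 m10 r10 t10a t10b t10c t10d k = true) : Q := by
  unfold tA3K at HH0
  refine frcK_s (aa (aa (aa (aa (aa (aa (aa (an 83719 h1) (an 142056 h3)) (an 108752 h4)) (an 272667 h6)) (an 132146 h7)) (an 200416 h8)) (an 202778 h9)) (an 124092 (one_in he))) (fun _ h11 HH1 => ?_) HH0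
  refine finK_s he (aa (aa (an 50788 h2) (an 49692 h5)) (ngC_s he (C := 1266626) h11 (by decide +kernel) (by decide +kernel))) (by decide +kernel) (fun _ h12 HH2 => ?_) HH1
  clear HH1
  refine nrmK_s he h12 (fun _ _ _ _ _ _ n13 HH3 => ?_) HH2
  clear HH2
  refine mulcK_s he n13 (cst_nrm he 900719925474 (512/625:ℝ) (by norm_num [abs_le])) (fun _ h14 HH4 => ?_) HH3
  clear HH3
  have h15 := In_cast (w := CW1.c1_310 r z p) h14 (by unfold CW1.c1_310; push_cast; ring)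
  refine nrmK_s he h15 (fun _ _ _ _ _ _ n16 HH5 => ?_) HH4
  clear HH4
  refine mulK_s he n16 n10 (fun _ h17 HH6 => ?_) HH5
  clear HH5
  have h18 := In_cast (w := tA3 r z p s P) h17 (by unfold tA3; push_cast; ring)
  refine nrmK_s he h18 (fun _ _ _ _ _ _ n19 HH7 => ?_) HH6
  clear HH6
  exact hk _ _ _ _ _ _ n19 HH7

attribute [irreducible] tA3K

noncomputable def tA4K (x1 x2 x3 x4 x5 x6 x7 x8 m9 r9 t9a t9b t9c t9d : ℕ) (k : ℕ → ℕ → ℕ → ℕ → ℕ → ℕ → Bool) : Bool :=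
  frcK (Nat.add (Nat.add (Nat.add (Nat.add (Nat.mul 82592 x2) (Nat.mul 91778 x3)) (Nat.mul 337922 x5)) (Nat.mul 573588 x7)) (Nat.mul 456648 x8)) fun x10 =>
  finK (Nat.add (Nat.add (Nat.add (Nat.add (Nat.mul 248592 x1) (Nat.mul 144832 x4)) (Nat.mul 480000 x6)) (Nat.mul 6213 cOne)) (ngC 1542528 x10)) 4793250024513514680352768 16 fun x11 =>
  nrmK x11 fun m12 r12 t12a t12b t12c t12d =>
  mulcK m12 r12 t12a 900719925474 1 fun x13 =>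
  nrmK x13 fun m15 r15 t15a t15b t15c t15d =>
  mulK m15 r15 t15a t15b t15c t15d m9 r9 t9a t9b t9c t9d fun x16 =>
  nrmK x16 fun m18 r18 t18a t18b t18c t18d =>
  k m18 r18 t18a t18b t18c t18d

theorem tA4K_s {e1 e2 e3 e4 e5 : ℝ} (he : Ev e1 e2 e3 e4 e5) (r z p s P : ℝ)  {x1 x2 x3 x4 x5 x6 x7 x8 m9 r9 t9a t9b t9c t9d : ℕ} {k : ℕ → ℕ → ℕ → ℕ → ℕ → ℕ → Bool} {Q : Prop}
    (h1 : In e1 e2 e3 e4 e5 x1 ((p - 1/2)))
    (h2 : In e1 e2 e3 e4 e5 x2 ((p - 1/2) ^ 2))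
    (h3 : In e1 e2 e3 e4 e5 x3 ((z - 1/2)))
    (h4 : In e1 e2 e3 e4 e5 x4 ((z - 1/2) * (p - 1/2)))
    (h5 : In e1 e2 e3 e4 e5 x5 ((r - 1/2)))
    (h6 : In e1 e2 e3 e4 e5 x6 ((r - 1/2) * (p - 1/2)))
    (h7 : In e1 e2 e3 e4 e5 x7 ((r - 1/2) * (z - 1/2)))
    (h8 : In e1 e2 e3 e4 e5 x8 ((r - 1/2) ^ 2))
    (n9 : Nrm e1 e2 e3 e4 e5 m9 r9 t9a t9b t9c t9d (P * s ^ 4))
    (hk : ∀ M0 R0 A0 B0 C0 D0, Nrm e1 e2 e3 e4 e5 M0 R0 A0 B0 C0 D0 (tA4 r z p s P) → k M0 R0 A0 B0 C0 D0 = true → Q)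
    (HH0 : tA4K x1 x2 x3 x4 x5 x6 x7 x8 m9 r9 t9a t9b t9c t9d k = true) : Q := by
  unfold tA4K at HH0
  refine frcK_s (aa (aa (aa (aa (an 82592 h2) (an 91778 h3)) (an 337922 h5)) (an 573588 h7)) (an 456648 h8)) (fun _ h10 HH1 => ?_) HH0
  refine finK_s he (aa (aa (aa (aa (an 248592 h1) (an 144832 h4)) (an 480000 h6)) (an 6213 (one_in he))) (ngC_s he (C := 1542528) h10 (by decide +kernel) (by decide +kernel))) (by decide +kernel) (fun _ h11 HH2 => ?_) HH1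
  clear HH1
  refine nrmK_s he h11 (fun _ _ _ _ _ _ n12 HH3 => ?_) HH2
  clear HH2
  refine mulcK_s he n12 (cst_nrm he 900719925474 (512/625:ℝ) (by norm_num [abs_le])) (fun _ h13 HH4 => ?_) HH3
  clear HH3
  have h14 := In_cast (w := CW1.c1_411 r z p) h13 (by unfold CW1.c1_411; push_cast; ring)
  refine nrmK_s he h14 (fun _ _ _ _ _ _ n15 HH5 => ?_) HH4
  clear HH4
  refine mulK_s he n15 n9 (fun _ h16 HH6 => ?_) HH5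
  clear HH5
  have h17 := In_cast (w := tA4 r z p s P) h16 (by unfold tA4; push_cast; ring)
  refine nrmK_s he h17 (fun _ _ _ _ _ _ n18 HH7 => ?_) HH6
  clear HH6
  exact hk _ _ _ _ _ _ n18 HH7

attribute [irreducible] tA4K

noncomputable def tA5K (x1 x2 x3 x4 x5 x6 x7 x8 x9 m10 r10 t10a t10b t10c t10d : ℕ) (k : ℕ → ℕ → ℕ → ℕ → ℕ → ℕ → Bool) : Bool :=
  frcK (Nat.add (Nat.add (Nat.add (Nat.mul 90035 x1) (Nat.mul 75378 x2)) (Nat.mul 109344 x5)) (Nat.mul 239270 x7)) fun x11 =>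
  finK (Nat.add (Nat.add (Nat.add (Nat.add (Nat.add (Nat.add (Nat.mul 340848 x3) (Nat.mul 217504 x4)) (Nat.mul 222391 x6)) (Nat.mul 480000 x8)) (Nat.mul 337176 x9)) (Nat.mul 91580 cOne)) (ngC 514027 x11)) 2378746739549612256788480 15 fun x12 =>
  nrmK x12 fun m13 r13 t13a t13b t13c t13d =>
  mulcK m13 r13 t13a 900719925474 1 fun x14 =>
  nrmK x14 fun m16 r16 t16a t16b t16c t16d =>
  mulK m16 r16 t16a t16b t16c t16d m10 r10 t10a t10b t10c t10d fun x17 =>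
  nrmK x17 fun m19 r19 t19a t19b t19c t19d =>
  k m19 r19 t19a t19b t19c t19d

theorem tA5K_s {e1 e2 e3 e4 e5 : ℝ} (he : Ev e1 e2 e3 e4 e5) (r z p s P : ℝ)  {x1 x2 x3 x4 x5 x6 x7 x8 x9 m10 r10 t10a t10b t10c t10d : ℕ} {k : ℕ → ℕ → ℕ → ℕ → ℕ → ℕ → Bool} {Q : Prop}
    (h1 : In e1 e2 e3 e4 e5 x1 ((p - 1/2)))
    (h2 : In e1 e2 e3 e4 e5 x2 ((p - 1/2) ^ 2))
    (h3 : In e1 e2 e3 e4 e5 x3 ((z - 1/2)))
    (h4 : In e1 e2 e3 e4 e5 x4 ((z - 1/2) * (p - 1/2)))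
    (h5 : In e1 e2 e3 e4 e5 x5 ((z - 1/2) ^ 2))
    (h6 : In e1 e2 e3 e4 e5 x6 ((r - 1/2)))
    (h7 : In e1 e2 e3 e4 e5 x7 ((r - 1/2) * (p - 1/2)))
    (h8 : In e1 e2 e3 e4 e5 x8 ((r - 1/2) * (z - 1/2)))
    (h9 : In e1 e2 e3 e4 e5 x9 ((r - 1/2) ^ 2))
    (n10 : Nrm e1 e2 e3 e4 e5 m10 r10 t10a t10b t10c t10d (P * s ^ 5))
    (hk : ∀ M0 R0 A0 B0 C0 D0, Nrm e1 e2 e3 e4 e5 M0 R0 A0 B0 C0 D0 (tA5 r z p s P) → k M0 R0 A0 B0 C0 D0 = true → Q)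
    (HH0 : tA5K x1 x2 x3 x4 x5 x6 x7 x8 x9 m10 r10 t10a t10b t10c t10d k = true) : Q := by
  unfold tA5K at HH0
  refine frcK_s (aa (aa (aa (an 90035 h1) (an 75378 h2)) (an 109344 h5)) (an 239270 h7)) (fun _ h11 HH1 => ?_) HH0
  refine finK_s he (aa (aa (aa (aa (aa (aa (an 340848 h3) (an 217504 h4)) (an 222391 h6)) (an 480000 h8)) (an 337176 h9)) (an 91580 (one_in he))) (ngC_s he (C := 514027) h11 (by decide +kernel) (by decide +kernel))) (by decide +kernel) (fun _ h12 HH2 => ?_) HH1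
  clear HH1
  refine nrmK_s he h12 (fun _ _ _ _ _ _ n13 HH3 => ?_) HH2
  clear HH2
  refine mulcK_s he n13 (cst_nrm he 900719925474 (512/625:ℝ) (by norm_num [abs_le])) (fun _ h14 HH4 => ?_) HH3
  clear HH3
  have h15 := In_cast (w := CW1.c1_512 r z p) h14 (by unfold CW1.c1_512; push_cast; ring)
  refine nrmK_s he h15 (fun _ _ _ _ _ _ n16 HH5 => ?_) HH4
  clear HH4
  refine mulK_s he n16 n10 (fun _ h17 HH6 => ?_) HH5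
  clear HH5
  have h18 := In_cast (w := tA5 r z p s P) h17 (by unfold tA5; push_cast; ring)
  refine nrmK_s he h18 (fun _ _ _ _ _ _ n19 HH7 => ?_) HH6
  clear HH6
  exact hk _ _ _ _ _ _ n19 HH7

attribute [irreducible] tA5K

noncomputable def tB0K (x1 x2 x3 x4 x5 x6 x7 x8 x9 m10 r10 t10a t10b t10c t10d : ℕ) (k : ℕ → ℕ → ℕ → ℕ → ℕ → ℕ → Bool) : Bool :=
  frcK (Nat.add (Nat.add (Nat.mul 32045 x2) (Nat.mul 26930 x3)) (Nat.mul 101934 x5)) fun x11 =>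
  finK (Nat.add (Nat.add (Nat.add (Nat.add (Nat.add (Nat.add (Nat.add (Nat.mul 123463 x1) (Nat.mul 143518 x4)) (Nat.mul 104515 x6)) (Nat.mul 96802 x7)) (Nat.mul 61364 x8)) (Nat.mul 56579 x9)) (Nat.mul 50947 cOne)) (ngC 160909 x11)) 1194843730112586484547584 14 fun x12 =>
  nrmK x12 fun m13 r13 t13a t13b t13c t13d =>
  mulcK m13 r13 t13a 900719925474 1 fun x14 =>
  nrmK x14 fun m16 r16 t16a t16b t16c t16d =>
  mulK m16 r16 t16a t16b t16c t16d m10 r10 t10a t10b t10c t10d fun x17 =>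
  nrmK x17 fun m19 r19 t19a t19b t19c t19d =>
  k m19 r19 t19a t19b t19c t19d

theorem tB0K_s {e1 e2 e3 e4 e5 : ℝ} (he : Ev e1 e2 e3 e4 e5) (r z p s P : ℝ)  {x1 x2 x3 x4 x5 x6 x7 x8 x9 m10 r10 t10a t10b t10c t10d : ℕ} {k : ℕ → ℕ → ℕ → ℕ → ℕ → ℕ → Bool} {Q : Prop}
    (h1 : In e1 e2 e3 e4 e5 x1 ((p - 1/2)))
    (h2 : In e1 e2 e3 e4 e5 x2 ((p - 1/2) ^ 2))
    (h3 : In e1 e2 e3 e4 e5 x3 ((z - 1/2)))
    (h4 : In e1 e2 e3 e4 e5 x4 ((z - 1/2) * (p - 1/2)))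
    (h5 : In e1 e2 e3 e4 e5 x5 ((z - 1/2) ^ 2))
    (h6 : In e1 e2 e3 e4 e5 x6 ((r - 1/2)))
    (h7 : In e1 e2 e3 e4 e5 x7 ((r - 1/2) * (p - 1/2)))
    (h8 : In e1 e2 e3 e4 e5 x8 ((r - 1/2) * (z - 1/2)))
    (h9 : In e1 e2 e3 e4 e5 x9 ((r - 1/2) ^ 2))
    (n10 : Nrm e1 e2 e3 e4 e5 m10 r10 t10a t10b t10c t10d (P * s))
    (hk : ∀ M0 R0 A0 B0 C0 D0, Nrm e1 e2 e3 e4 e5 M0 R0 A0 B0 C0 D0 (tB0 r z p s P) → k M0 R0 A0 B0 C0 D0 = true → Q)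
    (HH0 : tB0K x1 x2 x3 x4 x5 x6 x7 x8 x9 m10 r10 t10a t10b t10c t10d k = true) : Q := by
  unfold tB0K at HH0
  refine frcK_s (aa (aa (an 32045 h2) (an 26930 h3)) (an 101934 h5)) (fun _ h11 HH1 => ?_) HH0
  refine finK_s he (aa (aa (aa (aa (aa (aa (aa (an 123463 h1) (an 143518 h4)) (an 104515 h6)) (an 96802 h7)) (an 61364 h8)) (an 56579 h9)) (an 50947 (one_in he))) (ngC_s he (C := 160909) h11 (by decide +kernel) (by decide +kernel))) (by decide +kernel) (fun _ h12 HH2 => ?_) HH1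
  clear HH1
  refine nrmK_s he h12 (fun _ _ _ _ _ _ n13 HH3 => ?_) HH2
  clear HH2
  refine mulcK_s he n13 (cst_nrm he 900719925474 (512/625:ℝ) (by norm_num [abs_le])) (fun _ h14 HH4 => ?_) HH3
  clear HH3
  have h15 := In_cast (w := CW1.c2_100 r z p) h14 (by unfold CW1.c2_100; push_cast; ring)
  refine nrmK_s he h15 (fun _ _ _ _ _ _ n16 HH5 => ?_) HH4
  clear HH4
  refine mulK_s he n16 n10 (fun _ h17 HH6 => ?_) HH5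
  clear HH5
  have h18 := In_cast (w := tB0 r z p s P) h17 (by unfold tB0; push_cast; ring)
  refine nrmK_s he h18 (fun _ _ _ _ _ _ n19 HH7 => ?_) HH6
  clear HH6
  exact hk _ _ _ _ _ _ n19 HH7

attribute [irreducible] tB0K

noncomputable def tB1K (x1 x2 x3 x4 x5 x6 x7 x8 x9 m10 r10 t10a t10b t10c t10d : ℕ) (k : ℕ → ℕ → ℕ → ℕ → ℕ → ℕ → Bool) : Bool :=
  frcK (Nat.add (Nat.add (Nat.add (Nat.add (Nat.add (Nat.mul 178988 x1) (Nat.mul 15840 x2)) (Nat.mul 86263 x3)) (Nat.mul 268832 x4)) (Nat.mul 172384 x7)) (Nat.mul 150363 cOne)) fun x11 =>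
  finK (Nat.add (Nat.add (Nat.add (Nat.add (Nat.mul 151756 x5) (Nat.mul 48209 x6)) (Nat.mul 259586 x8)) (Nat.mul 151218 x9)) (ngC 872670 x11)) 2391718673729109610201088 15 fun x12 =>
  nrmK x12 fun m13 r13 t13a t13b t13c t13d =>
  mulcK m13 r13 t13a 900719925474 1 fun x14 =>
  nrmK x14 fun m16 r16 t16a t16b t16c t16d =>
  mulK m16 r16 t16a t16b t16c t16d m10 r10 t10a t10b t10c t10d fun x17 =>
  nrmK x17 fun m19 r19 t19a t19b t19c t19d =>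
  k m19 r19 t19a t19b t19c t19d

theorem tB1K_s {e1 e2 e3 e4 e5 : ℝ} (he : Ev e1 e2 e3 e4 e5) (r z p s P : ℝ)  {x1 x2 x3 x4 x5 x6 x7 x8 x9 m10 r10 t10a t10b t10c t10d : ℕ} {k : ℕ → ℕ → ℕ → ℕ → ℕ → ℕ → Bool} {Q : Prop}
    (h1 : In e1 e2 e3 e4 e5 x1 ((p - 1/2)))
    (h2 : In e1 e2 e3 e4 e5 x2 ((p - 1/2) ^ 2))
    (h3 : In e1 e2 e3 e4 e5 x3 ((z - 1/2)))
    (h4 : In e1 e2 e3 e4 e5 x4 ((z - 1/2) * (p - 1/2)))
    (h5 : In e1 e2 e3 e4 e5 x5 ((z - 1/2) ^ 2))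
    (h6 : In e1 e2 e3 e4 e5 x6 ((r - 1/2)))
    (h7 : In e1 e2 e3 e4 e5 x7 ((r - 1/2) * (p - 1/2)))
    (h8 : In e1 e2 e3 e4 e5 x8 ((r - 1/2) * (z - 1/2)))
    (h9 : In e1 e2 e3 e4 e5 x9 ((r - 1/2) ^ 2))
    (n10 : Nrm e1 e2 e3 e4 e5 m10 r10 t10a t10b t10c t10d (P * s ^ 2))
    (hk : ∀ M0 R0 A0 B0 C0 D0, Nrm e1 e2 e3 e4 e5 M0 R0 A0 B0 C0 D0 (tB1 r z p s P) → k M0 R0 A0 B0 C0 D0 = true → Q)
    (HH0 : tB1K x1 x2 x3 x4 x5 x6 x7 x8 x9 m10 r10 t10a t10b t10c t10d k = true) : Q := by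
  unfold tB1K at HH0
  refine frcK_s (aa (aa (aa (aa (aa (an 178988 h1) (an 15840 h2)) (an 86263 h3)) (an 268832 h4)) (an 172384 h7)) (an 150363 (one_in he))) (fun _ h11 HH1 => ?_) HH0
  refine finK_s he (aa (aa (aa (aa (an 151756 h5) (an 48209 h6)) (an 259586 h8)) (an 151218 h9)) (ngC_s he (C := 872670) h11 (by decide +kernel) (by decide +kernel))) (by decide +kernel) (fun _ h12 HH2 => ?_) HH1
  clear HH1
  refine nrmK_s he h12 (fun _ _ _ _ _ _ n13 HH3 => ?_) HH2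
  clear HH2
  refine mulcK_s he n13 (cst_nrm he 900719925474 (512/625:ℝ) (by norm_num [abs_le])) (fun _ h14 HH4 => ?_) HH3
  clear HH3
  have h15 := In_cast (w := CW1.c2_201 r z p) h14 (by unfold CW1.c2_201; push_cast; ring)
  refine nrmK_s he h15 (fun _ _ _ _ _ _ n16 HH5 => ?_) HH4
  clear HH4
  refine mulK_s he n16 n10 (fun _ h17 HH6 => ?_) HH5
  clear HH5
  have h18 := In_cast (w := tB1 r z p s P) h17 (by unfold tB1; push_cast; ring)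
  refine nrmK_s he h18 (fun _ _ _ _ _ _ n19 HH7 => ?_) HH6
  clear HH6
  exact hk _ _ _ _ _ _ n19 HH7

attribute [irreducible] tB1K

noncomputable def tB2K (x1 x2 x3 x4 x5 x6 x7 x8 x9 m10 r10 t10a t10b t10c t10d : ℕ) (k : ℕ → ℕ → ℕ → ℕ → ℕ → ℕ → Bool) : Bool :=
  frcK (Nat.add (Nat.add (Nat.add (Nat.add (Nat.add (Nat.add (Nat.mul 12195 x1) (Nat.mul 167256 x3)) (Nat.mul 326256 x4)) (Nat.mul 111633 x6)) (Nat.mul 360000 x8)) (Nat.mul 144504 x9)) (Nat.mul 82245 cOne)) fun x11 =>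
  finK (Nat.add (Nat.add (Nat.add (Nat.mul 75378 x2) (Nat.mul 328032 x5)) (Nat.mul 143562 x7)) (ngC 1204089 x11)) 2386897624371205022679040 15 fun x12 =>
  nrmK x12 fun m13 r13 t13a t13b t13c t13d =>
  mulcK m13 r13 t13a 900719925474 1 fun x14 =>
  nrmK x14 fun m16 r16 t16a t16b t16c t16d =>
  mulK m16 r16 t16a t16b t16c t16d m10 r10 t10a t10b t10c t10d fun x17 =>
  nrmK x17 fun m19 r19 t19a t19b t19c t19d =>
  k m19 r19 t19a t19b t19c t19d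

theorem tB2K_s {e1 e2 e3 e4 e5 : ℝ} (he : Ev e1 e2 e3 e4 e5) (r z p s P : ℝ)  {x1 x2 x3 x4 x5 x6 x7 x8 x9 m10 r10 t10a t10b t10c t10d : ℕ} {k : ℕ → ℕ → ℕ → ℕ → ℕ → ℕ → Bool} {Q : Prop}
    (h1 : In e1 e2 e3 e4 e5 x1 ((p - 1/2)))
    (h2 : In e1 e2 e3 e4 e5 x2 ((p - 1/2) ^ 2))
    (h3 : In e1 e2 e3 e4 e5 x3 ((z - 1/2)))
    (h4 : In e1 e2 e3 e4 e5 x4 ((z - 1/2) * (p - 1/2)))
    (h5 : In e1 e2 e3 e4 e5 x5 ((z - 1/2) ^ 2))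
    (h6 : In e1 e2 e3 e4 e5 x6 ((r - 1/2)))
    (h7 : In e1 e2 e3 e4 e5 x7 ((r - 1/2) * (p - 1/2)))
    (h8 : In e1 e2 e3 e4 e5 x8 ((r - 1/2) * (z - 1/2)))
    (h9 : In e1 e2 e3 e4 e5 x9 ((r - 1/2) ^ 2))
    (n10 : Nrm e1 e2 e3 e4 e5 m10 r10 t10a t10b t10c t10d (P * s ^ 3))
    (hk : ∀ M0 R0 A0 B0 C0 D0, Nrm e1 e2 e3 e4 e5 M0 R0 A0 B0 C0 D0 (tB2 r z p s P) → k M0 R0 A0 B0 C0 D0 = true → Q)
    (HH0 : tB2K x1 x2 x3 x4 x5 x6 x7 x8 x9 m10 r10 t10a t10b t10c t10d k = true) : Q := by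
  unfold tB2K at HH0
  refine frcK_s (aa (aa (aa (aa (aa (aa (an 12195 h1) (an 167256 h3)) (an 326256 h4)) (an 111633 h6)) (an 360000 h8)) (an 144504 h9)) (an 82245 (one_in he))) (fun _ h11 HH1 => ?_) HH0
  refine finK_s he (aa (aa (aa (an 75378 h2) (an 328032 h5)) (an 143562 h7)) (ngC_s he (C := 1204089) h11 (by decide +kernel) (by decide +kernel))) (by decide +kernel) (fun _ h12 HH2 => ?_) HH1
  clear HH1
  refine nrmK_s he h12 (fun _ _ _ _ _ _ n13 HH3 => ?_) HH2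
  clear HH2
  refine mulcK_s he n13 (cst_nrm he 900719925474 (512/625:ℝ) (by norm_num [abs_le])) (fun _ h14 HH4 => ?_) HH3
  clear HH3
  have h15 := In_cast (w := CW1.c2_302 r z p) h14 (by unfold CW1.c2_302; push_cast; ring)
  refine nrmK_s he h15 (fun _ _ _ _ _ _ n16 HH5 => ?_) HH4
  clear HH4
  refine mulK_s he n16 n10 (fun _ h17 HH6 => ?_) HH5
  clear HH5
  have h18 := In_cast (w := tB2 r z p s P) h17 (by unfold tB2; push_cast; ring)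
  refine nrmK_s he h18 (fun _ _ _ _ _ _ n19 HH7 => ?_) HH6
  clear HH6
  exact hk _ _ _ _ _ _ n19 HH7

attribute [irreducible] tB2K

noncomputable def tB3K (x1 x2 x3 m4 r4 t4a t4b t4c t4d : ℕ) (k : ℕ → ℕ → ℕ → ℕ → ℕ → ℕ → Bool) : Bool :=
  frcK (Nat.mul 20972 x2) fun x5 =>
  finK (Nat.add (Nat.add (Nat.add (Nat.mul 12829 x1) (Nat.mul 9449 x3)) (Nat.mul 1017 cOne)) (ngC 20972 x5)) 1208423524140989288546304 14 fun x6 =>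
  nrmK x6 fun m7 r7 t7a t7b t7c t7d =>
  mulcK m7 r7 t7a 900719925474 1 fun x8 =>
  nrmK x8 fun m10 r10 t10a t10b t10c t10d =>
  mulK m10 r10 t10a t10b t10c t10d m4 r4 t4a t4b t4c t4d fun x11 =>
  nrmK x11 fun m13 r13 t13a t13b t13c t13d =>
  k m13 r13 t13a t13b t13c t13d

theorem tB3K_s {e1 e2 e3 e4 e5 : ℝ} (he : Ev e1 e2 e3 e4 e5) (r z p s P : ℝ)  {x1 x2 x3 m4 r4 t4a t4b t4c t4d : ℕ} {k : ℕ → ℕ → ℕ → ℕ → ℕ → ℕ → Bool} {Q : Prop}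
    (h1 : In e1 e2 e3 e4 e5 x1 ((p - 1/2)))
    (h2 : In e1 e2 e3 e4 e5 x2 ((z - 1/2)))
    (h3 : In e1 e2 e3 e4 e5 x3 ((r - 1/2)))
    (n4 : Nrm e1 e2 e3 e4 e5 m4 r4 t4a t4b t4c t4d (P * s ^ 4))
    (hk : ∀ M0 R0 A0 B0 C0 D0, Nrm e1 e2 e3 e4 e5 M0 R0 A0 B0 C0 D0 (tB3 r z p s P) → k M0 R0 A0 B0 C0 D0 = true → Q)
    (HH0 : tB3K x1 x2 x3 m4 r4 t4a t4b t4c t4d k = true) : Q := by
  unfold tB3K at HH0
  refine frcK_s (an 20972 h2) (fun _ h5 HH1 => ?_) HH0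
  refine finK_s he (aa (aa (aa (an 12829 h1) (an 9449 h3)) (an 1017 (one_in he))) (ngC_s he (C := 20972) h5 (by decide +kernel) (by decide +kernel))) (by decide +kernel) (fun _ h6 HH2 => ?_) HH1
  clear HH1
  refine nrmK_s he h6 (fun _ _ _ _ _ _ n7 HH3 => ?_) HH2
  clear HH2
  refine mulcK_s he n7 (cst_nrm he 900719925474 (512/625:ℝ) (by norm_num [abs_le])) (fun _ h8 HH4 => ?_) HH3
  clear HH3
  have h9 := In_cast (w := CW1.c2_410 r z p) h8 (by unfold CW1.c2_410; push_cast; ring)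
  refine nrmK_s he h9 (fun _ _ _ _ _ _ n10 HH5 => ?_) HH4
  clear HH4
  refine mulK_s he n10 n4 (fun _ h11 HH6 => ?_) HH5
  clear HH5
  have h12 := In_cast (w := tB3 r z p s P) h11 (by unfold tB3; push_cast; ring)
  refine nrmK_s he h12 (fun _ _ _ _ _ _ n13 HH7 => ?_) HH6
  clear HH6
  exact hk _ _ _ _ _ _ n13 HH7

attribute [irreducible] tB3K

noncomputable def tB4K (x1 x2 x3 m4 r4 t4a t4b t4c t4d : ℕ) (k : ℕ → ℕ → ℕ → ℕ → ℕ → ℕ → Bool) : Bool :=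
  frcK (Nat.add (Nat.add (Nat.mul 12829 x2) (Nat.mul 3605 x3)) (Nat.mul 1501 cOne)) fun x5 =>
  finK (Nat.add (Nat.mul 8802 x1) (ngC 17935 x5)) 604128832786956243959808 13 fun x6 =>
  nrmK x6 fun m7 r7 t7a t7b t7c t7d =>
  mulcK m7 r7 t7a 900719925474 1 fun x8 =>
  nrmK x8 fun m10 r10 t10a t10b t10c t10d =>
  mulK m10 r10 t10a t10b t10c t10d m4 r4 t4a t4b t4c t4d fun x11 =>
  nrmK x11 fun m13 r13 t13a t13b t13c t13d =>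
  k m13 r13 t13a t13b t13c t13d

theorem tB4K_s {e1 e2 e3 e4 e5 : ℝ} (he : Ev e1 e2 e3 e4 e5) (r z p s P : ℝ)  {x1 x2 x3 m4 r4 t4a t4b t4c t4d : ℕ} {k : ℕ → ℕ → ℕ → ℕ → ℕ → ℕ → Bool} {Q : Prop}
    (h1 : In e1 e2 e3 e4 e5 x1 ((p - 1/2)))
    (h2 : In e1 e2 e3 e4 e5 x2 ((z - 1/2)))
    (h3 : In e1 e2 e3 e4 e5 x3 ((r - 1/2)))
    (n4 : Nrm e1 e2 e3 e4 e5 m4 r4 t4a t4b t4c t4d (P * s ^ 5))
    (hk : ∀ M0 R0 A0 B0 C0 D0, Nrm e1 e2 e3 e4 e5 M0 R0 A0 B0 C0 D0 (tB4 r z p s P) → k M0 R0 A0 B0 C0 D0 = true → Q)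
    (HH0 : tB4K x1 x2 x3 m4 r4 t4a t4b t4c t4d k = true) : Q := by
  unfold tB4K at HH0
  refine frcK_s (aa (aa (an 12829 h2) (an 3605 h3)) (an 1501 (one_in he))) (fun _ h5 HH1 => ?_) HH0
  refine finK_s he (aa (an 8802 h1) (ngC_s he (C := 17935) h5 (by decide +kernel) (by decide +kernel))) (by decide +kernel) (fun _ h6 HH2 => ?_) HH1
  clear HH1
  refine nrmK_s he h6 (fun _ _ _ _ _ _ n7 HH3 => ?_) HH2
  clear HH2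
  refine mulcK_s he n7 (cst_nrm he 900719925474 (512/625:ℝ) (by norm_num [abs_le])) (fun _ h8 HH4 => ?_) HH3
  clear HH3
  have h9 := In_cast (w := CW1.c2_511 r z p) h8 (by unfold CW1.c2_511; push_cast; ring)
  refine nrmK_s he h9 (fun _ _ _ _ _ _ n10 HH5 => ?_) HH4
  clear HH4
  refine mulK_s he n10 n4 (fun _ h11 HH6 => ?_) HH5
  clear HH5
  have h12 := In_cast (w := tB4 r z p s P) h11 (by unfold tB4; push_cast; ring)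
  refine nrmK_s he h12 (fun _ _ _ _ _ _ n13 HH7 => ?_) HH6
  clear HH6
  exact hk _ _ _ _ _ _ n13 HH7

attribute [irreducible] tB4K

noncomputable def tE0K (x1 x2 x3 x4 x5 x6 x7 x8 x9 x10 x11 x12 x13 x14 x15 x16 x17 x18 x19 x20 x21 x22 x23 x24 x25 x26 x27 x28 x29 x30 x31 x32 x33 x34 x35 x36 x37 x38 x39 x40 x41 x42 x43 x44 m45 r45 t45a t45b t45c t45d : ℕ) (k : ℕ → Bool) : Bool :=
  frcK (Nat.add (Nat.add (Nat.add (Nat.add (Nat.add (Nat.add (Nat.add (Nat.add (Nat.add (Nat.add (Nat.add (Nat.add (Nat.add (Nat.add (Nat.add (Nat.add (Nat.add (Nat.add (Nat.add (Nat.add (Nat.add (Nat.add (Nat.add (Nat.add (Nat.add (Nat.add (Nat.add (Nat.mul 117409531 x1) (Nat.mul 38798640 x3)) (Nat.mul 568948204 x6)) (Nat.mul 181878704 x7)) (Nat.mul 657166612 x10)) (Nat.mul 15322648 x15)) (Nat.mul 284891776 x17)) (Nat.mul 52829280 x18)) (Nat.mul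 632155738 x19)) (Nat.mul 399387992 x20)) (Nat.mul 819385408 x21)) (Nat.mul 142692000 x8)) (Nat.mul 285384000 x22)) (Nat.mul 1171718316 x23)) (Nat.mul 1074333224 x24)) (Nat.mul 161552000 x11)) (Nat.mul 323104000 x25)) (Nat.mul 318476128 x26)) (Nat.mul 41424000 x13)) (Nat.mul 82848000 x27)) (Nat.mul 156191648 x31)) (Nat.mul 676864804 x32)) (Nat.mul 1056263168 x33)) (Nat.mul 204920000 x34)) (Nat.mul 998275616 x35)) (Nat.mul 1440000000 x36)) (Nat.mul 375568000 x37)) (Nat.mul 719232000 x41)) fun x46 =>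
  finK (Nat.add (Nat.add (Nat.add (Nat.add (Nat.add (Nat.add (Nat.add (Nat.add (Nat.add (Nat.add (Nat.add (Nat.add (Nat.add (Nat.add (Nat.add (Nat.add (Nat.add (Nat.mul 23526024 x2) (Nat.mul 62608000 x4)) (Nat.mul 184435207 x5)) (Nat.mul 170128746 x9)) (Nat.mul 225741936 x12)) (Nat.mul 93175298 x16)) (Nat.mul 7420000 x14)) (Nat.mul 14840000 x28)) (Nat.mul 108739010 x29)) (Nat.mul 274946696 x30)) (Nat.mul 50068004 x38)) (Nat.mul 88123952 x39)) (Nat.mul 84075000 x40)) (Nat.mul 279704000 x42)) (Nat.mul 236842992 x43)) (Nat.mul 153256000 x44)) (Nat.mul 52727737 cOne)) (ngC 12997021437 x46)) 4680818718504396251459485696 26 fun x47 =>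
  nrmK x47 fun m48 r48 t48a t48b t48c t48d =>
  mulcK m48 r48 t48a 922337203685 1 fun x49 =>
  frcK (Nat.add (Nat.add (Nat.add (Nat.add (Nat.mul 16050 x5) (Nat.mul 8342 x6)) (Nat.mul 11973 x9)) (Nat.mul 4084 x19)) (Nat.mul 11609 x29)) fun x51 =>
  finK (Nat.add (Nat.add (Nat.add (Nat.add (Nat.add (Nat.mul 39990 x1) (Nat.mul 11754 x2)) (Nat.mul 3693 x15)) (Nat.mul 30000 x16)) (Nat.mul 22943 cOne)) (ngC 52058 x51)) 601720289691839993217024 13 fun x52 =>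
  nrmK x52 fun m53 r53 t53a t53b t53c t53d =>
  mulcK m53 r53 t53a 900719925474 1 fun x54 =>
  nrmK x54 fun m56 r56 t56a t56b t56c t56d =>
  mulK m56 r56 t56a t56b t56c t56d m45 r45 t45a t45b t45c t45d fun x57 =>
  finK (Nat.add x49 x57) 73768961896328724480 0 fun x58 =>
  k x58

theorem tE0K_s {e1 e2 e3 e4 e5 : ℝ} (he : Ev e1 e2 e3 e4 e5) (r z p s P : ℝ)  {x1 x2 x3 x4 x5 x6 x7 x8 x9 x10 x11 x12 x13 x14 x15 x16 x17 x18 x19 x20 x21 x22 x23 x24 x25 x26 x27 x28 x29 x30 x31 x32 x33 x34 x35 x36 x37 x38 x39 x40 x41 x42 x43 x44 m45 r45 t45a t45b t45c t45d : ℕ} {k : ℕ → Bool} {Q : Prop}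
    (h1 : In e1 e2 e3 e4 e5 x1 ((p - 1/2)))
    (h2 : In e1 e2 e3 e4 e5 x2 ((p - 1/2) ^ 2))
    (h3 : In e1 e2 e3 e4 e5 x3 ((p - 1/2) ^ 3))
    (h4 : In e1 e2 e3 e4 e5 x4 ((p - 1/2) ^ 4))
    (h5 : In e1 e2 e3 e4 e5 x5 ((z - 1/2)))
    (h6 : In e1 e2 e3 e4 e5 x6 ((z - 1/2) * (p - 1/2)))
    (h7 : In e1 e2 e3 e4 e5 x7 ((z - 1/2) * (p - 1/2) ^ 2))
    (h8 : In e1 e2 e3 e4 e5 x8 ((z - 1/2) * (p - 1/2) ^ 3))
    (h9 : In e1 e2 e3 e4 e5 x9 ((z - 1/2) ^ 2))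
    (h10 : In e1 e2 e3 e4 e5 x10 ((z - 1/2) ^ 2 * (p - 1/2)))
    (h11 : In e1 e2 e3 e4 e5 x11 ((z - 1/2) ^ 2 * (p - 1/2) ^ 2))
    (h12 : In e1 e2 e3 e4 e5 x12 ((z - 1/2) ^ 3))
    (h13 : In e1 e2 e3 e4 e5 x13 ((z - 1/2) ^ 3 * (p - 1/2)))
    (h14 : In e1 e2 e3 e4 e5 x14 ((z - 1/2) ^ 4))
    (h15 : In e1 e2 e3 e4 e5 x15 ((r - 1/2)))
    (h16 : In e1 e2 e3 e4 e5 x16 ((r - 1/2) * (p - 1/2)))
    (h17 : In e1 e2 e3 e4 e5 x17 ((r - 1/2) * (p - 1/2) ^ 2))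
    (h18 : In e1 e2 e3 e4 e5 x18 ((r - 1/2) * (p - 1/2) ^ 3))
    (h19 : In e1 e2 e3 e4 e5 x19 ((r - 1/2) * (z - 1/2)))
    (h20 : In e1 e2 e3 e4 e5 x20 ((r - 1/2) * (z - 1/2) * (p - 1/2)))
    (h21 : In e1 e2 e3 e4 e5 x21 ((r - 1/2) * (z - 1/2) * (p - 1/2) ^ 2))
    (h22 : In e1 e2 e3 e4 e5 x22 ((r - 1/2) * (z - 1/2) * (p - 1/2) ^ 3))
    (h23 : In e1 e2 e3 e4 e5 x23 ((r - 1/2) * (z - 1/2) ^ 2))
    (h24 : In e1 e2 e3 e4 e5 x24 ((r - 1/2) * (z - 1/2) ^ 2 * (p - 1/2)))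
    (h25 : In e1 e2 e3 e4 e5 x25 ((r - 1/2) * (z - 1/2) ^ 2 * (p - 1/2) ^ 2))
    (h26 : In e1 e2 e3 e4 e5 x26 ((r - 1/2) * (z - 1/2) ^ 3))
    (h27 : In e1 e2 e3 e4 e5 x27 ((r - 1/2) * (z - 1/2) ^ 3 * (p - 1/2)))
    (h28 : In e1 e2 e3 e4 e5 x28 ((r - 1/2) * (z - 1/2) ^ 4))
    (h29 : In e1 e2 e3 e4 e5 x29 ((r - 1/2) ^ 2))
    (h30 : In e1 e2 e3 e4 e5 x30 ((r - 1/2) ^ 2 * (p - 1/2)))
    (h31 : In e1 e2 e3 e4 e5 x31 ((r - 1/2) ^ 2 * (p - 1/2) ^ 2))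
    (h32 : In e1 e2 e3 e4 e5 x32 ((r - 1/2) ^ 2 * (z - 1/2)))
    (h33 : In e1 e2 e3 e4 e5 x33 ((r - 1/2) ^ 2 * (z - 1/2) * (p - 1/2)))
    (h34 : In e1 e2 e3 e4 e5 x34 ((r - 1/2) ^ 2 * (z - 1/2) * (p - 1/2) ^ 2))
    (h35 : In e1 e2 e3 e4 e5 x35 ((r - 1/2) ^ 2 * (z - 1/2) ^ 2))
    (h36 : In e1 e2 e3 e4 e5 x36 ((r - 1/2) ^ 2 * (z - 1/2) ^ 2 * (p - 1/2)))
    (h37 : In e1 e2 e3 e4 e5 x37 ((r - 1/2) ^ 2 * (z - 1/2) ^ 3))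
    (h38 : In e1 e2 e3 e4 e5 x38 ((r - 1/2) ^ 3))
    (h39 : In e1 e2 e3 e4 e5 x39 ((r - 1/2) ^ 3 * (p - 1/2)))
    (h40 : In e1 e2 e3 e4 e5 x40 ((r - 1/2) ^ 3 * (z - 1/2)))
    (h41 : In e1 e2 e3 e4 e5 x41 ((r - 1/2) ^ 3 * (z - 1/2) * (p - 1/2)))
    (h42 : In e1 e2 e3 e4 e5 x42 ((r - 1/2) ^ 3 * (z - 1/2) ^ 2))
    (h43 : In e1 e2 e3 e4 e5 x43 ((r - 1/2) ^ 4))
    (h44 : In e1 e2 e3 e4 e5 x44 ((r - 1/2) ^ 4 * (z - 1/2)))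
    (n45 : Nrm e1 e2 e3 e4 e5 m45 r45 t45a t45b t45c t45d (P ^ 2))
    (hk : ∀ X0, In e1 e2 e3 e4 e5 X0 (tE0 r z p s P) → k X0 = true → Q)
    (HH0 : tE0K x1 x2 x3 x4 x5 x6 x7 x8 x9 x10 x11 x12 x13 x14 x15 x16 x17 x18 x19 x20 x21 x22 x23 x24 x25 x26 x27 x28 x29 x30 x31 x32 x33 x34 x35 x36 x37 x38 x39 x40 x41 x42 x43 x44 m45 r45 t45a t45b t45c t45d k = true) : Q := by
  unfold tE0K at HH0
  refine frcK_s (aa (aa (aa (aa (aa (aa (aa (aa (aa (aa (aa (aa (aa (aa (aa (aa (aa (aa (aa (aa (aa (aa (aa (aa (aa (aa (aa (an 117409531 h1) (an 38798640 h3)) (an 568948204 h6)) (an 181878704 h7)) (an 657166612 h10)) (an 15322648 h15)) (an 284891776 h17)) (an 52829280 h18)) (an 632155738 h19)) (an 399387992 h20)) (an 819385408 h21)) (an 142692000 h8)) (an 285384000 h22)) (an 1171718316 h23)) (an 1074333224 h24)) (an 161552000 h11))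 (an 323104000 h25)) (an 318476128 h26)) (an 41424000 h13)) (an 82848000 h27)) (an 156191648 h31)) (an 676864804 h32)) (an 1056263168 h33)) (an 204920000 h34)) (an 998275616 h35)) (an 1440000000 h36)) (an 375568000 h37)) (an 719232000 h41)) (fun _ h46 HH1 => ?_) HH0
  refine finK_s he (aa (aa (aa (aa (aa (aa (aa (aa (aa (aa (aa (aa (aa (aa (aa (aa (aa (an 23526024 h2) (an 62608000 h4)) (an 184435207 h5)) (an 170128746 h9)) (an 225741936 h12)) (an 93175298 h16)) (an 7420000 h14)) (an 14840000 h28)) (an 108739010 h29)) (an 274946696 h30)) (an 50068004 h38)) (an 88123952 h39)) (an 84075000 h40)) (an 279704000 h42)) (an 236842992 h43)) (an 153256000 h44)) (an 52727737 (one_in he))) (ngC_s he (C := 12997021437) h46 (by decide +kernel) (by decide +kernel))) (by decide +kernel) (fun _ h47 HH2 => ?_) HH1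
  clear HH1
  refine nrmK_s he h47 (fun _ _ _ _ _ _ n48 HH3 => ?_) HH2
  clear HH2
  refine mulcK_s he n48 (cst_nrm he 922337203685 (65536/78125:ℝ) (by norm_num [abs_le])) (fun _ h49 HH4 => ?_) HH3
  clear HH3
  have h50 := In_cast (w := CW1.G_000 r z p) h49 (by unfold CW1.G_000; push_cast; ring)
  refine frcK_s (aa (aa (aa (aa (an 16050 h5) (an 8342 h6)) (an 11973 h9)) (an 4084 h19)) (an 11609 h29)) (fun _ h51 HH5 => ?_) HH4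
  clear HH4
  refine finK_s he (aa (aa (aa (aa (aa (an 39990 h1) (an 11754 h2)) (an 3693 h15)) (an 30000 h16)) (an 22943 (one_in he))) (ngC_s he (C := 52058) h51 (by decide +kernel) (by decide +kernel))) (by decide +kernel) (fun _ h52 HH6 => ?_) HH5
  clear HH5
  refine nrmK_s he h52 (fun _ _ _ _ _ _ n53 HH7 => ?_) HH6
  clear HH6
  refine mulcK_s he n53 (cst_nrm he 900719925474 (512/625:ℝ) (by norm_num [abs_le])) (fun _ h54 HH8 => ?_) HH7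
  clear HH7
  have h55 := In_cast (w := CW1.c0_000 r z p) h54 (by unfold CW1.c0_000; push_cast; ring)
  refine nrmK_s he h55 (fun _ _ _ _ _ _ n56 HH9 => ?_) HH8
  clear HH8
  refine mulK_s he n56 n45 (fun _ h57 HH10 => ?_) HH9
  clear HH9
  refine finK_s he (aa (a1 h50) (a1 h57)) (by decide +kernel) (fun _ h58 HH11 => ?_) HH10
  clear HH10
  have h59 := In_cast (w := tE0 r z p s P) h58 (by unfold tE0; push_cast; ring)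
  exact hk _ h59 HH11

attribute [irreducible] tE0K

noncomputable def tE1K (x1 x2 x3 x4 x5 x6 x7 x8 x9 m10 r10 t10a t10b t10c t10d : ℕ) (k : ℕ → ℕ → ℕ → ℕ → ℕ → ℕ → Bool) : Bool :=
  frcK (Nat.add (Nat.add (Nat.add (Nat.add (Nat.add (Nat.mul 481868 x1) (Nat.mul 142852 x2)) (Nat.mul 668064 x4)) (Nat.mul 102036 x6)) (Nat.mul 249968 x7)) (Nat.mul 53480 x9)) fun x11 =>
  finK (Nat.add (Nat.add (Nat.add (Nat.add (Nat.mul 347964 x3) (Nat.mul 470000 x5)) (Nat.mul 152856 x8)) (Nat.mul 114127 cOne)) (ngC 1698268 x11)) 2368303990892049154965504 15 fun x12 =>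
  nrmK x12 fun m13 r13 t13a t13b t13c t13d =>
  mulcK m13 r13 t13a 900719925474 1 fun x14 =>
  nrmK x14 fun m16 r16 t16a t16b t16c t16d =>
  mulK m16 r16 t16a t16b t16c t16d m10 r10 t10a t10b t10c t10d fun x17 =>
  nrmK x17 fun m19 r19 t19a t19b t19c t19d =>
  k m19 r19 t19a t19b t19c t19d

theorem tE1K_s {e1 e2 e3 e4 e5 : ℝ} (he : Ev e1 e2 e3 e4 e5) (r z p s P : ℝ)  {x1 x2 x3 x4 x5 x6 x7 x8 x9 m10 r10 t10a t10b t10c t10d : ℕ} {k : ℕ → ℕ → ℕ → ℕ → ℕ → ℕ → Bool} {Q : Prop}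
    (h1 : In e1 e2 e3 e4 e5 x1 ((p - 1/2)))
    (h2 : In e1 e2 e3 e4 e5 x2 ((p - 1/2) ^ 2))
    (h3 : In e1 e2 e3 e4 e5 x3 ((z - 1/2)))
    (h4 : In e1 e2 e3 e4 e5 x4 ((z - 1/2) * (p - 1/2)))
    (h5 : In e1 e2 e3 e4 e5 x5 ((z - 1/2) ^ 2))
    (h6 : In e1 e2 e3 e4 e5 x6 ((r - 1/2)))
    (h7 : In e1 e2 e3 e4 e5 x7 ((r - 1/2) * (p - 1/2)))
    (h8 : In e1 e2 e3 e4 e5 x8 ((r - 1/2) * (z - 1/2)))
    (h9 : In e1 e2 e3 e4 e5 x9 ((r - 1/2) ^ 2))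
    (n10 : Nrm e1 e2 e3 e4 e5 m10 r10 t10a t10b t10c t10d (P ^ 2 * s))
    (hk : ∀ M0 R0 A0 B0 C0 D0, Nrm e1 e2 e3 e4 e5 M0 R0 A0 B0 C0 D0 (tE1 r z p s P) → k M0 R0 A0 B0 C0 D0 = true → Q)
    (HH0 : tE1K x1 x2 x3 x4 x5 x6 x7 x8 x9 m10 r10 t10a t10b t10c t10d k = true) : Q := by
  unfold tE1K at HH0
  refine frcK_s (aa (aa (aa (aa (aa (an 481868 h1) (an 142852 h2)) (an 668064 h4)) (an 102036 h6)) (an 249968 h7)) (an 53480 h9)) (fun _ h11 HH1 => ?_) HH0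
  refine finK_s he (aa (aa (aa (aa (an 347964 h3) (an 470000 h5)) (an 152856 h8)) (an 114127 (one_in he))) (ngC_s he (C := 1698268) h11 (by decide +kernel) (by decide +kernel))) (by decide +kernel) (fun _ h12 HH2 => ?_) HH1
  clear HH1
  refine nrmK_s he h12 (fun _ _ _ _ _ _ n13 HH3 => ?_) HH2
  clear HH2
  refine mulcK_s he n13 (cst_nrm he 900719925474 (512/625:ℝ) (by norm_num [abs_le])) (fun _ h14 HH4 => ?_) HH3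
  clear HH3
  have h15 := In_cast (w := CW1.c0_101 r z p) h14 (by unfold CW1.c0_101; push_cast; ring)
  refine nrmK_s he h15 (fun _ _ _ _ _ _ n16 HH5 => ?_) HH4
  clear HH4
  refine mulK_s he n16 n10 (fun _ h17 HH6 => ?_) HH5
  clear HH5
  have h18 := In_cast (w := tE1 r z p s P) h17 (by unfold tE1; push_cast; ring)
  refine nrmK_s he h18 (fun _ _ _ _ _ _ n19 HH7 => ?_) HH6
  clear HH6
  exact hk _ _ _ _ _ _ n19 HH7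

attribute [irreducible] tE1K

noncomputable def tE2K (x1 x2 x3 x4 x5 x6 x7 x8 x9 x10 x11 x12 x13 x14 x15 x16 m17 r17 t17a t17b t17c t17d : ℕ) (k : ℕ → ℕ → ℕ → ℕ → ℕ → ℕ → Bool) : Bool :=
  frcK (Nat.add (Nat.add (Nat.add (Nat.add (Nat.add (Nat.add (Nat.add (Nat.add (Nat.mul 15694 x2) (Nat.mul 62608 x3)) (Nat.mul 13200 x9)) (Nat.mul 21542 x10)) (Nat.mul 120000 x12)) (Nat.mul 81918 x13)) (Nat.mul 60000 x14)) (Nat.mul 60000 x15)) (Nat.mul 30000 x16)) fun x18 =>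
  finK (Nat.add (Nat.add (Nat.add (Nat.add (Nat.add (Nat.add (Nat.add (Nat.add (Nat.mul 54840 x1) (Nat.mul 146288 x4)) (Nat.mul 18276 x5)) (Nat.mul 114300 x6)) (Nat.mul 70299 x7)) (Nat.mul 120946 x8)) (Nat.mul 88292 x11)) (Nat.mul 89710 cOne)) (ngC 464962 x18)) 583571233553499631386624 13 fun x19 =>
  nrmK x19 fun m20 r20 t20a t20b t20c t20d =>
  mulcK m20 r20 t20a 900719925474 1 fun x21 =>
  nrmK x21 fun m23 r23 t23a t23b t23c t23d =>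
  mulK m23 r23 t23a t23b t23c t23d m17 r17 t17a t17b t17c t17d fun x24 =>
  nrmK x24 fun m26 r26 t26a t26b t26c t26d =>
  k m26 r26 t26a t26b t26c t26d

theorem tE2K_s {e1 e2 e3 e4 e5 : ℝ} (he : Ev e1 e2 e3 e4 e5) (r z p s P : ℝ)  {x1 x2 x3 x4 x5 x6 x7 x8 x9 x10 x11 x12 x13 x14 x15 x16 m17 r17 t17a t17b t17c t17d : ℕ} {k : ℕ → ℕ → ℕ → ℕ → ℕ → ℕ → Bool} {Q : Prop}
    (h1 : In e1 e2 e3 e4 e5 x1 ((p - 1/2)))
    (h2 : In e1 e2 e3 e4 e5 x2 ((p - 1/2) ^ 2))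
    (h3 : In e1 e2 e3 e4 e5 x3 ((p - 1/2) ^ 3))
    (h4 : In e1 e2 e3 e4 e5 x4 ((z - 1/2)))
    (h5 : In e1 e2 e3 e4 e5 x5 ((z - 1/2) * (p - 1/2)))
    (h6 : In e1 e2 e3 e4 e5 x6 ((z - 1/2) ^ 2))
    (h7 : In e1 e2 e3 e4 e5 x7 ((r - 1/2)))
    (h8 : In e1 e2 e3 e4 e5 x8 ((r - 1/2) * (p - 1/2)))
    (h9 : In e1 e2 e3 e4 e5 x9 ((r - 1/2) * (p - 1/2) ^ 2))
    (h10 : In e1 e2 e3 e4 e5 x10 ((r - 1/2) * (z - 1/2)))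
    (h11 : In e1 e2 e3 e4 e5 x11 ((r - 1/2) * (z - 1/2) * (p - 1/2)))
    (h12 : In e1 e2 e3 e4 e5 x12 ((r - 1/2) * (z - 1/2) ^ 2))
    (h13 : In e1 e2 e3 e4 e5 x13 ((r - 1/2) ^ 2))
    (h14 : In e1 e2 e3 e4 e5 x14 ((r - 1/2) ^ 2 * (p - 1/2)))
    (h15 : In e1 e2 e3 e4 e5 x15 ((r - 1/2) ^ 2 * (z - 1/2)))
    (h16 : In e1 e2 e3 e4 e5 x16 ((r - 1/2) ^ 3))
    (n17 : Nrm e1 e2 e3 e4 e5 m17 r17 t17a t17b t17c t17d (P ^ 2))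
    (hk : ∀ M0 R0 A0 B0 C0 D0, Nrm e1 e2 e3 e4 e5 M0 R0 A0 B0 C0 D0 (tE2 r z p s P) → k M0 R0 A0 B0 C0 D0 = true → Q)
    (HH0 : tE2K x1 x2 x3 x4 x5 x6 x7 x8 x9 x10 x11 x12 x13 x14 x15 x16 m17 r17 t17a t17b t17c t17d k = true) : Q := by
  unfold tE2K at HH0
  refine frcK_s (aa (aa (aa (aa (aa (aa (aa (aa (an 15694 h2) (an 62608 h3)) (an 13200 h9)) (an 21542 h10)) (an 120000 h12)) (an 81918 h13)) (an 60000 h14)) (an 60000 h15)) (an 30000 h16)) (fun _ h18 HH1 => ?_) HH0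
  refine finK_s he (aa (aa (aa (aa (aa (aa (aa (aa (an 54840 h1) (an 146288 h4)) (an 18276 h5)) (an 114300 h6)) (an 70299 h7)) (an 120946 h8)) (an 88292 h11)) (an 89710 (one_in he))) (ngC_s he (C := 464962) h18 (by decide +kernel) (by decide +kernel))) (by decide +kernel) (fun _ h19 HH2 => ?_) HH1
  clear HH1
  refine nrmK_s he h19 (fun _ _ _ _ _ _ n20 HH3 => ?_) HH2
  clear HH2
  refine mulcK_s he n20 (cst_nrm he 900719925474 (512/625:ℝ) (by norm_num [abs_le])) (fun _ h21 HH4 => ?_) HH3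
  clear HH3
  have h22 := In_cast (w := CW1.c0_002 r z p) h21 (by unfold CW1.c0_002; push_cast; ring)
  refine nrmK_s he h22 (fun _ _ _ _ _ _ n23 HH5 => ?_) HH4
  clear HH4
  refine mulK_s he n23 n17 (fun _ h24 HH6 => ?_) HH5
  clear HH5
  have h25 := In_cast (w := tE2 r z p s P) h24 (by unfold tE2; push_cast; ring)
  refine nrmK_s he h25 (fun _ _ _ _ _ _ n26 HH7 => ?_) HH6
  clear HH6
  exact hk _ _ _ _ _ _ n26 HH7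

attribute [irreducible] tE2K

noncomputable def tE3K (x1 x2 x3 x4 x5 x6 x7 x8 x9 m10 r10 t10a t10b t10c t10d : ℕ) (k : ℕ → ℕ → ℕ → ℕ → ℕ → ℕ → Bool) : Bool :=
  frcK (Nat.add (Nat.add (Nat.add (Nat.add (Nat.mul 231316 x3) (Nat.mul 124844 x5)) (Nat.mul 120000 x8)) (Nat.mul 59616 x9)) (Nat.mul 67709 cOne)) fun x11 =>
  finK (Nat.add (Nat.add (Nat.add (Nat.add (Nat.add (Nat.mul 189208 x1) (Nat.mul 149784 x2)) (Nat.mul 147056 x4)) (Nat.mul 384 x6)) (Nat.mul 120000 x7)) (ngC 603485 x11)) 1187425040518411613896704 14 fun x12 =>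
  nrmK x12 fun m13 r13 t13a t13b t13c t13d =>
  mulcK m13 r13 t13a 900719925474 1 fun x14 =>
  nrmK x14 fun m16 r16 t16a t16b t16c t16d =>
  mulK m16 r16 t16a t16b t16c t16d m10 r10 t10a t10b t10c t10d fun x17 =>
  nrmK x17 fun m19 r19 t19a t19b t19c t19d =>
  k m19 r19 t19a t19b t19c t19d

theorem tE3K_s {e1 e2 e3 e4 e5 : ℝ} (he : Ev e1 e2 e3 e4 e5) (r z p s P : ℝ)  {x1 x2 x3 x4 x5 x6 x7 x8 x9 m10 r10 t10a t10b t10c t10d : ℕ} {k : ℕ → ℕ → ℕ → ℕ → ℕ → ℕ → Bool} {Q : Prop}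
    (h1 : In e1 e2 e3 e4 e5 x1 ((p - 1/2)))
    (h2 : In e1 e2 e3 e4 e5 x2 ((p - 1/2) ^ 2))
    (h3 : In e1 e2 e3 e4 e5 x3 ((z - 1/2)))
    (h4 : In e1 e2 e3 e4 e5 x4 ((z - 1/2) * (p - 1/2)))
    (h5 : In e1 e2 e3 e4 e5 x5 ((z - 1/2) ^ 2))
    (h6 : In e1 e2 e3 e4 e5 x6 ((r - 1/2)))
    (h7 : In e1 e2 e3 e4 e5 x7 ((r - 1/2) * (p - 1/2)))
    (h8 : In e1 e2 e3 e4 e5 x8 ((r - 1/2) * (z - 1/2)))
    (h9 : In e1 e2 e3 e4 e5 x9 ((r - 1/2) ^ 2))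
    (n10 : Nrm e1 e2 e3 e4 e5 m10 r10 t10a t10b t10c t10d (P ^ 2 * s))
    (hk : ∀ M0 R0 A0 B0 C0 D0, Nrm e1 e2 e3 e4 e5 M0 R0 A0 B0 C0 D0 (tE3 r z p s P) → k M0 R0 A0 B0 C0 D0 = true → Q)
    (HH0 : tE3K x1 x2 x3 x4 x5 x6 x7 x8 x9 m10 r10 t10a t10b t10c t10d k = true) : Q := by
  unfold tE3K at HH0
  refine frcK_s (aa (aa (aa (aa (an 231316 h3) (an 124844 h5)) (an 120000 h8)) (an 59616 h9)) (an 67709 (one_in he))) (fun _ h11 HH1 => ?_) HH0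
  refine finK_s he (aa (aa (aa (aa (aa (an 189208 h1) (an 149784 h2)) (an 147056 h4)) (an 384 h6)) (an 120000 h7)) (ngC_s he (C := 603485) h11 (by decide +kernel) (by decide +kernel))) (by decide +kernel) (fun _ h12 HH2 => ?_) HH1
  clear HH1
  refine nrmK_s he h12 (fun _ _ _ _ _ _ n13 HH3 => ?_) HH2
  clear HH2
  refine mulcK_s he n13 (cst_nrm he 900719925474 (512/625:ℝ) (by norm_num [abs_le])) (fun _ h14 HH4 => ?_) HH3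
  clear HH3
  have h15 := In_cast (w := CW1.c0_103 r z p) h14 (by unfold CW1.c0_103; push_cast; ring)
  refine nrmK_s he h15 (fun _ _ _ _ _ _ n16 HH5 => ?_) HH4
  clear HH4
  refine mulK_s he n16 n10 (fun _ h17 HH6 => ?_) HH5
  clear HH5
  have h18 := In_cast (w := tE3 r z p s P) h17 (by unfold tE3; push_cast; ring)
  refine nrmK_s he h18 (fun _ _ _ _ _ _ n19 HH7 => ?_) HH6
  clear HH6
  exact hk _ _ _ _ _ _ n19 HH7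

attribute [irreducible] tE3K

noncomputable def tE4K (x1 x2 x3 x4 x5 x6 x7 x8 x9 x10 x11 x12 x13 x14 x15 x16 x17 x18 x19 x20 x21 x22 x23 x24 x25 x26 x27 x28 x29 m30 r30 t30a t30b t30c t30d m31 r31 t31a t31b t31c t31d m32 r32 t32a t32b t32c t32d : ℕ) (k : ℕ → ℕ → ℕ → ℕ → ℕ → ℕ → Bool) : Bool :=
  frcK (Nat.add (Nat.add (Nat.add (Nat.add (Nat.add (Nat.add (Nat.add (Nat.add (Nat.add (Nat.add (Nat.add (Nat.add (Nat.add (Nat.add (Nat.add (Nat.add (Nat.mul 20138 x2) (Nat.mul 52086 x4)) (Nat.mul 384268 x5)) (Nat.mul 1315132 x8)) (Nat.mul 9783 x10)) (Nat.mul 18858 x11)) (Nat.mul 510696 x14)) (Nat.mul 1917760 x15)) (Nat.mul 426692 x17)) (Nat.mul 3129640 x18)) (Nat.mul 338648 x21)) (Nat.mul 38080 x22)) (Nat.mul 557964 x23)) (Nat.mul 927920 x24)) (Nat.mul 783120 x25)) (Nat.mul 370560 x27)) (Nat.mul 210600 x28)) fun x33 =>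
  finK (Nat.add (Nat.add (Nat.add (Nat.add (Nat.add (Nat.add (Nat.add (Nat.add (Nat.add (Nat.add (Nat.add (Nat.add (Nat.add (Nat.mul 194523 x1) (Nat.mul 29784 x3)) (Nat.mul 238524 x6)) (Nat.mul 7254 x7)) (Nat.mul 658280 x9)) (Nat.mul 199100 x12)) (Nat.mul 259280 x13)) (Nat.mul 771160 x16)) (Nat.mul 1026960 x19)) (Nat.mul 61230 x20)) (Nat.mul 224884 x26)) (Nat.mul 173000 x29)) (Nat.mul 77350 cOne)) (ngC 11011945 x33)) 4567869921191948044992512 16 fun x34 =>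
  nrmK x34 fun m35 r35 t35a t35b t35c t35d =>
  mulcK m35 r35 t35a 900719925474 1 fun x36 =>
  nrmK x36 fun m38 r38 t38a t38b t38c t38d =>
  mulK m38 r38 t38a t38b t38c t38d m30 r30 t30a t30b t30c t30d fun x39 =>
  frcK (Nat.add (Nat.add (Nat.add (Nat.add (Nat.add (Nat.add (Nat.add (Nat.add (Nat.add (Nat.add (Nat.add (Nat.add (Nat.add (Nat.add (Nat.mul 237247839 x1) (Nat.mul 270716386 x5)) (Nat.mul 28712204 x10)) (Nat.mul 501868206 x11)) (Nat.mul 299622772 x15)) (Nat.mul 25126000 x6)) (Nat.mul 50252000 x16)) (Nat.mul 109344000 x9)) (Nat.mul 218688000 x19)) (Nat.mul 42516716 x20)) (Nat.mul 248569056 x21)) (Nat.mul 77615744 x23)) (Nat.mul 95708000 x24)) (Nat.mul 35686392 x26)) (Nat.mul 63235722 cOne)) fun x40 =>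
  finK (Nat.add (Nat.add (Nat.add (Nat.add (Nat.add (Nat.add (Nat.add (Nat.add (Nat.add (Nat.add (Nat.mul 69912808 x2) (Nat.mul 48916825 x4)) (Nat.mul 230101642 x7)) (Nat.mul 57233616 x12)) (Nat.mul 225917778 x14)) (Nat.mul 475147284 x17)) (Nat.mul 108752000 x8)) (Nat.mul 217504000 x18)) (Nat.mul 240000000 x25)) (Nat.mul 96336000 x28)) (ngC 2304909037 x40)) 2403080713607771815334117376 25 fun x41 =>
  nrmK x41 fun m42 r42 t42a t42b t42c t42d =>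
  mulcK m42 r42 t42a 922337203685 1 fun x43 =>
  nrmK x43 fun m45 r45 t45a t45b t45c t45d =>
  mulK m45 r45 t45a t45b t45c t45d m31 r31 t31a t31b t31c t31d fun x46 =>
  frcK (Nat.mul 59652 x4) fun x47 =>
  finK (Nat.add (Nat.add (Nat.add (Nat.mul 60000 x1) (Nat.mul 20104 x10)) (Nat.mul 5503 cOne)) (ngC 59652 x47)) 601993730246815420252160 13 fun x48 =>
  nrmK x48 fun m49 r49 t49a t49b t49c t49d =>
  mulcK m49 r49 t49a 900719925474 1 fun x50 =>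
  nrmK x50 fun m52 r52 t52a t52b t52c t52d =>
  mulK m52 r52 t52a t52b t52c t52d m32 r32 t32a t32b t32c t32d fun x53 =>
  finK (Nat.add (Nat.add x39 x46) x53) 73750947497819242496 0 fun x54 =>
  nrmK x54 fun m56 r56 t56a t56b t56c t56d =>
  k m56 r56 t56a t56b t56c t56d

theorem tE4K_s {e1 e2 e3 e4 e5 : ℝ} (he : Ev e1 e2 e3 e4 e5) (r z p s P : ℝ)  {x1 x2 x3 x4 x5 x6 x7 x8 x9 x10 x11 x12 x13 x14 x15 x16 x17 x18 x19 x20 x21 x22 x23 x24 x25 x26 x27 x28 x29 m30 r30 t30a t30b t30c t30d m31 r31 t31a t31b t31c t31d m32 r32 t32a t32b t32c t32d : ℕ} {k : ℕ → ℕ → ℕ → ℕ → ℕ → ℕ → Bool} {Q : Prop}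
    (h1 : In e1 e2 e3 e4 e5 x1 ((p - 1/2)))
    (h2 : In e1 e2 e3 e4 e5 x2 ((p - 1/2) ^ 2))
    (h3 : In e1 e2 e3 e4 e5 x3 ((p - 1/2) ^ 3))
    (h4 : In e1 e2 e3 e4 e5 x4 ((z - 1/2)))
    (h5 : In e1 e2 e3 e4 e5 x5 ((z - 1/2) * (p - 1/2)))
    (h6 : In e1 e2 e3 e4 e5 x6 ((z - 1/2) * (p - 1/2) ^ 2))
    (h7 : In e1 e2 e3 e4 e5 x7 ((z - 1/2) ^ 2))
    (h8 : In e1 e2 e3 e4 e5 x8 ((z - 1/2) ^ 2 * (p - 1/2)))
    (h9 : In e1 e2 e3 e4 e5 x9 ((z - 1/2) ^ 3))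
    (h10 : In e1 e2 e3 e4 e5 x10 ((r - 1/2)))
    (h11 : In e1 e2 e3 e4 e5 x11 ((r - 1/2) * (p - 1/2)))
    (h12 : In e1 e2 e3 e4 e5 x12 ((r - 1/2) * (p - 1/2) ^ 2))
    (h13 : In e1 e2 e3 e4 e5 x13 ((r - 1/2) * (p - 1/2) ^ 3))
    (h14 : In e1 e2 e3 e4 e5 x14 ((r - 1/2) * (z - 1/2)))
    (h15 : In e1 e2 e3 e4 e5 x15 ((r - 1/2) * (z - 1/2) * (p - 1/2)))
    (h16 : In e1 e2 e3 e4 e5 x16 ((r - 1/2) * (z - 1/2) * (p - 1/2) ^ 2))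
    (h17 : In e1 e2 e3 e4 e5 x17 ((r - 1/2) * (z - 1/2) ^ 2))
    (h18 : In e1 e2 e3 e4 e5 x18 ((r - 1/2) * (z - 1/2) ^ 2 * (p - 1/2)))
    (h19 : In e1 e2 e3 e4 e5 x19 ((r - 1/2) * (z - 1/2) ^ 3))
    (h20 : In e1 e2 e3 e4 e5 x20 ((r - 1/2) ^ 2))
    (h21 : In e1 e2 e3 e4 e5 x21 ((r - 1/2) ^ 2 * (p - 1/2)))
    (h22 : In e1 e2 e3 e4 e5 x22 ((r - 1/2) ^ 2 * (p - 1/2) ^ 2))
    (h23 : In e1 e2 e3 e4 e5 x23 ((r - 1/2) ^ 2 * (z - 1/2)))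
    (h24 : In e1 e2 e3 e4 e5 x24 ((r - 1/2) ^ 2 * (z - 1/2) * (p - 1/2)))
    (h25 : In e1 e2 e3 e4 e5 x25 ((r - 1/2) ^ 2 * (z - 1/2) ^ 2))
    (h26 : In e1 e2 e3 e4 e5 x26 ((r - 1/2) ^ 3))
    (h27 : In e1 e2 e3 e4 e5 x27 ((r - 1/2) ^ 3 * (p - 1/2)))
    (h28 : In e1 e2 e3 e4 e5 x28 ((r - 1/2) ^ 3 * (z - 1/2)))
    (h29 : In e1 e2 e3 e4 e5 x29 ((r - 1/2) ^ 4))
    (n30 : Nrm e1 e2 e3 e4 e5 m30 r30 t30a t30b t30c t30d (s))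
    (n31 : Nrm e1 e2 e3 e4 e5 m31 r31 t31a t31b t31c t31d (s ^ 3))
    (n32 : Nrm e1 e2 e3 e4 e5 m32 r32 t32a t32b t32c t32d (P ^ 2 * s))
    (hk : ∀ M0 R0 A0 B0 C0 D0, Nrm e1 e2 e3 e4 e5 M0 R0 A0 B0 C0 D0 (tE4 r z p s P) → k M0 R0 A0 B0 C0 D0 = true → Q)
    (HH0 : tE4K x1 x2 x3 x4 x5 x6 x7 x8 x9 x10 x11 x12 x13 x14 x15 x16 x17 x18 x19 x20 x21 x22 x23 x24 x25 x26 x27 x28 x29 m30 r30 t30a t30b t30c t30d m31 r31 t31a t31b t31c t31d m32 r32 t32a t32b t32c t32d k = true) : Q := by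
  unfold tE4K at HH0
  refine frcK_s (aa (aa (aa (aa (aa (aa (aa (aa (aa (aa (aa (aa (aa (aa (aa (aa (an 20138 h2) (an 52086 h4)) (an 384268 h5)) (an 1315132 h8)) (an 9783 h10)) (an 18858 h11)) (an 510696 h14)) (an 1917760 h15)) (an 426692 h17)) (an 3129640 h18)) (an 338648 h21)) (an 38080 h22)) (an 557964 h23)) (an 927920 h24)) (an 783120 h25)) (an 370560 h27)) (an 210600 h28)) (fun _ h33 HH1 => ?_) HH0
  refine finK_s he (aa (aa (aa (aa (aa (aa (aa (aa (aa (aa (aa (aa (aa (an 194523 h1) (an 29784 h3)) (an 238524 h6)) (an 7254 h7)) (an 658280 h9)) (an 199100 h12)) (an 259280 h13)) (an 771160 h16)) (an 1026960 h19)) (an 61230 h20)) (an 224884 h26)) (an 173000 h29)) (an 77350 (one_in he))) (ngC_s he (C := 11011945) h33 (by decide +kernel) (by decide +kernel))) (by decide +kernel) (fun _ h34 HH2 => ?_) HH1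
  clear HH1
  refine nrmK_s he h34 (fun _ _ _ _ _ _ n35 HH3 => ?_) HH2
  clear HH2
  refine mulcK_s he n35 (cst_nrm he 900719925474 (512/625:ℝ) (by norm_num [abs_le])) (fun _ h36 HH4 => ?_) HH3
  clear HH3
  have h37 := In_cast (w := CW1.G_110 r z p) h36 (by unfold CW1.G_110; push_cast; ring)
  refine nrmK_s he h37 (fun _ _ _ _ _ _ n38 HH5 => ?_) HH4
  clear HH4
  refine mulK_s he n38 n30 (fun _ h39 HH6 => ?_) HH5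
  clear HH5
  refine frcK_s (aa (aa (aa (aa (aa (aa (aa (aa (aa (aa (aa (aa (aa (aa (an 237247839 h1) (an 270716386 h5)) (an 28712204 h10)) (an 501868206 h11)) (an 299622772 h15)) (an 25126000 h6)) (an 50252000 h16)) (an 109344000 h9)) (an 218688000 h19)) (an 42516716 h20)) (an 248569056 h21)) (an 77615744 h23)) (an 95708000 h24)) (an 35686392 h26)) (an 63235722 (one_in he))) (fun _ h40 HH7 => ?_) HH6
  clear HH6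
  refine finK_s he (aa (aa (aa (aa (aa (aa (aa (aa (aa (aa (an 69912808 h2) (an 48916825 h4)) (an 230101642 h7)) (an 57233616 h12)) (an 225917778 h14)) (an 475147284 h17)) (an 108752000 h8)) (an 217504000 h18)) (an 240000000 h25)) (an 96336000 h28)) (ngC_s he (C := 2304909037) h40 (by decide +kernel) (by decide +kernel))) (by decide +kernel) (fun _ h41 HH8 => ?_) HH7
  clear HH7
  refine nrmK_s he h41 (fun _ _ _ _ _ _ n42 HH9 => ?_) HH8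
  clear HH8
  refine mulcK_s he n42 (cst_nrm he 922337203685 (65536/78125:ℝ) (by norm_num [abs_le])) (fun _ h43 HH10 => ?_) HH9
  clear HH9
  have h44 := In_cast (w := CW1.G_310 r z p) h43 (by unfold CW1.G_310; push_cast; ring)
  refine nrmK_s he h44 (fun _ _ _ _ _ _ n45 HH11 => ?_) HH10
  clear HH10
  refine mulK_s he n45 n31 (fun _ h46 HH12 => ?_) HH11
  clear HH11
  refine frcK_s (an 59652 h4) (fun _ h47 HH13 => ?_) HH12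
  clear HH12
  refine finK_s he (aa (aa (aa (an 60000 h1) (an 20104 h10)) (an 5503 (one_in he))) (ngC_s he (C := 59652) h47 (by decide +kernel) (by decide +kernel))) (by decide +kernel) (fun _ h48 HH14 => ?_) HH13
  clear HH13
  refine nrmK_s he h48 (fun _ _ _ _ _ _ n49 HH15 => ?_) HH14
  clear HH14
  refine mulcK_s he n49 (cst_nrm he 900719925474 (512/625:ℝ) (by norm_num [abs_le])) (fun _ h50 HH16 => ?_) HH15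
  clear HH15
  have h51 := In_cast (w := CW1.c0_110 r z p) h50 (by unfold CW1.c0_110; push_cast; ring)
  refine nrmK_s he h51 (fun _ _ _ _ _ _ n52 HH17 => ?_) HH16
  clear HH16
  refine mulK_s he n52 n32 (fun _ h53 HH18 => ?_) HH17
  clear HH17
  refine finK_s he (aa (aa (a1 h39) (a1 h46)) (a1 h53)) (by decide +kernel) (fun _ h54 HH19 => ?_) HH18
  clear HH18
  have h55 := In_cast (w := tE4 r z p s P) h54 (by unfold tE4; push_cast; ring)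
  refine nrmK_s he h55 (fun _ _ _ _ _ _ n56 HH20 => ?_) HH19
  clear HH19
  exact hk _ _ _ _ _ _ n56 HH20

attribute [irreducible] tE4K

noncomputable def tE5K (x1 x2 x3 m4 r4 t4a t4b t4c t4d : ℕ) (k : ℕ → ℕ → ℕ → ℕ → ℕ → ℕ → Bool) : Bool :=
  frcK (Nat.add (Nat.add (Nat.mul 187472 x2) (Nat.mul 24402 x3)) (Nat.mul 135753 cOne)) fun x5 =>
  finK (Nat.add (Nat.mul 30232 x1) (ngC 347627 x5)) 1202414064913414174539776 14 fun x6 =>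
  nrmK x6 fun m7 r7 t7a t7b t7c t7d =>
  mulcK m7 r7 t7a 900719925474 1 fun x8 =>
  nrmK x8 fun m10 r10 t10a t10b t10c t10d =>
  mulK m10 r10 t10a t10b t10c t10d m4 r4 t4a t4b t4c t4d fun x11 =>
  nrmK x11 fun m13 r13 t13a t13b t13c t13d =>
  k m13 r13 t13a t13b t13c t13d

theorem tE5K_s {e1 e2 e3 e4 e5 : ℝ} (he : Ev e1 e2 e3 e4 e5) (r z p s P : ℝ)  {x1 x2 x3 m4 r4 t4a t4b t4c t4d : ℕ} {k : ℕ → ℕ → ℕ → ℕ → ℕ → ℕ → Bool} {Q : Prop}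
    (h1 : In e1 e2 e3 e4 e5 x1 ((p - 1/2)))
    (h2 : In e1 e2 e3 e4 e5 x2 ((z - 1/2)))
    (h3 : In e1 e2 e3 e4 e5 x3 ((r - 1/2)))
    (n4 : Nrm e1 e2 e3 e4 e5 m4 r4 t4a t4b t4c t4d (P ^ 2 * s ^ 2))
    (hk : ∀ M0 R0 A0 B0 C0 D0, Nrm e1 e2 e3 e4 e5 M0 R0 A0 B0 C0 D0 (tE5 r z p s P) → k M0 R0 A0 B0 C0 D0 = true → Q)
    (HH0 : tE5K x1 x2 x3 m4 r4 t4a t4b t4c t4d k = true) : Q := by
  unfold tE5K at HH0
  refine frcK_s (aa (aa (an 187472 h2) (an 24402 h3)) (an 135753 (one_in he))) (fun _ h5 HH1 => ?_) HH0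
  refine finK_s he (aa (an 30232 h1) (ngC_s he (C := 347627) h5 (by decide +kernel) (by decide +kernel))) (by decide +kernel) (fun _ h6 HH2 => ?_) HH1
  clear HH1
  refine nrmK_s he h6 (fun _ _ _ _ _ _ n7 HH3 => ?_) HH2
  clear HH2
  refine mulcK_s he n7 (cst_nrm he 900719925474 (512/625:ℝ) (by norm_num [abs_le])) (fun _ h8 HH4 => ?_) HH3
  clear HH3
  have h9 := In_cast (w := CW1.c0_211 r z p) h8 (by unfold CW1.c0_211; push_cast; ring)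
  refine nrmK_s he h9 (fun _ _ _ _ _ _ n10 HH5 => ?_) HH4
  clear HH4
  refine mulK_s he n10 n4 (fun _ h11 HH6 => ?_) HH5
  clear HH5
  have h12 := In_cast (w := tE5 r z p s P) h11 (by unfold tE5; push_cast; ring)
  refine nrmK_s he h12 (fun _ _ _ _ _ _ n13 HH7 => ?_) HH6
  clear HH6
  exact hk _ _ _ _ _ _ n13 HH7

attribute [irreducible] tE5K

noncomputable def tE6K (x1 x2 m3 r3 t3a t3b t3c t3d : ℕ) (k : ℕ → ℕ → ℕ → ℕ → ℕ → ℕ → Bool) : Bool :=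
  frcK (Nat.mul 11959 x1) fun x4 =>
  finK (Nat.add (Nat.add (Nat.mul 22720 x2) (Nat.mul 3294 cOne)) (ngC 11959 x4)) 74892249715387473592320 10 fun x5 =>
  nrmK x5 fun m6 r6 t6a t6b t6c t6d =>
  mulcK m6 r6 t6a 900719925474 1 fun x7 =>
  nrmK x7 fun m9 r9 t9a t9b t9c t9d =>
  mulK m9 r9 t9a t9b t9c t9d m3 r3 t3a t3b t3c t3d fun x10 =>
  nrmK x10 fun m12 r12 t12a t12b t12c t12d =>
  k m12 r12 t12a t12b t12c t12d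

theorem tE6K_s {e1 e2 e3 e4 e5 : ℝ} (he : Ev e1 e2 e3 e4 e5) (r z p s P : ℝ)  {x1 x2 m3 r3 t3a t3b t3c t3d : ℕ} {k : ℕ → ℕ → ℕ → ℕ → ℕ → ℕ → Bool} {Q : Prop}
    (h1 : In e1 e2 e3 e4 e5 x1 ((p - 1/2)))
    (h2 : In e1 e2 e3 e4 e5 x2 ((z - 1/2)))
    (n3 : Nrm e1 e2 e3 e4 e5 m3 r3 t3a t3b t3c t3d (P ^ 2 * s ^ 3))
    (hk : ∀ M0 R0 A0 B0 C0 D0, Nrm e1 e2 e3 e4 e5 M0 R0 A0 B0 C0 D0 (tE6 r z p s P) → k M0 R0 A0 B0 C0 D0 = true → Q)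
    (HH0 : tE6K x1 x2 m3 r3 t3a t3b t3c t3d k = true) : Q := by
  unfold tE6K at HH0
  refine frcK_s (an 11959 h1) (fun _ h4 HH1 => ?_) HH0
  refine finK_s he (aa (aa (an 22720 h2) (an 3294 (one_in he))) (ngC_s he (C := 11959) h4 (by decide +kernel) (by decide +kernel))) (by decide +kernel) (fun _ h5 HH2 => ?_) HH1
  clear HH1
  refine nrmK_s he h5 (fun _ _ _ _ _ _ n6 HH3 => ?_) HH2
  clear HH2
  refine mulcK_s he n6 (cst_nrm he 900719925474 (512/625:ℝ) (by norm_num [abs_le])) (fun _ h7 HH4 => ?_) HH3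
  clear HH3
  have h8 := In_cast (w := CW1.c0_312 r z p) h7 (by unfold CW1.c0_312; push_cast; ring)
  refine nrmK_s he h8 (fun _ _ _ _ _ _ n9 HH5 => ?_) HH4
  clear HH4
  refine mulK_s he n9 n3 (fun _ h10 HH6 => ?_) HH5
  clear HH5
  have h11 := In_cast (w := tE6 r z p s P) h10 (by unfold tE6; push_cast; ring)
  refine nrmK_s he h11 (fun _ _ _ _ _ _ n12 HH7 => ?_) HH6
  clear HH6
  exact hk _ _ _ _ _ _ n12 HH7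

attribute [irreducible] tE6K

noncomputable def tE7K (x1 x2 x3 m4 r4 t4a t4b t4c t4d : ℕ) (k : ℕ → ℕ → ℕ → ℕ → ℕ → ℕ → Bool) : Bool :=
  frcK (Nat.add (Nat.mul 50252 x1) (Nat.mul 47854 x3)) fun x5 =>
  finK (Nat.add (Nat.add (Nat.mul 108752 x2) (Nat.mul 4065 cOne)) (ngC 98106 x5)) 600810832783088795254784 13 fun x6 =>
  nrmK x6 fun m7 r7 t7a t7b t7c t7d =>
  mulcK m7 r7 t7a 900719925474 1 fun x8 =>
  nrmK x8 fun m10 r10 t10a t10b t10c t10d =>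
  mulK m10 r10 t10a t10b t10c t10d m4 r4 t4a t4b t4c t4d fun x11 =>
  nrmK x11 fun m13 r13 t13a t13b t13c t13d =>
  k m13 r13 t13a t13b t13c t13d

theorem tE7K_s {e1 e2 e3 e4 e5 : ℝ} (he : Ev e1 e2 e3 e4 e5) (r z p s P : ℝ)  {x1 x2 x3 m4 r4 t4a t4b t4c t4d : ℕ} {k : ℕ → ℕ → ℕ → ℕ → ℕ → ℕ → Bool} {Q : Prop}
    (h1 : In e1 e2 e3 e4 e5 x1 ((p - 1/2)))
    (h2 : In e1 e2 e3 e4 e5 x2 ((z - 1/2)))
    (h3 : In e1 e2 e3 e4 e5 x3 ((r - 1/2)))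
    (n4 : Nrm e1 e2 e3 e4 e5 m4 r4 t4a t4b t4c t4d (P ^ 2 * s ^ 4))
    (hk : ∀ M0 R0 A0 B0 C0 D0, Nrm e1 e2 e3 e4 e5 M0 R0 A0 B0 C0 D0 (tE7 r z p s P) → k M0 R0 A0 B0 C0 D0 = true → Q)
    (HH0 : tE7K x1 x2 x3 m4 r4 t4a t4b t4c t4d k = true) : Q := by
  unfold tE7K at HH0
  refine frcK_s (aa (an 50252 h1) (an 47854 h3)) (fun _ h5 HH1 => ?_) HH0
  refine finK_s he (aa (aa (an 108752 h2) (an 4065 (one_in he))) (ngC_s he (C := 98106) h5 (by decide +kernel) (by decide +kernel))) (by decide +kernel) (fun _ h6 HH2 => ?_) HH1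
  clear HH1
  refine nrmK_s he h6 (fun _ _ _ _ _ _ n7 HH3 => ?_) HH2
  clear HH2
  refine mulcK_s he n7 (cst_nrm he 900719925474 (512/625:ℝ) (by norm_num [abs_le])) (fun _ h8 HH4 => ?_) HH3
  clear HH3
  have h9 := In_cast (w := CW1.c0_413 r z p) h8 (by unfold CW1.c0_413; push_cast; ring)
  refine nrmK_s he h9 (fun _ _ _ _ _ _ n10 HH5 => ?_) HH4
  clear HH4
  refine mulK_s he n10 n4 (fun _ h11 HH6 => ?_) HH5
  clear HH5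
  have h12 := In_cast (w := tE7 r z p s P) h11 (by unfold tE7; push_cast; ring)
  refine nrmK_s he h12 (fun _ _ _ _ _ _ n13 HH7 => ?_) HH6
  clear HH6
  exact hk _ _ _ _ _ _ n13 HH7

attribute [irreducible] tE7K

noncomputable def tE8K (x1 x2 x3 x4 x5 x6 x7 x8 x9 x10 x11 x12 x13 x14 x15 m16 r16 t16a t16b t16c t16d : ℕ) (k : ℕ → ℕ → ℕ → ℕ → ℕ → ℕ → Bool) : Bool :=
  frcK (Nat.add (Nat.add (Nat.add (Nat.add (Nat.add (Nat.mul 101334 x3) (Nat.mul 89214 x4)) (Nat.mul 88020 x8)) (Nat.mul 125170 x9)) (Nat.mul 209720 x11)) (Nat.mul 14135 cOne)) fun x17 =>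
  finK (Nat.add (Nat.add (Nat.add (Nat.add (Nat.add (Nat.add (Nat.add (Nat.add (Nat.add (Nat.add (Nat.mul 6880 x1) (Nat.mul 6242 x2)) (Nat.mul 113828 x5)) (Nat.mul 54338 x6)) (Nat.mul 161778 x7)) (Nat.mul 256580 x10)) (Nat.mul 38244 x12)) (Nat.mul 72100 x13)) (Nat.mul 188980 x14)) (Nat.mul 79680 x15)) (ngC 627593 x17)) 2389506433534551184637952 15 fun x18 =>
  nrmK x18 fun m19 r19 t19a t19b t19c t19d =>
  mulcK m19 r19 t19a 900719925474 1 fun x20 =>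
  nrmK x20 fun m22 r22 t22a t22b t22c t22d =>
  mulK m22 r22 t22a t22b t22c t22d m16 r16 t16a t16b t16c t16d fun x23 =>
  nrmK x23 fun m25 r25 t25a t25b t25c t25d =>
  k m25 r25 t25a t25b t25c t25d

theorem tE8K_s {e1 e2 e3 e4 e5 : ℝ} (he : Ev e1 e2 e3 e4 e5) (r z p s P : ℝ)  {x1 x2 x3 x4 x5 x6 x7 x8 x9 x10 x11 x12 x13 x14 x15 m16 r16 t16a t16b t16c t16d : ℕ} {k : ℕ → ℕ → ℕ → ℕ → ℕ → ℕ → Bool} {Q : Prop}
    (h1 : In e1 e2 e3 e4 e5 x1 ((p - 1/2)))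
    (h2 : In e1 e2 e3 e4 e5 x2 ((p - 1/2) ^ 2))
    (h3 : In e1 e2 e3 e4 e5 x3 ((z - 1/2)))
    (h4 : In e1 e2 e3 e4 e5 x4 ((z - 1/2) * (p - 1/2)))
    (h5 : In e1 e2 e3 e4 e5 x5 ((z - 1/2) ^ 2))
    (h6 : In e1 e2 e3 e4 e5 x6 ((r - 1/2)))
    (h7 : In e1 e2 e3 e4 e5 x7 ((r - 1/2) * (p - 1/2)))
    (h8 : In e1 e2 e3 e4 e5 x8 ((r - 1/2) * (p - 1/2) ^ 2))
    (h9 : In e1 e2 e3 e4 e5 x9 ((r - 1/2) * (z - 1/2)))
    (h10 : In e1 e2 e3 e4 e5 x10 ((r - 1/2) * (z - 1/2) * (p - 1/2)))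
    (h11 : In e1 e2 e3 e4 e5 x11 ((r - 1/2) * (z - 1/2) ^ 2))
    (h12 : In e1 e2 e3 e4 e5 x12 ((r - 1/2) ^ 2))
    (h13 : In e1 e2 e3 e4 e5 x13 ((r - 1/2) ^ 2 * (p - 1/2)))
    (h14 : In e1 e2 e3 e4 e5 x14 ((r - 1/2) ^ 2 * (z - 1/2)))
    (h15 : In e1 e2 e3 e4 e5 x15 ((r - 1/2) ^ 3))
    (n16 : Nrm e1 e2 e3 e4 e5 m16 r16 t16a t16b t16c t16d (s ^ 4))
    (hk : ∀ M0 R0 A0 B0 C0 D0, Nrm e1 e2 e3 e4 e5 M0 R0 A0 B0 C0 D0 (tE8 r z p s P) → k M0 R0 A0 B0 C0 D0 = true → Q)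
    (HH0 : tE8K x1 x2 x3 x4 x5 x6 x7 x8 x9 x10 x11 x12 x13 x14 x15 m16 r16 t16a t16b t16c t16d k = true) : Q := by
  unfold tE8K at HH0
  refine frcK_s (aa (aa (aa (aa (aa (an 101334 h3) (an 89214 h4)) (an 88020 h8)) (an 125170 h9)) (an 209720 h11)) (an 14135 (one_in he))) (fun _ h17 HH1 => ?_) HH0
  refine finK_s he (aa (aa (aa (aa (aa (aa (aa (aa (aa (aa (an 6880 h1) (an 6242 h2)) (an 113828 h5)) (an 54338 h6)) (an 161778 h7)) (an 256580 h10)) (an 38244 h12)) (an 72100 h13)) (an 188980 h14)) (an 79680 h15)) (ngC_s he (C := 627593) h17 (by decide +kernel) (by decide +kernel))) (by decide +kernel) (fun _ h18 HH2 => ?_) HH1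
  clear HH1
  refine nrmK_s he h18 (fun _ _ _ _ _ _ n19 HH3 => ?_) HH2
  clear HH2
  refine mulcK_s he n19 (cst_nrm he 900719925474 (512/625:ℝ) (by norm_num [abs_le])) (fun _ h20 HH4 => ?_) HH3
  clear HH3
  have h21 := In_cast (w := CW1.G_420 r z p) h20 (by unfold CW1.G_420; push_cast; ring)
  refine nrmK_s he h21 (fun _ _ _ _ _ _ n22 HH5 => ?_) HH4
  clear HH4
  refine mulK_s he n22 n16 (fun _ h23 HH6 => ?_) HH5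
  clear HH5
  have h24 := In_cast (w := tE8 r z p s P) h23 (by unfold tE8; push_cast; ring)
  refine nrmK_s he h24 (fun _ _ _ _ _ _ n25 HH7 => ?_) HH6
  clear HH6
  exact hk _ _ _ _ _ _ n25 HH7

attribute [irreducible] tE8K

noncomputable def sat (x1 x2 : ℕ) (k : ℕ → ℕ → Bool) : Bool :=
  nrmK x1 fun m3 r3 t3a t3b t3c t3d =>
  mulK m3 r3 t3a t3b t3c t3d m3 r3 t3a t3b t3c t3d fun x4 =>
  finK (Nat.add x4 cOne) 73768961896328724480 0 fun x5 =>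
  nrmK x5 fun m6 r6 t6a t6b t6c t6d =>
  invK x5 m6 r6 t6a fun x7 =>
  nrmK x7 fun m8 r8 t8a t8b t8c t8d =>
  mulK m3 r3 t3a t3b t3c t3d m8 r8 t8a t8b t8c t8d fun x9 =>
  finK (Nat.mul 2 x9) 73768961896328724480 0 fun x10 =>
  finK (Nat.add (Nat.mul 2 x7) (ng1 cOne)) 73750947497819242496 0 fun x12 =>
  nrmK x2 fun m13 r13 t13a t13b t13c t13d =>
  nrmK x12 fun m14 r14 t14a t14b t14c t14d =>
  mulK m13 r13 t13a t13b t13c t13d m14 r14 t14a t14b t14c t14d fun x15 =>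
  k x10 x15

theorem sat_s {e1 e2 e3 e4 e5 : ℝ} (he : Ev e1 e2 e3 e4 e5) (v w z P : ℝ) (hz : z = 2 * v / (1 + v ^ 2)) (hP : P = w * (1 - v ^ 2) / (1 + v ^ 2)) {x1 x2 : ℕ} {k : ℕ → ℕ → Bool} {Q : Prop}
    (h1 : In e1 e2 e3 e4 e5 x1 (v))
    (h2 : In e1 e2 e3 e4 e5 x2 (w))
    (hk : ∀ X0 X1, In e1 e2 e3 e4 e5 X0 (z) → In e1 e2 e3 e4 e5 X1 (P) → k X0 X1 = true → Q)
    (HH0 : sat x1 x2 k = true) : Q := by
  unfold sat at HH0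
  refine nrmK_s he h1 (fun _ _ _ _ _ _ n3 HH1 => ?_) HH0
  refine mulK_s he n3 n3 (fun _ h4 HH2 => ?_) HH1
  clear HH1
  refine finK_s he (aa (a1 h4) (a1 (one_in he))) (by decide +kernel) (fun _ h5 HH3 => ?_) HH2
  clear HH2
  refine nrmK_s he h5 (fun _ _ _ _ _ _ n6 HH4 => ?_) HH3
  clear HH3
  refine invK_s he n6 (fun _ h7 HH5 => ?_) HH4
  clear HH4
  refine nrmK_s he h7 (fun _ _ _ _ _ _ n8 HH6 => ?_) HH5
  clear HH5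
  refine mulK_s he n3 n8 (fun _ h9 HH7 => ?_) HH6
  clear HH6
  refine finK_s he (an 2 h9) (by decide +kernel) (fun _ h10 HH8 => ?_) HH7
  clear HH7
  have h11 := In_cast (w := z) h10 (by rw [hz]; push_cast; field_simp; ring)
  refine finK_s he (aa (an 2 h7) (ng1_s he (one_in he))) (by decide +kernel) (fun _ h12 HH9 => ?_) HH8
  clear HH8
  refine nrmK_s he h2 (fun _ _ _ _ _ _ n13 HH10 => ?_) HH9
  clear HH9
  refine nrmK_s he h12 (fun _ _ _ _ _ _ n14 HH11 => ?_) HH10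
  clear HH10
  refine mulK_s he n13 n14 (fun _ h15 HH12 => ?_) HH11
  clear HH11
  have h16 := In_cast (w := P) h15 (by rw [hP]; push_cast; field_simp; ring)
  exact hk _ _ h11 h16 HH12

attribute [irreducible] sat

noncomputable def stA (x1 x2 x3 : ℕ) (k : ℕ → ℕ → ℕ → ℕ → ℕ → ℕ → ℕ → ℕ → ℕ → ℕ → ℕ → ℕ → ℕ → ℕ → ℕ → ℕ → ℕ → ℕ → ℕ → ℕ → ℕ → ℕ → ℕ → ℕ → ℕ → ℕ → ℕ → ℕ → ℕ → ℕ → ℕ → ℕ → ℕ → ℕ → ℕ → ℕ → ℕ → ℕ → ℕ → ℕ → ℕ → ℕ → ℕ → ℕ → ℕ → ℕ → ℕ → ℕ → ℕ → ℕ → ℕ → ℕ → ℕ → ℕ → ℕ → ℕ → ℕ → ℕ → ℕ → ℕ → ℕ → ℕ → ℕ → ℕ → ℕ → ℕ → ℕ → ℕ → ℕ → ℕ → ℕ → ℕ → ℕ → ℕ → ℕ → ℕ → ℕ → ℕ → ℕ → ℕ → ℕ → ℕ → ℕ → ℕ → ℕ → ℕ → ℕ → ℕ → ℕ → ℕ → ℕ → ℕ → ℕ → ℕ → ℕ → ℕ → ℕ → ℕ → ℕ → ℕ → ℕ → ℕ → ℕ → ℕ → ℕ → ℕ → ℕ → ℕ → ℕ → ℕ → ℕ → ℕ → ℕ → ℕ → ℕ → ℕ → ℕ → ℕ → ℕ → ℕ → ℕ → ℕ → ℕ → ℕ → ℕ → ℕ → ℕ → ℕ → ℕ → ℕ → ℕ → ℕ → ℕ → ℕ → ℕ → ℕ → ℕ → ℕ → ℕ → ℕ → ℕ → ℕ → ℕ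 → ℕ → ℕ → ℕ → ℕ → ℕ → ℕ → ℕ → ℕ → ℕ → ℕ → ℕ → ℕ → ℕ → ℕ → ℕ → ℕ → ℕ → ℕ → ℕ → ℕ → ℕ → ℕ → ℕ → ℕ → ℕ → ℕ → ℕ → ℕ → ℕ → ℕ → ℕ → ℕ → ℕ → ℕ → ℕ → ℕ → ℕ → ℕ → ℕ → ℕ → ℕ → ℕ → ℕ → ℕ → ℕ → ℕ → ℕ → ℕ → ℕ → ℕ → ℕ → ℕ → ℕ → ℕ → ℕ → ℕ → ℕ → ℕ → ℕ → ℕ → ℕ → ℕ → ℕ → ℕ → ℕ → ℕ → ℕ → ℕ → ℕ → ℕ → ℕ → Bool) : Bool :=
  sa0 x1 x2 x3 fun x4 x5 x6 x7 x8 x9 =>
  sa1 x1 x3 x4 x5 fun m10 r10 t10a t10b t10c t10d m11 r11 t11a t11b t11c t11d m12 r12 t12a t12b t12c t12d m13 r13 t13a t13b t13c t13d m14 r14 t14a t14b t14c t14d m15 r15 t15a t15b t15c t15d m16 r16 t16a t16b t16c t16d m17 r17 t17a t17b t17c t17d m18 r18 t18a t18b t18c t18d m19 r19 t19a t19b t19c t19d m20 r20 t20a t20b t20c t20d m21 r21 t21a t21b t21c t21d m22 r22 t22a t22b t22c t22d m23 r23 t23a t23b t23c t23d m24 r24 t24a t24b t24c t24d m25 r25 t25a t25b t25c t25d m26 r26 t26a t26b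 t26c t26d =>
  sa2 x6 x7 x8 fun x27 x28 x29 x30 x31 x32 x33 x34 x35 x36 x37 x38 x39 x40 x41 x42 x43 x44 x45 x46 x47 x48 x49 x50 x51 x52 x53 x54 x55 x56 x57 x58 x59 x60 x61 x62 x63 x64 x65 x66 x67 x68 x69 x70 =>
  tK0K x27 x30 x36 x28 x31 x37 x32 x38 x39 x29 x33 x40 x34 x41 x42 x35 x43 x44 x45 fun x71 m71 r71 t71a t71b t71c t71d =>
  tK1K x27 x30 x28 x31 x32 x29 x33 x34 x35 m12 r12 t12a t12b t12c t12d fun m72 r72 t72a t72b t72c t72d =>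
  tD0K x27 x30 x36 x28 x31 x37 x32 x38 x39 x29 x33 x40 x34 x41 x42 x35 x43 x44 x45 m10 r10 t10a t10b t10c t10d fun m73 r73 t73a t73b t73c t73d =>
  tD1K x27 x30 x28 x31 x32 x29 x33 x34 x35 m13 r13 t13a t13b t13c t13d fun m74 r74 t74a t74b t74c t74d =>
  tF0K x27 x30 x36 x28 x31 x37 x32 x38 x39 x29 x33 x40 x34 x41 x42 x35 x43 x44 x45 fun x75 =>
  tF1K x27 x30 x28 x31 x32 x29 x33 x34 x35 m12 r12 t12a t12b t12c t12d fun m76 r76 t76a t76b t76c t76d =>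
  tG0K x27 x30 x36 x28 x31 x37 x32 x38 x39 x29 x33 x40 x51 x34 x41 x42 x53 x54 x35 x43 x55 x44 x56 x57 x45 x58 x59 x60 fun m77 r77 t77a t77b t77c t77d =>
  tG1K x27 x28 x31 x32 x29 x33 x40 x34 x41 x42 x35 x43 x44 x45 m12 r12 t12a t12b t12c t12d fun m78 r78 t78a t78b t78c t78d =>
  tG2K x27 x30 x28 x31 x32 x29 x33 x40 x34 x41 x42 x35 x43 x44 x45 m10 r10 t10a t10b t10c t10d fun m79 r79 t79a t79b t79c t79d =>
  tH0K x27 x30 x28 x31 x32 x29 x33 x34 x35 m16 r16 t16a t16b t16c t16d fun x80 =>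
  tH1K x27 x30 x28 x31 x32 x29 x33 x34 x35 m17 r17 t17a t17b t17c t17d fun m81 r81 t81a t81b t81c t81d =>
  tH2K x27 x28 x29 m19 r19 t19a t19b t19c t19d fun m82 r82 t82a t82b t82c t82d =>
  tH3K x27 x28 x29 m20 r20 t20a t20b t20c t20d fun m83 r83 t83a t83b t83c t83d =>
  tM0K x27 x30 x36 x28 x31 x32 x38 x39 x29 x33 x40 x34 x41 x42 x35 x43 x44 x45 m11 r11 t11a t11b t11c t11d fun m84 r84 t84a t84b t84c t84d =>
  tM1K x27 x30 x28 x31 x32 x29 x33 x34 x35 m14 r14 t14a t14b t14c t14d fun m85 r85 t85a t85b t85c t85d =>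
  tN0K x27 x30 x36 x28 x31 x37 x32 x39 x29 x33 x40 x34 x41 x42 x35 x43 x44 x45 m12 r12 t12a t12b t12c t12d fun m86 r86 t86a t86b t86c t86d =>
  tN1K x27 x30 x28 x31 x32 x29 x33 x34 x35 m15 r15 t15a t15b t15c t15d fun m87 r87 t87a t87b t87c t87d =>
  tA0K x27 x30 x36 x28 x31 x37 x32 x38 x39 x29 x33 x40 x34 x41 x52 x42 x53 x54 x35 x43 x55 x44 x56 x45 x58 x59 x60 m16 r16 t16a t16b t16c t16d fun m88 r88 t88a t88b t88c t88d =>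
  tA1K x27 x30 x36 x46 x28 x31 x37 x32 x38 x39 x29 x33 x40 x51 x34 x42 x53 x54 x35 x43 x55 x44 x56 x57 x45 x58 x59 x60 m17 r17 t17a t17b t17c t17d fun m89 r89 t89a t89b t89c t89d =>
  tA2K x27 x30 x28 x31 x37 x32 x38 x39 x29 x33 x40 x34 x41 x35 x43 x44 x45 m18 r18 t18a t18b t18c t18d fun m90 r90 t90a t90b t90c t90d =>
  tA3K x27 x30 x28 x31 x32 x29 x33 x34 x35 m19 r19 t19a t19b t19c t19d fun m91 r91 t91a t91b t91c t91d =>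
  tA4K x27 x30 x28 x31 x29 x33 x34 x35 m20 r20 t20a t20b t20c t20d fun m92 r92 t92a t92b t92c t92d =>
  tA5K x27 x30 x28 x31 x32 x29 x33 x34 x35 m21 r21 t21a t21b t21c t21d fun m93 r93 t93a t93b t93c t93d =>
  tB0K x27 x30 x28 x31 x32 x29 x33 x34 x35 m17 r17 t17a t17b t17c t17d fun m94 r94 t94a t94b t94c t94d =>
  tB1K x27 x30 x28 x31 x32 x29 x33 x34 x35 m18 r18 t18a t18b t18c t18d fun m95 r95 t95a t95b t95c t95d =>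
  tB2K x27 x30 x28 x31 x32 x29 x33 x34 x35 m19 r19 t19a t19b t19c t19d fun m96 r96 t96a t96b t96c t96d =>
  tB3K x27 x28 x29 m20 r20 t20a t20b t20c t20d fun m97 r97 t97a t97b t97c t97d =>
  tB4K x27 x28 x29 m21 r21 t21a t21b t21c t21d fun m98 r98 t98a t98b t98c t98d =>
  tE0K x27 x30 x36 x46 x28 x31 x37 x47 x32 x38 x48 x39 x49 x50 x29 x33 x40 x51 x34 x41 x52 x61 x42 x53 x62 x54 x63 x64 x35 x43 x55 x44 x56 x65 x57 x66 x67 x45 x58 x59 x68 x69 x60 x70 m22 r22 t22a t22b t22c t22d fun x99 =>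
  tE1K x27 x30 x28 x31 x32 x29 x33 x34 x35 m23 r23 t23a t23b t23c t23d fun m100 r100 t100a t100b t100c t100d =>
  tE2K x27 x30 x36 x28 x31 x32 x29 x33 x40 x34 x41 x42 x35 x43 x44 x45 m22 r22 t22a t22b t22c t22d fun m101 r101 t101a t101b t101c t101d =>
  tE3K x27 x30 x28 x31 x32 x29 x33 x34 x35 m23 r23 t23a t23b t23c t23d fun m102 r102 t102a t102b t102c t102d =>
  tE4K x27 x30 x36 x28 x31 x37 x32 x38 x39 x29 x33 x40 x51 x34 x41 x52 x42 x53 x54 x35 x43 x55 x44 x56 x57 x45 x58 x59 x60 m10 r10 t10a t10b t10c t10d m12 r12 t12a t12b t12c t12d m23 r23 t23a t23b t23c t23d fun m103 r103 t103a t103b t103c t103d =>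
  tE5K x27 x28 x29 m24 r24 t24a t24b t24c t24d fun m104 r104 t104a t104b t104c t104d =>
  tE6K x27 x28 m25 r25 t25a t25b t25c t25d fun m105 r105 t105a t105b t105c t105d =>
  tE7K x27 x28 x29 m26 r26 t26a t26b t26c t26d fun m106 r106 t106a t106b t106c t106d =>
  tE8K x27 x30 x28 x31 x32 x29 x33 x40 x34 x41 x42 x35 x43 x44 x45 m13 r13 t13a t13b t13c t13d fun m107 r107 t107a t107b t107c t107d =>
  nrmK x9 fun m108 r108 t108a t108b t108c t108d =>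
  k x71 m71 r71 t71a t71b t71c t71d m72 r72 t72a t72b t72c t72d m73 r73 t73a t73b t73c t73d m74 r74 t74a t74b t74c t74d x75 m76 r76 t76a t76b t76c t76d m77 r77 t77a t77b t77c t77d m78 r78 t78a t78b t78c t78d m79 r79 t79a t79b t79c t79d x80 m81 r81 t81a t81b t81c t81d m82 r82 t82a t82b t82c t82d m83 r83 t83a t83b t83c t83d m84 r84 t84a t84b t84c t84d m85 r85 t85a t85b t85c t85d m86 r86 t86a t86b t86c t86d m87 r87 t87a t87b t87c t87d m88 r88 t88a t88b t88c t88d m89 r89 t89a t89b t89c t89d m90 r90 t90a t90b t90c t90d m91 r91 t91a t91b t91c t91d m92 r92 t92a t92b t92c t92d m93 r93 t93a t93b t93c t93d m94 r94 t94a t94b t94c t94d m95 r95 t95a t95b t95c t95d m96 r96 t96a t96b t96c t96d m97 r97 t97a t97b t97c t97d m98 r98 t98a t98b t98c t98d x99 m100 r100 t100a t100b t100c t100d m101 r101 t101a t101b t101c t101d m102 r102 t102a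 t102b t102c t102d m103 r103 t103a t103b t103c t103d m104 r104 t104a t104b t104c t104d m105 r105 t105a t105b t105c t105d m106 r106 t106a t106b t106c t106d m107 r107 t107a t107b t107c t107d m108 r108 t108a t108b t108c t108d

theorem stA_s {e1 e2 e3 e4 e5 : ℝ} (he : Ev e1 e2 e3 e4 e5) (s z P r p : ℝ) (hr : r = 1 - s ^ 2) (hp : p = 1 - P ^ 2 - z ^ 2 * (1 - s ^ 2)) {x1 x2 x3 : ℕ} {k : ℕ → ℕ → ℕ → ℕ → ℕ → ℕ → ℕ → ℕ → ℕ → ℕ → ℕ → ℕ → ℕ → ℕ → ℕ → ℕ → ℕ → ℕ → ℕ → ℕ → ℕ → ℕ → ℕ → ℕ → ℕ → ℕ → ℕ → ℕ → ℕ → ℕ → ℕ → ℕ → ℕ → ℕ → ℕ → ℕ → ℕ → ℕ → ℕ → ℕ → ℕ → ℕ → ℕ → ℕ → ℕ → ℕ → ℕ → ℕ → ℕ → ℕ → ℕ → ℕ → ℕ → ℕ → ℕ → ℕ → ℕ → ℕ → ℕ → ℕ → ℕ → ℕ → ℕ → ℕ → ℕ → ℕ → ℕ → ℕ → ℕ → ℕ → ℕ → ℕ → ℕ → ℕ → ℕ → ℕ → ℕ → ℕ → ℕ → ℕ → ℕ → ℕ → ℕ → ℕ → ℕ → ℕ → ℕ → ℕ → ℕ → ℕ → ℕ → ℕ → ℕ → ℕ → ℕ → ℕ → ℕ → ℕ → ℕ → ℕ → ℕ → ℕ → ℕ → ℕ → ℕ → ℕ → ℕ → ℕ → ℕ → ℕ → ℕ → ℕ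 → ℕ → ℕ → ℕ → ℕ → ℕ → ℕ → ℕ → ℕ → ℕ → ℕ → ℕ → ℕ → ℕ → ℕ → ℕ → ℕ → ℕ → ℕ → ℕ → ℕ → ℕ → ℕ → ℕ → ℕ → ℕ → ℕ → ℕ → ℕ → ℕ → ℕ → ℕ → ℕ → ℕ → ℕ → ℕ → ℕ → ℕ → ℕ → ℕ → ℕ → ℕ → ℕ → ℕ → ℕ → ℕ → ℕ → ℕ → ℕ → ℕ → ℕ → ℕ → ℕ → ℕ → ℕ → ℕ → ℕ → ℕ → ℕ → ℕ → ℕ → ℕ → ℕ → ℕ → ℕ → ℕ → ℕ → ℕ → ℕ → ℕ → ℕ → ℕ → ℕ → ℕ → ℕ → ℕ → ℕ → ℕ → ℕ → ℕ → ℕ → ℕ → ℕ → ℕ → ℕ → ℕ → ℕ → ℕ → ℕ → ℕ → ℕ → ℕ → ℕ → ℕ → ℕ → ℕ → ℕ → ℕ → ℕ → ℕ → ℕ → ℕ → ℕ → Bool} {Q : Prop}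
    (h1 : In e1 e2 e3 e4 e5 x1 (s))
    (h2 : In e1 e2 e3 e4 e5 x2 (z))
    (h3 : In e1 e2 e3 e4 e5 x3 (P))
    (hk : ∀ X0 M0 R0 A0 B0 C0 D0 M1 R1 A1 B1 C1 D1 M2 R2 A2 B2 C2 D2 M3 R3 A3 B3 C3 D3 X4 M5 R5 A5 B5 C5 D5 M6 R6 A6 B6 C6 D6 M7 R7 A7 B7 C7 D7 M8 R8 A8 B8 C8 D8 X9 M10 R10 A10 B10 C10 D10 M11 R11 A11 B11 C11 D11 M12 R12 A12 B12 C12 D12 M13 R13 A13 B13 C13 D13 M14 R14 A14 B14 C14 D14 M15 R15 A15 B15 C15 D15 M16 R16 A16 B16 C16 D16 M17 R17 A17 B17 C17 D17 M18 R18 A18 B18 C18 D18 M19 R19 A19 B19 C19 D19 M20 R20 A20 B20 C20 D20 M21 R21 A21 B21 C21 D21 M22 R22 A22 B22 C22 D22 M23 R23 A23 B23 C23 D23 M24 R24 A24 B24 C24 D24 M25 R25 A25 B25 C25 D25 M26 R26 A26 B26 C26 D26 M27 R27 A27 B27 C27 D27 X28 M29 R29 A29 B29 C29 D29 M30 R30 A30 B30 C30 D30 M31 R31 A31 B31 C31 D31 M32 R32 A32 B32 C32 D32 M33 R33 A33 B33 C33 D33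 M34 R34 A34 B34 C34 D34 M35 R35 A35 B35 C35 D35 M36 R36 A36 B36 C36 D36 M37 R37 A37 B37 C37 D37, In e1 e2 e3 e4 e5 X0 (tK0 r z p s P) → Nrm e1 e2 e3 e4 e5 M0 R0 A0 B0 C0 D0 (tK0 r z p s P) → Nrm e1 e2 e3 e4 e5 M1 R1 A1 B1 C1 D1 (tK1 r z p s P) → Nrm e1 e2 e3 e4 e5 M2 R2 A2 B2 C2 D2 (tD0 r z p s P) → Nrm e1 e2 e3 e4 e5 M3 R3 A3 B3 C3 D3 (tD1 r z p s P) → In e1 e2 e3 e4 e5 X4 (tF0 r z p s P) → Nrm e1 e2 e3 e4 e5 M5 R5 A5 B5 C5 D5 (tF1 r z p s P) → Nrm e1 e2 e3 e4 e5 M6 R6 A6 B6 C6 D6 (tG0 r z p s P) → Nrm e1 e2 e3 e4 e5 M7 R7 A7 B7 C7 D7 (tG1 r z p s P) → Nrm e1 e2 e3 e4 e5 M8 R8 A8 B8 C8 D8 (tG2 r z p s P) → In e1 e2 e3 e4 e5 X9 (tH0 r z p s P) → Nrm e1 e2 e3 e4 e5 M10 R10 A10 B10 C10 D10 (tH1 r z p s P) → Nrm e1 e2 e3 e4 e5 M11 R11 A11 B11 C11 D11 (tH2 r z p s P) → Nrm e1 e2 e3 e4 e5 M12 R12 A12 B12 C12 D12 (tH3 r z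 p s P) → Nrm e1 e2 e3 e4 e5 M13 R13 A13 B13 C13 D13 (tM0 r z p s P) → Nrm e1 e2 e3 e4 e5 M14 R14 A14 B14 C14 D14 (tM1 r z p s P) → Nrm e1 e2 e3 e4 e5 M15 R15 A15 B15 C15 D15 (tN0 r z p s P) → Nrm e1 e2 e3 e4 e5 M16 R16 A16 B16 C16 D16 (tN1 r z p s P) → Nrm e1 e2 e3 e4 e5 M17 R17 A17 B17 C17 D17 (tA0 r z p s P) → Nrm e1 e2 e3 e4 e5 M18 R18 A18 B18 C18 D18 (tA1 r z p s P) → Nrm e1 e2 e3 e4 e5 M19 R19 A19 B19 C19 D19 (tA2 r z p s P) → Nrm e1 e2 e3 e4 e5 M20 R20 A20 B20 C20 D20 (tA3 r z p s P) → Nrm e1 e2 e3 e4 e5 M21 R21 A21 B21 C21 D21 (tA4 r z p s P) → Nrm e1 e2 e3 e4 e5 M22 R22 A22 B22 C22 D22 (tA5 r z p s P) → Nrm e1 e2 e3 e4 e5 M23 R23 A23 B23 C23 D23 (tB0 r z p s P) → Nrm e1 e2 e3 e4 e5 M24 R24 A24 B24 C24 D24 (tB1 r z p s P) → Nrm e1 e2 e3 e4 e5 M25 R25 A25 B25 C25 D25 (tB2 r z p s P) → Nrm e1 e2 e3 e4 e5 M26 R26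 A26 B26 C26 D26 (tB3 r z p s P) → Nrm e1 e2 e3 e4 e5 M27 R27 A27 B27 C27 D27 (tB4 r z p s P) → In e1 e2 e3 e4 e5 X28 (tE0 r z p s P) → Nrm e1 e2 e3 e4 e5 M29 R29 A29 B29 C29 D29 (tE1 r z p s P) → Nrm e1 e2 e3 e4 e5 M30 R30 A30 B30 C30 D30 (tE2 r z p s P) → Nrm e1 e2 e3 e4 e5 M31 R31 A31 B31 C31 D31 (tE3 r z p s P) → Nrm e1 e2 e3 e4 e5 M32 R32 A32 B32 C32 D32 (tE4 r z p s P) → Nrm e1 e2 e3 e4 e5 M33 R33 A33 B33 C33 D33 (tE5 r z p s P) → Nrm e1 e2 e3 e4 e5 M34 R34 A34 B34 C34 D34 (tE6 r z p s P) → Nrm e1 e2 e3 e4 e5 M35 R35 A35 B35 C35 D35 (tE7 r z p s P) → Nrm e1 e2 e3 e4 e5 M36 R36 A36 B36 C36 D36 (tE8 r z p s P) → Nrm e1 e2 e3 e4 e5 M37 R37 A37 B37 C37 D37 (gF z p s) → k X0 M0 R0 A0 B0 C0 D0 M1 R1 A1 B1 C1 D1 M2 R2 A2 B2 C2 D2 M3 R3 A3 B3 C3 D3 X4 M5 R5 A5 B5 C5 D5 M6 R6 A6 B6 C6 D6 M7 R7 A7 B7 C7 D7 M8 R8 A8 B8 C8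 D8 X9 M10 R10 A10 B10 C10 D10 M11 R11 A11 B11 C11 D11 M12 R12 A12 B12 C12 D12 M13 R13 A13 B13 C13 D13 M14 R14 A14 B14 C14 D14 M15 R15 A15 B15 C15 D15 M16 R16 A16 B16 C16 D16 M17 R17 A17 B17 C17 D17 M18 R18 A18 B18 C18 D18 M19 R19 A19 B19 C19 D19 M20 R20 A20 B20 C20 D20 M21 R21 A21 B21 C21 D21 M22 R22 A22 B22 C22 D22 M23 R23 A23 B23 C23 D23 M24 R24 A24 B24 C24 D24 M25 R25 A25 B25 C25 D25 M26 R26 A26 B26 C26 D26 M27 R27 A27 B27 C27 D27 X28 M29 R29 A29 B29 C29 D29 M30 R30 A30 B30 C30 D30 M31 R31 A31 B31 C31 D31 M32 R32 A32 B32 C32 D32 M33 R33 A33 B33 C33 D33 M34 R34 A34 B34 C34 D34 M35 R35 A35 B35 C35 D35 M36 R36 A36 B36 C36 D36 M37 R37 A37 B37 C37 D37 = true → Q)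
    (HH0 : stA x1 x2 x3 k = true) : Q := by
  unfold stA at HH0
  refine sa0_s he (s) (z) (P) (r) (p) hr hp h1 h2 h3 (fun _ _ _ _ _ _ h4 h5 h6 h7 h8 h9 HH1 => ?_) HH0
  refine sa1_s he (s) (P)  h1 h3 h4 h5 (fun _ _ _ _ _ _ _ _ _ _ _ _ _ _ _ _ _ _ _ _ _ _ _ _ _ _ _ _ _ _ _ _ _ _ _ _ _ _ _ _ _ _ _ _ _ _ _ _ _ _ _ _ _ _ _ _ _ _ _ _ _ _ _ _ _ _ _ _ _ _ _ _ _ _ _ _ _ _ _ _ _ _ _ _ _ _ _ _ _ _ _ _ _ _ _ _ _ _ _ _ _ _ n10 n11 n12 n13 n14 n15 n16 n17 n18 n19 n20 n21 n22 n23 n24 n25 n26 HH2 => ?_) HH1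
  clear HH1
  refine sa2_s he (r - 1/2) (z - 1/2) (p - 1/2)  h6 h7 h8 (fun _ _ _ _ _ _ _ _ _ _ _ _ _ _ _ _ _ _ _ _ _ _ _ _ _ _ _ _ _ _ _ _ _ _ _ _ _ _ _ _ _ _ _ _ h27 h28 h29 h30 h31 h32 h33 h34 h35 h36 h37 h38 h39 h40 h41 h42 h43 h44 h45 h46 h47 h48 h49 h50 h51 h52 h53 h54 h55 h56 h57 h58 h59 h60 h61 h62 h63 h64 h65 h66 h67 h68 h69 h70 HH3 => ?_) HH2
  clear HH2
  refine tK0K_s he (r) (z) (p) (s) (P)  h27 h30 h36 h28 h31 h37 h32 h38 h39 h29 h33 h40 h34 h41 h42 h35 h43 h44 h45 (fun _ _ _ _ _ _ _ h71 n71 HH4 => ?_) HH3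
  clear HH3
  refine tK1K_s he (r) (z) (p) (s) (P)  h27 h30 h28 h31 h32 h29 h33 h34 h35 n12 (fun _ _ _ _ _ _ n72 HH5 => ?_) HH4
  clear HH4
  refine tD0K_s he (r) (z) (p) (s) (P)  h27 h30 h36 h28 h31 h37 h32 h38 h39 h29 h33 h40 h34 h41 h42 h35 h43 h44 h45 n10 (fun _ _ _ _ _ _ n73 HH6 => ?_) HH5
  clear HH5
  refine tD1K_s he (r) (z) (p) (s) (P)  h27 h30 h28 h31 h32 h29 h33 h34 h35 n13 (fun _ _ _ _ _ _ n74 HH7 => ?_) HH6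
  clear HH6
  refine tF0K_s he (r) (z) (p) (s) (P)  h27 h30 h36 h28 h31 h37 h32 h38 h39 h29 h33 h40 h34 h41 h42 h35 h43 h44 h45 (fun _ h75 HH8 => ?_) HH7
  clear HH7
  refine tF1K_s he (r) (z) (p) (s) (P)  h27 h30 h28 h31 h32 h29 h33 h34 h35 n12 (fun _ _ _ _ _ _ n76 HH9 => ?_) HH8
  clear HH8
  refine tG0K_s he (r) (z) (p) (s) (P)  h27 h30 h36 h28 h31 h37 h32 h38 h39 h29 h33 h40 h51 h34 h41 h42 h53 h54 h35 h43 h55 h44 h56 h57 h45 h58 h59 h60 (fun _ _ _ _ _ _ n77 HH10 => ?_) HH9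
  clear HH9
  refine tG1K_s he (r) (z) (p) (s) (P)  h27 h28 h31 h32 h29 h33 h40 h34 h41 h42 h35 h43 h44 h45 n12 (fun _ _ _ _ _ _ n78 HH11 => ?_) HH10
  clear HH10
  refine tG2K_s he (r) (z) (p) (s) (P)  h27 h30 h28 h31 h32 h29 h33 h40 h34 h41 h42 h35 h43 h44 h45 n10 (fun _ _ _ _ _ _ n79 HH12 => ?_) HH11
  clear HH11
  refine tH0K_s he (r) (z) (p) (s) (P)  h27 h30 h28 h31 h32 h29 h33 h34 h35 n16 (fun _ h80 HH13 => ?_) HH12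
  clear HH12
  refine tH1K_s he (r) (z) (p) (s) (P)  h27 h30 h28 h31 h32 h29 h33 h34 h35 n17 (fun _ _ _ _ _ _ n81 HH14 => ?_) HH13
  clear HH13
  refine tH2K_s he (r) (z) (p) (s) (P)  h27 h28 h29 n19 (fun _ _ _ _ _ _ n82 HH15 => ?_) HH14
  clear HH14
  refine tH3K_s he (r) (z) (p) (s) (P)  h27 h28 h29 n20 (fun _ _ _ _ _ _ n83 HH16 => ?_) HH15
  clear HH15
  refine tM0K_s he (r) (z) (p) (s) (P)  h27 h30 h36 h28 h31 h32 h38 h39 h29 h33 h40 h34 h41 h42 h35 h43 h44 h45 n11 (fun _ _ _ _ _ _ n84 HH17 => ?_) HH16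
  clear HH16
  refine tM1K_s he (r) (z) (p) (s) (P)  h27 h30 h28 h31 h32 h29 h33 h34 h35 n14 (fun _ _ _ _ _ _ n85 HH18 => ?_) HH17
  clear HH17
  refine tN0K_s he (r) (z) (p) (s) (P)  h27 h30 h36 h28 h31 h37 h32 h39 h29 h33 h40 h34 h41 h42 h35 h43 h44 h45 n12 (fun _ _ _ _ _ _ n86 HH19 => ?_) HH18
  clear HH18
  refine tN1K_s he (r) (z) (p) (s) (P)  h27 h30 h28 h31 h32 h29 h33 h34 h35 n15 (fun _ _ _ _ _ _ n87 HH20 => ?_) HH19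
  clear HH19
  refine tA0K_s he (r) (z) (p) (s) (P)  h27 h30 h36 h28 h31 h37 h32 h38 h39 h29 h33 h40 h34 h41 h52 h42 h53 h54 h35 h43 h55 h44 h56 h45 h58 h59 h60 n16 (fun _ _ _ _ _ _ n88 HH21 => ?_) HH20
  clear HH20
  refine tA1K_s he (r) (z) (p) (s) (P)  h27 h30 h36 h46 h28 h31 h37 h32 h38 h39 h29 h33 h40 h51 h34 h42 h53 h54 h35 h43 h55 h44 h56 h57 h45 h58 h59 h60 n17 (fun _ _ _ _ _ _ n89 HH22 => ?_) HH21
  clear HH21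
  refine tA2K_s he (r) (z) (p) (s) (P)  h27 h30 h28 h31 h37 h32 h38 h39 h29 h33 h40 h34 h41 h35 h43 h44 h45 n18 (fun _ _ _ _ _ _ n90 HH23 => ?_) HH22
  clear HH22
  refine tA3K_s he (r) (z) (p) (s) (P)  h27 h30 h28 h31 h32 h29 h33 h34 h35 n19 (fun _ _ _ _ _ _ n91 HH24 => ?_) HH23
  clear HH23
  refine tA4K_s he (r) (z) (p) (s) (P)  h27 h30 h28 h31 h29 h33 h34 h35 n20 (fun _ _ _ _ _ _ n92 HH25 => ?_) HH24
  clear HH24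
  refine tA5K_s he (r) (z) (p) (s) (P)  h27 h30 h28 h31 h32 h29 h33 h34 h35 n21 (fun _ _ _ _ _ _ n93 HH26 => ?_) HH25
  clear HH25
  refine tB0K_s he (r) (z) (p) (s) (P)  h27 h30 h28 h31 h32 h29 h33 h34 h35 n17 (fun _ _ _ _ _ _ n94 HH27 => ?_) HH26
  clear HH26
  refine tB1K_s he (r) (z) (p) (s) (P)  h27 h30 h28 h31 h32 h29 h33 h34 h35 n18 (fun _ _ _ _ _ _ n95 HH28 => ?_) HH27
  clear HH27
  refine tB2K_s he (r) (z) (p) (s) (P)  h27 h30 h28 h31 h32 h29 h33 h34 h35 n19 (fun _ _ _ _ _ _ n96 HH29 => ?_) HH28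
  clear HH28
  refine tB3K_s he (r) (z) (p) (s) (P)  h27 h28 h29 n20 (fun _ _ _ _ _ _ n97 HH30 => ?_) HH29
  clear HH29
  refine tB4K_s he (r) (z) (p) (s) (P)  h27 h28 h29 n21 (fun _ _ _ _ _ _ n98 HH31 => ?_) HH30
  clear HH30
  refine tE0K_s he (r) (z) (p) (s) (P)  h27 h30 h36 h46 h28 h31 h37 h47 h32 h38 h48 h39 h49 h50 h29 h33 h40 h51 h34 h41 h52 h61 h42 h53 h62 h54 h63 h64 h35 h43 h55 h44 h56 h65 h57 h66 h67 h45 h58 h59 h68 h69 h60 h70 n22 (fun _ h99 HH32 => ?_) HH31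
  clear HH31
  refine tE1K_s he (r) (z) (p) (s) (P)  h27 h30 h28 h31 h32 h29 h33 h34 h35 n23 (fun _ _ _ _ _ _ n100 HH33 => ?_) HH32
  clear HH32
  refine tE2K_s he (r) (z) (p) (s) (P)  h27 h30 h36 h28 h31 h32 h29 h33 h40 h34 h41 h42 h35 h43 h44 h45 n22 (fun _ _ _ _ _ _ n101 HH34 => ?_) HH33
  clear HH33
  refine tE3K_s he (r) (z) (p) (s) (P)  h27 h30 h28 h31 h32 h29 h33 h34 h35 n23 (fun _ _ _ _ _ _ n102 HH35 => ?_) HH34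
  clear HH34
  refine tE4K_s he (r) (z) (p) (s) (P)  h27 h30 h36 h28 h31 h37 h32 h38 h39 h29 h33 h40 h51 h34 h41 h52 h42 h53 h54 h35 h43 h55 h44 h56 h57 h45 h58 h59 h60 n10 n12 n23 (fun _ _ _ _ _ _ n103 HH36 => ?_) HH35
  clear HH35
  refine tE5K_s he (r) (z) (p) (s) (P)  h27 h28 h29 n24 (fun _ _ _ _ _ _ n104 HH37 => ?_) HH36
  clear HH36
  refine tE6K_s he (r) (z) (p) (s) (P)  h27 h28 n25 (fun _ _ _ _ _ _ n105 HH38 => ?_) HH37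
  clear HH37
  refine tE7K_s he (r) (z) (p) (s) (P)  h27 h28 h29 n26 (fun _ _ _ _ _ _ n106 HH39 => ?_) HH38
  clear HH38
  refine tE8K_s he (r) (z) (p) (s) (P)  h27 h30 h28 h31 h32 h29 h33 h40 h34 h41 h42 h35 h43 h44 h45 n13 (fun _ _ _ _ _ _ n107 HH40 => ?_) HH39
  clear HH39
  refine nrmK_s he h9 (fun _ _ _ _ _ _ n108 HH41 => ?_) HH40
  clear HH40
  exact hk _ _ _ _ _ _ _ _ _ _ _ _ _ _ _ _ _ _ _ _ _ _ _ _ _ _ _ _ _ _ _ _ _ _ _ _ _ _ _ _ _ _ _ _ _ _ _ _ _ _ _ _ _ _ _ _ _ _ _ _ _ _ _ _ _ _ _ _ _ _ _ _ _ _ _ _ _ _ _ _ _ _ _ _ _ _ _ _ _ _ _ _ _ _ _ _ _ _ _ _ _ _ _ _ _ _ _ _ _ _ _ _ _ _ _ _ _ _ _ _ _ _ _ _ _ _ _ _ _ _ _ _ _ _ _ _ _ _ _ _ _ _ _ _ _ _ _ _ _ _ _ _ _ _ _ _ _ _ _ _ _ _ _ _ _ _ _ _ _ _ _ _ _ _ _ _ _ _ _ _ _ _ _ _ _ _ _ _ _ _ _ _ _ _ _ _ _ _ _ _ _ _ _ _ _ _ _ _ _ _ _ _ _ _ h71 n71 n72 n73 n74 h75 n76 n77 n78 n79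 h80 n81 n82 n83 n84 n85 n86 n87 n88 n89 n90 n91 n92 n93 n94 n95 n96 n97 n98 h99 n100 n101 n102 n103 n104 n105 n106 n107 n108 HH41

attribute [irreducible] stA

end Crest.Agent.R97.Tm
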