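import Crest.Agent.Lib.TM.T53
import Crest.Agent.Lib.PSD.Ldl
import Crest.Agent.R97.CertP6
/-! TmB (helper90, generated): stage B of the separable Taylor-model program. -/
set_option autoImplicit false
set_option linter.unusedVariables false
set_option linter.unusedTactic false
set_option linter.unreachableTactic false
set_option linter.unusedSimpArgs false
set_option maxRecDepth 100000
namespace Crest.Agent.R97.Tm
open Crest.Agent.R307 Crest.Agent.R307.IA Crest.Agent.TM.T53 Crest.Agent.PSD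
open Crest.Agent.R307.IA5 (Ev Cov)

noncomputable def s0 (x1 m1 r1 t1a t1b t1c t1d : ℕ) (k : ℕ → ℕ → ℕ → ℕ → ℕ → ℕ → ℕ → ℕ → ℕ → ℕ → ℕ → ℕ → ℕ → Bool) : Bool :=
  mulK m1 r1 t1a t1b t1c t1d m1 r1 t1a t1b t1c t1d fun x2 =>
  finK (Nat.add (Nat.mul 5 x2) cOne) 73696904302290796544 0 fun x3 =>
  nrmK x3 fun m4 r4 t4a t4b t4c t4d =>
  invK x3 m4 r4 t4a fun x5 =>
  nrmK x5 fun m6 r6 t6a t6b t6c t6d =>
  mulK m1 r1 t1a t1b t1c t1d m6 r6 t6a t6b t6c t6d fun x7 =>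
  finK (Nat.mul 4 x7) 73732933099309760512 0 fun x8 =>
  finK (Nat.add (Nat.mul 2 x5) (ng1 cOne)) 147555938191166930944 1 fun x10 =>
  nrmK x8 fun m12 r12 t12a t12b t12c t12d =>
  nrmK x10 fun m13 r13 t13a t13b t13c t13d =>
  k x8 m12 r12 t12a t12b t12c t12d m13 r13 t13a t13b t13c t13d

theorem s0_s {e1 e2 e3 e4 e5 : ℝ} (he : Ev e1 e2 e3 e4 e5) (u : ℝ)  {x1 m1 r1 t1a t1b t1c t1d : ℕ} {k : ℕ → ℕ → ℕ → ℕ → ℕ → ℕ → ℕ → ℕ → ℕ → ℕ → ℕ → ℕ → ℕ → Bool} {Q : Prop}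
    (h1 : In e1 e2 e3 e4 e5 x1 (u))
    (n1 : Nrm e1 e2 e3 e4 e5 m1 r1 t1a t1b t1c t1d (u))
    (hk : ∀ X0 M0 R0 A0 B0 C0 D0 M1 R1 A1 B1 C1 D1, In e1 e2 e3 e4 e5 X0 (4 * u / (1 + 5 * u ^ 2)) → Nrm e1 e2 e3 e4 e5 M0 R0 A0 B0 C0 D0 (4 * u / (1 + 5 * u ^ 2)) → Nrm e1 e2 e3 e4 e5 M1 R1 A1 B1 C1 D1 ((1 - 5 * u ^ 2) / (2 * (1 + 5 * u ^ 2))) → k X0 M0 R0 A0 B0 C0 D0 M1 R1 A1 B1 C1 D1 = true → Q)
    (HH0 : s0 x1 m1 r1 t1a t1b t1c t1d k = true) : Q := by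
  unfold s0 at HH0
  refine mulK_s he n1 n1 (fun _ h2 HH1 => ?_) HH0
  refine finK_s he (aa (an 5 h2) (a1 (one_in he))) (by decide +kernel) (fun _ h3 HH2 => ?_) HH1
  clear HH1
  refine nrmK_s he h3 (fun _ _ _ _ _ _ n4 HH3 => ?_) HH2
  clear HH2
  refine invK_s he n4 (fun _ h5 HH4 => ?_) HH3
  clear HH3
  refine nrmK_s he h5 (fun _ _ _ _ _ _ n6 HH5 => ?_) HH4
  clear HH4
  refine mulK_s he n1 n6 (fun _ h7 HH6 => ?_) HH5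
  clear HH5
  refine finK_s he (an 4 h7) (by decide +kernel) (fun _ h8 HH7 => ?_) HH6
  clear HH6
  have h9 := In_cast (w := 4 * u / (1 + 5 * u ^ 2)) h8 (by push_cast; field_simp; ring)
  refine finK_s he (aa (an 2 h5) (ng1_s he (one_in he))) (by decide +kernel) (fun _ h10 HH8 => ?_) HH7
  clear HH7
  have h11 := In_cast (w := (1 - 5 * u ^ 2) / (2 * (1 + 5 * u ^ 2))) h10 (by push_cast; field_simp; ring)
  refine nrmK_s he h9 (fun _ _ _ _ _ _ n12 HH9 => ?_) HH8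
  clear HH8
  refine nrmK_s he h11 (fun _ _ _ _ _ _ n13 HH10 => ?_) HH9
  clear HH9
  exact hk _ _ _ _ _ _ _ _ _ _ _ _ _ h9 n12 n13 HH10

attribute [irreducible] s0

noncomputable def s1 (x1 m1 r1 t1a t1b t1c t1d m2 r2 t2a t2b t2c t2d m3 r3 t3a t3b t3c t3d : ℕ) (k : ℕ → ℕ → ℕ → ℕ → ℕ → ℕ → ℕ → ℕ → ℕ → ℕ → ℕ → ℕ → ℕ → ℕ → ℕ → ℕ → ℕ → ℕ → ℕ → ℕ → ℕ → ℕ → ℕ → ℕ → ℕ → ℕ → ℕ → ℕ → ℕ → ℕ → ℕ → ℕ → ℕ → ℕ → ℕ → ℕ → ℕ → ℕ → ℕ → ℕ → ℕ → ℕ → ℕ → ℕ → ℕ → ℕ → ℕ → ℕ → ℕ → ℕ → ℕ → ℕ → ℕ → ℕ → ℕ → ℕ → ℕ → ℕ → ℕ → ℕ → ℕ → ℕ → ℕ → ℕ → ℕ → ℕ → ℕ → ℕ → Bool) : Bool :=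
  mulK m3 r3 t3a t3b t3c t3d m3 r3 t3a t3b t3c t3d fun x4 =>
  frcK (Nat.mul 2 x4) fun x5 =>
  finK (Nat.add (Nat.mul 2 cOne) (ngC 2 x5)) 73732933099309760512 0 fun x6 =>
  mulK m2 r2 t2a t2b t2c t2d m3 r3 t3a t3b t3c t3d fun x8 =>
  mulK m2 r2 t2a t2b t2c t2d m2 r2 t2a t2b t2c t2d fun x9 =>
  mulK m1 r1 t1a t1b t1c t1d m1 r1 t1a t1b t1c t1d fun x10 =>
  frcK (Nat.mul 5 x1) fun x12 =>
  finK (Nat.add (Nat.mul 4 x8) (ngC 5 x12)) 147447851800110039040 1 fun x13 =>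
  frcK (Nat.add (Nat.mul 4 x8) (Nat.mul 5 x1)) fun x15 =>
  finK (ngC 9 x15) 147447851800110039040 1 fun x16 =>
  nrmK x6 fun m18 r18 t18a t18b t18c t18d =>
  mulK m2 r2 t2a t2b t2c t2d m18 r18 t18a t18b t18c t18d fun x19 =>
  finK (Nat.mul 2 x19) 73768961896328724480 0 fun x20 =>
  frcK (Nat.mul 48 x9) fun x22 =>
  finK (Nat.add (Nat.mul 15 x10) (ngC 48 x22)) 1179744943987465650176 4 fun x23 =>
  nrmK x23 fun m24 r24 t24a t24b t24c t24d =>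
  mulK m1 r1 t1a t1b t1c t1d m24 r24 t24a t24b t24c t24d fun x25 =>
  nrmK x8 fun m26 r26 t26a t26b t26c t26d =>
  mulK m26 r26 t26a t26b t26c t26d m18 r18 t18a t18b t18c t18d fun x27 =>
  nrmK x9 fun m28 r28 t28a t28b t28c t28d =>
  nrmK x27 fun m29 r29 t29a t29b t29c t29d =>
  mulK m28 r28 t28a t28b t28c t28d m29 r29 t29a t29b t29c t29d fun x30 =>
  frcK (Nat.mul 6 x30) fun x31 =>
  finK (Nat.add x25 (ngC 6 x31)) 73678889903781314560 0 fun x32 =>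
  finK (Nat.add (Nat.mul 3 x1) (Nat.mul 4 x8)) 295093861983824379904 2 fun x34 =>
  nrmK x13 fun m35 r35 t35a t35b t35c t35d =>
  nrmK x34 fun m36 r36 t36a t36b t36c t36d =>
  mulK m35 r35 t35a t35b t35c t35d m36 r36 t36a t36b t36c t36d fun x37 =>
  frcK (Nat.mul 4 x8) fun x39 =>
  finK (Nat.add (Nat.mul 3 x1) (ngC 4 x39)) 295093861983824379904 2 fun x40 =>
  nrmK x16 fun m41 r41 t41a t41b t41c t41d =>
  nrmK x40 fun m42 r42 t42a t42b t42c t42d =>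
  mulK m41 r41 t41a t41b t41c t41d m42 r42 t42a t42b t42c t42d fun x43 =>
  nrmK x20 fun m44 r44 t44a t44b t44c t44d =>
  mulK m2 r2 t2a t2b t2c t2d m44 r44 t44a t44b t44c t44d fun x45 =>
  finK (Nat.add x43 x45) 73768961896328724480 0 fun x46 =>
  frcK (Nat.add x1 (Nat.mul 4 x8)) fun x48 =>
  finK (ngC 5 x48) 147519909394147966976 1 fun x49 =>
  nrmK x49 fun m50 r50 t50a t50b t50c t50d =>
  mulK m44 r44 t44a t44b t44c t44d m50 r50 t50a t50b t50c t50d fun x51 =>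
  nrmK x32 fun m53 r53 t53a t53b t53c t53d =>
  mulK m53 r53 t53a t53b t53c t53d m1 r1 t1a t1b t1c t1d fun x54 =>
  nrmK x10 fun m55 r55 t55a t55b t55c t55d =>
  mulK m53 r53 t53a t53b t53c t53d m55 r55 t55a t55b t55c t55d fun x56 =>
  nrmK x37 fun m57 r57 t57a t57b t57c t57d =>
  nrmK x46 fun m58 r58 t58a t58b t58c t58d =>
  nrmK x51 fun m59 r59 t59a t59b t59c t59d =>
  nrmK x54 fun m60 r60 t60a t60b t60c t60d =>
  nrmK x56 fun m61 r61 t61a t61b t61c t61d =>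
  k x8 m18 r18 t18a t18b t18c t18d m55 r55 t55a t55b t55c t55d m35 r35 t35a t35b t35c t35d m41 r41 t41a t41b t41c t41d x20 m44 r44 t44a t44b t44c t44d m57 r57 t57a t57b t57c t57d m58 r58 t58a t58b t58c t58d m59 r59 t59a t59b t59c t59d m53 r53 t53a t53b t53c t53d m60 r60 t60a t60b t60c t60d m61 r61 t61a t61b t61c t61d

theorem s1_s {e1 e2 e3 e4 e5 : ℝ} (he : Ev e1 e2 e3 e4 e5) (l n th : ℝ)  {x1 m1 r1 t1a t1b t1c t1d m2 r2 t2a t2b t2c t2d m3 r3 t3a t3b t3c t3d : ℕ} {k : ℕ → ℕ → ℕ → ℕ → ℕ → ℕ → ℕ → ℕ → ℕ → ℕ → ℕ → ℕ → ℕ → ℕ → ℕ → ℕ → ℕ → ℕ → ℕ → ℕ → ℕ → ℕ → ℕ → ℕ → ℕ → ℕ → ℕ → ℕ → ℕ → ℕ → ℕ → ℕ → ℕ → ℕ → ℕ → ℕ → ℕ → ℕ → ℕ → ℕ → ℕ → ℕ → ℕ → ℕ → ℕ → ℕ → ℕ → ℕ → ℕ → ℕ → ℕ → ℕ → ℕ → ℕ → ℕ → ℕ → ℕ → ℕ → ℕ → ℕ → ℕ → ℕ → ℕ → ℕ → ℕ → ℕ → ℕ → ℕ → Bool} {Q : Prop}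
    (h1 : In e1 e2 e3 e4 e5 x1 (l))
    (n1 : Nrm e1 e2 e3 e4 e5 m1 r1 t1a t1b t1c t1d (l))
    (n2 : Nrm e1 e2 e3 e4 e5 m2 r2 t2a t2b t2c t2d (n))
    (n3 : Nrm e1 e2 e3 e4 e5 m3 r3 t3a t3b t3c t3d (th))
    (hk : ∀ X0 M1 R1 A1 B1 C1 D1 M2 R2 A2 B2 C2 D2 M3 R3 A3 B3 C3 D3 M4 R4 A4 B4 C4 D4 X5 M5 R5 A5 B5 C5 D5 M6 R6 A6 B6 C6 D6 M7 R7 A7 B7 C7 D7 M8 R8 A8 B8 C8 D8 M9 R9 A9 B9 C9 D9 M10 R10 A10 B10 C10 D10 M11 R11 A11 B11 C11 D11, In e1 e2 e3 e4 e5 X0 (n * th) → Nrm e1 e2 e3 e4 e5 M1 R1 A1 B1 C1 D1 (sD th) → Nrm e1 e2 e3 e4 e5 M2 R2 A2 B2 C2 D2 (l ^ 2) → Nrm e1 e2 e3 e4 e5 M3 R3 A3 B3 C3 D3 (sA1 l n th) → Nrm e1 e2 e3 e4 e5 M4 R4 A4 B4 C4 D4 (sA2 l n th) → In e1 e2 e3 e4 e5 X5 (sA3 n th) → Nrm e1 e2 e3 e4 e5 M5 R5 A5 B5 C5 D5 (sA3 n th) → Nrm e1 e2 e3 e4 e5 M6 R6 A6 B6 C6 D6 (sB1 l n th) → Nrm e1 e2 e3 e4 e5 M7 R7 A7 B7 C7 D7 (sB2 l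 n th) → Nrm e1 e2 e3 e4 e5 M8 R8 A8 B8 C8 D8 (sB3 l n th) → Nrm e1 e2 e3 e4 e5 M9 R9 A9 B9 C9 D9 (sTh l n th) → Nrm e1 e2 e3 e4 e5 M10 R10 A10 B10 C10 D10 (sTh l n th * l) → Nrm e1 e2 e3 e4 e5 M11 R11 A11 B11 C11 D11 (sTh l n th * l ^ 2) → k X0 M1 R1 A1 B1 C1 D1 M2 R2 A2 B2 C2 D2 M3 R3 A3 B3 C3 D3 M4 R4 A4 B4 C4 D4 X5 M5 R5 A5 B5 C5 D5 M6 R6 A6 B6 C6 D6 M7 R7 A7 B7 C7 D7 M8 R8 A8 B8 C8 D8 M9 R9 A9 B9 C9 D9 M10 R10 A10 B10 C10 D10 M11 R11 A11 B11 C11 D11 = true → Q)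
    (HH0 : s1 x1 m1 r1 t1a t1b t1c t1d m2 r2 t2a t2b t2c t2d m3 r3 t3a t3b t3c t3d k = true) : Q := by
  unfold s1 at HH0
  refine mulK_s he n3 n3 (fun _ h4 HH1 => ?_) HH0
  refine frcK_s (an 2 h4) (fun _ h5 HH2 => ?_) HH1
  clear HH1
  refine finK_s he (aa (an 2 (one_in he)) (ngC_s he (C := 2) h5 (by decide +kernel) (by decide +kernel))) (by decide +kernel) (fun _ h6 HH3 => ?_) HH2
  clear HH2
  have h7 := In_cast (w := sD th) h6 (by unfold sD; push_cast; ring)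
  refine mulK_s he n2 n3 (fun _ h8 HH4 => ?_) HH3
  clear HH3
  refine mulK_s he n2 n2 (fun _ h9 HH5 => ?_) HH4
  clear HH4
  refine mulK_s he n1 n1 (fun _ h10 HH6 => ?_) HH5
  clear HH5
  have h11 := In_cast (w := l ^ 2) h10 (by ring)
  refine frcK_s (an 5 h1) (fun _ h12 HH7 => ?_) HH6
  clear HH6
  refine finK_s he (aa (an 4 h8) (ngC_s he (C := 5) h12 (by decide +kernel) (by decide +kernel))) (by decide +kernel) (fun _ h13 HH8 => ?_) HH7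
  clear HH7
  have h14 := In_cast (w := sA1 l n th) h13 (by unfold sA1; push_cast; ring)
  refine frcK_s (aa (an 4 h8) (an 5 h1)) (fun _ h15 HH9 => ?_) HH8
  clear HH8
  refine finK_s he (ngC_s he (C := 9) h15 (by decide +kernel) (by decide +kernel)) (by decide +kernel) (fun _ h16 HH10 => ?_) HH9
  clear HH9
  have h17 := In_cast (w := sA2 l n th) h16 (by unfold sA2; push_cast; ring)
  refine nrmK_s he h7 (fun _ _ _ _ _ _ n18 HH11 => ?_) HH10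
  clear HH10
  refine mulK_s he n2 n18 (fun _ h19 HH12 => ?_) HH11
  clear HH11
  refine finK_s he (an 2 h19) (by decide +kernel) (fun _ h20 HH13 => ?_) HH12
  clear HH12
  have h21 := In_cast (w := sA3 n th) h20 (by unfold sA3; push_cast; ring)
  refine frcK_s (an 48 h9) (fun _ h22 HH14 => ?_) HH13
  clear HH13
  refine finK_s he (aa (an 15 h11) (ngC_s he (C := 48) h22 (by decide +kernel) (by decide +kernel))) (by decide +kernel) (fun _ h23 HH15 => ?_) HH14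
  clear HH14
  refine nrmK_s he h23 (fun _ _ _ _ _ _ n24 HH16 => ?_) HH15
  clear HH15
  refine mulK_s he n1 n24 (fun _ h25 HH17 => ?_) HH16
  clear HH16
  refine nrmK_s he h8 (fun _ _ _ _ _ _ n26 HH18 => ?_) HH17
  clear HH17
  refine mulK_s he n26 n18 (fun _ h27 HH19 => ?_) HH18
  clear HH18
  refine nrmK_s he h9 (fun _ _ _ _ _ _ n28 HH20 => ?_) HH19
  clear HH19
  refine nrmK_s he h27 (fun _ _ _ _ _ _ n29 HH21 => ?_) HH20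
  clear HH20
  refine mulK_s he n28 n29 (fun _ h30 HH22 => ?_) HH21
  clear HH21
  refine frcK_s (an 6 h30) (fun _ h31 HH23 => ?_) HH22
  clear HH22
  refine finK_s he (aa (a1 h25) (ngC_s he (C := 6) h31 (by decide +kernel) (by decide +kernel))) (by decide +kernel) (fun _ h32 HH24 => ?_) HH23
  clear HH23
  have h33 := In_cast (w := sTh l n th) h32 (by unfold sTh; push_cast; ring)
  refine finK_s he (aa (an 3 h1) (an 4 h8)) (by decide +kernel) (fun _ h34 HH25 => ?_) HH24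
  clear HH24
  refine nrmK_s he h14 (fun _ _ _ _ _ _ n35 HH26 => ?_) HH25
  clear HH25
  refine nrmK_s he h34 (fun _ _ _ _ _ _ n36 HH27 => ?_) HH26
  clear HH26
  refine mulK_s he n35 n36 (fun _ h37 HH28 => ?_) HH27
  clear HH27
  have h38 := In_cast (w := sB1 l n th) h37 (by unfold sB1 sA1; push_cast; ring)
  refine frcK_s (an 4 h8) (fun _ h39 HH29 => ?_) HH28
  clear HH28
  refine finK_s he (aa (an 3 h1) (ngC_s he (C := 4) h39 (by decide +kernel) (by decide +kernel))) (by decide +kernel) (fun _ h40 HH30 => ?_) HH29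
  clear HH29
  refine nrmK_s he h17 (fun _ _ _ _ _ _ n41 HH31 => ?_) HH30
  clear HH30
  refine nrmK_s he h40 (fun _ _ _ _ _ _ n42 HH32 => ?_) HH31
  clear HH31
  refine mulK_s he n41 n42 (fun _ h43 HH33 => ?_) HH32
  clear HH32
  refine nrmK_s he h21 (fun _ _ _ _ _ _ n44 HH34 => ?_) HH33
  clear HH33
  refine mulK_s he n2 n44 (fun _ h45 HH35 => ?_) HH34
  clear HH34
  refine finK_s he (aa (a1 h43) (a1 h45)) (by decide +kernel) (fun _ h46 HH36 => ?_) HH35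
  clear HH35
  have h47 := In_cast (w := sB2 l n th) h46 (by unfold sB2 sA2 sA3; push_cast; ring)
  refine frcK_s (aa (a1 h1) (an 4 h8)) (fun _ h48 HH37 => ?_) HH36
  clear HH36
  refine finK_s he (ngC_s he (C := 5) h48 (by decide +kernel) (by decide +kernel)) (by decide +kernel) (fun _ h49 HH38 => ?_) HH37
  clear HH37
  refine nrmK_s he h49 (fun _ _ _ _ _ _ n50 HH39 => ?_) HH38
  clear HH38
  refine mulK_s he n44 n50 (fun _ h51 HH40 => ?_) HH39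
  clear HH39
  have h52 := In_cast (w := sB3 l n th) h51 (by unfold sB3 sA3; push_cast; ring)
  refine nrmK_s he h33 (fun _ _ _ _ _ _ n53 HH41 => ?_) HH40
  clear HH40
  refine mulK_s he n53 n1 (fun _ h54 HH42 => ?_) HH41
  clear HH41
  refine nrmK_s he h11 (fun _ _ _ _ _ _ n55 HH43 => ?_) HH42
  clear HH42
  refine mulK_s he n53 n55 (fun _ h56 HH44 => ?_) HH43
  clear HH43
  refine nrmK_s he h38 (fun _ _ _ _ _ _ n57 HH45 => ?_) HH44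
  clear HH44
  refine nrmK_s he h47 (fun _ _ _ _ _ _ n58 HH46 => ?_) HH45
  clear HH45
  refine nrmK_s he h52 (fun _ _ _ _ _ _ n59 HH47 => ?_) HH46
  clear HH46
  refine nrmK_s he h54 (fun _ _ _ _ _ _ n60 HH48 => ?_) HH47
  clear HH47
  refine nrmK_s he h56 (fun _ _ _ _ _ _ n61 HH49 => ?_) HH48
  clear HH48
  exact hk _ _ _ _ _ _ _ _ _ _ _ _ _ _ _ _ _ _ _ _ _ _ _ _ _ _ _ _ _ _ _ _ _ _ _ _ _ _ _ _ _ _ _ _ _ _ _ _ _ _ _ _ _ _ _ _ _ _ _ _ _ _ _ _ _ _ _ _ h8 n18 n55 n35 n41 h21 n44 n57 n58 n59 n53 n60 n61 HH49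

attribute [irreducible] s1

noncomputable def be (x1 m2 r2 t2a t2b t2c t2d m3 r3 t3a t3b t3c t3d m4 r4 t4a t4b t4c t4d m5 r5 t5a t5b t5c t5d m6 r6 t6a t6b t6c t6d m7 r7 t7a t7b t7c t7d m8 r8 t8a t8b t8c t8d m9 r9 t9a t9b t9c t9d m10 r10 t10a t10b t10c t10d p11 m12 r12 t12a t12b t12c t12d m13 r13 t13a t13b t13c t13d m14 r14 t14a t14b t14c t14d m15 r15 t15a t15b t15c t15d m16 r16 t16a t16b t16c t16d : ℕ) (k : ℕ → Bool) : Bool :=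
  mulK m2 r2 t2a t2b t2c t2d m12 r12 t12a t12b t12c t12d fun x17 =>
  mulK m3 r3 t3a t3b t3c t3d m13 r13 t13a t13b t13c t13d fun x18 =>
  mulK m13 r13 t13a t13b t13c t13d m12 r12 t12a t12b t12c t12d fun x19 =>
  nrmK x19 fun m20 r20 t20a t20b t20c t20d =>
  mulK m4 r4 t4a t4b t4c t4d m20 r20 t20a t20b t20c t20d fun x21 =>
  mulK m5 r5 t5a t5b t5c t5d m14 r14 t14a t14b t14c t14d fun x22 =>
  mulK m6 r6 t6a t6b t6c t6d m15 r15 t15a t15b t15c t15d fun x23 =>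
  mulK m7 r7 t7a t7b t7c t7d m16 r16 t16a t16b t16c t16d fun x24 =>
  mulK m16 r16 t16a t16b t16c t16d m12 r12 t12a t12b t12c t12d fun x25 =>
  nrmK x25 fun m26 r26 t26a t26b t26c t26d =>
  mulK m8 r8 t8a t8b t8c t8d m26 r26 t26a t26b t26c t26d fun x27 =>
  mulK m14 r14 t14a t14b t14c t14d m14 r14 t14a t14b t14c t14d fun x28 =>
  nrmK x28 fun m29 r29 t29a t29b t29c t29d =>
  mulK m9 r9 t9a t9b t9c t9d m29 r29 t29a t29b t29c t29d fun x30 =>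
  mulcK m10 r10 t10a p11 0 fun x31 =>
  frcK (Nat.mul 64 x31) fun x32 =>
  finK (Nat.add (Nat.add (Nat.add (Nat.add (Nat.add (Nat.add (Nat.add (Nat.add (Nat.add x1 x17) x18) x21) x22) x23) x24) x27) x30) (ngC 64 x32)) 72489939602155503616 0 fun x33 =>
  k x33

theorem be_s {e1 e2 e3 e4 e5 : ℝ} (he : Ev e1 e2 e3 e4 e5) (E0 E1 E2 E3 E4 E5 E6 E7 E8 g m l q : ℝ)  {x1 m2 r2 t2a t2b t2c t2d m3 r3 t3a t3b t3c t3d m4 r4 t4a t4b t4c t4d m5 r5 t5a t5b t5c t5d m6 r6 t6a t6b t6c t6d m7 r7 t7a t7b t7c t7d m8 r8 t8a t8b t8c t8d m9 r9 t9a t9b t9c t9d m10 r10 t10a t10b t10c t10d p11 m12 r12 t12a t12b t12c t12d m13 r13 t13a t13b t13c t13d m14 r14 t14a t14b t14c t14d m15 r15 t15a t15b t15c t15d m16 r16 t16a t16b t16c t16d : ℕ} {k : ℕ → Bool} {Q : Prop}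
    (h1 : In e1 e2 e3 e4 e5 x1 (E0))
    (n2 : Nrm e1 e2 e3 e4 e5 m2 r2 t2a t2b t2c t2d (E1))
    (n3 : Nrm e1 e2 e3 e4 e5 m3 r3 t3a t3b t3c t3d (E2))
    (n4 : Nrm e1 e2 e3 e4 e5 m4 r4 t4a t4b t4c t4d (E3))
    (n5 : Nrm e1 e2 e3 e4 e5 m5 r5 t5a t5b t5c t5d (E4))
    (n6 : Nrm e1 e2 e3 e4 e5 m6 r6 t6a t6b t6c t6d (E5))
    (n7 : Nrm e1 e2 e3 e4 e5 m7 r7 t7a t7b t7c t7d (E6))
    (n8 : Nrm e1 e2 e3 e4 e5 m8 r8 t8a t8b t8c t8d (E7))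
    (n9 : Nrm e1 e2 e3 e4 e5 m9 r9 t9a t9b t9c t9d (E8))
    (n10 : Nrm e1 e2 e3 e4 e5 m10 r10 t10a t10b t10c t10d (g))
    (g11 : Nrm e1 e2 e3 e4 e5 p11 0 p11 0 0 0 (m))
    (n12 : Nrm e1 e2 e3 e4 e5 m12 r12 t12a t12b t12c t12d (l))
    (n13 : Nrm e1 e2 e3 e4 e5 m13 r13 t13a t13b t13c t13d (l ^ 2))
    (n14 : Nrm e1 e2 e3 e4 e5 m14 r14 t14a t14b t14c t14d (q))
    (n15 : Nrm e1 e2 e3 e4 e5 m15 r15 t15a t15b t15c t15d (q * l))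
    (n16 : Nrm e1 e2 e3 e4 e5 m16 r16 t16a t16b t16c t16d (q * l ^ 2))
    (hk : ∀ X0, In e1 e2 e3 e4 e5 X0 (E0 + E1 * l + E2 * l ^ 2 + E3 * l ^ 3 + E4 * q + E5 * q * l + E6 * q * l ^ 2 + E7 * q * l ^ 3 + E8 * q ^ 2 - 64 * (g * m)) → k X0 = true → Q)
    (HH0 : be x1 m2 r2 t2a t2b t2c t2d m3 r3 t3a t3b t3c t3d m4 r4 t4a t4b t4c t4d m5 r5 t5a t5b t5c t5d m6 r6 t6a t6b t6c t6d m7 r7 t7a t7b t7c t7d m8 r8 t8a t8b t8c t8d m9 r9 t9a t9b t9c t9d m10 r10 t10a t10b t10c t10d p11 m12 r12 t12a t12b t12c t12d m13 r13 t13a t13b t13c t13d m14 r14 t14a t14b t14c t14d m15 r15 t15a t15b t15c t15d m16 r16 t16a t16b t16c t16d k = true) : Q := by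
  unfold be at HH0
  refine mulK_s he n2 n12 (fun _ h17 HH1 => ?_) HH0
  refine mulK_s he n3 n13 (fun _ h18 HH2 => ?_) HH1
  clear HH1
  refine mulK_s he n13 n12 (fun _ h19 HH3 => ?_) HH2
  clear HH2
  refine nrmK_s he h19 (fun _ _ _ _ _ _ n20 HH4 => ?_) HH3
  clear HH3
  refine mulK_s he n4 n20 (fun _ h21 HH5 => ?_) HH4
  clear HH4
  refine mulK_s he n5 n14 (fun _ h22 HH6 => ?_) HH5
  clear HH5
  refine mulK_s he n6 n15 (fun _ h23 HH7 => ?_) HH6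
  clear HH6
  refine mulK_s he n7 n16 (fun _ h24 HH8 => ?_) HH7
  clear HH7
  refine mulK_s he n16 n12 (fun _ h25 HH9 => ?_) HH8
  clear HH8
  refine nrmK_s he h25 (fun _ _ _ _ _ _ n26 HH10 => ?_) HH9
  clear HH9
  refine mulK_s he n8 n26 (fun _ h27 HH11 => ?_) HH10
  clear HH10
  refine mulK_s he n14 n14 (fun _ h28 HH12 => ?_) HH11
  clear HH11
  refine nrmK_s he h28 (fun _ _ _ _ _ _ n29 HH13 => ?_) HH12
  clear HH12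
  refine mulK_s he n9 n29 (fun _ h30 HH14 => ?_) HH13
  clear HH13
  refine mulcK_s he n10 g11 (fun _ h31 HH15 => ?_) HH14
  clear HH14
  refine frcK_s (an 64 h31) (fun _ h32 HH16 => ?_) HH15
  clear HH15
  refine finK_s he (aa (aa (aa (aa (aa (aa (aa (aa (aa (a1 h1) (a1 h17)) (a1 h18)) (a1 h21)) (a1 h22)) (a1 h23)) (a1 h24)) (a1 h27)) (a1 h30)) (ngC_s he (C := 64) h32 (by decide +kernel) (by decide +kernel))) (by decide +kernel) (fun _ h33 HH17 => ?_) HH16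
  clear HH16
  have h34 := In_cast (w := E0 + E1 * l + E2 * l ^ 2 + E3 * l ^ 3 + E4 * q + E5 * q * l + E6 * q * l ^ 2 + E7 * q * l ^ 3 + E8 * q ^ 2 - 64 * (g * m)) h33 (by push_cast; ring)
  exact hk _ h34 HH17

attribute [irreducible] be

noncomputable def ri (m1 r1 t1a t1b t1c t1d m2 r2 t2a t2b t2c t2d m3 r3 t3a t3b t3c t3d m4 r4 t4a t4b t4c t4d m5 r5 t5a t5b t5c t5d m6 r6 t6a t6b t6c t6d m7 r7 t7a t7b t7c t7d m8 r8 t8a t8b t8c t8d m9 r9 t9a t9b t9c t9d m10 r10 t10a t10b t10c t10d m11 r11 t11a t11b t11c t11d m12 r12 t12a t12b t12c t12d m13 r13 t13a t13b t13c t13d m14 r14 t14a t14b t14c t14d m15 r15 t15a t15b t15c t15d m16 r16 t16a t16b t16c t16d m17 r17 t17a t17b t17c t17d m18 r18 t18a t18b t18c t18d m19 r19 t19a t19b t19c t19d m20 r20 t20a t20b t20c t20d m21 r21 t21a t21b t21c t21d : ℕ) (k : ℕ → ℕ → Bool) : Bool :=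
  mulK m17 r17 t17a t17b t17c t17d m20 r20 t20a t20b t20c t20d fun x22 =>
  mulK m12 r12 t12a t12b t12c t12d m20 r20 t20a t20b t20c t20d fun x23 =>
  nrmK x22 fun m24 r24 t24a t24b t24c t24d =>
  mulK m13 r13 t13a t13b t13c t13d m24 r24 t24a t24b t24c t24d fun x25 =>
  mulK m14 r14 t14a t14b t14c t14d m21 r21 t21a t21b t21c t21d fun x26 =>
  finK (Nat.add (Nat.add x23 x25) x26) 73750947497819242496 0 fun x27 =>
  mulK m1 r1 t1a t1b t1c t1d m20 r20 t20a t20b t20c t20d fun x29 =>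
  mulK m4 r4 t4a t4b t4c t4d m24 r24 t24a t24b t24c t24d fun x30 =>
  mulK m15 r15 t15a t15b t15c t15d m20 r20 t20a t20b t20c t20d fun x31 =>
  nrmK x31 fun m32 r32 t32a t32b t32c t32d =>
  mulK m2 r2 t2a t2b t2c t2d m32 r32 t32a t32b t32c t32d fun x33 =>
  mulK m16 r16 t16a t16b t16c t16d m20 r20 t20a t20b t20c t20d fun x34 =>
  nrmK x34 fun m35 r35 t35a t35b t35c t35d =>
  mulK m3 r3 t3a t3b t3c t3d m35 r35 t35a t35b t35c t35d fun x36 =>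
  mulK m18 r18 t18a t18b t18c t18d m20 r20 t20a t20b t20c t20d fun x37 =>
  nrmK x37 fun m38 r38 t38a t38b t38c t38d =>
  mulK m5 r5 t5a t5b t5c t5d m38 r38 t38a t38b t38c t38d fun x39 =>
  mulK m19 r19 t19a t19b t19c t19d m20 r20 t20a t20b t20c t20d fun x40 =>
  nrmK x40 fun m41 r41 t41a t41b t41c t41d =>
  mulK m6 r6 t6a t6b t6c t6d m41 r41 t41a t41b t41c t41d fun x42 =>
  mulK m7 r7 t7a t7b t7c t7d m21 r21 t21a t21b t21c t21d fun x43 =>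
  mulK m15 r15 t15a t15b t15c t15d m21 r21 t21a t21b t21c t21d fun x44 =>
  nrmK x44 fun m45 r45 t45a t45b t45c t45d =>
  mulK m8 r8 t8a t8b t8c t8d m45 r45 t45a t45b t45c t45d fun x46 =>
  mulK m16 r16 t16a t16b t16c t16d m21 r21 t21a t21b t21c t21d fun x47 =>
  nrmK x47 fun m48 r48 t48a t48b t48c t48d =>
  mulK m9 r9 t9a t9b t9c t9d m48 r48 t48a t48b t48c t48d fun x49 =>
  mulK m17 r17 t17a t17b t17c t17d m21 r21 t21a t21b t21c t21d fun x50 =>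
  nrmK x50 fun m51 r51 t51a t51b t51c t51d =>
  mulK m10 r10 t10a t10b t10c t10d m51 r51 t51a t51b t51c t51d fun x52 =>
  mulK m18 r18 t18a t18b t18c t18d m21 r21 t21a t21b t21c t21d fun x53 =>
  nrmK x53 fun m54 r54 t54a t54b t54c t54d =>
  mulK m11 r11 t11a t11b t11c t11d m54 r54 t54a t54b t54c t54d fun x55 =>
  finK (Nat.add (Nat.add (Nat.add (Nat.add (Nat.add (Nat.add (Nat.add (Nat.add (Nat.add (Nat.add x29 x30) x33) x36) x39) x42) x43) x46) x49) x52) x55) 73606832309743386624 0 fun x56 =>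
  k x56 x27

theorem ri_s {e1 e2 e3 e4 e5 : ℝ} (he : Ev e1 e2 e3 e4 e5) (A0 A1 A2 A3 A4 A5 B0 B1 B2 B3 B4 G0 G1 G2 l q a b : ℝ)  {m1 r1 t1a t1b t1c t1d m2 r2 t2a t2b t2c t2d m3 r3 t3a t3b t3c t3d m4 r4 t4a t4b t4c t4d m5 r5 t5a t5b t5c t5d m6 r6 t6a t6b t6c t6d m7 r7 t7a t7b t7c t7d m8 r8 t8a t8b t8c t8d m9 r9 t9a t9b t9c t9d m10 r10 t10a t10b t10c t10d m11 r11 t11a t11b t11c t11d m12 r12 t12a t12b t12c t12d m13 r13 t13a t13b t13c t13d m14 r14 t14a t14b t14c t14d m15 r15 t15a t15b t15c t15d m16 r16 t16a t16b t16c t16d m17 r17 t17a t17b t17c t17d m18 r18 t18a t18b t18c t18d m19 r19 t19a t19b t19c t19d m20 r20 t20a t20b t20c t20d m21 r21 t21a t21b t21c t21d : ℕ} {k : ℕ → ℕ → Bool} {Q : Prop}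
    (n1 : Nrm e1 e2 e3 e4 e5 m1 r1 t1a t1b t1c t1d (A0))
    (n2 : Nrm e1 e2 e3 e4 e5 m2 r2 t2a t2b t2c t2d (A1))
    (n3 : Nrm e1 e2 e3 e4 e5 m3 r3 t3a t3b t3c t3d (A2))
    (n4 : Nrm e1 e2 e3 e4 e5 m4 r4 t4a t4b t4c t4d (A3))
    (n5 : Nrm e1 e2 e3 e4 e5 m5 r5 t5a t5b t5c t5d (A4))
    (n6 : Nrm e1 e2 e3 e4 e5 m6 r6 t6a t6b t6c t6d (A5))
    (n7 : Nrm e1 e2 e3 e4 e5 m7 r7 t7a t7b t7c t7d (B0))
    (n8 : Nrm e1 e2 e3 e4 e5 m8 r8 t8a t8b t8c t8d (B1))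
    (n9 : Nrm e1 e2 e3 e4 e5 m9 r9 t9a t9b t9c t9d (B2))
    (n10 : Nrm e1 e2 e3 e4 e5 m10 r10 t10a t10b t10c t10d (B3))
    (n11 : Nrm e1 e2 e3 e4 e5 m11 r11 t11a t11b t11c t11d (B4))
    (n12 : Nrm e1 e2 e3 e4 e5 m12 r12 t12a t12b t12c t12d (G0))
    (n13 : Nrm e1 e2 e3 e4 e5 m13 r13 t13a t13b t13c t13d (G1))
    (n14 : Nrm e1 e2 e3 e4 e5 m14 r14 t14a t14b t14c t14d (G2))
    (n15 : Nrm e1 e2 e3 e4 e5 m15 r15 t15a t15b t15c t15d (l))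
    (n16 : Nrm e1 e2 e3 e4 e5 m16 r16 t16a t16b t16c t16d (l ^ 2))
    (n17 : Nrm e1 e2 e3 e4 e5 m17 r17 t17a t17b t17c t17d (q))
    (n18 : Nrm e1 e2 e3 e4 e5 m18 r18 t18a t18b t18c t18d (q * l))
    (n19 : Nrm e1 e2 e3 e4 e5 m19 r19 t19a t19b t19c t19d (q * l ^ 2))
    (n20 : Nrm e1 e2 e3 e4 e5 m20 r20 t20a t20b t20c t20d (a))
    (n21 : Nrm e1 e2 e3 e4 e5 m21 r21 t21a t21b t21c t21d (b))
    (hk : ∀ X0 X1, In e1 e2 e3 e4 e5 X0 ((A0 + A1 * l + A2 * l ^ 2 + A3 * q + A4 * q * l + A5 * q * l ^ 2) * a + (B0 + B1 * l + B2 * l ^ 2 + B3 * q + B4 * q * l) * b) → In e1 e2 e3 e4 e5 X1 ((G0 + G1 * q) * a + G2 * b) → k X0 X1 = true → Q)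
    (HH0 : ri m1 r1 t1a t1b t1c t1d m2 r2 t2a t2b t2c t2d m3 r3 t3a t3b t3c t3d m4 r4 t4a t4b t4c t4d m5 r5 t5a t5b t5c t5d m6 r6 t6a t6b t6c t6d m7 r7 t7a t7b t7c t7d m8 r8 t8a t8b t8c t8d m9 r9 t9a t9b t9c t9d m10 r10 t10a t10b t10c t10d m11 r11 t11a t11b t11c t11d m12 r12 t12a t12b t12c t12d m13 r13 t13a t13b t13c t13d m14 r14 t14a t14b t14c t14d m15 r15 t15a t15b t15c t15d m16 r16 t16a t16b t16c t16d m17 r17 t17a t17b t17c t17d m18 r18 t18a t18b t18c t18d m19 r19 t19a t19b t19c t19d m20 r20 t20a t20b t20c t20d m21 r21 t21a t21b t21c t21d k = true) : Q := by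
  unfold ri at HH0
  refine mulK_s he n17 n20 (fun _ h22 HH1 => ?_) HH0
  refine mulK_s he n12 n20 (fun _ h23 HH2 => ?_) HH1
  clear HH1
  refine nrmK_s he h22 (fun _ _ _ _ _ _ n24 HH3 => ?_) HH2
  clear HH2
  refine mulK_s he n13 n24 (fun _ h25 HH4 => ?_) HH3
  clear HH3
  refine mulK_s he n14 n21 (fun _ h26 HH5 => ?_) HH4
  clear HH4
  refine finK_s he (aa (aa (a1 h23) (a1 h25)) (a1 h26)) (by decide +kernel) (fun _ h27 HH6 => ?_) HH5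
  clear HH5
  have h28 := In_cast (w := (G0 + G1 * q) * a + G2 * b) h27 (by push_cast; ring)
  refine mulK_s he n1 n20 (fun _ h29 HH7 => ?_) HH6
  clear HH6
  refine mulK_s he n4 n24 (fun _ h30 HH8 => ?_) HH7
  clear HH7
  refine mulK_s he n15 n20 (fun _ h31 HH9 => ?_) HH8
  clear HH8
  refine nrmK_s he h31 (fun _ _ _ _ _ _ n32 HH10 => ?_) HH9
  clear HH9
  refine mulK_s he n2 n32 (fun _ h33 HH11 => ?_) HH10
  clear HH10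
  refine mulK_s he n16 n20 (fun _ h34 HH12 => ?_) HH11
  clear HH11
  refine nrmK_s he h34 (fun _ _ _ _ _ _ n35 HH13 => ?_) HH12
  clear HH12
  refine mulK_s he n3 n35 (fun _ h36 HH14 => ?_) HH13
  clear HH13
  refine mulK_s he n18 n20 (fun _ h37 HH15 => ?_) HH14
  clear HH14
  refine nrmK_s he h37 (fun _ _ _ _ _ _ n38 HH16 => ?_) HH15
  clear HH15
  refine mulK_s he n5 n38 (fun _ h39 HH17 => ?_) HH16
  clear HH16
  refine mulK_s he n19 n20 (fun _ h40 HH18 => ?_) HH17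
  clear HH17
  refine nrmK_s he h40 (fun _ _ _ _ _ _ n41 HH19 => ?_) HH18
  clear HH18
  refine mulK_s he n6 n41 (fun _ h42 HH20 => ?_) HH19
  clear HH19
  refine mulK_s he n7 n21 (fun _ h43 HH21 => ?_) HH20
  clear HH20
  refine mulK_s he n15 n21 (fun _ h44 HH22 => ?_) HH21
  clear HH21
  refine nrmK_s he h44 (fun _ _ _ _ _ _ n45 HH23 => ?_) HH22
  clear HH22
  refine mulK_s he n8 n45 (fun _ h46 HH24 => ?_) HH23
  clear HH23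
  refine mulK_s he n16 n21 (fun _ h47 HH25 => ?_) HH24
  clear HH24
  refine nrmK_s he h47 (fun _ _ _ _ _ _ n48 HH26 => ?_) HH25
  clear HH25
  refine mulK_s he n9 n48 (fun _ h49 HH27 => ?_) HH26
  clear HH26
  refine mulK_s he n17 n21 (fun _ h50 HH28 => ?_) HH27
  clear HH27
  refine nrmK_s he h50 (fun _ _ _ _ _ _ n51 HH29 => ?_) HH28
  clear HH28
  refine mulK_s he n10 n51 (fun _ h52 HH30 => ?_) HH29
  clear HH29
  refine mulK_s he n18 n21 (fun _ h53 HH31 => ?_) HH30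
  clear HH30
  refine nrmK_s he h53 (fun _ _ _ _ _ _ n54 HH32 => ?_) HH31
  clear HH31
  refine mulK_s he n11 n54 (fun _ h55 HH33 => ?_) HH32
  clear HH32
  refine finK_s he (aa (aa (aa (aa (aa (aa (aa (aa (aa (aa (a1 h29) (a1 h30)) (a1 h33)) (a1 h36)) (a1 h39)) (a1 h42)) (a1 h43)) (a1 h46)) (a1 h49)) (a1 h52)) (a1 h55)) (by decide +kernel) (fun _ h56 HH34 => ?_) HH33
  clear HH33
  have h57 := In_cast (w := (A0 + A1 * l + A2 * l ^ 2 + A3 * q + A4 * q * l + A5 * q * l ^ 2) * a + (B0 + B1 * l + B2 * l ^ 2 + B3 * q + B4 * q * l) * b) h56 (by push_cast; ring)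
  exact hk _ _ h57 h28 HH34

attribute [irreducible] ri

noncomputable def bf (x1 m2 r2 t2a t2b t2c t2d m3 r3 t3a t3b t3c t3d m4 r4 t4a t4b t4c t4d x5 m6 r6 t6a t6b t6c t6d x7 m8 r8 t8a t8b t8c t8d m9 r9 t9a t9b t9c t9d m10 r10 t10a t10b t10c t10d m11 r11 t11a t11b t11c t11d : ℕ) (k : ℕ → ℕ → ℕ → Bool) : Bool :=
  mulK m2 r2 t2a t2b t2c t2d m9 r9 t9a t9b t9c t9d fun x12 =>
  mulK m3 r3 t3a t3b t3c t3d m10 r10 t10a t10b t10c t10d fun x13 =>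
  mulK m4 r4 t4a t4b t4c t4d m11 r11 t11a t11b t11c t11d fun x14 =>
  finK (Nat.add (Nat.add (Nat.add x1 x12) x13) x14) 73732933099309760512 0 fun x15 =>
  mulK m6 r6 t6a t6b t6c t6d m10 r10 t10a t10b t10c t10d fun x17 =>
  finK (Nat.add (Nat.add x5 x17) (Nat.add cB1 18014398492704768)) 73750947497819242496 0 fun x19 =>
  mulK m8 r8 t8a t8b t8c t8d m10 r10 t10a t10b t10c t10d fun x21 =>
  finK (Nat.add x7 x21) 73768961896328724480 0 fun x22 =>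
  k x15 x19 x22

theorem bf_s {e1 e2 e3 e4 e5 : ℝ} (he : Ev e1 e2 e3 e4 e5) (H0 H1 H2 H3 F0 F1 K0 K1 l q : ℝ)  {x1 m2 r2 t2a t2b t2c t2d m3 r3 t3a t3b t3c t3d m4 r4 t4a t4b t4c t4d x5 m6 r6 t6a t6b t6c t6d x7 m8 r8 t8a t8b t8c t8d m9 r9 t9a t9b t9c t9d m10 r10 t10a t10b t10c t10d m11 r11 t11a t11b t11c t11d : ℕ} {k : ℕ → ℕ → ℕ → Bool} {Q : Prop}
    (h1 : In e1 e2 e3 e4 e5 x1 (H0))
    (n2 : Nrm e1 e2 e3 e4 e5 m2 r2 t2a t2b t2c t2d (H1))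
    (n3 : Nrm e1 e2 e3 e4 e5 m3 r3 t3a t3b t3c t3d (H2))
    (n4 : Nrm e1 e2 e3 e4 e5 m4 r4 t4a t4b t4c t4d (H3))
    (h5 : In e1 e2 e3 e4 e5 x5 (F0))
    (n6 : Nrm e1 e2 e3 e4 e5 m6 r6 t6a t6b t6c t6d (F1))
    (h7 : In e1 e2 e3 e4 e5 x7 (K0))
    (n8 : Nrm e1 e2 e3 e4 e5 m8 r8 t8a t8b t8c t8d (K1))
    (n9 : Nrm e1 e2 e3 e4 e5 m9 r9 t9a t9b t9c t9d (l))
    (n10 : Nrm e1 e2 e3 e4 e5 m10 r10 t10a t10b t10c t10d (q))
    (n11 : Nrm e1 e2 e3 e4 e5 m11 r11 t11a t11b t11c t11d (q * l))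
    (hk : ∀ X0 X1 X2, In e1 e2 e3 e4 e5 X0 (H0 + H1 * l + H2 * q + H3 * q * l) → In e1 e2 e3 e4 e5 X1 (F0 + F1 * q - 1 / 65536) → In e1 e2 e3 e4 e5 X2 (K0 + K1 * q) → k X0 X1 X2 = true → Q)
    (HH0 : bf x1 m2 r2 t2a t2b t2c t2d m3 r3 t3a t3b t3c t3d m4 r4 t4a t4b t4c t4d x5 m6 r6 t6a t6b t6c t6d x7 m8 r8 t8a t8b t8c t8d m9 r9 t9a t9b t9c t9d m10 r10 t10a t10b t10c t10d m11 r11 t11a t11b t11c t11d k = true) : Q := by
  unfold bf at HH0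
  refine mulK_s he n2 n9 (fun _ h12 HH1 => ?_) HH0
  refine mulK_s he n3 n10 (fun _ h13 HH2 => ?_) HH1
  clear HH1
  refine mulK_s he n4 n11 (fun _ h14 HH3 => ?_) HH2
  clear HH2
  refine finK_s he (aa (aa (aa (a1 h1) (a1 h12)) (a1 h13)) (a1 h14)) (by decide +kernel) (fun _ h15 HH4 => ?_) HH3
  clear HH3
  have h16 := In_cast (w := H0 + H1 * l + H2 * q + H3 * q * l) h15 (by push_cast; ring)
  refine mulK_s he n6 n10 (fun _ h17 HH5 => ?_) HH4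
  clear HH4
  have h18 := cst_in he 18014398492704768 (-1/65536:ℝ) (by decide +kernel) (by norm_num)
  refine finK_s he (aa (aa (a1 h5) (a1 h17)) (a1 h18)) (by decide +kernel) (fun _ h19 HH6 => ?_) HH5
  clear HH5
  have h20 := In_cast (w := F0 + F1 * q - 1 / 65536) h19 (by push_cast; ring)
  refine mulK_s he n8 n10 (fun _ h21 HH7 => ?_) HH6
  clear HH6
  refine finK_s he (aa (a1 h7) (a1 h21)) (by decide +kernel) (fun _ h22 HH8 => ?_) HH7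
  clear HH7
  have h23 := In_cast (w := K0 + K1 * q) h22 (by push_cast; ring)
  exact hk _ _ _ h16 h20 h23 HH8

attribute [irreducible] bf

noncomputable def rd (m1 r1 t1a t1b t1c t1d m2 r2 t2a t2b t2c t2d m3 r3 t3a t3b t3c t3d m4 r4 t4a t4b t4c t4d m5 r5 t5a t5b t5c t5d m6 r6 t6a t6b t6c t6d m7 r7 t7a t7b t7c t7d m8 r8 t8a t8b t8c t8d m9 r9 t9a t9b t9c t9d x10 x11 : ℕ) (k : ℕ → Bool) : Bool :=
  mulK m8 r8 t8a t8b t8c t8d m8 r8 t8a t8b t8c t8d fun x12 =>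
  nrmK x12 fun m13 r13 t13a t13b t13c t13d =>
  mulK m3 r3 t3a t3b t3c t3d m13 r13 t13a t13b t13c t13d fun x14 =>
  mulK m7 r7 t7a t7b t7c t7d m13 r13 t13a t13b t13c t13d fun x15 =>
  nrmK x15 fun m16 r16 t16a t16b t16c t16d =>
  mulK m4 r4 t4a t4b t4c t4d m16 r16 t16a t16b t16c t16d fun x17 =>
  mulK m8 r8 t8a t8b t8c t8d m9 r9 t9a t9b t9c t9d fun x18 =>
  nrmK x18 fun m19 r19 t19a t19b t19c t19d =>
  mulK m5 r5 t5a t5b t5c t5d m19 r19 t19a t19b t19c t19d fun x20 =>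
  mulK m7 r7 t7a t7b t7c t7d m19 r19 t19a t19b t19c t19d fun x21 =>
  nrmK x21 fun m22 r22 t22a t22b t22c t22d =>
  mulK m6 r6 t6a t6b t6c t6d m22 r22 t22a t22b t22c t22d fun x23 =>
  nrmK x11 fun m24 r24 t24a t24b t24c t24d =>
  mulK m1 r1 t1a t1b t1c t1d m24 r24 t24a t24b t24c t24d fun x25 =>
  mulK m7 r7 t7a t7b t7c t7d m24 r24 t24a t24b t24c t24d fun x26 =>
  mulK m9 r9 t9a t9b t9c t9d m9 r9 t9a t9b t9c t9d fun x27 =>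
  finK (Nat.add x26 (Nat.mul 3 x27)) 73732933099309760512 0 fun x28 =>
  nrmK x28 fun m29 r29 t29a t29b t29c t29d =>
  mulK m2 r2 t2a t2b t2c t2d m29 r29 t29a t29b t29c t29d fun x30 =>
  finK (Nat.add (Nat.add (Nat.add (Nat.add (Nat.add (Nat.add x14 x17) (Nat.mul 2 x20)) (Nat.mul 2 x23)) x10) x25) x30) 73642861106762350592 0 fun x31 =>
  k x31

theorem rd_s {e1 e2 e3 e4 e5 : ℝ} (he : Ev e1 e2 e3 e4 e5) (D0 D1 M0 M1 N0 N1 q a b w d : ℝ)  {m1 r1 t1a t1b t1c t1d m2 r2 t2a t2b t2c t2d m3 r3 t3a t3b t3c t3d m4 r4 t4a t4b t4c t4d m5 r5 t5a t5b t5c t5d m6 r6 t6a t6b t6c t6d m7 r7 t7a t7b t7c t7d m8 r8 t8a t8b t8c t8d m9 r9 t9a t9b t9c t9d x10 x11 : ℕ} {k : ℕ → Bool} {Q : Prop}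
    (n1 : Nrm e1 e2 e3 e4 e5 m1 r1 t1a t1b t1c t1d (D0))
    (n2 : Nrm e1 e2 e3 e4 e5 m2 r2 t2a t2b t2c t2d (D1))
    (n3 : Nrm e1 e2 e3 e4 e5 m3 r3 t3a t3b t3c t3d (M0))
    (n4 : Nrm e1 e2 e3 e4 e5 m4 r4 t4a t4b t4c t4d (M1))
    (n5 : Nrm e1 e2 e3 e4 e5 m5 r5 t5a t5b t5c t5d (N0))
    (n6 : Nrm e1 e2 e3 e4 e5 m6 r6 t6a t6b t6c t6d (N1))
    (n7 : Nrm e1 e2 e3 e4 e5 m7 r7 t7a t7b t7c t7d (q))
    (n8 : Nrm e1 e2 e3 e4 e5 m8 r8 t8a t8b t8c t8d (a))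
    (n9 : Nrm e1 e2 e3 e4 e5 m9 r9 t9a t9b t9c t9d (b))
    (h10 : In e1 e2 e3 e4 e5 x10 (w))
    (h11 : In e1 e2 e3 e4 e5 x11 (d))
    (hk : ∀ X0, In e1 e2 e3 e4 e5 X0 (w + (D0 + D1 * q) * d + ((M0 + M1 * q) * (a * a) + (N0 + N1 * q) * (a * b + a * b) + 3 * D1 * (b * b))) → k X0 = true → Q)
    (HH0 : rd m1 r1 t1a t1b t1c t1d m2 r2 t2a t2b t2c t2d m3 r3 t3a t3b t3c t3d m4 r4 t4a t4b t4c t4d m5 r5 t5a t5b t5c t5d m6 r6 t6a t6b t6c t6d m7 r7 t7a t7b t7c t7d m8 r8 t8a t8b t8c t8d m9 r9 t9a t9b t9c t9d x10 x11 k = true) : Q := by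
  unfold rd at HH0
  refine mulK_s he n8 n8 (fun _ h12 HH1 => ?_) HH0
  refine nrmK_s he h12 (fun _ _ _ _ _ _ n13 HH2 => ?_) HH1
  clear HH1
  refine mulK_s he n3 n13 (fun _ h14 HH3 => ?_) HH2
  clear HH2
  refine mulK_s he n7 n13 (fun _ h15 HH4 => ?_) HH3
  clear HH3
  refine nrmK_s he h15 (fun _ _ _ _ _ _ n16 HH5 => ?_) HH4
  clear HH4
  refine mulK_s he n4 n16 (fun _ h17 HH6 => ?_) HH5
  clear HH5
  refine mulK_s he n8 n9 (fun _ h18 HH7 => ?_) HH6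
  clear HH6
  refine nrmK_s he h18 (fun _ _ _ _ _ _ n19 HH8 => ?_) HH7
  clear HH7
  refine mulK_s he n5 n19 (fun _ h20 HH9 => ?_) HH8
  clear HH8
  refine mulK_s he n7 n19 (fun _ h21 HH10 => ?_) HH9
  clear HH9
  refine nrmK_s he h21 (fun _ _ _ _ _ _ n22 HH11 => ?_) HH10
  clear HH10
  refine mulK_s he n6 n22 (fun _ h23 HH12 => ?_) HH11
  clear HH11
  refine nrmK_s he h11 (fun _ _ _ _ _ _ n24 HH13 => ?_) HH12
  clear HH12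
  refine mulK_s he n1 n24 (fun _ h25 HH14 => ?_) HH13
  clear HH13
  refine mulK_s he n7 n24 (fun _ h26 HH15 => ?_) HH14
  clear HH14
  refine mulK_s he n9 n9 (fun _ h27 HH16 => ?_) HH15
  clear HH15
  refine finK_s he (aa (a1 h26) (an 3 h27)) (by decide +kernel) (fun _ h28 HH17 => ?_) HH16
  clear HH16
  refine nrmK_s he h28 (fun _ _ _ _ _ _ n29 HH18 => ?_) HH17
  clear HH17
  refine mulK_s he n2 n29 (fun _ h30 HH19 => ?_) HH18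
  clear HH18
  refine finK_s he (aa (aa (aa (aa (aa (aa (a1 h14) (a1 h17)) (an 2 h20)) (an 2 h23)) (a1 h10)) (a1 h25)) (a1 h30)) (by decide +kernel) (fun _ h31 HH20 => ?_) HH19
  clear HH19
  have h32 := In_cast (w := w + (D0 + D1 * q) * d + ((M0 + M1 * q) * (a * a) + (N0 + N1 * q) * (a * b + a * b) + 3 * D1 * (b * b))) h31 (by push_cast; ring)
  exact hk _ h32 HH20

attribute [irreducible] rd

noncomputable def ro (m1 r1 t1a t1b t1c t1d m2 r2 t2a t2b t2c t2d m3 r3 t3a t3b t3c t3d m4 r4 t4a t4b t4c t4d m5 r5 t5a t5b t5c t5d m6 r6 t6a t6b t6c t6d m7 r7 t7a t7b t7c t7d m8 r8 t8a t8b t8c t8d m9 r9 t9a t9b t9c t9d m10 r10 t10a t10b t10c t10d m11 r11 t11a t11b t11c t11d x12 x13 : ℕ) (k : ℕ → Bool) : Bool :=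
  mulK m8 r8 t8a t8b t8c t8d m10 r10 t10a t10b t10c t10d fun x14 =>
  nrmK x14 fun m15 r15 t15a t15b t15c t15d =>
  mulK m3 r3 t3a t3b t3c t3d m15 r15 t15a t15b t15c t15d fun x16 =>
  mulK m7 r7 t7a t7b t7c t7d m15 r15 t15a t15b t15c t15d fun x17 =>
  nrmK x17 fun m18 r18 t18a t18b t18c t18d =>
  mulK m4 r4 t4a t4b t4c t4d m18 r18 t18a t18b t18c t18d fun x19 =>
  mulK m8 r8 t8a t8b t8c t8d m11 r11 t11a t11b t11c t11d fun x20 =>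
  mulK m10 r10 t10a t10b t10c t10d m9 r9 t9a t9b t9c t9d fun x21 =>
  finK (Nat.add x20 x21) 73768961896328724480 0 fun x22 =>
  nrmK x22 fun m23 r23 t23a t23b t23c t23d =>
  mulK m5 r5 t5a t5b t5c t5d m23 r23 t23a t23b t23c t23d fun x24 =>
  mulK m7 r7 t7a t7b t7c t7d m23 r23 t23a t23b t23c t23d fun x25 =>
  nrmK x25 fun m26 r26 t26a t26b t26c t26d =>
  mulK m6 r6 t6a t6b t6c t6d m26 r26 t26a t26b t26c t26d fun x27 =>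
  nrmK x13 fun m28 r28 t28a t28b t28c t28d =>
  mulK m1 r1 t1a t1b t1c t1d m28 r28 t28a t28b t28c t28d fun x29 =>
  mulK m7 r7 t7a t7b t7c t7d m28 r28 t28a t28b t28c t28d fun x30 =>
  mulK m9 r9 t9a t9b t9c t9d m11 r11 t11a t11b t11c t11d fun x31 =>
  finK (Nat.add x30 (Nat.mul 3 x31)) 73732933099309760512 0 fun x32 =>
  nrmK x32 fun m33 r33 t33a t33b t33c t33d =>
  mulK m2 r2 t2a t2b t2c t2d m33 r33 t33a t33b t33c t33d fun x34 =>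
  finK (Nat.add (Nat.add (Nat.add (Nat.add (Nat.add (Nat.add x16 x19) x24) x27) x12) x29) x34) 73678889903781314560 0 fun x35 =>
  k x35

theorem ro_s {e1 e2 e3 e4 e5 : ℝ} (he : Ev e1 e2 e3 e4 e5) (D0 D1 M0 M1 N0 N1 q a b a' b' w d : ℝ)  {m1 r1 t1a t1b t1c t1d m2 r2 t2a t2b t2c t2d m3 r3 t3a t3b t3c t3d m4 r4 t4a t4b t4c t4d m5 r5 t5a t5b t5c t5d m6 r6 t6a t6b t6c t6d m7 r7 t7a t7b t7c t7d m8 r8 t8a t8b t8c t8d m9 r9 t9a t9b t9c t9d m10 r10 t10a t10b t10c t10d m11 r11 t11a t11b t11c t11d x12 x13 : ℕ} {k : ℕ → Bool} {Q : Prop}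
    (n1 : Nrm e1 e2 e3 e4 e5 m1 r1 t1a t1b t1c t1d (D0))
    (n2 : Nrm e1 e2 e3 e4 e5 m2 r2 t2a t2b t2c t2d (D1))
    (n3 : Nrm e1 e2 e3 e4 e5 m3 r3 t3a t3b t3c t3d (M0))
    (n4 : Nrm e1 e2 e3 e4 e5 m4 r4 t4a t4b t4c t4d (M1))
    (n5 : Nrm e1 e2 e3 e4 e5 m5 r5 t5a t5b t5c t5d (N0))
    (n6 : Nrm e1 e2 e3 e4 e5 m6 r6 t6a t6b t6c t6d (N1))
    (n7 : Nrm e1 e2 e3 e4 e5 m7 r7 t7a t7b t7c t7d (q))
    (n8 : Nrm e1 e2 e3 e4 e5 m8 r8 t8a t8b t8c t8d (a))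
    (n9 : Nrm e1 e2 e3 e4 e5 m9 r9 t9a t9b t9c t9d (b))
    (n10 : Nrm e1 e2 e3 e4 e5 m10 r10 t10a t10b t10c t10d (a'))
    (n11 : Nrm e1 e2 e3 e4 e5 m11 r11 t11a t11b t11c t11d (b'))
    (h12 : In e1 e2 e3 e4 e5 x12 (w))
    (h13 : In e1 e2 e3 e4 e5 x13 (d))
    (hk : ∀ X0, In e1 e2 e3 e4 e5 X0 (w + (D0 + D1 * q) * d + ((M0 + M1 * q) * (a * a') + (N0 + N1 * q) * (a * b' + a' * b) + 3 * D1 * (b * b'))) → k X0 = true → Q)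
    (HH0 : ro m1 r1 t1a t1b t1c t1d m2 r2 t2a t2b t2c t2d m3 r3 t3a t3b t3c t3d m4 r4 t4a t4b t4c t4d m5 r5 t5a t5b t5c t5d m6 r6 t6a t6b t6c t6d m7 r7 t7a t7b t7c t7d m8 r8 t8a t8b t8c t8d m9 r9 t9a t9b t9c t9d m10 r10 t10a t10b t10c t10d m11 r11 t11a t11b t11c t11d x12 x13 k = true) : Q := by
  unfold ro at HH0
  refine mulK_s he n8 n10 (fun _ h14 HH1 => ?_) HH0
  refine nrmK_s he h14 (fun _ _ _ _ _ _ n15 HH2 => ?_) HH1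
  clear HH1
  refine mulK_s he n3 n15 (fun _ h16 HH3 => ?_) HH2
  clear HH2
  refine mulK_s he n7 n15 (fun _ h17 HH4 => ?_) HH3
  clear HH3
  refine nrmK_s he h17 (fun _ _ _ _ _ _ n18 HH5 => ?_) HH4
  clear HH4
  refine mulK_s he n4 n18 (fun _ h19 HH6 => ?_) HH5
  clear HH5
  refine mulK_s he n8 n11 (fun _ h20 HH7 => ?_) HH6
  clear HH6
  refine mulK_s he n10 n9 (fun _ h21 HH8 => ?_) HH7
  clear HH7
  refine finK_s he (aa (a1 h20) (a1 h21)) (by decide +kernel) (fun _ h22 HH9 => ?_) HH8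
  clear HH8
  refine nrmK_s he h22 (fun _ _ _ _ _ _ n23 HH10 => ?_) HH9
  clear HH9
  refine mulK_s he n5 n23 (fun _ h24 HH11 => ?_) HH10
  clear HH10
  refine mulK_s he n7 n23 (fun _ h25 HH12 => ?_) HH11
  clear HH11
  refine nrmK_s he h25 (fun _ _ _ _ _ _ n26 HH13 => ?_) HH12
  clear HH12
  refine mulK_s he n6 n26 (fun _ h27 HH14 => ?_) HH13
  clear HH13
  refine nrmK_s he h13 (fun _ _ _ _ _ _ n28 HH15 => ?_) HH14
  clear HH14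
  refine mulK_s he n1 n28 (fun _ h29 HH16 => ?_) HH15
  clear HH15
  refine mulK_s he n7 n28 (fun _ h30 HH17 => ?_) HH16
  clear HH16
  refine mulK_s he n9 n11 (fun _ h31 HH18 => ?_) HH17
  clear HH17
  refine finK_s he (aa (a1 h30) (an 3 h31)) (by decide +kernel) (fun _ h32 HH19 => ?_) HH18
  clear HH18
  refine nrmK_s he h32 (fun _ _ _ _ _ _ n33 HH20 => ?_) HH19
  clear HH19
  refine mulK_s he n2 n33 (fun _ h34 HH21 => ?_) HH20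
  clear HH20
  refine finK_s he (aa (aa (aa (aa (aa (aa (a1 h16) (a1 h19)) (a1 h24)) (a1 h27)) (a1 h12)) (a1 h29)) (a1 h34)) (by decide +kernel) (fun _ h35 HH22 => ?_) HH21
  clear HH21
  have h36 := In_cast (w := w + (D0 + D1 * q) * d + ((M0 + M1 * q) * (a * a') + (N0 + N1 * q) * (a * b' + a' * b) + 3 * D1 * (b * b'))) h35 (by push_cast; ring)
  exact hk _ h36 HH22

attribute [irreducible] ro

noncomputable def rz (m1 r1 t1a t1b t1c t1d m2 r2 t2a t2b t2c t2d m3 r3 t3a t3b t3c t3d m4 r4 t4a t4b t4c t4d m5 r5 t5a t5b t5c t5d m6 r6 t6a t6b t6c t6d m7 r7 t7a t7b t7c t7d m8 r8 t8a t8b t8c t8d m9 r9 t9a t9b t9c t9d m10 r10 t10a t10b t10c t10d m11 r11 t11a t11b t11c t11d : ℕ) (k : ℕ → Bool) : Bool :=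
  mulK m8 r8 t8a t8b t8c t8d m10 r10 t10a t10b t10c t10d fun x12 =>
  nrmK x12 fun m13 r13 t13a t13b t13c t13d =>
  mulK m3 r3 t3a t3b t3c t3d m13 r13 t13a t13b t13c t13d fun x14 =>
  mulK m7 r7 t7a t7b t7c t7d m13 r13 t13a t13b t13c t13d fun x15 =>
  nrmK x15 fun m16 r16 t16a t16b t16c t16d =>
  mulK m4 r4 t4a t4b t4c t4d m16 r16 t16a t16b t16c t16d fun x17 =>
  mulK m8 r8 t8a t8b t8c t8d m11 r11 t11a t11b t11c t11d fun x18 =>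
  mulK m10 r10 t10a t10b t10c t10d m9 r9 t9a t9b t9c t9d fun x19 =>
  finK (Nat.add x18 x19) 73768961896328724480 0 fun x20 =>
  nrmK x20 fun m21 r21 t21a t21b t21c t21d =>
  mulK m5 r5 t5a t5b t5c t5d m21 r21 t21a t21b t21c t21d fun x22 =>
  mulK m7 r7 t7a t7b t7c t7d m21 r21 t21a t21b t21c t21d fun x23 =>
  nrmK x23 fun m24 r24 t24a t24b t24c t24d =>
  mulK m6 r6 t6a t6b t6c t6d m24 r24 t24a t24b t24c t24d fun x25 =>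
  mulK m9 r9 t9a t9b t9c t9d m11 r11 t11a t11b t11c t11d fun x26 =>
  nrmK x26 fun m27 r27 t27a t27b t27c t27d =>
  mulK m2 r2 t2a t2b t2c t2d m27 r27 t27a t27b t27c t27d fun x28 =>
  finK (Nat.add (Nat.add (Nat.add (Nat.add x14 x17) x22) x25) (Nat.mul 3 x28)) 73678889903781314560 0 fun x29 =>
  k x29

theorem rz_s {e1 e2 e3 e4 e5 : ℝ} (he : Ev e1 e2 e3 e4 e5) (D0 D1 M0 M1 N0 N1 q a b a' b' : ℝ)  {m1 r1 t1a t1b t1c t1d m2 r2 t2a t2b t2c t2d m3 r3 t3a t3b t3c t3d m4 r4 t4a t4b t4c t4d m5 r5 t5a t5b t5c t5d m6 r6 t6a t6b t6c t6d m7 r7 t7a t7b t7c t7d m8 r8 t8a t8b t8c t8d m9 r9 t9a t9b t9c t9d m10 r10 t10a t10b t10c t10d m11 r11 t11a t11b t11c t11d : ℕ} {k : ℕ → Bool} {Q : Prop}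
    (n1 : Nrm e1 e2 e3 e4 e5 m1 r1 t1a t1b t1c t1d (D0))
    (n2 : Nrm e1 e2 e3 e4 e5 m2 r2 t2a t2b t2c t2d (D1))
    (n3 : Nrm e1 e2 e3 e4 e5 m3 r3 t3a t3b t3c t3d (M0))
    (n4 : Nrm e1 e2 e3 e4 e5 m4 r4 t4a t4b t4c t4d (M1))
    (n5 : Nrm e1 e2 e3 e4 e5 m5 r5 t5a t5b t5c t5d (N0))
    (n6 : Nrm e1 e2 e3 e4 e5 m6 r6 t6a t6b t6c t6d (N1))
    (n7 : Nrm e1 e2 e3 e4 e5 m7 r7 t7a t7b t7c t7d (q))
    (n8 : Nrm e1 e2 e3 e4 e5 m8 r8 t8a t8b t8c t8d (a))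
    (n9 : Nrm e1 e2 e3 e4 e5 m9 r9 t9a t9b t9c t9d (b))
    (n10 : Nrm e1 e2 e3 e4 e5 m10 r10 t10a t10b t10c t10d (a'))
    (n11 : Nrm e1 e2 e3 e4 e5 m11 r11 t11a t11b t11c t11d (b'))
    (hk : ∀ X0, In e1 e2 e3 e4 e5 X0 ((M0 + M1 * q) * (a * a') + (N0 + N1 * q) * (a * b' + a' * b) + 3 * D1 * (b * b')) → k X0 = true → Q)
    (HH0 : rz m1 r1 t1a t1b t1c t1d m2 r2 t2a t2b t2c t2d m3 r3 t3a t3b t3c t3d m4 r4 t4a t4b t4c t4d m5 r5 t5a t5b t5c t5d m6 r6 t6a t6b t6c t6d m7 r7 t7a t7b t7c t7d m8 r8 t8a t8b t8c t8d m9 r9 t9a t9b t9c t9d m10 r10 t10a t10b t10c t10d m11 r11 t11a t11b t11c t11d k = true) : Q := by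
  unfold rz at HH0
  refine mulK_s he n8 n10 (fun _ h12 HH1 => ?_) HH0
  refine nrmK_s he h12 (fun _ _ _ _ _ _ n13 HH2 => ?_) HH1
  clear HH1
  refine mulK_s he n3 n13 (fun _ h14 HH3 => ?_) HH2
  clear HH2
  refine mulK_s he n7 n13 (fun _ h15 HH4 => ?_) HH3
  clear HH3
  refine nrmK_s he h15 (fun _ _ _ _ _ _ n16 HH5 => ?_) HH4
  clear HH4
  refine mulK_s he n4 n16 (fun _ h17 HH6 => ?_) HH5
  clear HH5
  refine mulK_s he n8 n11 (fun _ h18 HH7 => ?_) HH6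
  clear HH6
  refine mulK_s he n10 n9 (fun _ h19 HH8 => ?_) HH7
  clear HH7
  refine finK_s he (aa (a1 h18) (a1 h19)) (by decide +kernel) (fun _ h20 HH9 => ?_) HH8
  clear HH8
  refine nrmK_s he h20 (fun _ _ _ _ _ _ n21 HH10 => ?_) HH9
  clear HH9
  refine mulK_s he n5 n21 (fun _ h22 HH11 => ?_) HH10
  clear HH10
  refine mulK_s he n7 n21 (fun _ h23 HH12 => ?_) HH11
  clear HH11
  refine nrmK_s he h23 (fun _ _ _ _ _ _ n24 HH13 => ?_) HH12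
  clear HH12
  refine mulK_s he n6 n24 (fun _ h25 HH14 => ?_) HH13
  clear HH13
  refine mulK_s he n9 n11 (fun _ h26 HH15 => ?_) HH14
  clear HH14
  refine nrmK_s he h26 (fun _ _ _ _ _ _ n27 HH16 => ?_) HH15
  clear HH15
  refine mulK_s he n2 n27 (fun _ h28 HH17 => ?_) HH16
  clear HH16
  refine finK_s he (aa (aa (aa (aa (a1 h14) (a1 h17)) (a1 h22)) (a1 h25)) (an 3 h28)) (by decide +kernel) (fun _ h29 HH18 => ?_) HH17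
  clear HH17
  have h30 := In_cast (w := (M0 + M1 * q) * (a * a') + (N0 + N1 * q) * (a * b' + a' * b) + 3 * D1 * (b * b')) h29 (by push_cast; ring)
  exact hk _ h30 HH18

attribute [irreducible] rz

noncomputable def bw (m1 r1 t1a t1b t1c t1d m2 r2 t2a t2b t2c t2d x3 x4 x5 m6 r6 t6a t6b t6c t6d m7 r7 t7a t7b t7c t7d x8 : ℕ) (k : ℕ → ℕ → ℕ → ℕ → ℕ → ℕ → ℕ → ℕ → ℕ → Bool) : Bool :=
  finK (Nat.add (Nat.mul 10 x3) (Nat.add cB1 18014398492704768)) 73606832309743386624 0 fun x10 =>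
  finK (Nat.mul 4 x3) 73732933099309760512 0 fun x11 =>
  mulK m1 r1 t1a t1b t1c t1d m6 r6 t6a t6b t6c t6d fun x12 =>
  mulK m7 r7 t7a t7b t7c t7d m6 r6 t6a t6b t6c t6d fun x13 =>
  nrmK x13 fun m14 r14 t14a t14b t14c t14d =>
  mulK m2 r2 t2a t2b t2c t2d m14 r14 t14a t14b t14c t14d fun x15 =>
  finK (Nat.add (Nat.add (Nat.mul 6 x12) (Nat.mul 6 x15)) (Nat.add cB1 18014398492704768)) 73570803512724422656 0 fun x16 =>
  finK (Nat.add (Nat.mul 10 x4) (Nat.mul 8 x5)) 73480731520177012736 0 fun x17 =>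
  finK (Nat.mul 8 x4) 73660875505271832576 0 fun x18 =>
  frcK (Nat.mul 8 x5) fun x19 =>
  finK (Nat.add (Nat.mul 10 x4) (ngC 8 x19)) 73480731520177012736 0 fun x20 =>
  finK (Nat.mul 4 x8) 73732933099309760512 0 fun x21 =>
  frcK (Nat.mul 8 x5) fun x22 =>
  finK (Nat.add (Nat.mul 2 x4) (ngC 8 x22)) 73624846708252868608 0 fun x23 =>
  nrmK x23 fun m24 r24 t24a t24b t24c t24d =>
  mulK m24 r24 t24a t24b t24c t24d m6 r6 t6a t6b t6c t6d fun x25 =>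
  k x10 x11 x16 x17 x18 x20 x21 x25 (Nat.add cB1 18014398509481984)

theorem bw_s {e1 e2 e3 e4 e5 : ℝ} (he : Ev e1 e2 e3 e4 e5) (K0 K1 l t d q a : ℝ)  {m1 r1 t1a t1b t1c t1d m2 r2 t2a t2b t2c t2d x3 x4 x5 m6 r6 t6a t6b t6c t6d m7 r7 t7a t7b t7c t7d x8 : ℕ} {k : ℕ → ℕ → ℕ → ℕ → ℕ → ℕ → ℕ → ℕ → ℕ → Bool} {Q : Prop}
    (n1 : Nrm e1 e2 e3 e4 e5 m1 r1 t1a t1b t1c t1d (K0))
    (n2 : Nrm e1 e2 e3 e4 e5 m2 r2 t2a t2b t2c t2d (K1))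
    (h3 : In e1 e2 e3 e4 e5 x3 (K0 + K1 * q))
    (h4 : In e1 e2 e3 e4 e5 x4 (l))
    (h5 : In e1 e2 e3 e4 e5 x5 (t))
    (n6 : Nrm e1 e2 e3 e4 e5 m6 r6 t6a t6b t6c t6d (d))
    (n7 : Nrm e1 e2 e3 e4 e5 m7 r7 t7a t7b t7c t7d (q))
    (h8 : In e1 e2 e3 e4 e5 x8 (a))
    (hk : ∀ X0 X1 X2 X3 X4 X5 X6 X7 X8, In e1 e2 e3 e4 e5 X0 (10 * (K0 + K1 * q) - 1 / 65536) → In e1 e2 e3 e4 e5 X1 (4 * (K0 + K1 * q)) → In e1 e2 e3 e4 e5 X2 (6 * (K0 + K1 * q) * d - 1 / 65536) → In e1 e2 e3 e4 e5 X3 (10 * l + 8 * t) → In e1 e2 e3 e4 e5 X4 (8 * l) → In e1 e2 e3 e4 e5 X5 (10 * l - 8 * t) → In e1 e2 e3 e4 e5 X6 (4 * a) → In e1 e2 e3 e4 e5 X7 ((2 * l - 8 * t) * d) → In e1 e2 e3 e4 e5 X8 (0) → k X0 X1 X2 X3 X4 X5 X6 X7 X8 = true → Q)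
    (HH0 : bw m1 r1 t1a t1b t1c t1d m2 r2 t2a t2b t2c t2d x3 x4 x5 m6 r6 t6a t6b t6c t6d m7 r7 t7a t7b t7c t7d x8 k = true) : Q := by
  unfold bw at HH0
  have h9 := cst_in he 18014398492704768 (-1/65536:ℝ) (by decide +kernel) (by norm_num)
  refine finK_s he (aa (an 10 h3) (a1 h9)) (by decide +kernel) (fun _ h10 HH1 => ?_) HH0
  refine finK_s he (an 4 h3) (by decide +kernel) (fun _ h11 HH2 => ?_) HH1
  clear HH1
  refine mulK_s he n1 n6 (fun _ h12 HH3 => ?_) HH2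
  clear HH2
  refine mulK_s he n7 n6 (fun _ h13 HH4 => ?_) HH3
  clear HH3
  refine nrmK_s he h13 (fun _ _ _ _ _ _ n14 HH5 => ?_) HH4
  clear HH4
  refine mulK_s he n2 n14 (fun _ h15 HH6 => ?_) HH5
  clear HH5
  refine finK_s he (aa (aa (an 6 h12) (an 6 h15)) (a1 h9)) (by decide +kernel) (fun _ h16 HH7 => ?_) HH6
  clear HH6
  refine finK_s he (aa (an 10 h4) (an 8 h5)) (by decide +kernel) (fun _ h17 HH8 => ?_) HH7
  clear HH7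
  refine finK_s he (an 8 h4) (by decide +kernel) (fun _ h18 HH9 => ?_) HH8
  clear HH8
  refine frcK_s (an 8 h5) (fun _ h19 HH10 => ?_) HH9
  clear HH9
  refine finK_s he (aa (an 10 h4) (ngC_s he (C := 8) h19 (by decide +kernel) (by decide +kernel))) (by decide +kernel) (fun _ h20 HH11 => ?_) HH10
  clear HH10
  refine finK_s he (an 4 h8) (by decide +kernel) (fun _ h21 HH12 => ?_) HH11
  clear HH11
  refine frcK_s (an 8 h5) (fun _ h22 HH13 => ?_) HH12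
  clear HH12
  refine finK_s he (aa (an 2 h4) (ngC_s he (C := 8) h22 (by decide +kernel) (by decide +kernel))) (by decide +kernel) (fun _ h23 HH14 => ?_) HH13
  clear HH13
  refine nrmK_s he h23 (fun _ _ _ _ _ _ n24 HH15 => ?_) HH14
  clear HH14
  refine mulK_s he n24 n6 (fun _ h25 HH16 => ?_) HH15
  clear HH15
  have h26 := cst_in he 18014398509481984 (0:ℝ) (by decide +kernel) (by norm_num)
  have h27 := In_cast (w := 10 * (K0 + K1 * q) - 1 / 65536) h10 (by push_cast; ring)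
  have h28 := In_cast (w := 4 * (K0 + K1 * q)) h11 (by push_cast; ring)
  have h29 := In_cast (w := 6 * (K0 + K1 * q) * d - 1 / 65536) h16 (by push_cast; ring)
  have h30 := In_cast (w := 10 * l + 8 * t) h17 (by push_cast; ring)
  have h31 := In_cast (w := 8 * l) h18 (by push_cast; ring)
  have h32 := In_cast (w := 10 * l - 8 * t) h20 (by push_cast; ring)
  have h33 := In_cast (w := 4 * a) h21 (by push_cast; ring)
  have h34 := In_cast (w := (2 * l - 8 * t) * d) h25 (by push_cast; ring)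
  have h35 := In_cast (w := 0) h26 (by push_cast; ring)
  exact hk _ _ _ _ _ _ _ _ _ h27 h28 h29 h30 h31 h32 h33 h34 h35 HH16

attribute [irreducible] bw

noncomputable def stB (x1 m1 r1 t1a t1b t1c t1d m2 r2 t2a t2b t2c t2d m3 r3 t3a t3b t3c t3d m4 r4 t4a t4b t4c t4d x5 m6 r6 t6a t6b t6c t6d m7 r7 t7a t7b t7c t7d m8 r8 t8a t8b t8c t8d m9 r9 t9a t9b t9c t9d x10 m11 r11 t11a t11b t11c t11d m12 r12 t12a t12b t12c t12d m13 r13 t13a t13b t13c t13d m14 r14 t14a t14b t14c t14d m15 r15 t15a t15b t15c t15d m16 r16 t16a t16b t16c t16d m17 r17 t17a t17b t17c t17d m18 r18 t18a t18b t18c t18d m19 r19 t19a t19b t19c t19d m20 r20 t20a t20b t20c t20d m21 r21 t21a t21b t21c t21d m22 r22 t22a t22b t22c t22d m23 r23 t23a t23b t23c t23d m24 r24 t24a t24b t24c t24d m25 r25 t25a t25b t25c t25d m26 r26 t26a t26b t26c t26d m27 r27 t27a t27b t27c t27d m28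 r28 t28a t28b t28c t28d x29 m30 r30 t30a t30b t30c t30d m31 r31 t31a t31b t31c t31d m32 r32 t32a t32b t32c t32d m33 r33 t33a t33b t33c t33d m34 r34 t34a t34b t34c t34d m35 r35 t35a t35b t35c t35d m36 r36 t36a t36b t36c t36d m37 r37 t37a t37b t37c t37d m38 r38 t38a t38b t38c t38d p39 x40 x41 : ℕ) (k : ℕ → ℕ → ℕ → ℕ → ℕ → ℕ → ℕ → ℕ → ℕ → ℕ → ℕ → ℕ → ℕ → ℕ → ℕ → Bool) : Bool :=
  nrmK x40 fun m42 r42 t42a t42b t42c t42d =>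
  s0 x40 m42 r42 t42a t42b t42c t42d fun x43 m43 r43 t43a t43b t43c t43d m44 r44 t44a t44b t44c t44d =>
  nrmK x41 fun m45 r45 t45a t45b t45c t45d =>
  s1 x43 m43 r43 t43a t43b t43c t43d m44 r44 t44a t44b t44c t44d m45 r45 t45a t45b t45c t45d fun x46 m47 r47 t47a t47b t47c t47d m48 r48 t48a t48b t48c t48d m49 r49 t49a t49b t49c t49d m50 r50 t50a t50b t50c t50d x51 m51 r51 t51a t51b t51c t51d m52 r52 t52a t52b t52c t52d m53 r53 t53a t53b t53c t53d m54 r54 t54a t54b t54c t54d m55 r55 t55a t55b t55c t55d m56 r56 t56a t56b t56c t56d m57 r57 t57a t57b t57c t57d =>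
  be x29 m30 r30 t30a t30b t30c t30d m31 r31 t31a t31b t31c t31d m32 r32 t32a t32b t32c t32d m33 r33 t33a t33b t33c t33d m34 r34 t34a t34b t34c t34d m35 r35 t35a t35b t35c t35d m36 r36 t36a t36b t36c t36d m37 r37 t37a t37b t37c t37d m38 r38 t38a t38b t38c t38d p39 m43 r43 t43a t43b t43c t43d m48 r48 t48a t48b t48c t48d m55 r55 t55a t55b t55c t55d m56 r56 t56a t56b t56c t56d m57 r57 t57a t57b t57c t57d fun x58 =>
  ri m18 r18 t18a t18b t18c t18d m19 r19 t19a t19b t19c t19d m20 r20 t20a t20b t20c t20d m21 r21 t21a t21b t21c t21d m22 r22 t22a t22b t22c t22d m23 r23 t23a t23b t23c t23d m24 r24 t24a t24b t24c t24d m25 r25 t25a t25b t25c t25d m26 r26 t26a t26b t26c t26d m27 r27 t27a t27b t27c t27d m28 r28 t28a t28b t28c t28d m7 r7 t7a t7b t7c t7d m8 r8 t8a t8b t8c t8d m9 r9 t9a t9b t9c t9d m43 r43 t43a t43b t43c t43d m48 r48 t48a t48b t48c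 t48d m55 r55 t55a t55b t55c t55d m56 r56 t56a t56b t56c t56d m57 r57 t57a t57b t57c t57d m49 r49 t49a t49b t49c t49d m52 r52 t52a t52b t52c t52d fun x59 x60 =>
  ri m18 r18 t18a t18b t18c t18d m19 r19 t19a t19b t19c t19d m20 r20 t20a t20b t20c t20d m21 r21 t21a t21b t21c t21d m22 r22 t22a t22b t22c t22d m23 r23 t23a t23b t23c t23d m24 r24 t24a t24b t24c t24d m25 r25 t25a t25b t25c t25d m26 r26 t26a t26b t26c t26d m27 r27 t27a t27b t27c t27d m28 r28 t28a t28b t28c t28d m7 r7 t7a t7b t7c t7d m8 r8 t8a t8b t8c t8d m9 r9 t9a t9b t9c t9d m43 r43 t43a t43b t43c t43d m48 r48 t48a t48b t48c t48d m55 r55 t55a t55b t55c t55d m56 r56 t56a t56b t56c t56d m57 r57 t57a t57b t57c t57d m50 r50 t50a t50b t50c t50d m53 r53 t53a t53b t53c t53d fun x61 x62 =>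
  ri m18 r18 t18a t18b t18c t18d m19 r19 t19a t19b t19c t19d m20 r20 t20a t20b t20c t20d m21 r21 t21a t21b t21c t21d m22 r22 t22a t22b t22c t22d m23 r23 t23a t23b t23c t23d m24 r24 t24a t24b t24c t24d m25 r25 t25a t25b t25c t25d m26 r26 t26a t26b t26c t26d m27 r27 t27a t27b t27c t27d m28 r28 t28a t28b t28c t28d m7 r7 t7a t7b t7c t7d m8 r8 t8a t8b t8c t8d m9 r9 t9a t9b t9c t9d m43 r43 t43a t43b t43c t43d m48 r48 t48a t48b t48c t48d m55 r55 t55a t55b t55c t55d m56 r56 t56a t56b t56c t56d m57 r57 t57a t57b t57c t57d m51 r51 t51a t51b t51c t51d m54 r54 t54a t54b t54c t54d fun x63 x64 =>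
  bf x10 m11 r11 t11a t11b t11c t11d m12 r12 t12a t12b t12c t12d m13 r13 t13a t13b t13c t13d x5 m6 r6 t6a t6b t6c t6d x1 m2 r2 t2a t2b t2c t2d m43 r43 t43a t43b t43c t43d m55 r55 t55a t55b t55c t55d m56 r56 t56a t56b t56c t56d fun x65 x66 x67 =>
  bw m1 r1 t1a t1b t1c t1d m2 r2 t2a t2b t2c t2d x67 x43 x46 m47 r47 t47a t47b t47c t47d m55 r55 t55a t55b t55c t55d x51 fun x68 x69 x70 x71 x72 x73 x74 x75 x76 =>
  rd m3 r3 t3a t3b t3c t3d m4 r4 t4a t4b t4c t4d m14 r14 t14a t14b t14c t14d m15 r15 t15a t15b t15c t15d m16 r16 t16a t16b t16c t16d m17 r17 t17a t17b t17c t17d m55 r55 t55a t55b t55c t55d m49 r49 t49a t49b t49c t49d m52 r52 t52a t52b t52c t52d x68 x71 fun x77 =>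
  ro m3 r3 t3a t3b t3c t3d m4 r4 t4a t4b t4c t4d m14 r14 t14a t14b t14c t14d m15 r15 t15a t15b t15c t15d m16 r16 t16a t16b t16c t16d m17 r17 t17a t17b t17c t17d m55 r55 t55a t55b t55c t55d m49 r49 t49a t49b t49c t49d m52 r52 t52a t52b t52c t52d m50 r50 t50a t50b t50c t50d m53 r53 t53a t53b t53c t53d x69 x72 fun x78 =>
  rd m3 r3 t3a t3b t3c t3d m4 r4 t4a t4b t4c t4d m14 r14 t14a t14b t14c t14d m15 r15 t15a t15b t15c t15d m16 r16 t16a t16b t16c t16d m17 r17 t17a t17b t17c t17d m55 r55 t55a t55b t55c t55d m50 r50 t50a t50b t50c t50d m53 r53 t53a t53b t53c t53d x68 x73 fun x79 =>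
  ro m3 r3 t3a t3b t3c t3d m4 r4 t4a t4b t4c t4d m14 r14 t14a t14b t14c t14d m15 r15 t15a t15b t15c t15d m16 r16 t16a t16b t16c t16d m17 r17 t17a t17b t17c t17d m55 r55 t55a t55b t55c t55d m50 r50 t50a t50b t50c t50d m53 r53 t53a t53b t53c t53d m51 r51 t51a t51b t51c t51d m54 r54 t54a t54b t54c t54d x76 x74 fun x80 =>
  rd m3 r3 t3a t3b t3c t3d m4 r4 t4a t4b t4c t4d m14 r14 t14a t14b t14c t14d m15 r15 t15a t15b t15c t15d m16 r16 t16a t16b t16c t16d m17 r17 t17a t17b t17c t17d m55 r55 t55a t55b t55c t55d m51 r51 t51a t51b t51c t51d m54 r54 t54a t54b t54c t54d x70 x75 fun x81 =>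
  rz m3 r3 t3a t3b t3c t3d m4 r4 t4a t4b t4c t4d m14 r14 t14a t14b t14c t14d m15 r15 t15a t15b t15c t15d m16 r16 t16a t16b t16c t16d m17 r17 t17a t17b t17c t17d m55 r55 t55a t55b t55c t55d m49 r49 t49a t49b t49c t49d m52 r52 t52a t52b t52c t52d m51 r51 t51a t51b t51c t51d m54 r54 t54a t54b t54c t54d fun x82 =>
  k x66 x60 x77 x62 x78 x79 x64 x82 x80 x81 x65 x59 x61 x63 x58

theorem stB_s {e1 e2 e3 e4 e5 : ℝ} (he : Ev e1 e2 e3 e4 e5) (K0 K1 D0 D1 F0 F1 G0 G1 G2 H0 H1 H2 H3 M0 M1 N0 N1 A0 A1 A2 A3 A4 A5 B0 B1 B2 B3 B4 E0 E1 E2 E3 E4 E5 E6 E7 E8 g m u th l n q : ℝ) (hl : l = 4 * u / (1 + 5 * u ^ 2)) (hn : n = (1 - 5 * u ^ 2) / (2 * (1 + 5 * u ^ 2))) (hq : q = sTh l n th) {x1 m1 r1 t1a t1b t1c t1d m2 r2 t2a t2b t2c t2d m3 r3 t3a t3b t3c t3d m4 r4 t4a t4b t4c t4d x5 m6 r6 t6a t6b t6c t6d m7 r7 t7a t7b t7c t7d m8 r8 t8a t8b t8c t8d m9 r9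 t9a t9b t9c t9d x10 m11 r11 t11a t11b t11c t11d m12 r12 t12a t12b t12c t12d m13 r13 t13a t13b t13c t13d m14 r14 t14a t14b t14c t14d m15 r15 t15a t15b t15c t15d m16 r16 t16a t16b t16c t16d m17 r17 t17a t17b t17c t17d m18 r18 t18a t18b t18c t18d m19 r19 t19a t19b t19c t19d m20 r20 t20a t20b t20c t20d m21 r21 t21a t21b t21c t21d m22 r22 t22a t22b t22c t22d m23 r23 t23a t23b t23c t23d m24 r24 t24a t24b t24c t24d m25 r25 t25a t25b t25c t25d m26 r26 t26a t26b t26c t26d m27 r27 t27a t27b t27c t27d m28 r28 t28a t28b t28c t28d x29 m30 r30 t30a t30b t30c t30d m31 r31 t31a t31b t31c t31d m32 r32 t32a t32b t32c t32d m33 r33 t33a t33b t33c t33d m34 r34 t34a t34b t34c t34d m35 r35 t35a t35b t35c t35d m36 r36 t36a t36b t36c t36d m37 r37 t37a t37b t37c t37d m38 r38 t38a t38b t38c t38d p39 x40 x41 : ℕ} {k : ℕ → ℕ → ℕ → ℕ → ℕ → ℕ → ℕ → ℕ → ℕ → ℕ → ℕ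 → ℕ → ℕ → ℕ → ℕ → Bool} {Q : Prop}
    (h1 : In e1 e2 e3 e4 e5 x1 (K0))
    (n1 : Nrm e1 e2 e3 e4 e5 m1 r1 t1a t1b t1c t1d (K0))
    (n2 : Nrm e1 e2 e3 e4 e5 m2 r2 t2a t2b t2c t2d (K1))
    (n3 : Nrm e1 e2 e3 e4 e5 m3 r3 t3a t3b t3c t3d (D0))
    (n4 : Nrm e1 e2 e3 e4 e5 m4 r4 t4a t4b t4c t4d (D1))
    (h5 : In e1 e2 e3 e4 e5 x5 (F0))
    (n6 : Nrm e1 e2 e3 e4 e5 m6 r6 t6a t6b t6c t6d (F1))
    (n7 : Nrm e1 e2 e3 e4 e5 m7 r7 t7a t7b t7c t7d (G0))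
    (n8 : Nrm e1 e2 e3 e4 e5 m8 r8 t8a t8b t8c t8d (G1))
    (n9 : Nrm e1 e2 e3 e4 e5 m9 r9 t9a t9b t9c t9d (G2))
    (h10 : In e1 e2 e3 e4 e5 x10 (H0))
    (n11 : Nrm e1 e2 e3 e4 e5 m11 r11 t11a t11b t11c t11d (H1))
    (n12 : Nrm e1 e2 e3 e4 e5 m12 r12 t12a t12b t12c t12d (H2))
    (n13 : Nrm e1 e2 e3 e4 e5 m13 r13 t13a t13b t13c t13d (H3))
    (n14 : Nrm e1 e2 e3 e4 e5 m14 r14 t14a t14b t14c t14d (M0))
    (n15 : Nrm e1 e2 e3 e4 e5 m15 r15 t15a t15b t15c t15d (M1))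
    (n16 : Nrm e1 e2 e3 e4 e5 m16 r16 t16a t16b t16c t16d (N0))
    (n17 : Nrm e1 e2 e3 e4 e5 m17 r17 t17a t17b t17c t17d (N1))
    (n18 : Nrm e1 e2 e3 e4 e5 m18 r18 t18a t18b t18c t18d (A0))
    (n19 : Nrm e1 e2 e3 e4 e5 m19 r19 t19a t19b t19c t19d (A1))
    (n20 : Nrm e1 e2 e3 e4 e5 m20 r20 t20a t20b t20c t20d (A2))
    (n21 : Nrm e1 e2 e3 e4 e5 m21 r21 t21a t21b t21c t21d (A3))
    (n22 : Nrm e1 e2 e3 e4 e5 m22 r22 t22a t22b t22c t22d (A4))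
    (n23 : Nrm e1 e2 e3 e4 e5 m23 r23 t23a t23b t23c t23d (A5))
    (n24 : Nrm e1 e2 e3 e4 e5 m24 r24 t24a t24b t24c t24d (B0))
    (n25 : Nrm e1 e2 e3 e4 e5 m25 r25 t25a t25b t25c t25d (B1))
    (n26 : Nrm e1 e2 e3 e4 e5 m26 r26 t26a t26b t26c t26d (B2))
    (n27 : Nrm e1 e2 e3 e4 e5 m27 r27 t27a t27b t27c t27d (B3))
    (n28 : Nrm e1 e2 e3 e4 e5 m28 r28 t28a t28b t28c t28d (B4))
    (h29 : In e1 e2 e3 e4 e5 x29 (E0))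
    (n30 : Nrm e1 e2 e3 e4 e5 m30 r30 t30a t30b t30c t30d (E1))
    (n31 : Nrm e1 e2 e3 e4 e5 m31 r31 t31a t31b t31c t31d (E2))
    (n32 : Nrm e1 e2 e3 e4 e5 m32 r32 t32a t32b t32c t32d (E3))
    (n33 : Nrm e1 e2 e3 e4 e5 m33 r33 t33a t33b t33c t33d (E4))
    (n34 : Nrm e1 e2 e3 e4 e5 m34 r34 t34a t34b t34c t34d (E5))
    (n35 : Nrm e1 e2 e3 e4 e5 m35 r35 t35a t35b t35c t35d (E6))
    (n36 : Nrm e1 e2 e3 e4 e5 m36 r36 t36a t36b t36c t36d (E7))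
    (n37 : Nrm e1 e2 e3 e4 e5 m37 r37 t37a t37b t37c t37d (E8))
    (n38 : Nrm e1 e2 e3 e4 e5 m38 r38 t38a t38b t38c t38d (g))
    (g39 : Nrm e1 e2 e3 e4 e5 p39 0 p39 0 0 0 (m))
    (h40 : In e1 e2 e3 e4 e5 x40 (u))
    (h41 : In e1 e2 e3 e4 e5 x41 (th))
    (hk : ∀ X0 X1 X2 X3 X4 X5 X6 X7 X8 X9 X10 X11 X12 X13 X14, In e1 e2 e3 e4 e5 X0 (F0 + F1 * q - 1 / 65536) → In e1 e2 e3 e4 e5 X1 ((G0 + G1 * q) * (sA1 l n th) + G2 * (sB1 l n th)) → In e1 e2 e3 e4 e5 X2 ((10 * (K0 + K1 * q) - 1 / 65536) + (D0 + D1 * q) * (10 * l + 8 * (n * th)) + ((M0 + M1 * q) * ((sA1 l n th) * (sA1 l n th)) + (N0 + N1 * q) * ((sA1 l n th) * (sB1 l n th) + (sA1 l n th) * (sB1 l n th)) + 3 * D1 * ((sB1 l n th) * (sB1 l n th)))) → In e1 e2 e3 e4 e5 X3 ((G0 + G1 * q) * (sA2 l n th) + G2 * (sB2 l n th)) → In e1 e2 e3 e4 e5 X4 ((4 * (K0 + K1 * q)) + (D0 + D1 * q) *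 (8 * l) + ((M0 + M1 * q) * ((sA1 l n th) * (sA2 l n th)) + (N0 + N1 * q) * ((sA1 l n th) * (sB2 l n th) + (sA2 l n th) * (sB1 l n th)) + 3 * D1 * ((sB1 l n th) * (sB2 l n th)))) → In e1 e2 e3 e4 e5 X5 ((10 * (K0 + K1 * q) - 1 / 65536) + (D0 + D1 * q) * (10 * l - 8 * (n * th)) + ((M0 + M1 * q) * ((sA2 l n th) * (sA2 l n th)) + (N0 + N1 * q) * ((sA2 l n th) * (sB2 l n th) + (sA2 l n th) * (sB2 l n th)) + 3 * D1 * ((sB2 l n th) * (sB2 l n th)))) → In e1 e2 e3 e4 e5 X6 ((G0 + G1 * q) * (sA3 n th) + G2 * (sB3 l n th)) → In e1 e2 e3 e4 e5 X7 ((M0 + M1 * q) * ((sA1 l n th) * (sA3 n th)) + (N0 + N1 * q) * ((sA1 l n th) * (sB3 l n th) + (sA3 n th) * (sB1 l n th)) + 3 * D1 * ((sB1 l n th) * (sB3 l n th))) → In e1 e2 e3 e4 e5 X8 ((0) + (D0 + D1 * q) * (4 * (sA3 n th)) + ((M0 + M1 * q) * ((sA2 l n th) * (sA3 n th)) + (N0 + N1 * q) * ((sA2 l n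 th) * (sB3 l n th) + (sA3 n th) * (sB2 l n th)) + 3 * D1 * ((sB2 l n th) * (sB3 l n th)))) → In e1 e2 e3 e4 e5 X9 ((6 * (K0 + K1 * q) * (sD th) - 1 / 65536) + (D0 + D1 * q) * ((2 * l - 8 * (n * th)) * (sD th)) + ((M0 + M1 * q) * ((sA3 n th) * (sA3 n th)) + (N0 + N1 * q) * ((sA3 n th) * (sB3 l n th) + (sA3 n th) * (sB3 l n th)) + 3 * D1 * ((sB3 l n th) * (sB3 l n th)))) → In e1 e2 e3 e4 e5 X10 (H0 + H1 * l + H2 * q + H3 * q * l) → In e1 e2 e3 e4 e5 X11 ((A0 + A1 * l + A2 * l ^ 2 + A3 * q + A4 * q * l + A5 * q * l ^ 2) * (sA1 l n th) + (B0 + B1 * l + B2 * l ^ 2 + B3 * q + B4 * q * l) * (sB1 l n th)) → In e1 e2 e3 e4 e5 X12 ((A0 + A1 * l + A2 * l ^ 2 + A3 * q + A4 * q * l + A5 * q * l ^ 2) * (sA2 l n th) + (B0 + B1 * l + B2 * l ^ 2 + B3 * q + B4 * q * l) * (sB2 l n th)) → In e1 e2 e3 e4 e5 X13 ((A0 + A1 * l + A2 * l ^ 2 + A3 * q + A4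 * q * l + A5 * q * l ^ 2) * (sA3 n th) + (B0 + B1 * l + B2 * l ^ 2 + B3 * q + B4 * q * l) * (sB3 l n th)) → In e1 e2 e3 e4 e5 X14 (E0 + E1 * l + E2 * l ^ 2 + E3 * l ^ 3 + E4 * q + E5 * q * l + E6 * q * l ^ 2 + E7 * q * l ^ 3 + E8 * q ^ 2 - 64 * (g * m)) → k X0 X1 X2 X3 X4 X5 X6 X7 X8 X9 X10 X11 X12 X13 X14 = true → Q)
    (HH0 : stB x1 m1 r1 t1a t1b t1c t1d m2 r2 t2a t2b t2c t2d m3 r3 t3a t3b t3c t3d m4 r4 t4a t4b t4c t4d x5 m6 r6 t6a t6b t6c t6d m7 r7 t7a t7b t7c t7d m8 r8 t8a t8b t8c t8d m9 r9 t9a t9b t9c t9d x10 m11 r11 t11a t11b t11c t11d m12 r12 t12a t12b t12c t12d m13 r13 t13a t13b t13c t13d m14 r14 t14a t14b t14c t14d m15 r15 t15a t15b t15c t15d m16 r16 t16a t16b t16c t16d m17 r17 t17a t17b t17c t17d m18 r18 t18a t18b t18c t18d m19 r19 t19a t19b t19c t19d m20 r20 t20a t20b t20c t20d m21 r21 t21a t21b t21c t21d m22 r22 t22a t22b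 t22c t22d m23 r23 t23a t23b t23c t23d m24 r24 t24a t24b t24c t24d m25 r25 t25a t25b t25c t25d m26 r26 t26a t26b t26c t26d m27 r27 t27a t27b t27c t27d m28 r28 t28a t28b t28c t28d x29 m30 r30 t30a t30b t30c t30d m31 r31 t31a t31b t31c t31d m32 r32 t32a t32b t32c t32d m33 r33 t33a t33b t33c t33d m34 r34 t34a t34b t34c t34d m35 r35 t35a t35b t35c t35d m36 r36 t36a t36b t36c t36d m37 r37 t37a t37b t37c t37d m38 r38 t38a t38b t38c t38d p39 x40 x41 k = true) : Q := by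
  unfold stB at HH0
  refine nrmK_s he h40 (fun _ _ _ _ _ _ n42 HH1 => ?_) HH0
  refine s0_s he (u)  h40 n42 (fun _ _ _ _ _ _ _ _ _ _ _ _ _ h43 n43 n44 HH2 => ?_) HH1
  clear HH1
  rw [← hl] at h43 n43
  rw [← hn] at n44
  refine nrmK_s he h41 (fun _ _ _ _ _ _ n45 HH3 => ?_) HH2
  clear HH2
  refine s1_s he (l) (n) (th)  h43 n43 n44 n45 (fun _ _ _ _ _ _ _ _ _ _ _ _ _ _ _ _ _ _ _ _ _ _ _ _ _ _ _ _ _ _ _ _ _ _ _ _ _ _ _ _ _ _ _ _ _ _ _ _ _ _ _ _ _ _ _ _ _ _ _ _ _ _ _ _ _ _ _ _ h46 n47 n48 n49 n50 h51 n51 n52 n53 n54 n55 n56 n57 HH4 => ?_) HH3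
  clear HH3
  rw [← hq] at n55 n56 n57
  refine be_s he (E0) (E1) (E2) (E3) (E4) (E5) (E6) (E7) (E8) (g) (m) (l) (q)  h29 n30 n31 n32 n33 n34 n35 n36 n37 n38 g39 n43 n48 n55 n56 n57 (fun _ h58 HH5 => ?_) HH4
  clear HH4
  refine ri_s he (A0) (A1) (A2) (A3) (A4) (A5) (B0) (B1) (B2) (B3) (B4) (G0) (G1) (G2) (l) (q) (sA1 l n th) (sB1 l n th)  n18 n19 n20 n21 n22 n23 n24 n25 n26 n27 n28 n7 n8 n9 n43 n48 n55 n56 n57 n49 n52 (fun _ _ h59 h60 HH6 => ?_) HH5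
  clear HH5
  refine ri_s he (A0) (A1) (A2) (A3) (A4) (A5) (B0) (B1) (B2) (B3) (B4) (G0) (G1) (G2) (l) (q) (sA2 l n th) (sB2 l n th)  n18 n19 n20 n21 n22 n23 n24 n25 n26 n27 n28 n7 n8 n9 n43 n48 n55 n56 n57 n50 n53 (fun _ _ h61 h62 HH7 => ?_) HH6
  clear HH6
  refine ri_s he (A0) (A1) (A2) (A3) (A4) (A5) (B0) (B1) (B2) (B3) (B4) (G0) (G1) (G2) (l) (q) (sA3 n th) (sB3 l n th)  n18 n19 n20 n21 n22 n23 n24 n25 n26 n27 n28 n7 n8 n9 n43 n48 n55 n56 n57 n51 n54 (fun _ _ h63 h64 HH8 => ?_) HH7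
  clear HH7
  refine bf_s he (H0) (H1) (H2) (H3) (F0) (F1) (K0) (K1) (l) (q)  h10 n11 n12 n13 h5 n6 h1 n2 n43 n55 n56 (fun _ _ _ h65 h66 h67 HH9 => ?_) HH8
  clear HH8
  refine bw_s he (K0) (K1) (l) (n * th) (sD th) (q) (sA3 n th)  n1 n2 h67 h43 h46 n47 n55 h51 (fun _ _ _ _ _ _ _ _ _ h68 h69 h70 h71 h72 h73 h74 h75 h76 HH10 => ?_) HH9
  clear HH9
  refine rd_s he (D0) (D1) (M0) (M1) (N0) (N1) (q) (sA1 l n th) (sB1 l n th) (10 * (K0 + K1 * q) - 1 / 65536) (10 * l + 8 * (n * th))  n3 n4 n14 n15 n16 n17 n55 n49 n52 h68 h71 (fun _ h77 HH11 => ?_) HH10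
  clear HH10
  refine ro_s he (D0) (D1) (M0) (M1) (N0) (N1) (q) (sA1 l n th) (sB1 l n th) (sA2 l n th) (sB2 l n th) (4 * (K0 + K1 * q)) (8 * l)  n3 n4 n14 n15 n16 n17 n55 n49 n52 n50 n53 h69 h72 (fun _ h78 HH12 => ?_) HH11
  clear HH11
  refine rd_s he (D0) (D1) (M0) (M1) (N0) (N1) (q) (sA2 l n th) (sB2 l n th) (10 * (K0 + K1 * q) - 1 / 65536) (10 * l - 8 * (n * th))  n3 n4 n14 n15 n16 n17 n55 n50 n53 h68 h73 (fun _ h79 HH13 => ?_) HH12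
  clear HH12
  refine ro_s he (D0) (D1) (M0) (M1) (N0) (N1) (q) (sA2 l n th) (sB2 l n th) (sA3 n th) (sB3 l n th) (0) (4 * (sA3 n th))  n3 n4 n14 n15 n16 n17 n55 n50 n53 n51 n54 h76 h74 (fun _ h80 HH14 => ?_) HH13
  clear HH13
  refine rd_s he (D0) (D1) (M0) (M1) (N0) (N1) (q) (sA3 n th) (sB3 l n th) (6 * (K0 + K1 * q) * (sD th) - 1 / 65536) ((2 * l - 8 * (n * th)) * (sD th))  n3 n4 n14 n15 n16 n17 n55 n51 n54 h70 h75 (fun _ h81 HH15 => ?_) HH14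
  clear HH14
  refine rz_s he (D0) (D1) (M0) (M1) (N0) (N1) (q) (sA1 l n th) (sB1 l n th) (sA3 n th) (sB3 l n th)  n3 n4 n14 n15 n16 n17 n55 n49 n52 n51 n54 (fun _ h82 HH16 => ?_) HH15
  clear HH15
  exact hk _ _ _ _ _ _ _ _ _ _ _ _ _ _ _ h66 h60 h77 h62 h78 h79 h64 h82 h80 h81 h65 h59 h61 h63 h58 HH16

attribute [irreducible] stB

end Crest.Agent.R97.Tm
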