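import Crest.Agent.R97.TmB
import Crest.Agent.Lib.TM.PsdC
/-! TmL (helper90, generated): leaves and trees. -/
set_option autoImplicit false
set_option linter.unusedVariables false
set_option linter.unusedTactic false
set_option linter.unreachableTactic false
set_option linter.unusedSimpArgs false
set_option maxRecDepth 100000
namespace Crest.Agent.R97.Tm
open Crest.Agent.R307 Crest.Agent.R307.IA Crest.Agent.TM.T53 Crest.Agent.PSD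
open Crest.Agent.R307.IA5 (Ev Cov)

noncomputable def leaf (x1 m1 r1 t1a t1b t1c t1d m2 r2 t2a t2b t2c t2d m3 r3 t3a t3b t3c t3d m4 r4 t4a t4b t4c t4d x5 m6 r6 t6a t6b t6c t6d m7 r7 t7a t7b t7c t7d m8 r8 t8a t8b t8c t8d m9 r9 t9a t9b t9c t9d x10 m11 r11 t11a t11b t11c t11d m12 r12 t12a t12b t12c t12d m13 r13 t13a t13b t13c t13d m14 r14 t14a t14b t14c t14d m15 r15 t15a t15b t15c t15d m16 r16 t16a t16b t16c t16d m17 r17 t17a t17b t17c t17d m18 r18 t18a t18b t18c t18d m19 r19 t19a t19b t19c t19d m20 r20 t20a t20b t20c t20d m21 r21 t21a t21b t21c t21d m22 r22 t22a t22b t22c t22d m23 r23 t23a t23b t23c t23d m24 r24 t24a t24b t24c t24d m25 r25 t25a t25b t25c t25d m26 r26 t26a t26b t26c t26d m27 r27 t27a t27b t27c t27d m28 r28 t28a t28b t28c t28d x29 m30 r30 t30a t30b t30c t30d m31 r31 t31a t31b t31c t31d m32 r32 t32a t32b t32c t32d m33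 r33 t33a t33b t33c t33d m34 r34 t34a t34b t34c t34d m35 r35 t35a t35b t35c t35d m36 r36 t36a t36b t36c t36d m37 r37 t37a t37b t37c t37d m38 r38 t38a t38b t38c t38d w ul uh vl vh : ℕ) : Bool :=
  fB (Nat.add (Nat.land w 65535) 1) fun nn =>
  fB (Nat.add (Nat.mul nn 16777216) 1) fun pp =>
  varK 8360 (Nat.shiftRight (Nat.add ul uh) 1) (Nat.sub uh (Nat.shiftRight (Nat.add ul uh) 1)) fun z4 =>
  varK 8835 (Nat.shiftRight (Nat.add vl vh) 1) (Nat.sub vh (Nat.shiftRight (Nat.add vl vh) 1)) fun z5 =>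
  stB x1 m1 r1 t1a t1b t1c t1d m2 r2 t2a t2b t2c t2d m3 r3 t3a t3b t3c t3d m4 r4 t4a t4b t4c t4d x5 m6 r6 t6a t6b t6c t6d m7 r7 t7a t7b t7c t7d m8 r8 t8a t8b t8c t8d m9 r9 t9a t9b t9c t9d x10 m11 r11 t11a t11b t11c t11d m12 r12 t12a t12b t12c t12d m13 r13 t13a t13b t13c t13d m14 r14 t14a t14b t14c t14d m15 r15 t15a t15b t15c t15d m16 r16 t16a t16b t16c t16d m17 r17 t17a t17b t17c t17d m18 r18 t18a t18b t18c t18d m19 r19 t19a t19b t19c t19d m20 r20 t20a t20b t20c t20d m21 r21 t21a t21b t21c t21d m22 r22 t22a t22b t22c t22d m23 r23 t23a t23b t23c t23d m24 r24 t24a t24b t24c t24d m25 r25 t25a t25b t25c t25d m26 r26 t26a t26b t26c t26d m27 r27 t27a t27b t27c t27d m28 r28 t28a t28b t28c t28d x29 m30 r30 t30a t30b t30c t30d m31 r31 t31a t31b t31c t31d m32 r32 t32a t32b t32c t32d m33 r33 t33a t33b t33c t33d m34 r34 t34a t34b t34c t34d m35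 r35 t35a t35b t35c t35d m36 r36 t36a t36b t36c t36d m37 r37 t37a t37b t37c t37d m38 r38 t38a t38b t38c t38d pp z4 z5 fun X0 X1 X2 X3 X4 X5 X6 X7 X8 X9 X10 X11 X12 X13 X14 =>
  psdK (Nat.shiftRight w 16) X0 X1 X2 X3 X4 X5 X6 X7 X8 X9 X10 X11 X12 X13 X14

/-- the form checked on a leaf -/
noncomputable def frm (K0 K1 D0 D1 F0 F1 G0 G1 G2 H0 H1 H2 H3 M0 M1 N0 N1 A0 A1 A2 A3 A4 A5 B0 B1 B2 B3 B4 E0 E1 E2 E3 E4 E5 E6 E7 E8 g m th l n q x1 x2 x3 x4 x5 : ℝ) : ℝ :=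
  q5 (F0 + F1 * q - 1 / 65536) ((G0 + G1 * q) * (sA1 l n th) + G2 * (sB1 l n th)) ((10 * (K0 + K1 * q) - 1 / 65536) + (D0 + D1 * q) * (10 * l + 8 * (n * th)) + ((M0 + M1 * q) * ((sA1 l n th) * (sA1 l n th)) + (N0 + N1 * q) * ((sA1 l n th) * (sB1 l n th) + (sA1 l n th) * (sB1 l n th)) + 3 * D1 * ((sB1 l n th) * (sB1 l n th)))) ((G0 + G1 * q) * (sA2 l n th) + G2 * (sB2 l n th)) ((4 * (K0 + K1 * q)) + (D0 + D1 * q) * (8 * l) + ((M0 + M1 * q) * ((sA1 l n th) * (sA2 l n th)) + (N0 + N1 * q) * ((sA1 l n th) * (sB2 l n th) + (sA2 l n th) * (sB1 l n th)) + 3 * D1 * ((sB1 l n th) * (sB2 l n th)))) ((10 * (K0 + K1 * q) - 1 / 65536) + (D0 + D1 * q) * (10 * l - 8 * (n * th)) + ((M0 + M1 * q) * ((sA2 l n th) * (sA2 l n th)) + (N0 + N1 * q) * ((sA2 l n th) * (sB2 l n th) + (sA2 l n th) * (sB2 l n th)) + 3 * D1 * ((sB2 l n th) * (sB2 l n th))))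 ((G0 + G1 * q) * (sA3 n th) + G2 * (sB3 l n th)) ((M0 + M1 * q) * ((sA1 l n th) * (sA3 n th)) + (N0 + N1 * q) * ((sA1 l n th) * (sB3 l n th) + (sA3 n th) * (sB1 l n th)) + 3 * D1 * ((sB1 l n th) * (sB3 l n th))) ((0) + (D0 + D1 * q) * (4 * (sA3 n th)) + ((M0 + M1 * q) * ((sA2 l n th) * (sA3 n th)) + (N0 + N1 * q) * ((sA2 l n th) * (sB3 l n th) + (sA3 n th) * (sB2 l n th)) + 3 * D1 * ((sB2 l n th) * (sB3 l n th)))) ((6 * (K0 + K1 * q) * (sD th) - 1 / 65536) + (D0 + D1 * q) * ((2 * l - 8 * (n * th)) * (sD th)) + ((M0 + M1 * q) * ((sA3 n th) * (sA3 n th)) + (N0 + N1 * q) * ((sA3 n th) * (sB3 l n th) + (sA3 n th) * (sB3 l n th)) + 3 * D1 * ((sB3 l n th) * (sB3 l n th)))) (H0 + H1 * l + H2 * q + H3 * q * l) ((A0 + A1 * l + A2 * l ^ 2 + A3 * q + A4 * q * l + A5 * q * l ^ 2) * (sA1 l n th) + (B0 + B1 * l + B2 * l ^ 2 + B3 * q + B4 * q *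 l) * (sB1 l n th)) ((A0 + A1 * l + A2 * l ^ 2 + A3 * q + A4 * q * l + A5 * q * l ^ 2) * (sA2 l n th) + (B0 + B1 * l + B2 * l ^ 2 + B3 * q + B4 * q * l) * (sB2 l n th)) ((A0 + A1 * l + A2 * l ^ 2 + A3 * q + A4 * q * l + A5 * q * l ^ 2) * (sA3 n th) + (B0 + B1 * l + B2 * l ^ 2 + B3 * q + B4 * q * l) * (sB3 l n th)) (E0 + E1 * l + E2 * l ^ 2 + E3 * l ^ 3 + E4 * q + E5 * q * l + E6 * q * l ^ 2 + E7 * q * l ^ 3 + E8 * q ^ 2 - 64 * (g * m)) x1 x2 x3 x4 x5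

theorem leaf_s {e1 e2 e3 e4 e5 : ℝ} (he : Ev e1 e2 e3 e4 e5) (K0 K1 D0 D1 F0 F1 G0 G1 G2 H0 H1 H2 H3 M0 M1 N0 N1 A0 A1 A2 A3 A4 A5 B0 B1 B2 B3 B4 E0 E1 E2 E3 E4 E5 E6 E7 E8 g u th l n q : ℝ) (hl : l = 4 * u / (1 + 5 * u ^ 2)) (hn : n = (1 - 5 * u ^ 2) / (2 * (1 + 5 * u ^ 2))) (hq : q = sTh l n th)
    {x1 m1 r1 t1a t1b t1c t1d m2 r2 t2a t2b t2c t2d m3 r3 t3a t3b t3c t3d m4 r4 t4a t4b t4c t4d x5 m6 r6 t6a t6b t6c t6d m7 r7 t7a t7b t7c t7d m8 r8 t8a t8b t8c t8d m9 r9 t9a t9b t9c t9d x10 m11 r11 t11a t11b t11c t11d m12 r12 t12a t12b t12c t12d m13 r13 t13a t13b t13c t13d m14 r14 t14a t14b t14c t14d m15 r15 t15a t15b t15c t15d m16 r16 t16a t16b t16c t16d m17 r17 t17a t17b t17c t17d m18 r18 t18a t18b t18c t18d m19 r19 t19a t19b t19c t19d m20 r20 t20a t20b t20c t20d m21 r21 t21a t21b t21c t21d m22 r22 t22a t22b t22c t22d m23 r23 t23a t23b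 t23c t23d m24 r24 t24a t24b t24c t24d m25 r25 t25a t25b t25c t25d m26 r26 t26a t26b t26c t26d m27 r27 t27a t27b t27c t27d m28 r28 t28a t28b t28c t28d x29 m30 r30 t30a t30b t30c t30d m31 r31 t31a t31b t31c t31d m32 r32 t32a t32b t32c t32d m33 r33 t33a t33b t33c t33d m34 r34 t34a t34b t34c t34d m35 r35 t35a t35b t35c t35d m36 r36 t36a t36b t36c t36d m37 r37 t37a t37b t37c t37d m38 r38 t38a t38b t38c t38d w ul uh vl vh : ℕ}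
    (h1 : In e1 e2 e3 e4 e5 x1 (K0))
    (n1 : Nrm e1 e2 e3 e4 e5 m1 r1 t1a t1b t1c t1d (K0))
    (n2 : Nrm e1 e2 e3 e4 e5 m2 r2 t2a t2b t2c t2d (K1))
    (n3 : Nrm e1 e2 e3 e4 e5 m3 r3 t3a t3b t3c t3d (D0))
    (n4 : Nrm e1 e2 e3 e4 e5 m4 r4 t4a t4b t4c t4d (D1))
    (h5 : In e1 e2 e3 e4 e5 x5 (F0))
    (n6 : Nrm e1 e2 e3 e4 e5 m6 r6 t6a t6b t6c t6d (F1))
    (n7 : Nrm e1 e2 e3 e4 e5 m7 r7 t7a t7b t7c t7d (G0))
    (n8 : Nrm e1 e2 e3 e4 e5 m8 r8 t8a t8b t8c t8d (G1))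
    (n9 : Nrm e1 e2 e3 e4 e5 m9 r9 t9a t9b t9c t9d (G2))
    (h10 : In e1 e2 e3 e4 e5 x10 (H0))
    (n11 : Nrm e1 e2 e3 e4 e5 m11 r11 t11a t11b t11c t11d (H1))
    (n12 : Nrm e1 e2 e3 e4 e5 m12 r12 t12a t12b t12c t12d (H2))
    (n13 : Nrm e1 e2 e3 e4 e5 m13 r13 t13a t13b t13c t13d (H3))
    (n14 : Nrm e1 e2 e3 e4 e5 m14 r14 t14a t14b t14c t14d (M0))
    (n15 : Nrm e1 e2 e3 e4 e5 m15 r15 t15a t15b t15c t15d (M1))
    (n16 : Nrm e1 e2 e3 e4 e5 m16 r16 t16a t16b t16c t16d (N0))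
    (n17 : Nrm e1 e2 e3 e4 e5 m17 r17 t17a t17b t17c t17d (N1))
    (n18 : Nrm e1 e2 e3 e4 e5 m18 r18 t18a t18b t18c t18d (A0))
    (n19 : Nrm e1 e2 e3 e4 e5 m19 r19 t19a t19b t19c t19d (A1))
    (n20 : Nrm e1 e2 e3 e4 e5 m20 r20 t20a t20b t20c t20d (A2))
    (n21 : Nrm e1 e2 e3 e4 e5 m21 r21 t21a t21b t21c t21d (A3))
    (n22 : Nrm e1 e2 e3 e4 e5 m22 r22 t22a t22b t22c t22d (A4))
    (n23 : Nrm e1 e2 e3 e4 e5 m23 r23 t23a t23b t23c t23d (A5))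
    (n24 : Nrm e1 e2 e3 e4 e5 m24 r24 t24a t24b t24c t24d (B0))
    (n25 : Nrm e1 e2 e3 e4 e5 m25 r25 t25a t25b t25c t25d (B1))
    (n26 : Nrm e1 e2 e3 e4 e5 m26 r26 t26a t26b t26c t26d (B2))
    (n27 : Nrm e1 e2 e3 e4 e5 m27 r27 t27a t27b t27c t27d (B3))
    (n28 : Nrm e1 e2 e3 e4 e5 m28 r28 t28a t28b t28c t28d (B4))
    (h29 : In e1 e2 e3 e4 e5 x29 (E0))
    (n30 : Nrm e1 e2 e3 e4 e5 m30 r30 t30a t30b t30c t30d (E1))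
    (n31 : Nrm e1 e2 e3 e4 e5 m31 r31 t31a t31b t31c t31d (E2))
    (n32 : Nrm e1 e2 e3 e4 e5 m32 r32 t32a t32b t32c t32d (E3))
    (n33 : Nrm e1 e2 e3 e4 e5 m33 r33 t33a t33b t33c t33d (E4))
    (n34 : Nrm e1 e2 e3 e4 e5 m34 r34 t34a t34b t34c t34d (E5))
    (n35 : Nrm e1 e2 e3 e4 e5 m35 r35 t35a t35b t35c t35d (E6))
    (n36 : Nrm e1 e2 e3 e4 e5 m36 r36 t36a t36b t36c t36d (E7))
    (n37 : Nrm e1 e2 e3 e4 e5 m37 r37 t37a t37b t37c t37d (E8))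
    (n38 : Nrm e1 e2 e3 e4 e5 m38 r38 t38a t38b t38c t38d (g))
    (hu : u = val (Nat.shiftRight (Nat.add ul uh) 1) + ((Nat.sub uh (Nat.shiftRight (Nat.add ul uh) 1) : ℕ) : ℝ) / SS * e4)
    (ht : th = val (Nat.shiftRight (Nat.add vl vh) 1) + ((Nat.sub vh (Nat.shiftRight (Nat.add vl vh) 1) : ℕ) : ℝ) / SS * e5)
    (H : leaf x1 m1 r1 t1a t1b t1c t1d m2 r2 t2a t2b t2c t2d m3 r3 t3a t3b t3c t3d m4 r4 t4a t4b t4c t4d x5 m6 r6 t6a t6b t6c t6d m7 r7 t7a t7b t7c t7d m8 r8 t8a t8b t8c t8d m9 r9 t9a t9b t9c t9d x10 m11 r11 t11a t11b t11c t11d m12 r12 t12a t12b t12c t12d m13 r13 t13a t13b t13c t13d m14 r14 t14a t14b t14c t14d m15 r15 t15a t15b t15c t15d m16 r16 t16a t16b t16c t16d m17 r17 t17a t17b t17c t17d m18 r18 t18a t18b t18c t18d m19 r19 t19a t19b t19c t19d m20 r20 t20a t20b t20c t20d m21 r21 t21a t21b t21c t21d m22 r22 t22a t22b t22c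 t22d m23 r23 t23a t23b t23c t23d m24 r24 t24a t24b t24c t24d m25 r25 t25a t25b t25c t25d m26 r26 t26a t26b t26c t26d m27 r27 t27a t27b t27c t27d m28 r28 t28a t28b t28c t28d x29 m30 r30 t30a t30b t30c t30d m31 r31 t31a t31b t31c t31d m32 r32 t32a t32b t32c t32d m33 r33 t33a t33b t33c t33d m34 r34 t34a t34b t34c t34d m35 r35 t35a t35b t35c t35d m36 r36 t36a t36b t36c t36d m37 r37 t37a t37b t37c t37d m38 r38 t38a t38b t38c t38d w ul uh vl vh = true) :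
    ∃ m : ℝ, 0 ≤ m ∧ ∀ x1 x2 x3 x4 x5, 0 ≤ frm K0 K1 D0 D1 F0 F1 G0 G1 G2 H0 H1 H2 H3 M0 M1 N0 N1 A0 A1 A2 A3 A4 A5 B0 B1 B2 B3 B4 E0 E1 E2 E3 E4 E5 E6 E7 E8 g m th l n q x1 x2 x3 x4 x5 := by
  unfold leaf at H
  obtain ⟨nn, hnn, H⟩ := frc H
  obtain ⟨pp, hpp, H⟩ := frc H
  obtain ⟨hp, ha, -⟩ := par he hnn hpp
  refine var4_s he (fun z4 g4 H => ?_) H
  refine var5_s he (fun z5 g5 H => ?_) H
  rw [← hu] at g4
  rw [← ht] at g5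
  refine ⟨_, ha, ?_⟩
  refine stB_s he K0 K1 D0 D1 F0 F1 G0 G1 G2 H0 H1 H2 H3 M0 M1 N0 N1 A0 A1 A2 A3 A4 A5 B0 B1 B2 B3 B4 E0 E1 E2 E3 E4 E5 E6 E7 E8 g _ u th l n q hl hn hq h1 n1 n2 n3 n4 h5 n6 n7 n8 n9 h10 n11 n12 n13 n14 n15 n16 n17 n18 n19 n20 n21 n22 n23 n24 n25 n26 n27 n28 h29 n30 n31 n32 n33 n34 n35 n36 n37 n38 hp g4 g5 (fun _ _ _ _ _ _ _ _ _ _ _ _ _ _ _ k0 k1 k2 k3 k4 k5 k6 k7 k8 k9 k10 k11 k12 k13 k14 H => ?_) H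
  exact psdK_s he k0 k1 k2 k3 k4 k5 k6 k7 k8 k9 k10 k11 k12 k13 k14 H

attribute [irreducible] leaf

/-- trees over `(u, th)` -/
inductive T2 where
  | lf (w : ℕ) : T2
  | su (a b : T2) : T2
  | sv (a b : T2) : T2

noncomputable def md (l h : ℕ) : ℕ := Nat.add (Nat.shiftRight (Nat.add l h) 1) (Nat.mod (Nat.shiftRight (Nat.add l h) 13) 4093)

noncomputable def allT (f : ℕ → ℕ → ℕ → ℕ → ℕ → Bool) (t : T2) : ℕ → ℕ → ℕ → ℕ → Bool :=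
  @T2.rec (fun _ => ℕ → ℕ → ℕ → ℕ → Bool) (fun w l4 h4 l5 h5 => f w l4 h4 l5 h5)
    (fun _ _ a b l4 h4 l5 h5 => fB (Nat.add (md l4 h4) 1) fun m => iB (a l4 m l5 h5) false (b m h4 l5 h5))
    (fun _ _ a b l4 h4 l5 h5 => fB (Nat.add (md l5 h5) 1) fun m => iB (a l4 h4 l5 m) false (b l4 h4 m h5)) t

theorem allT_lf (f : ℕ → ℕ → ℕ → ℕ → ℕ → Bool) (w l4 h4 l5 h5 : ℕ) : allT f (T2.lf w) l4 h4 l5 h5 = f w l4 h4 l5 h5 := rfl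
theorem allT_su (f : ℕ → ℕ → ℕ → ℕ → ℕ → Bool) (a b : T2) (l4 h4 l5 h5 : ℕ) : allT f (T2.su a b) l4 h4 l5 h5 =
    fB (Nat.add (md l4 h4) 1) fun m => iB (allT f a l4 m l5 h5) false (allT f b m h4 l5 h5) := rfl
theorem allT_sv (f : ℕ → ℕ → ℕ → ℕ → ℕ → Bool) (a b : T2) (l4 h4 l5 h5 : ℕ) : allT f (T2.sv a b) l4 h4 l5 h5 =
    fB (Nat.add (md l5 h5) 1) fun m => iB (allT f a l4 h4 l5 m) false (allT f b l4 h4 m h5) := rfl

theorem find (t : T2) : ∀ (l4 h4 l5 h5 : ℕ) (x y : ℝ), val l4 ≤ x → x ≤ val h4 → val l5 ≤ y → y ≤ val h5 →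
    ∃ w a b c d : ℕ, val a ≤ x ∧ x ≤ val b ∧ val c ≤ y ∧ y ≤ val d ∧ ∀ f, allT f t l4 h4 l5 h5 = true → f w a b c d = true := by
  induction t with
  | lf w => exact fun l4 h4 l5 h5 x y p q r s => ⟨w, l4, h4, l5, h5, p, q, r, s, fun f H => by rwa [allT_lf] at H⟩
  | su a b iha ihb =>
    intro l4 h4 l5 h5 x y p q r s
    have k : ∀ f, allT f (T2.su a b) l4 h4 l5 h5 = true → allT f a l4 (md l4 h4) l5 h5 = true ∧ allT f b (md l4 h4) h4 l5 h5 = true := fun f H => by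
      rw [allT_su] at H
      obtain ⟨m, hm, H⟩ := frc H
      rw [succ_spec hm]
      exact brc H
    rcases le_total x (val (md l4 h4)) with h | h
    · obtain ⟨w, a', b', c, d, g1, g2, g3, g4, g5⟩ := iha _ _ _ _ x y p h r s
      exact ⟨w, a', b', c, d, g1, g2, g3, g4, fun f H => g5 f (k f H).1⟩
    · obtain ⟨w, a', b', c, d, g1, g2, g3, g4, g5⟩ := ihb _ _ _ _ x y h q r s
      exact ⟨w, a', b', c, d, g1, g2, g3, g4, fun f H => g5 f (k f H).2⟩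
  | sv a b iha ihb =>
    intro l4 h4 l5 h5 x y p q r s
    have k : ∀ f, allT f (T2.sv a b) l4 h4 l5 h5 = true → allT f a l4 h4 l5 (md l5 h5) = true ∧ allT f b l4 h4 (md l5 h5) h5 = true := fun f H => by
      rw [allT_sv] at H
      obtain ⟨m, hm, H⟩ := frc H
      rw [succ_spec hm]
      exact brc H
    rcases le_total y (val (md l5 h5)) with h | h
    · obtain ⟨w, a', b', c, d, g1, g2, g3, g4, g5⟩ := iha _ _ _ _ x y p q r h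
      exact ⟨w, a', b', c, d, g1, g2, g3, g4, fun f H => g5 f (k f H).1⟩
    · obtain ⟨w, a', b', c, d, g1, g2, g3, g4, g5⟩ := ihb _ _ _ _ x y p q h s
      exact ⟨w, a', b', c, d, g1, g2, g3, g4, fun f H => g5 f (k f H).2⟩

end Crest.Agent.R97.Tm
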