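import Crest.Agent.R97.TmA
import Crest.Agent.R97.TmL
/-! TmC (helper90, generated): cells. -/
set_option autoImplicit false
set_option linter.unusedVariables false
set_option linter.unusedTactic false
set_option linter.unreachableTactic false
set_option linter.unusedSimpArgs false
set_option maxRecDepth 100000
namespace Crest.Agent.R97.Tm
open Crest.Agent.R307 Crest.Agent.R307.IA Crest.Agent.TM.T53 Crest.Agent.PSD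
open Crest.Agent.R307.IA5 (Ev Cov)

noncomputable def cell (t : T2) (l1 h1 l2 h2 l3 h3 l4 h4 l5 h5 : ℕ) : Bool :=
  varK 6650 (Nat.shiftRight (Nat.add l1 h1) 1) (Nat.sub h1 (Nat.shiftRight (Nat.add l1 h1) 1)) fun z1 =>
  varK 6745 (Nat.shiftRight (Nat.add l2 h2) 1) (Nat.sub h2 (Nat.shiftRight (Nat.add l2 h2) 1)) fun z2 =>
  varK 8075 (Nat.shiftRight (Nat.add l3 h3) 1) (Nat.sub h3 (Nat.shiftRight (Nat.add l3 h3) 1)) fun z3 =>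
  sat z2 z3 fun z2 z3 =>
  stA z1 z2 z3 fun X0 M0 R0 A0 B0 C0 D0 M1 R1 A1 B1 C1 D1 M2 R2 A2 B2 C2 D2 M3 R3 A3 B3 C3 D3 X4 M5 R5 A5 B5 C5 D5 M6 R6 A6 B6 C6 D6 M7 R7 A7 B7 C7 D7 M8 R8 A8 B8 C8 D8 X9 M10 R10 A10 B10 C10 D10 M11 R11 A11 B11 C11 D11 M12 R12 A12 B12 C12 D12 M13 R13 A13 B13 C13 D13 M14 R14 A14 B14 C14 D14 M15 R15 A15 B15 C15 D15 M16 R16 A16 B16 C16 D16 M17 R17 A17 B17 C17 D17 M18 R18 A18 B18 C18 D18 M19 R19 A19 B19 C19 D19 M20 R20 A20 B20 C20 D20 M21 R21 A21 B21 C21 D21 M22 R22 A22 B22 C22 D22 M23 R23 A23 B23 C23 D23 M24 R24 A24 B24 C24 D24 M25 R25 A25 B25 C25 D25 M26 R26 A26 B26 C26 D26 M27 R27 A27 B27 C27 D27 X28 M29 R29 A29 B29 C29 D29 M30 R30 A30 B30 C30 D30 M31 R31 A31 B31 C31 D31 M32 R32 A32 B32 C32 D32 M33 R33 A33 B33 C33 D33 M34 R34 A34 B34 C34 D34 M35 R35 A35 B35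 C35 D35 M36 R36 A36 B36 C36 D36 M37 R37 A37 B37 C37 D37 =>
  allT (leaf X0 M0 R0 A0 B0 C0 D0 M1 R1 A1 B1 C1 D1 M2 R2 A2 B2 C2 D2 M3 R3 A3 B3 C3 D3 X4 M5 R5 A5 B5 C5 D5 M6 R6 A6 B6 C6 D6 M7 R7 A7 B7 C7 D7 M8 R8 A8 B8 C8 D8 X9 M10 R10 A10 B10 C10 D10 M11 R11 A11 B11 C11 D11 M12 R12 A12 B12 C12 D12 M13 R13 A13 B13 C13 D13 M14 R14 A14 B14 C14 D14 M15 R15 A15 B15 C15 D15 M16 R16 A16 B16 C16 D16 M17 R17 A17 B17 C17 D17 M18 R18 A18 B18 C18 D18 M19 R19 A19 B19 C19 D19 M20 R20 A20 B20 C20 D20 M21 R21 A21 B21 C21 D21 M22 R22 A22 B22 C22 D22 M23 R23 A23 B23 C23 D23 M24 R24 A24 B24 C24 D24 M25 R25 A25 B25 C25 D25 M26 R26 A26 B26 C26 D26 M27 R27 A27 B27 C27 D27 X28 M29 R29 A29 B29 C29 D29 M30 R30 A30 B30 C30 D30 M31 R31 A31 B31 C31 D31 M32 R32 A32 B32 C32 D32 M33 R33 A33 B33 C33 D33 M34 R34 A34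 B34 C34 D34 M35 R35 A35 B35 C35 D35 M36 R36 A36 B36 C36 D36 M37 R37 A37 B37 C37 D37) t l4 h4 l5 h5

noncomputable def cellG (l1 h1 l2 h2 l3 h3 : ℕ) : Bool :=
  varK 6650 (Nat.shiftRight (Nat.add l1 h1) 1) (Nat.sub h1 (Nat.shiftRight (Nat.add l1 h1) 1)) fun z1 =>
  varK 6745 (Nat.shiftRight (Nat.add l2 h2) 1) (Nat.sub h2 (Nat.shiftRight (Nat.add l2 h2) 1)) fun z2 =>
  varK 8075 (Nat.shiftRight (Nat.add l3 h3) 1) (Nat.sub h3 (Nat.shiftRight (Nat.add l3 h3) 1)) fun z3 =>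
  sat z2 z3 fun z2 z3 =>
  sa0 z1 z2 z3 fun _ _ _ _ _ g =>
  finK (ng1 g) 73786976294838206464 0 fun x => pos x

/-- the claim at a point -/
def Q (s v w u th : ℝ) : Prop :=
  ∀ z P r p l n q : ℝ, z = 2 * v / (1 + v ^ 2) → P = w * (1 - v ^ 2) / (1 + v ^ 2) →
    r = 1 - s ^ 2 → p = 1 - P ^ 2 - z ^ 2 * (1 - s ^ 2) → l = 4 * u / (1 + 5 * u ^ 2) →
    n = (1 - 5 * u ^ 2) / (2 * (1 + 5 * u ^ 2)) → q = sTh l n th → 0 ≤ gF z p s →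
    ∃ m : ℝ, 0 ≤ m ∧ ∀ x1 x2 x3 x4 x5, 0 ≤ frm (tK0 r z p s P) (tK1 r z p s P) (tD0 r z p s P) (tD1 r z p s P) (tF0 r z p s P) (tF1 r z p s P) (tG0 r z p s P) (tG1 r z p s P) (tG2 r z p s P) (tH0 r z p s P) (tH1 r z p s P) (tH2 r z p s P) (tH3 r z p s P) (tM0 r z p s P) (tM1 r z p s P) (tN0 r z p s P) (tN1 r z p s P) (tA0 r z p s P) (tA1 r z p s P) (tA2 r z p s P) (tA3 r z p s P) (tA4 r z p s P) (tA5 r z p s P) (tB0 r z p s P) (tB1 r z p s P) (tB2 r z p s P) (tB3 r z p s P) (tB4 r z p s P) (tE0 r z p s P) (tE1 r z p s P) (tE2 r z p s P) (tE3 r z p s P) (tE4 r z p s P) (tE5 r z p s P) (tE6 r z p s P) (tE7 r z p s P) (tE8 r z p s P) (gF z p s) m th l n q x1 x2 x3 x4 x5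

theorem cell_s (t : T2) (l1 h1 l2 h2 l3 h3 l4 h4 l5 h5 : ℕ) (H : cell t l1 h1 l2 h2 l3 h3 l4 h4 l5 h5 = true) :
    Cov Q l1 h1 l2 h2 l3 h3 l4 h4 l5 h5 := by
  intro s v w u th p1 q1 p2 q2 p3 q3 p4 q4 p5 q5 z P r p l n q hz hP hr hp hl hn hq _
  obtain ⟨ww, a, b, c, d, p4, q4, p5, q5, hf⟩ := find t _ _ _ _ u th p4 q4 p5 q5
  obtain ⟨e1, he1, hx1⟩ := mid_spec p1 q1
  obtain ⟨e2, he2, hx2⟩ := mid_spec p2 q2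
  obtain ⟨e3, he3, hx3⟩ := mid_spec p3 q3
  obtain ⟨e4, he4, hx4⟩ := mid_spec p4 q4
  obtain ⟨e5, he5, hx5⟩ := mid_spec p5 q5
  have he : Ev e1 e2 e3 e4 e5 := ⟨he1, he2, he3, he4, he5⟩
  unfold cell at H
  refine var1_s he (fun z1 g1 H => ?_) H
  refine var2_s he (fun z2 g2 H => ?_) H
  refine var3_s he (fun z3 g3 H => ?_) H
  rw [← hx1] at g1
  rw [← hx2] at g2
  rw [← hx3] at g3
  refine sat_s he v w z P hz hP g2 g3 (fun _ _ g2 g3 H => ?_) H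
  refine stA_s he s z P r p hr hp g1 g2 g3 (fun _ _ _ _ _ _ _ _ _ _ _ _ _ _ _ _ _ _ _ _ _ _ _ _ _ _ _ _ _ _ _ _ _ _ _ _ _ _ _ _ _ _ _ _ _ _ _ _ _ _ _ _ _ _ _ _ _ _ _ _ _ _ _ _ _ _ _ _ _ _ _ _ _ _ _ _ _ _ _ _ _ _ _ _ _ _ _ _ _ _ _ _ _ _ _ _ _ _ _ _ _ _ _ _ _ _ _ _ _ _ _ _ _ _ _ _ _ _ _ _ _ _ _ _ _ _ _ _ _ _ _ _ _ _ _ _ _ _ _ _ _ _ _ _ _ _ _ _ _ _ _ _ _ _ _ _ _ _ _ _ _ _ _ _ _ _ _ _ _ _ _ _ _ _ _ _ _ _ _ _ _ _ _ _ _ _ _ _ _ _ _ _ _ _ _ _ _ _ _ _ _ _ _ _ _ _ _ _ _ _ _ _ _ _ k0 k1 k2 k3 k4 k5 k6 k7 k8 k9 k10 k11 k12 k13 k14 k15 k16 k17 k18 k19 k20 k21 k22 k23 k24 k25 k26 k27 k28 k29 k30 k31 k32 k33 k34 k35 k36 k37 k38 H => ?_) H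
  exact leaf_s he _ _ _ _ _ _ _ _ _ _ _ _ _ _ _ _ _ _ _ _ _ _ _ _ _ _ _ _ _ _ _ _ _ _ _ _ _ _ u th l n q hl hn hq k0 k1 k2 k3 k4 k5 k6 k7 k8 k9 k10 k11 k12 k13 k14 k15 k16 k17 k18 k19 k20 k21 k22 k23 k24 k25 k26 k27 k28 k29 k30 k31 k32 k33 k34 k35 k36 k37 k38 hx4 hx5 (hf _ H)

theorem cellG_s (l1 h1 l2 h2 l3 h3 l4 h4 l5 h5 : ℕ) (H : cellG l1 h1 l2 h2 l3 h3 = true) :
    Cov Q l1 h1 l2 h2 l3 h3 l4 h4 l5 h5 := by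
  intro s v w u th p1 q1 p2 q2 p3 q3 p4 q4 p5 q5 z P r p l n q hz hP hr hp hl hn hq hg
  exfalso
  obtain ⟨e1, he1, hx1⟩ := mid_spec p1 q1
  obtain ⟨e2, he2, hx2⟩ := mid_spec p2 q2
  obtain ⟨e3, he3, hx3⟩ := mid_spec p3 q3
  have he : Ev e1 e2 e3 0 0 := ⟨he1, he2, he3, by simp, by simp⟩
  unfold cellG at H
  refine var1_s he (fun z1 g1 H => ?_) H
  refine var2_s he (fun z2 g2 H => ?_) H
  refine var3_s he (fun z3 g3 H => ?_) H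
  rw [← hx1] at g1
  rw [← hx2] at g2
  rw [← hx3] at g3
  refine sat_s he v w z P hz hP g2 g3 (fun _ _ g2 g3 H => ?_) H
  refine sa0_s he s z P r p hr hp g1 g2 g3 (fun _ _ _ _ _ _ _ _ _ _ _ k H => ?_) H
  refine finK_s he (ng1_s he k) (by decide +kernel) (fun _ k H => ?_) H
  have := pos_s he k H
  rw [pow_zero, div_one] at this
  linarith

attribute [irreducible] cell cellG

/-- trees of cells -/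
inductive T5 where
  | c (t : T2) : T5
  | g : T5
  | a1 (a b : T5) : T5
  | a2 (a b : T5) : T5
  | a3 (a b : T5) : T5
  | a4 (a b : T5) : T5
  | a5 (a b : T5) : T5

noncomputable def top (t : T5) : ℕ → ℕ → ℕ → ℕ → ℕ → ℕ → ℕ → ℕ → ℕ → ℕ → Bool :=
  @T5.rec (fun _ => ℕ → ℕ → ℕ → ℕ → ℕ → ℕ → ℕ → ℕ → ℕ → ℕ → Bool) (fun t l1 h1 l2 h2 l3 h3 l4 h4 l5 h5 => cell t l1 h1 l2 h2 l3 h3 l4 h4 l5 h5) (fun l1 h1 l2 h2 l3 h3 l4 h4 l5 h5 => cellG l1 h1 l2 h2 l3 h3)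
    (fun _ _ a b l1 h1 l2 h2 l3 h3 l4 h4 l5 h5 => fB (Nat.add (md l1 h1) 1) fun m => iB (a l1 m l2 h2 l3 h3 l4 h4 l5 h5) false (b m h1 l2 h2 l3 h3 l4 h4 l5 h5))
    (fun _ _ a b l1 h1 l2 h2 l3 h3 l4 h4 l5 h5 => fB (Nat.add (md l2 h2) 1) fun m => iB (a l1 h1 l2 m l3 h3 l4 h4 l5 h5) false (b l1 h1 m h2 l3 h3 l4 h4 l5 h5))
    (fun _ _ a b l1 h1 l2 h2 l3 h3 l4 h4 l5 h5 => fB (Nat.add (md l3 h3) 1) fun m => iB (a l1 h1 l2 h2 l3 m l4 h4 l5 h5) false (b l1 h1 l2 h2 m h3 l4 h4 l5 h5))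
    (fun _ _ a b l1 h1 l2 h2 l3 h3 l4 h4 l5 h5 => fB (Nat.add (md l4 h4) 1) fun m => iB (a l1 h1 l2 h2 l3 h3 l4 m l5 h5) false (b l1 h1 l2 h2 l3 h3 m h4 l5 h5))
    (fun _ _ a b l1 h1 l2 h2 l3 h3 l4 h4 l5 h5 => fB (Nat.add (md l5 h5) 1) fun m => iB (a l1 h1 l2 h2 l3 h3 l4 h4 l5 m) false (b l1 h1 l2 h2 l3 h3 l4 h4 m h5))
    t

theorem top_c (t : T2) (l1 h1 l2 h2 l3 h3 l4 h4 l5 h5 : ℕ) : top (T5.c t) l1 h1 l2 h2 l3 h3 l4 h4 l5 h5 = cell t l1 h1 l2 h2 l3 h3 l4 h4 l5 h5 := rfl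
theorem top_g (l1 h1 l2 h2 l3 h3 l4 h4 l5 h5 : ℕ) : top T5.g l1 h1 l2 h2 l3 h3 l4 h4 l5 h5 = cellG l1 h1 l2 h2 l3 h3 := rfl
theorem top_a1 (a b : T5) (l1 h1 l2 h2 l3 h3 l4 h4 l5 h5 : ℕ) : top (T5.a1 a b) l1 h1 l2 h2 l3 h3 l4 h4 l5 h5 =
    fB (Nat.add (md l1 h1) 1) fun m => iB (top a l1 m l2 h2 l3 h3 l4 h4 l5 h5) false (top b m h1 l2 h2 l3 h3 l4 h4 l5 h5) := rfl
theorem top_a2 (a b : T5) (l1 h1 l2 h2 l3 h3 l4 h4 l5 h5 : ℕ) : top (T5.a2 a b) l1 h1 l2 h2 l3 h3 l4 h4 l5 h5 =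
    fB (Nat.add (md l2 h2) 1) fun m => iB (top a l1 h1 l2 m l3 h3 l4 h4 l5 h5) false (top b l1 h1 m h2 l3 h3 l4 h4 l5 h5) := rfl
theorem top_a3 (a b : T5) (l1 h1 l2 h2 l3 h3 l4 h4 l5 h5 : ℕ) : top (T5.a3 a b) l1 h1 l2 h2 l3 h3 l4 h4 l5 h5 =
    fB (Nat.add (md l3 h3) 1) fun m => iB (top a l1 h1 l2 h2 l3 m l4 h4 l5 h5) false (top b l1 h1 l2 h2 m h3 l4 h4 l5 h5) := rfl
theorem top_a4 (a b : T5) (l1 h1 l2 h2 l3 h3 l4 h4 l5 h5 : ℕ) : top (T5.a4 a b) l1 h1 l2 h2 l3 h3 l4 h4 l5 h5 =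
    fB (Nat.add (md l4 h4) 1) fun m => iB (top a l1 h1 l2 h2 l3 h3 l4 m l5 h5) false (top b l1 h1 l2 h2 l3 h3 m h4 l5 h5) := rfl
theorem top_a5 (a b : T5) (l1 h1 l2 h2 l3 h3 l4 h4 l5 h5 : ℕ) : top (T5.a5 a b) l1 h1 l2 h2 l3 h3 l4 h4 l5 h5 =
    fB (Nat.add (md l5 h5) 1) fun m => iB (top a l1 h1 l2 h2 l3 h3 l4 h4 l5 m) false (top b l1 h1 l2 h2 l3 h3 l4 h4 m h5) := rfl

theorem top_s (t : T5) : ∀ l1 h1 l2 h2 l3 h3 l4 h4 l5 h5 : ℕ, top t l1 h1 l2 h2 l3 h3 l4 h4 l5 h5 = true → Cov Q l1 h1 l2 h2 l3 h3 l4 h4 l5 h5 := by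
  induction t with
  | c t => exact fun l1 h1 l2 h2 l3 h3 l4 h4 l5 h5 H => cell_s t l1 h1 l2 h2 l3 h3 l4 h4 l5 h5 (top_c .. ▸ H)
  | g => exact fun l1 h1 l2 h2 l3 h3 l4 h4 l5 h5 H => cellG_s l1 h1 l2 h2 l3 h3 l4 h4 l5 h5 (top_g .. ▸ H)
  | a1 a b iha ihb =>
    intro l1 h1 l2 h2 l3 h3 l4 h4 l5 h5 H
    rw [top_a1] at H
    obtain ⟨m, -, H⟩ := frc H
    exact IA5.join1 m (iha _ _ _ _ _ _ _ _ _ _ (brc H).1) (ihb _ _ _ _ _ _ _ _ _ _ (brc H).2)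
  | a2 a b iha ihb =>
    intro l1 h1 l2 h2 l3 h3 l4 h4 l5 h5 H
    rw [top_a2] at H
    obtain ⟨m, -, H⟩ := frc H
    exact IA5.join2 m (iha _ _ _ _ _ _ _ _ _ _ (brc H).1) (ihb _ _ _ _ _ _ _ _ _ _ (brc H).2)
  | a3 a b iha ihb =>
    intro l1 h1 l2 h2 l3 h3 l4 h4 l5 h5 H
    rw [top_a3] at H
    obtain ⟨m, -, H⟩ := frc H
    exact IA5.join3 m (iha _ _ _ _ _ _ _ _ _ _ (brc H).1) (ihb _ _ _ _ _ _ _ _ _ _ (brc H).2)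
  | a4 a b iha ihb =>
    intro l1 h1 l2 h2 l3 h3 l4 h4 l5 h5 H
    rw [top_a4] at H
    obtain ⟨m, -, H⟩ := frc H
    exact IA5.join4 m (iha _ _ _ _ _ _ _ _ _ _ (brc H).1) (ihb _ _ _ _ _ _ _ _ _ _ (brc H).2)
  | a5 a b iha ihb =>
    intro l1 h1 l2 h2 l3 h3 l4 h4 l5 h5 H
    rw [top_a5] at H
    obtain ⟨m, -, H⟩ := frc H
    exact IA5.join5 m (iha _ _ _ _ _ _ _ _ _ _ (brc H).1) (ihb _ _ _ _ _ _ _ _ _ _ (brc H).2)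

attribute [irreducible] top

end Crest.Agent.R97.Tm
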