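import Crest.Agent.R97.CertP6

/-!
TmCg (helper57): a positive definite congruent form gives positivity of the form itself.
-/

set_option autoImplicit false

namespace Crest.Agent.R97

theorem cs5 (a0 a1 a2 a3 a4 y0 y1 y2 y3 y4 : ℝ) :
    (a0 * y0 + a1 * y1 + a2 * y2 + a3 * y3 + a4 * y4) ^ 2 ≤
      (a0 ^ 2 + a1 ^ 2 + a2 ^ 2 + a3 ^ 2 + a4 ^ 2) * (y0 ^ 2 + y1 ^ 2 + y2 ^ 2 + y3 ^ 2 + y4 ^ 2) := by
  have h : (a0 ^ 2 + a1 ^ 2 + a2 ^ 2 + a3 ^ 2 + a4 ^ 2) * (y0 ^ 2 + y1 ^ 2 + y2 ^ 2 + y3 ^ 2 + y4 ^ 2)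
      - (a0 * y0 + a1 * y1 + a2 * y2 + a3 * y3 + a4 * y4) ^ 2 =
      (a0 * y1 - a1 * y0) ^ 2 + (a0 * y2 - a2 * y0) ^ 2 + (a0 * y3 - a3 * y0) ^ 2 + (a0 * y4 - a4 * y0) ^ 2
      + (a1 * y2 - a2 * y1) ^ 2 + (a1 * y3 - a3 * y1) ^ 2 + (a1 * y4 - a4 * y1) ^ 2
      + (a2 * y3 - a3 * y2) ^ 2 + (a2 * y4 - a4 * y2) ^ 2 + (a3 * y4 - a4 * y3) ^ 2 := by ring
  have h2 : 0 ≤ (a0 * y1 - a1 * y0) ^ 2 + (a0 * y2 - a2 * y0) ^ 2 + (a0 * y3 - a3 * y0) ^ 2 + (a0 * y4 - a4 * y0) ^ 2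
      + (a1 * y2 - a2 * y1) ^ 2 + (a1 * y3 - a3 * y1) ^ 2 + (a1 * y4 - a4 * y1) ^ 2
      + (a2 * y3 - a3 * y2) ^ 2 + (a2 * y4 - a4 * y2) ^ 2 + (a3 * y4 - a4 * y3) ^ 2 := by positivity
  linarith

/-- an injective linear map of `ℝ^5` is onto (explicit entries) -/
theorem surj5 {v00 v01 v02 v03 v04 v10 v11 v12 v13 v14 v20 v21 v22 v23 v24 v30 v31 v32 v33 v34 v40 v41 v42 v43 v44 : ℝ}
    (h : ∀ y0 y1 y2 y3 y4 : ℝ, v00 * y0 + v01 * y1 + v02 * y2 + v03 * y3 + v04 * y4 = 0 →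
      v10 * y0 + v11 * y1 + v12 * y2 + v13 * y3 + v14 * y4 = 0 → v20 * y0 + v21 * y1 + v22 * y2 + v23 * y3 + v24 * y4 = 0 →
      v30 * y0 + v31 * y1 + v32 * y2 + v33 * y3 + v34 * y4 = 0 → v40 * y0 + v41 * y1 + v42 * y2 + v43 * y3 + v44 * y4 = 0 →
      y0 = 0 ∧ y1 = 0 ∧ y2 = 0 ∧ y3 = 0 ∧ y4 = 0) (x0 x1 x2 x3 x4 : ℝ) :
    ∃ y0 y1 y2 y3 y4 : ℝ, v00 * y0 + v01 * y1 + v02 * y2 + v03 * y3 + v04 * y4 = x0 ∧
      v10 * y0 + v11 * y1 + v12 * y2 + v13 * y3 + v14 * y4 = x1 ∧ v20 * y0 + v21 * y1 + v22 * y2 + v23 * y3 + v24 * y4 = x2 ∧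
      v30 * y0 + v31 * y1 + v32 * y2 + v33 * y3 + v34 * y4 = x3 ∧ v40 * y0 + v41 * y1 + v42 * y2 + v43 * y3 + v44 * y4 = x4 := by
  let V : Matrix (Fin 5) (Fin 5) ℝ :=
    !![v00, v01, v02, v03, v04; v10, v11, v12, v13, v14; v20, v21, v22, v23, v24; v30, v31, v32, v33, v34; v40, v41, v42, v43, v44]
  have hV : ∀ y : Fin 5 → ℝ, V.mulVec y = ![v00 * y 0 + v01 * y 1 + v02 * y 2 + v03 * y 3 + v04 * y 4,
      v10 * y 0 + v11 * y 1 + v12 * y 2 + v13 * y 3 + v14 * y 4, v20 * y 0 + v21 * y 1 + v22 * y 2 + v23 * y 3 + v24 * y 4,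
      v30 * y 0 + v31 * y 1 + v32 * y 2 + v33 * y 3 + v34 * y 4, v40 * y 0 + v41 * y 1 + v42 * y 2 + v43 * y 3 + v44 * y 4] := by
    intro y
    funext i
    fin_cases i <;> simp [V, Matrix.mulVec, dotProduct, Fin.sum_univ_five]
  have hinj : Function.Injective V.mulVecLin := by
    rw [← LinearMap.ker_eq_bot, LinearMap.ker_eq_bot']
    intro y hy
    rw [Matrix.mulVecLin_apply, hV] at hy
    have a0 := congrFun hy 0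
    have a1 := congrFun hy 1
    have a2 := congrFun hy 2
    have a3 := congrFun hy 3
    have a4 := congrFun hy 4
    obtain ⟨b0, b1, b2, b3, b4⟩ := h (y 0) (y 1) (y 2) (y 3) (y 4) a0 a1 a2 a3 a4
    funext i
    fin_cases i
    exacts [b0, b1, b2, b3, b4]
  obtain ⟨y, hy⟩ := LinearMap.surjective_of_injective hinj ![x0, x1, x2, x3, x4]
  rw [Matrix.mulVecLin_apply, hV] at hy
  exact ⟨y 0, y 1, y 2, y 3, y 4, congrFun hy 0, congrFun hy 1, congrFun hy 2, congrFun hy 3, congrFun hy 4⟩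

/-- all five squares -/
theorem congr5' {d e00 e01 e02 e03 e04 e11 e12 e13 e14 e22 e23 e24 e33 e34 e44 : ℝ}
    (v00 v01 v02 v03 v04 v10 v11 v12 v13 v14 v20 v21 v22 v23 v24 v30 v31 v32 v33 v34 v40 v41 v42 v43 v44 : ℝ) (hd : 0 < d)
    (h : ∀ y0 y1 y2 y3 y4 : ℝ, d * (y0 ^ 2 + y1 ^ 2 + y2 ^ 2 + y3 ^ 2 + y4 ^ 2) ≤
      quad5 e00 e01 e02 e03 e04 e11 e12 e13 e14 e22 e23 e24 e33 e34 e44
        (v00 * y0 + v01 * y1 + v02 * y2 + v03 * y3 + v04 * y4) (v10 * y0 + v11 * y1 + v12 * y2 + v13 * y3 + v14 * y4)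
        (v20 * y0 + v21 * y1 + v22 * y2 + v23 * y3 + v24 * y4) (v30 * y0 + v31 * y1 + v32 * y2 + v33 * y3 + v34 * y4)
        (v40 * y0 + v41 * y1 + v42 * y2 + v43 * y3 + v44 * y4)) :
    ∃ eps : ℝ, 0 < eps ∧ ∀ x0 x1 x2 x3 x4 : ℝ, eps * (x0 ^ 2 + x1 ^ 2 + x2 ^ 2 + x3 ^ 2 + x4 ^ 2) ≤
      quad5 e00 e01 e02 e03 e04 e11 e12 e13 e14 e22 e23 e24 e33 e34 e44 x0 x1 x2 x3 x4 := by
  obtain ⟨C, hC⟩ : ∃ C : ℝ, C = 1 + (v00 ^ 2 + v01 ^ 2 + v02 ^ 2 + v03 ^ 2 + v04 ^ 2) + (v10 ^ 2 + v11 ^ 2 + v12 ^ 2 + v13 ^ 2 + v14 ^ 2)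
      + (v20 ^ 2 + v21 ^ 2 + v22 ^ 2 + v23 ^ 2 + v24 ^ 2) + (v30 ^ 2 + v31 ^ 2 + v32 ^ 2 + v33 ^ 2 + v34 ^ 2)
      + (v40 ^ 2 + v41 ^ 2 + v42 ^ 2 + v43 ^ 2 + v44 ^ 2) := ⟨_, rfl⟩
  have hC0 : 0 < C := by rw [hC]; positivity
  refine ⟨d / C, div_pos hd hC0, fun x0 x1 x2 x3 x4 => ?_⟩
  obtain ⟨y0, y1, y2, y3, y4, r0, r1, r2, r3, r4⟩ := surj5 (v00 := v00) (v01 := v01) (v02 := v02) (v03 := v03) (v04 := v04)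
    (v10 := v10) (v11 := v11) (v12 := v12) (v13 := v13) (v14 := v14) (v20 := v20) (v21 := v21) (v22 := v22) (v23 := v23) (v24 := v24)
    (v30 := v30) (v31 := v31) (v32 := v32) (v33 := v33) (v34 := v34) (v40 := v40) (v41 := v41) (v42 := v42) (v43 := v43) (v44 := v44)
    (fun y0 y1 y2 y3 y4 a0 a1 a2 a3 a4 => by
      have := h y0 y1 y2 y3 y4
      rw [a0, a1, a2, a3, a4] at this
      have hq : quad5 e00 e01 e02 e03 e04 e11 e12 e13 e14 e22 e23 e24 e33 e34 e44 0 0 0 0 0 = 0 := by unfold quad5; ring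
      rw [hq] at this
      have hs : y0 ^ 2 + y1 ^ 2 + y2 ^ 2 + y3 ^ 2 + y4 ^ 2 ≤ 0 := by
        by_contra hn
        exact absurd (mul_pos hd (not_le.1 hn)) (not_lt.2 this)
      have p0 := sq_nonneg y0
      have p1 := sq_nonneg y1
      have p2 := sq_nonneg y2
      have p3 := sq_nonneg y3
      have p4 := sq_nonneg y4
      exact ⟨pow_eq_zero_iff (two_ne_zero) |>.1 (by linarith), pow_eq_zero_iff (two_ne_zero) |>.1 (by linarith),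
        pow_eq_zero_iff (two_ne_zero) |>.1 (by linarith), pow_eq_zero_iff (two_ne_zero) |>.1 (by linarith),
        pow_eq_zero_iff (two_ne_zero) |>.1 (by linarith)⟩) x0 x1 x2 x3 x4
  have hy := h y0 y1 y2 y3 y4
  have c0 := cs5 v00 v01 v02 v03 v04 y0 y1 y2 y3 y4
  have c1 := cs5 v10 v11 v12 v13 v14 y0 y1 y2 y3 y4
  have c2 := cs5 v20 v21 v22 v23 v24 y0 y1 y2 y3 y4
  have c3 := cs5 v30 v31 v32 v33 v34 y0 y1 y2 y3 y4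
  have c4 := cs5 v40 v41 v42 v43 v44 y0 y1 y2 y3 y4
  rw [r0] at hy c0
  rw [r1] at hy c1
  rw [r2] at hy c2
  rw [r3] at hy c3
  rw [r4] at hy c4
  obtain ⟨S, hS⟩ : ∃ S : ℝ, S = y0 ^ 2 + y1 ^ 2 + y2 ^ 2 + y3 ^ 2 + y4 ^ 2 := ⟨_, rfl⟩
  have hS0 : 0 ≤ S := by rw [hS]; positivity
  rw [← hS] at hy c0 c1 c2 c3 c4
  have hx : x0 ^ 2 + x1 ^ 2 + x2 ^ 2 + x3 ^ 2 + x4 ^ 2 ≤ C * S := by rw [hC]; linarith
  calc d / C * (x0 ^ 2 + x1 ^ 2 + x2 ^ 2 + x3 ^ 2 + x4 ^ 2) ≤ d / C * (C * S) :=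
        mul_le_mul_of_nonneg_left hx (div_pos hd hC0).le
    _ = d * S := by field_simp
    _ ≤ _ := hy

theorem congr5 {d e00 e01 e02 e03 e04 e11 e12 e13 e14 e22 e23 e24 e33 e34 e44 : ℝ}
    (v00 v01 v02 v03 v04 v10 v11 v12 v13 v14 v20 v21 v22 v23 v24 v30 v31 v32 v33 v34 v40 v41 v42 v43 v44 : ℝ) (hd : 0 < d)
    (h : ∀ y0 y1 y2 y3 y4 : ℝ, d * (y0 ^ 2 + y1 ^ 2 + y2 ^ 2 + y3 ^ 2 + y4 ^ 2) ≤
      quad5 e00 e01 e02 e03 e04 e11 e12 e13 e14 e22 e23 e24 e33 e34 e44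
        (v00 * y0 + v01 * y1 + v02 * y2 + v03 * y3 + v04 * y4) (v10 * y0 + v11 * y1 + v12 * y2 + v13 * y3 + v14 * y4)
        (v20 * y0 + v21 * y1 + v22 * y2 + v23 * y3 + v24 * y4) (v30 * y0 + v31 * y1 + v32 * y2 + v33 * y3 + v34 * y4)
        (v40 * y0 + v41 * y1 + v42 * y2 + v43 * y3 + v44 * y4)) :
    ∃ eps : ℝ, 0 < eps ∧ ∀ x0 x1 x2 x3 x4 : ℝ, eps * (x1 ^ 2 + x2 ^ 2 + x3 ^ 2 + x4 ^ 2) ≤
      quad5 e00 e01 e02 e03 e04 e11 e12 e13 e14 e22 e23 e24 e33 e34 e44 x0 x1 x2 x3 x4 := by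
  obtain ⟨eps, he, H⟩ := congr5' v00 v01 v02 v03 v04 v10 v11 v12 v13 v14 v20 v21 v22 v23 v24 v30 v31 v32 v33 v34
    v40 v41 v42 v43 v44 hd h
  refine ⟨eps, he, fun x0 x1 x2 x3 x4 => le_trans ?_ (H x0 x1 x2 x3 x4)⟩
  exact mul_le_mul_of_nonneg_left (by linarith [sq_nonneg x0]) he.le

end Crest.Agent.R97
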