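import Crest.Agent.R97.TmC
import Crest.Agent.R97.SideW1
import Crest.Agent.R97.CertP7
/-! TmG (helper90, generated): glue. -/
set_option autoImplicit false
set_option linter.unusedVariables false
set_option linter.unusedTactic false
set_option linter.unreachableTactic false
set_option linter.unusedSimpArgs false
set_option maxRecDepth 100000
namespace Crest.Agent.R97.Tm
open Crest.Agent.R307 Crest.Agent.R307.IA Crest.Agent.TM.T53 Crest.Agent.PSD
open Crest.Agent.R307.IA5 (Ev Cov)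

theorem frm_eq (s z P p r l n th θ g m x0 x1 x2 x3 x4 : ℝ) (hr : r = 1 - s ^ 2) :
    frm (tK0 r z p s P) (tK1 r z p s P) (tD0 r z p s P) (tD1 r z p s P) (tF0 r z p s P) (tF1 r z p s P) (tG0 r z p s P) (tG1 r z p s P) (tG2 r z p s P) (tH0 r z p s P) (tH1 r z p s P) (tH2 r z p s P) (tH3 r z p s P) (tM0 r z p s P) (tM1 r z p s P) (tN0 r z p s P) (tN1 r z p s P) (tA0 r z p s P) (tA1 r z p s P) (tA2 r z p s P) (tA3 r z p s P) (tA4 r z p s P) (tA5 r z p s P) (tB0 r z p s P) (tB1 r z p s P) (tB2 r z p s P) (tB3 r z p s P) (tB4 r z p s P) (tE0 r z p s P) (tE1 r z p s P) (tE2 r z p s P) (tE3 r z p s P) (tE4 r z p s P) (tE5 r z p s P) (tE6 r z p s P) (tE7 r z p s P) (tE8 r z p s P) g m th l n θ x4 x1 x2 x3 x0 =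
      mat5 (W1.tab.K.v s z p θ) (s * W1.tab.D.v s z p θ) (W1.tab.F.h s z p θ) (W1.tab.pg1 s z p θ) (W1.tab.pg2 s z p θ)
        (W1.tab.pg3 s z p θ l) (W1.tab.pm1 s z p θ) (W1.tab.pm2 s z p θ) (W1.tab.pm3 s z p θ) (W1.tab.pc1 s z p θ l)
        (W1.tab.pc2 s z p θ l) (W1.tab.pc0 s z p θ l) (W1.tab.G0 s z p θ 5) P l n th x0 x1 x2 x3 x4
        - 1 / 65536 * (x1 ^ 2 + x2 ^ 2 + x3 ^ 2 + x4 ^ 2) - 64 * (g * m) * x0 ^ 2 := by
  have h3 : CW1.m3_400 r z p = 3 * CW1.D_310 r z p := by unfold CW1.m3_400 CW1.D_310; ring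
  rw [CW1.K_eq s z p θ r hr, CW1.D_eq s z p θ r hr, CW1.F_eq s z p θ r hr, CW1.g1_eq s z p θ r hr, CW1.g2_eq s z p θ r hr, CW1.m1_eq s z p θ r hr, CW1.m2_eq s z p θ r hr, CW1.m3_eq s z p θ r hr, CW1.G_eq s z p θ r hr,
    CW1.g3_eq s z p θ l r hr, CW1.c1_eq s z p θ l r hr, CW1.c2_eq s z p θ l r hr, CW1.c0_eq s z p θ l r hr, h3]
  simp only [frm, q5, mat5, quad5, sM, sA3, tK0, tK1, tD0, tD1, tF0, tF1, tG0, tG1, tG2, tH0, tH1, tH2, tH3, tM0, tM1, tN0, tN1, tA0, tA1, tA2, tA3, tA4, tA5, tB0, tB1, tB2, tB3, tB4, tE0, tE1, tE2, tE3, tE4, tE5, tE6, tE7, tE8]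
  ring

theorem mat_of_cov (h : Cov Q 1152921504606846976 1152922604118474752 1152921504606846976 1152922604118474752 1152921504606846976 1152922604118474752 1152921009826614476 1152921999387079476 1152920866890102865 1152922142323591087) : W1.tab.Mat 1 := by
  refine Tab.mat_of_B (k := 1) one_pos (by rw [W1_c1]; norm_num) (by norm_num) ?_
  intro s y w u th z p l n θ d hθ
  have hg : 0 ≤ gF z p s := by unfold gF; linarith [d.r1]
  obtain ⟨v, v0, v1, hv, hw⟩ := exists_tau d.y0 d.y1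
  obtain ⟨P, hP⟩ : ∃ P, P = w * (1 - v ^ 2) / (1 + v ^ 2) := ⟨_, rfl⟩
  have hP2 : P ^ 2 = w ^ 2 * (1 - y ^ 2) := by rw [hw, hP]; ring
  have hz : z = y := by rw [d.hz, one_mul]
  obtain ⟨m, m0, hq⟩ := h s v w u th (le_trans (by norm_num [val, SS, BB]) d.s0) (le_trans d.s1 (by norm_num [val, SS, BB])) (le_trans (by norm_num [val, SS, BB]) v0) (le_trans v1 (by norm_num [val, SS, BB])) (le_trans (by norm_num [val, SS, BB]) d.q0) (le_trans d.q1 (by norm_num [val, SS, BB]))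
    (le_trans (by norm_num [val, SS, BB]) d.u0) (le_trans d.u1 (by norm_num [val, SS, BB])) (le_trans (by norm_num [val, SS, BB]) d.th0) (le_trans d.th1 (by norm_num [val, SS, BB]))
    z P (1 - s ^ 2) p l n θ (hz.trans hv) hP rfl (by rw [d.hp, hP2, hz]; ring) d.hl d.hn hθ hg
  refine ⟨P, 1 / 65536, hP2.ge, by norm_num, fun x0 x1 x2 x3 x4 => ?_⟩
  have h1 := hq x4 x1 x2 x3 x0
  rw [frm_eq _ _ _ _ _ _ _ _ _ _ _ _ _ _ _ _ rfl, mat5_P] at h1
  rw [mat5_P, ← hP2]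
  have h2 : 0 ≤ 64 * (gF z p s * m) * x0 ^ 2 := by positivity
  simp only [mul_zero, add_zero]
  linarith

end Crest.Agent.R97.Tm
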